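-- KEEP
import Claimed.Agent.R255.Ent.Basic
import Claimed.Agent.R255.Base.Classical

/-!
# Row 256 (LS paper), Sec. 5 "Interior phase inequalities": THE TANGENT DATUM      (chief helper196; prefix `it_`, types `It*`, `Tan`)

This file freezes ONE structure for 04B - 05 - 06A:  `Tan` (finite tangent datum = Def int:data made finite) and `Tan.Adm` (its accuracy clauses).
No operator, no limit object.  Everything is a finite law `P : FLaw Ω` (R255/Base/Law) with observations.  Scale `δ = s^h`, `L = lg δ = log (1/δ)`.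
Names = dyadic cells `tcell δ q x` of R255/Base/Classical (mesh `2^(-tlev δ q) ∈ (δ^q/2, δ^q]`, EXACTLY nested in `q`), representative `trep δ q x`.

## Objects
* `ItPh`  a normalised phase `(X, B, P, Y, N, D)` (`D` = the coordinate `D'_0` of the text; on a linear branch `P = 0`).  Also used for covectors in `(dX, dB, dP, dY, dN, dD)`.
* `ItMk`  a stored mark `(θ, r, 𝔨)` (`𝔨 = 0` unless quadratic with `c > 1`).
* `ItDsp` what a child name DISPLAYS: child time `θ'`, base positions `W' = B + θ'X`, `V' = Y + θ'X²`, shear coefficients `𝓛, 𝓡, 𝔟`, residual velocity / position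
          (constant offsets `c_obs`, `d_obs` are absorbed in `vel`, `pos`).   04 l.957-963, 05 l.214-300.
* `Tan`   law, side `Zs`, root name `Cs`, phase `F`, marks `mrk i` (`i < M`), child names `O λ` (name at `(a + λh, v)` of record `0`), its display `dsp λ`, width names `Wd λ` (name at `(a, v + λh)`).
* `itF δ q`, `itR δ q`  isotropic phase name / representative;  `itHs δ p z` Heisenberg name `F_{p,z}` (05 l.160);  `itQ` fibre read `Q_i` (04 l.917).
* `ItPar` regime `(c, d, m, ν, e0, B0)`;  `ItPk` package chosen by Sec. 5 `(M, K, RQ, χ, G, Lam)`.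

## Clauses of `Tan.Adm a pk τ κ0 acc`   (int:data (i)-(iv));   `A = δ^(-acc)` is the universal loss factor
 `T0` marks conditionally i.i.d. given the side, `Cs`, `F` functions of the side, everything bounded by `B0`.
 `T1` (vb).   `T2` (fib) both lines.   `T3` mark innovations (names:mark-dimension): `time` = causal counting X8 of report 848 for ALL pairs of depths (hereditary);
      for `c < 1` the mixed-trace clauses, relative error `τ` on layers `q - p ≤ κ0 p`; absolute error `acc` everywhere.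
 `T5` display of the child names (pointwise on the support).   `T6` width names listed by `F_{λ,2λ}` (quadratic) / by `F_λ` + one scalar (linear).
 Separately `Tan.Avoid` (uniform power avoidance of affine lines, exponent `e0`; names:separation) and `Tan.Cross` (crossing).
 RADIAL SPREADING IS NOT A CLAUSE: it is derived from `Avoid` + `T3` (04C, R255 `rt_rp`).  Resamplings / walks are NOT data: they are kernels built from `P` (R255 `rep_two`, `FLaw.ext`).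

## Quantifier pattern of every exit (`ItExit`)
 `∀ σ, ∃ τ, ∀ κ0, ∃ pk acc, ∀ T : Tan, Adm a pk τ κ0 acc → ... → rhs - σ ≤ mean`.
 The producer (04B root selection) gets `τ`, answers with `κ0` (how short a layer must be relative to its parent), gets the finite package and the accuracy, and supplies `T` for all small gaps `h` and scales.
Definitions are FROZEN after the signatures of 189 (Lay), 288/186 (Prj), 103 (Nm), 7 (Act).  Defects -> helper196.
-/

set_option autoImplicit false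

namespace Claimed.Agent.R256

open Claimed.Agent.R255
open Claimed.Agent.R255.FLaw (pair)
open scoped BigOperators
open Classical

/-- a normalised phase, or a covector in `(dX, dB, dP, dY, dN, dD)` -/
structure ItPh where
  X : ℝ
  B : ℝ
  P : ℝ
  Y : ℝ
  N : ℝ
  D : ℝ

/-- a stored mark `(θ, r, 𝔨)` -/
structure ItMk where
  th : ℝ
  r : ℝ
  k : ℝ

/-- the display of a child name -/
structure ItDsp where
  th : ℝ
  W : ℝ
  V : ℝ
  L : ℝ
  R : ℝ
  b : ℝ
  vel : ℝ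
  pos : ℝ

/-- sup norm of a phase -/
noncomputable def ItPh.nrm (f : ItPh) : ℝ := max (max (max |f.X| |f.B|) (max |f.P| |f.Y|)) (max |f.N| |f.D|)

/-- isotropic phase name of depth `q` -/
noncomputable def itF (δ q : ℝ) (f : ItPh) : (ℤ × ℤ × ℤ) × (ℤ × ℤ × ℤ) :=
  ((tcell δ q f.X, tcell δ q f.B, tcell δ q f.P), (tcell δ q f.Y, tcell δ q f.N, tcell δ q f.D))

/-- the representative of the isotropic cell of depth `q` -/
noncomputable def itR (δ q : ℝ) (f : ItPh) : ItPh :=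
  ⟨trep δ q f.X, trep δ q f.B, trep δ q f.P, trep δ q f.Y, trep δ q f.N, trep δ q f.D⟩

/-- Heisenberg name `F_{p,z}` : `X, B, P` to depth `p`, the three recentred coordinates to depth `z` -/
noncomputable def itHs (δ p z : ℝ) (f : ItPh) : (ℤ × ℤ × ℤ) × (ℤ × ℤ × ℤ) :=
  ((tcell δ p f.X, tcell δ p f.B, tcell δ p f.P),
   (tcell δ z (f.Y - 2 * trep δ p f.X * f.B), tcell δ z (f.N - trep δ p f.P * f.X), tcell δ z (f.D - trep δ p f.P * f.B)))

/-- the planar mark name `ξ_q = (θ_q, r_q)` -/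
noncomputable def itXi (δ q : ℝ) (μ : ItMk) : ℤ × ℤ := (tcell δ q μ.th, tcell δ q μ.r)

/-- the fibre read `Q_i` at depth `R` -/
noncomputable def itQ (quad : Bool) (δ R : ℝ) (f : ItPh) (μ : ItMk) : (ℤ × ℤ × ℤ) × (ℤ × ℤ) :=
  ((tcell δ R (f.B + μ.th * f.X), tcell δ R (f.Y + μ.th * f.X ^ 2), tcell δ R (f.D + μ.th * f.N)),
   (if quad then tcell δ R (f.P - 2 * μ.r * f.X) else 0,
    if quad then tcell δ R (f.N - f.P * f.X + μ.r * f.X ^ 2) else tcell δ R (f.N - μ.r * f.X)))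

/-- the regime -/
structure ItPar where
  c : ℝ
  d : ℝ
  m : ℝ
  ν : ℝ
  e0 : ℝ
  B0 : ℝ

/-- admissible regime -/
def ItPar.Ok (a : ItPar) : Prop :=
  0 < a.c ∧ 0 < a.d ∧ a.d ≤ 1 ∧ 0 ≤ a.m ∧ a.m ≤ 1 ∧ 0 ≤ a.ν ∧ a.ν ≤ 1 ∧ 0 < a.e0 ∧ 1 ≤ a.B0

/-- the package chosen by Sec. 5 -/
structure ItPk where
  M : ℕ
  K : ℝ
  RQ : ℝ
  χ : ℝ
  G : Finset ℝ
  Lam : Finset ℝ

/-- sanity of a package -/
def ItPk.Ok (pk : ItPk) : Prop :=
  2 ≤ pk.M ∧ 0 < pk.K ∧ pk.K < pk.RQ ∧ 0 < pk.χ ∧ pk.Lam.Nonempty ∧ (∀ l ∈ pk.Lam, 0 < l) ∧ (∀ q ∈ pk.G, 0 ≤ q ∧ q ≤ pk.K)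

/-- THE FINITE TANGENT DATUM -/
structure Tan where
  Ω : Type
  fin : Fintype Ω
  P : @FLaw Ω fin
  δ : ℝ
  quad : Bool
  ζ : Type
  Zs : Ω → ζ
  γ : Type
  Cs : Ω → γ
  F : Ω → ItPh
  mrk : ℕ → Ω → ItMk
  ο : Type
  O : ℝ → Ω → ο
  dsp : ℝ → Ω → ItDsp
  ϖ : Type
  Wd : ℝ → Ω → ϖ

attribute [instance] Tan.fin

namespace Tan

variable (T : Tan)

/-- `L = log (1/δ)` -/
noncomputable def L : ℝ := lg T.δ

/-- all stored marks `Ξ` -/
def Xi (M : ℕ) : T.Ω → (Fin M → ItMk) := fun ω i => T.mrk i ω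

/-- `𝒟 = (C_*, Ξ)` -/
def Dd (M : ℕ) : T.Ω → T.γ × (Fin M → ItMk) := fun ω => (T.Cs ω, T.Xi M ω)

/-- phase name `F_q` -/
noncomputable def Fn (q : ℝ) : T.Ω → (ℤ × ℤ × ℤ) × (ℤ × ℤ × ℤ) := fun ω => itF T.δ q (T.F ω)

/-- angular name `X_q` -/
noncomputable def Xn (q : ℝ) : T.Ω → ℤ := fun ω => tcell T.δ q (T.F ω).X

/-- Heisenberg name `F_{p,z}` -/
noncomputable def Hn (p z : ℝ) : T.Ω → (ℤ × ℤ × ℤ) × (ℤ × ℤ × ℤ) := fun ω => itHs T.δ p z (T.F ω)

/-- time mark name `θ_{i,q}` -/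
noncomputable def thn (i : ℕ) (q : ℝ) : T.Ω → ℤ := fun ω => tcell T.δ q (T.mrk i ω).th

/-- second mark name `r_{i,q}` -/
noncomputable def rn (i : ℕ) (q : ℝ) : T.Ω → ℤ := fun ω => tcell T.δ q (T.mrk i ω).r

/-- planar mark name `ξ_{i,q}` -/
noncomputable def xin (i : ℕ) (q : ℝ) : T.Ω → ℤ × ℤ := fun ω => itXi T.δ q (T.mrk i ω)

/-- fibre read `Q_i` -/
noncomputable def Qn (R : ℝ) (i : ℕ) : T.Ω → (ℤ × ℤ × ℤ) × (ℤ × ℤ) := fun ω => itQ T.quad T.δ R (T.F ω) (T.mrk i ω)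

/-- `T0` : structure of the law -/
structure Adm0 (a : ItPar) (pk : ItPk) : Prop where
  δ0 : 0 < T.δ
  δ1 : T.δ < 1
  side_C : ∀ ω ω', T.Zs ω = T.Zs ω' → T.Cs ω = T.Cs ω'
  side_F : ∀ ω ω', T.Zs ω = T.Zs ω' → T.F ω = T.F ω'
  bdF : ∀ ω, T.P.p ω ≠ 0 → (T.F ω).nrm ≤ a.B0
  bdM : ∀ ω, T.P.p ω ≠ 0 → ∀ i < pk.M, |(T.mrk i ω).th| ≤ a.B0 ∧ |(T.mrk i ω).r| ≤ a.B0 ∧ |(T.mrk i ω).k| ≤ a.B0
  lin0 : T.quad = false → ∀ ω, (T.F ω).P = 0
  /-- conditional independence of the records given the side -/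
  indep : ∀ (z : T.ζ) (x : Fin pk.M → ItMk),
    T.P.pr (fun ω => T.Zs ω = z ∧ ∀ i : Fin pk.M, T.mrk i ω = x i) * T.P.pr (fun ω => T.Zs ω = z) ^ pk.M
      = T.P.pr (fun ω => T.Zs ω = z) * ∏ i : Fin pk.M, T.P.pr (fun ω => T.Zs ω = z ∧ T.mrk i ω = x i)
  /-- identical conditional laws -/
  ident : ∀ (z : T.ζ) (x : ItMk), ∀ i < pk.M, ∀ j < pk.M,
    T.P.pr (fun ω => T.Zs ω = z ∧ T.mrk i ω = x) = T.P.pr (fun ω => T.Zs ω = z ∧ T.mrk j ω = x)

/-- `T1`, `T2` : the information budgets (vb), (fib) -/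
structure AdmI (a : ItPar) (pk : ItPk) (acc : ℝ) : Prop where
  vb : T.P.miC (T.Fn pk.K) (T.Xi pk.M) T.Cs ≤ acc * T.L
  fib : ∀ i < pk.M, T.P.miC (T.Xn pk.K) (pair (T.Qn pk.RQ i) (T.Xi pk.M)) T.Cs ≤ acc * T.L
  ang : ∀ q ∈ pk.G, T.P.pr (fun ω => acc * T.L < |T.P.surC (T.Xn q) T.Cs ω - a.m * q * T.L|) ≤ acc

/-- depth to which the gate `a + p h` predicts the second mark: `min(1,c) p` (quadratic), `c p` (linear)   (04 l.676-684) -/
noncomputable def rdep (a : ItPar) (p : ℝ) : ℝ := if T.quad then min 1 a.c * p else a.c * p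

/-- `T3` : mark innovations (names:mark-dimension).  `time` = causal counting, ALL pairs `p < q` of `G` (also `p = 0`, no smallness of `q - p`).
The three mixed clauses (`c < 1`) hold on LAYERS: `0 < p < q` in `G`, `q - p ≤ κ0 p`, with relative error `τ`. -/
structure AdmM (a : ItPar) (pk : ItPk) (τ κ0 acc : ℝ) : Prop where
  /-- the time increment given the side, its parent and the predicted part of `r` -/
  time : ∀ p ∈ pk.G, ∀ q ∈ pk.G, p < q →
    T.P.pr (fun ω => T.P.surC (T.thn 0 q) (pair T.Zs (pair (T.thn 0 p) (T.rn 0 (T.rdep a p)))) ω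
      < (a.d * (q - p) - acc) * T.L) ≤ acc
  /-- `c < 1` : joint increments -/
  joint : a.c < 1 → ∀ p ∈ pk.G, ∀ q ∈ pk.G, 0 < p → p < q → q - p ≤ κ0 * p →
    T.P.pr (fun ω => T.P.surC (T.xin 0 q) (pair T.Zs (T.xin 0 p)) ω < ((a.d - τ) * (q - p) - acc) * T.L) ≤ acc
  /-- `c < 1` : the `r`-increment has rate `ν` (two sided) -/
  mixr : a.c < 1 → ∀ p ∈ pk.G, ∀ q ∈ pk.G, 0 < p → p < q → q - p ≤ κ0 * p →
    T.P.pr (fun ω => (τ * (q - p) + acc) * T.L
      < |T.P.surC (T.rn 0 q) (pair T.Zs (pair (T.thn 0 q) (T.rn 0 p))) ω - a.ν * (q - p) * T.L|) ≤ acc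
  /-- `c < 1` : the time increment given the refined `r` -/
  mixt : a.c < 1 → ∀ p ∈ pk.G, ∀ q ∈ pk.G, 0 < p → p < q → q - p ≤ κ0 * p →
    T.P.pr (fun ω => T.P.surC (T.thn 0 q) (pair T.Zs (pair (T.thn 0 p) (T.rn 0 q))) ω
      < ((max (a.d - a.c * a.ν) 0 - τ) * (q - p) - acc) * T.L) ≤ acc

/-- `T5` : the display of the child name at `λ = l`, at one sample point.  `A` = loss factor. -/
structure DspAt (a : ItPar) (K A l : ℝ) (f : ItPh) (μ : ItMk) (s : ItDsp) : Prop where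
  bd : |s.th| ≤ A ∧ |s.L| ≤ A ∧ |s.R| ≤ A ∧ |s.b| ≤ A
  time : |s.th - μ.th| ≤ A * T.δ ^ l
  baseW : |s.W - (f.B + s.th * f.X)| ≤ A * T.δ ^ l
  baseV : |s.V - (f.Y + s.th * f.X ^ 2)| ≤ A * T.δ ^ l
  vel : |s.vel - (f.N - s.L * f.X - s.R * f.X ^ 2
      - s.b * ((f.Y + s.th * f.X ^ 2) - 2 * f.X * (f.B + s.th * f.X)))| ≤ A * T.δ ^ (a.c * l)
  pos : |s.pos - (f.D + s.th * f.N - s.L * (f.B + s.th * f.X) - s.R * (f.Y + s.th * f.X ^ 2)
      + s.b * (f.B + s.th * f.X) ^ 2)| ≤ A * T.δ ^ ((1 + a.c) * l)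
  /-- quadratic: the derivative display approximates `P` -/
  derq : T.quad = true → |f.P - s.L - 2 * s.R * f.X + 2 * s.b * (f.B + s.th * f.X)| ≤ A * T.δ ^ (a.c * l)
  /-- quadratic, constant cuts -/
  cutc : T.quad = true → a.c ≤ 1 → s.b = 0 ∧ |s.R - μ.r| ≤ A * T.δ ^ (a.c * l)
  /-- quadratic, `c > 1` : (int:output-coefficients) -/
  cutn : T.quad = true → 1 < a.c →
    |s.b - μ.k| + |s.R - s.th * s.b - (μ.r - μ.th * μ.k)| ≤ A * T.δ ^ ((a.c - 1) * l)
  /-- linear: the shear is linear up to the largest tested depth, its slope approximates `r` -/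
  derl : T.quad = false → |μ.r - s.L| ≤ A * T.δ ^ (a.c * l) ∧ |s.R| ≤ A * T.δ ^ (2 * K) ∧ |s.b| ≤ A * T.δ ^ (2 * K)

/-- `T5`, `T6` : child names and width names -/
structure AdmG (a : ItPar) (pk : ItPk) (acc : ℝ) : Prop where
  /-- the display is a function of the child name and the root name (on the support) -/
  dfun : ∀ l ∈ pk.Lam, ∀ ω ω', T.P.p ω ≠ 0 → T.P.p ω' ≠ 0 → T.O l ω = T.O l ω' → T.Cs ω = T.Cs ω' → T.dsp l ω = T.dsp l ω'
  dsp : ∀ l ∈ pk.Lam, ∀ ω, T.P.p ω ≠ 0 → T.DspAt a pk.K (T.δ ^ (-acc)) l (T.F ω) (T.mrk 0 ω) (T.dsp l ω)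
  /-- quadratic: `F_{λ,2λ}` and the root list the width name (only this direction is used: `k ≥ 0`) -/
  wq : T.quad = true → ∀ l ∈ pk.Lam, T.P.NVal (fun _ => True) (T.Wd l) (pair (T.Hn l (2 * l)) T.Cs) (T.δ ^ (-acc))
  /-- linear: the width name reads at most `F_λ` and one more scalar of depth `λ` -/
  wl : T.quad = false → ∀ l ∈ pk.Lam, T.P.NVal (fun _ => True) (T.Wd l) (pair (T.Fn l) T.Cs) (T.δ ^ (-l - acc))

/-- ADMISSIBLE INTERIOR TANGENT DATA (Def int:data), accuracy `acc`, relative layer tolerance `τ`, layer ratio `κ0` -/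
structure Adm (a : ItPar) (pk : ItPk) (τ κ0 acc : ℝ) : Prop where
  small : T.δ < acc
  t0 : T.Adm0 a pk
  ti : T.AdmI a pk acc
  tm : T.AdmM a pk τ κ0 acc
  tg : T.AdmG a pk acc

/-- uniform power avoidance of affine lines `{α θ + β r = γ}` that may depend on the side (names:separation) -/
def Avoid (a : ItPar) (pk : ItPk) (acc : ℝ) : Prop :=
  ∀ u ∈ pk.G, ∀ al be ga : T.ζ → ℝ, (∀ z, al z ^ 2 + be z ^ 2 = 1) →
    T.P.pr (fun ω => |al (T.Zs ω) * (T.mrk 0 ω).th + be (T.Zs ω) * (T.mrk 0 ω).r - ga (T.Zs ω)| ≤ T.δ ^ u) ≤ T.δ ^ (a.e0 * u - acc)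

/-- crossing (linear case): the second marks of two records are `δ^χ`-separated -/
def Cross (pk : ItPk) (acc : ℝ) : Prop :=
  T.P.pr (fun ω => |(T.mrk 0 ω).r - (T.mrk 1 ω).r| < T.δ ^ pk.χ) ≤ acc

/-- the finite substitute of `∂_a 𝓗 - k ∂_v 𝓗` : mean over the `λ`-grid of the two normalised increments -/
noncomputable def mean (pk : ItPk) (k : ℝ) : ℝ :=
  (∑ l ∈ pk.Lam, (T.P.entC (T.O l) T.Cs - k * T.P.entC (T.Wd l) T.Cs) / (l * T.L)) / pk.Lam.card

end Tan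

/-- right side of the exit: `1 + 3d + c - 5k` (quadratic), `1 + 3d + c - 4k` (linear) -/
noncomputable def ItPar.rhs (a : ItPar) (quad : Bool) (k : ℝ) : ℝ := 1 + 3 * a.d + a.c - (if quad then 5 else 4) * k

/-- THE EXIT PATTERN (ACT-fin).  `av`, `cr` : which separation hypotheses are granted. -/
def ItExit (quad av cr : Bool) (a : ItPar) (k : ℝ) : Prop :=
  ∀ σ : ℝ, 0 < σ → ∃ τ : ℝ, 0 < τ ∧ ∀ κ0 : ℝ, 0 < κ0 → ∃ (pk : ItPk) (acc : ℝ), pk.Ok ∧ 0 < acc ∧
    ∀ T : Tan, T.quad = quad → T.Adm a pk τ κ0 acc → (av = true → T.Avoid a pk acc) → (cr = true → T.Cross pk acc) →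
      a.rhs quad k - σ ≤ T.mean pk k

theorem it_defs_eqns_cite : True := by
  have := @ItPh.nrm.eq_1; have := @itF.eq_1; have := @itR.eq_1; have := @itHs.eq_1; have := @itXi.eq_1
  have := @itQ.eq_1; have := @ItPar.Ok.eq_1; have := @ItPk.Ok.eq_1; have := @Tan.L.eq_1; have := @Tan.Xi.eq_1
  have := @Tan.Dd.eq_1; have := @Tan.Fn.eq_1; have := @Tan.Xn.eq_1; have := @Tan.Hn.eq_1; have := @Tan.thn.eq_1
  have := @Tan.rn.eq_1; have := @Tan.rdep.eq_1; have := @Tan.xin.eq_1; have := @Tan.Qn.eq_1; have := @Tan.Avoid.eq_1; have := @Tan.Cross.eq_1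
  have := @Tan.mean.eq_1; have := @ItPar.rhs.eq_1; have := @ItExit.eq_1
  trivial

end Claimed.Agent.R256
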