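import Claimed.Agent.R256.Int.Asm

/-!
# Row 256, Sec. 5 "Interior phase inequalities": CONTRACT      (chief helper196; folder R256/Int, prefix `it_`)

## ENTRY (what Sec. 5 consumes)
 (E-Tan)  NOTHING of the model: the only hypothesis of every exit is `T.Adm a pk τ κ0 acc` (+ `T.Avoid`, `T.Cross`) of `Int/Defs.lean`.  Producers: Nm (T0, T3, T5, T6), Lay (T1, T2, Avoid, Cross, root selection).
 (E-lib)  paper-free libraries, by import:  R255/Ent, R255/Rep/{Kit,Two,Credit};  R256/LT/Kit, R256/Lay/{Sco,Law,Walk,Bud} (score kit, law change, walk laws);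
          R256/Fp `fp_ev`, `fp_main_s` (PROVED), R256/Inc `ic_wl` (PROVED; many-leg);  R256/Prj `pj_rad_law`, `pj_par_law` + `pj_coreK`, `pj_pin_law` (SIGNED by 196).
## EXIT (this file)
 `it_act_i … it_act_vi0` : the admissible actions of Prop int:actions in the finite form `ItExit quad av cr a k`  (consumer: Act/Main `ac_Q2`, BRIDGE to the Dini form at good roots).
## LAYOUT, PROTOCOL: header of `Int/Base.lean`.      INTERNAL CONTRACTS: `Int/Rates.lean` (with the derivation of every rate from the tests), TESTS: `Int/Meta.lean`, KIT: `Int/Kit.lean`, `Kit2`, `Comb`, `Sym`.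
## BLOCKS                                                                     state 22:35Z
 CLOSED (sorry-free, wired): KIT, KIT2, Comb, Sym, SymKit (219, 174, 6);  COST (267);  MODE (27);  BOOST (149);  WMODE (267);  RL3 (6);  RL2 (154);  RQ2 mix1/3/4 (172);  RL1 G1, G2, miss, inv, W (153);
        RAD it_mark_proj, it_slope_rad, it_slope_pin (9, 288, 149; rest on R256/Prj);  WEDGE it_e_weak, it_e_q (49);  ASM all exits (239, 146).
 OPEN:  MOT  177   it_mot_gen, th, thj, r, two     (Mot*.lean, leaves L-256-INT-MOT-*)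
        RQ1  172   it_q_centre, hor, G1, G2
        RQ2  172   it_q_cross (needs it_mot_gen)
        RL1x 153 + 68   it_l_x  (Rl1x*.lean; decoupled boost)
        HWALK 157  it_l_H wired to it_hw_main, leaves L-256-INT-HW-*
        BIN  148   wired to BinTop, leaves L-256-BIN-*
-/

set_option autoImplicit false

namespace Claimed.Agent.R256

open Claimed.Agent.R255
open Claimed.Agent.R255.FLaw (pair)
open scoped BigOperators
open Classical

/-! ## EXITS = Proposition int:actions (unit U11) -/

/-- (i) quadratic freezing   = it_a_act_i (helper239, Int/Asm/Cases.lean) -/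
theorem it_act_i (a : ItPar) (ha : a.Ok) (hm : 0 < a.m)
    (h : (a.c < 1 ∧ a.k0 / (1 + a.c) ≤ a.m) ∨ (1 ≤ a.c ∧ a.k0 / 2 ≤ a.m)) : ItExit true true false a 0 := it_a_act_i a ha hm h

/-- (ii) quadratic motion   OWNER helper239, EST 800 lines (case c > 3, Int/Asm/Bin; block BP-256-INT-ASM) -/
theorem it_act_ii (a : ItPar) (ha : a.Ok) (hm : 0 < a.m) (hc : 1 ≤ a.c) : ItExit true true false a ((a.c + 1) / 4) :=
  it_a_act_ii a ha hm hc

/-- (iii) quadratic cost one, no spreading, `m = 0` allowed   = it_a_act_iii (helper239, Int/Asm/Cases.lean) -/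
theorem it_act_iii (a : ItPar) (ha : a.Ok) (hc : a.c = 1) (hd : a.d ≤ 1 / 4) : ItExit true false false a (1 / 2) := it_a_act_iii a ha hc hd

/-- (iv) linear freezing   = it_a_act_iv (helper239, Int/Asm/Cases.lean) -/
theorem it_act_iv (a : ItPar) (ha : a.Ok) (hm : 0 < a.m)
    (h : a.k0 ≤ a.m ∨ (a.c < 1 ∧ a.k0 - a.c * a.ν ≤ a.m)) : ItExit false false true a 0 := it_a_act_iv a ha hm h

/-- (v) linear motion, `c ≥ 1`   = it_a_act_v1 (helper239, Int/Asm/Cases.lean) -/
theorem it_act_v1 (a : ItPar) (ha : a.Ok) (hm : 0 < a.m) (hm' : a.m ≤ a.k0) (hc : 1 ≤ a.c) :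
    ItExit false false true a ((1 + a.c) / 2) := it_a_act_v1 a ha hm hm' hc

/-- (v) linear motion, `c < 1`   = it_a_act_v2 (helper239, Int/Asm/Cases.lean) -/
theorem it_act_v2 (a : ItPar) (ha : a.Ok) (hm : 0 < a.m) (hm' : a.m ≤ a.k0) (hc : a.c < 1)
    (h : a.k0 / (1 + a.c) ≤ a.m) : ItExit false false true a a.c := it_a_act_v2 a ha hm hm' hc h

/-- (vi) linear motion with `2d ≤ c < 1`, speed one, `m > 0` (crossing)   = it_a_act_vi (helper239, Int/Asm/Cases.lean) -/
theorem it_act_vi (a : ItPar) (ha : a.Ok) (hm : 0 < a.m) (hc : a.c < 1) (hd : 2 * a.d ≤ a.c) : ItExit false false true a 1 := it_a_act_vi a ha hm hc hd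

/-- (vi) at `m = 0` : no crossing   = it_a_act_vi0 (helper239, Int/Asm/Cases.lean) -/
theorem it_act_vi0 (a : ItPar) (ha : a.Ok) (hm : a.m = 0) (hc : a.c < 1) (hd : 2 * a.d ≤ a.c) : ItExit false false false a 1 := it_a_act_vi0 a ha hm hc hd

end Claimed.Agent.R256
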