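import Claimed.Agent.R256.Int.Read

/-!
# Row 256, Sec. 5: ALL DEFINITIONS of the internal contracts      (chief helper196; prefix `it_`)

LAYOUT OF THE FOLDER (imports go downwards; a file imports only files ABOVE it in this list)
  `Defs` `Read`                     frozen (-- KEEP): tangent datum, readings, patterns
  `Base`                            this file: symbols, motion vectors, prefix depths, slopes, innovations, wedge layers, patterns `ItLayerAt`, `ItTri`.  NO theorem with content.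
  `Kit` `Comb` `Sym`                layer kit (219), combinators of the patterns and symbols (helper6)
  blocks of TESTS                   `Mode*` `Mot*` `Boost*` `Rad*` `WMode*` `WU*` `HWalk*`
  `Meta`                            the STUBS of the tests (`it_mode_*`, `it_mot_*`, `it_boost`, `it_slope_*`, `it_mark_proj`, `it_w_*`)
  blocks of RATES                   `Rq1*` `Rq2*` `Rl1*` `Rl2*` `Rl3*` `Wedge*` `Bin*` `Cost*`
  `Rates`                           the STUBS of the internal contracts (`it_cost_*`, `it_width_*`, `it_q_*`, `it_l_*`, `it_e_*`)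
  `Asm` `Asm/*`                     assembly (239)
  `Contract`                        header ENTRY / EXIT / UNITS + the STUBS of the exits `it_act_*`  (imported by Act)
PROTOCOL FOR CLOSING A STUB.  A block proves its target in its own files under its own prefix, with VERBATIM the statement of the stub, importing only files above the stub file.
When the block is sorry-free: add its import to the stub file and replace the `sorry` of the stub by the proved theorem (one line).  Nobody renames or restates a stub without the chief.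
-/

set_option autoImplicit false

namespace Claimed.Agent.R256

open Claimed.Agent.R255
open Claimed.Agent.R255.FLaw (pair)
open scoped BigOperators
open Classical

namespace Tan
variable (T : Tan)

/-- layer information `I(F_q ; O_l | C_*, F_p)` (05 (int:layer-information)) -/
noncomputable def inf (l p q : ℝ) : ℝ := T.P.miC (T.Fn q) (T.O l) (pair T.Cs (T.Fn p))

/-- `p · b_miss(p) · L = H(F_{2p} | F_{p,2p}, 𝒟, (L_0, L_1)_{2p})` -/
noncomputable def bm (M : ℕ) (p : ℝ) : ℝ :=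
  T.P.entC (T.Fn (2 * p)) (pair (pair (T.Hn p (2 * p)) (T.rd p (2 * p) [T.cL 0, T.cL 1])) (T.Dd M))

end Tan

theorem it_contract_eqns_cite : True := by
  have := @Tan.inf.eq_1; have := @Tan.bm.eq_1
  trivial

/-- a covector symbol -/
abbrev ItSym : Type := ItPh → (ℕ → ItMk) → ItPh

/-- difference of two phases / covectors -/
def ItPh.sub (f g : ItPh) : ItPh := ⟨f.X - g.X, f.B - g.B, f.P - g.P, f.Y - g.Y, f.N - g.N, f.D - g.D⟩

/-- the box of marks -/
def itBoxM (M : ℕ) (B : ℝ) (Ξ : ℕ → ItMk) : Prop := ∀ i < M, |(Ξ i).th| ≤ B ∧ |(Ξ i).r| ≤ B ∧ |(Ξ i).k| ≤ B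

/-- closeness of two families of marks -/
def itNearM (M : ℕ) (ε : ℝ) (Ξ Ξ' : ℕ → ItMk) : Prop :=
  ∀ i < M, |(Ξ i).th - (Ξ' i).th| ≤ ε ∧ |(Ξ i).r - (Ξ' i).r| ≤ ε ∧ |(Ξ i).k - (Ξ' i).k| ≤ ε

/-- regular symbol -/
structure ItSym.Reg (U : ItSym) (M : ℕ) (B0 A0 : ℝ) : Prop where
  dep : ∀ f Ξ Ξ', (∀ i < M, Ξ i = Ξ' i) → U f Ξ = U f Ξ'
  bd : ∀ f Ξ, f.nrm ≤ B0 + 1 → itBoxM M (B0 + 1) Ξ → (U f Ξ).nrm ≤ A0
  lip : ∀ f f' Ξ Ξ' ε, f.nrm ≤ B0 + 1 → f'.nrm ≤ B0 + 1 → itBoxM M (B0 + 1) Ξ → itBoxM M (B0 + 1) Ξ' →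
    (f.sub f').nrm ≤ ε → itNearM M ε Ξ Ξ' → ((U f Ξ).sub (U f' Ξ')).nrm ≤ A0 * ε

/-- the symbol does not depend on the record `j` -/
def ItSym.Free (U : ItSym) (j : ℕ) : Prop := ∀ f Ξ Ξ', (∀ i, i ≠ j → Ξ i = Ξ' i) → U f Ξ = U f Ξ'

/-- central symbol: a combination of `H, J, K` -/
def ItSym.Cen (U : ItSym) : Prop :=
  ∀ f Ξ, (U f Ξ).P = 0 ∧ (U f Ξ).X = -(U f Ξ).N * f.P ∧ (U f Ξ).B = -2 * (U f Ξ).Y * f.X - (U f Ξ).D * f.P

/-- pairing of a central covector with the commutator mode `b_ij` (05 (int:commutator-mode)) -/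
def itCom (u : ItPh) (μ μ' : ItMk) : ℝ := u.Y * (μ.th - μ'.th) + u.N * (μ.r - μ'.r) + u.D * (μ.th * μ'.r - μ'.th * μ.r)

/-- motion of the target under `dθ_j` (eq. (trans)) -/
def itvTh (quad : Bool) (f0 : ItPh) (μ : ItMk) (A : ℝ) : ItPh :=
  if quad then ⟨0, -A, 0, A ^ 2 - 2 * f0.X * A, 0, A ^ 2 * μ.r - f0.P * A⟩ else ⟨0, -A, 0, A ^ 2 - 2 * f0.X * A, 0, -μ.r * A⟩

/-- motion of the target under `dr_j` (eq. (trans)) -/
def itvR (quad : Bool) (μ : ItMk) (A : ℝ) : ItPh :=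
  if quad then ⟨0, 0, 2 * A, 0, A ^ 2, -μ.th * A ^ 2⟩ else ⟨0, 0, 0, 0, A, -μ.th * A⟩

/-- prefix depth -/
noncomputable def itS (p q : ℝ) (n k : ℕ) : ℝ := p + (q - p) * k / n

/-- separation exponent of a test -/
noncomputable def itChi (p q : ℝ) (n : ℕ) (η : ℝ) : ℝ := η * (q - p) / (4 * n)

/-- the covector field of a symbol on the layer with parent depth `p` -/
noncomputable def Tan.fld (T : Tan) (p : ℝ) (U : ItSym) : T.Ω → ItPh := fun ω => U (T.f0 p ω) (fun i => T.mrk i ω)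

/-- all marks except the record `j` -/
def Tan.XiE (T : Tan) (M j : ℕ) : T.Ω → (Fin M → ItMk) := fun ω i => if (i : ℕ) = j then ⟨0, 0, 0⟩ else T.mrk i ω

/-- `ItLayer` at a fixed tolerance -/
def ItLayerAt (quad av cr : Bool) (a : ItPar) (Φ : Tan → ItPk → ℝ → ℝ → Prop) : Prop :=
  ∃ τ : ℝ, 0 < τ ∧ ∀ κ0 : ℝ, 0 < κ0 → ∃ κ1 : ℝ, 0 < κ1 ∧ ∀ p q : ℝ, 0 < p → p < q → q ≤ (1 + κ1) * p →
    ∃ (pk0 : ItPk) (acc0 : ℝ), pk0.Pre ∧ 0 < acc0 ∧ ∀ (pk : ItPk) (acc : ℝ) (T : Tan), pk.Ok → pk0.le pk → 0 < acc → acc ≤ acc0 →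
      T.quad = quad → T.Adm a pk τ κ0 acc → (av = true → T.Avoid a pk acc) → (cr = true → T.Cross pk acc) → Φ T pk p q

theorem it_meta_eqns_cite : True := by
  have := @ItPh.sub.eq_1; have := @itBoxM.eq_1; have := @itNearM.eq_1; have := @ItSym.Free.eq_1; have := @ItSym.Cen.eq_1
  have := @itCom.eq_1; have := @itvTh.eq_1; have := @itvR.eq_1; have := @itS.eq_1; have := @itChi.eq_1; have := @Tan.fld.eq_1
  have := @Tan.XiE.eq_1; have := @ItLayerAt.eq_1
  trivial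

theorem it_layer_iff (quad av cr : Bool) (a : ItPar) (Φ : Tan → ItPk → ℝ → ℝ → ℝ → Prop) :
    ItLayer quad av cr a Φ ↔ ∀ η : ℝ, 0 < η → ItLayerAt quad av cr a (fun T pk p q => Φ T pk p q η) := Iff.rfl

/-- rate of the time innovation when the refined `r_j` is held -/
noncomputable def ItPar.rth (a : ItPar) : ℝ := if a.c < 1 then a.as else a.d

/-- hereditary Frostman slopes on the mesh `n` of `[0, q - p]`, on the chart event `E` : `g` is a real function of the record `j`, the held marks and the parent phase -/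
def Tan.Slope (T : Tan) (M j : ℕ) (p q : ℝ) (n : ℕ) (E : T.Ω → Prop) (g : T.Ω → ℝ) (γ η : ℝ) : Prop :=
  ∀ k k' : ℕ, k < k' → k' ≤ n →
    T.P.pr (fun ω => E ω ∧ T.P.surC (fun ω' => tcell T.δ ((q - p) * k' / n) (g ω'))
        (pair (fun ω' => tcell T.δ ((q - p) * k / n) (g ω')) (pair T.Zs (T.XiE M j))) ω
      < (γ * ((q - p) * (k' - k) / n) - η * (q - p)) * T.L) ≤ η

theorem it_slope_eqns_cite : True := by
  have := @Tan.Slope.eq_1; have := @ItPar.rth.eq_1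
  trivial

/-- the component of the increment of `ξ_j` (beyond its parent of depth `b`) normal to the line joining the pin `ξ_i` to the parent representative:
`(r_{j,b} - r_i)(θ_j - θ_{j,b}) + (θ_i - θ_{j,b})(r_j - r_{j,b})`   (05 l.816, l.1062: gradient of `x_i`, of `U`, in the mark plane) -/
noncomputable def Tan.nInc (T : Tan) (i j : ℕ) (b : ℝ) : T.Ω → ℝ := fun ω =>
  (trep T.δ b (T.mrk j ω).r - (T.mrk i ω).r) * ((T.mrk j ω).th - trep T.δ b (T.mrk j ω).th)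
    + ((T.mrk i ω).th - trep T.δ b (T.mrk j ω).th) * ((T.mrk j ω).r - trep T.δ b (T.mrk j ω).r)

theorem it_rad_eqns_cite : True := by
  have := @Tan.nInc.eq_1
  trivial

/-! ## additions 21:15Z -/

/-- the symbol depends on the record `j` only through `(θ_j, r_j)` (never through `𝔨_j`) -/
def ItSym.KFree (U : ItSym) (j : ℕ) : Prop :=
  ∀ f Ξ Ξ', (∀ i, i ≠ j → Ξ i = Ξ' i) → (Ξ j).th = (Ξ' j).th → (Ξ j).r = (Ξ' j).r → U f Ξ = U f Ξ'

/-- horizontal symbol: only `dX, dB, dP`, coefficients functions of the marks alone -/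
def ItSym.Hor (U : ItSym) : Prop := ∀ f Ξ, (U f Ξ).Y = 0 ∧ (U f Ξ).N = 0 ∧ (U f Ξ).D = 0 ∧ ∀ f', U f Ξ = U f' Ξ

/-- the marks, the planar part of the record `j` replaced by its representative of depth `b` -/
noncomputable def Tan.mkP (T : Tan) (j : ℕ) (b : ℝ) : T.Ω → ℕ → ItMk := fun ω i =>
  if i = j then ⟨trep T.δ b (T.mrk j ω).th, trep T.δ b (T.mrk j ω).r, (T.mrk j ω).k⟩ else T.mrk i ω

/-- scalar innovation of the record `j` beyond its parent of depth `b`, coefficients `(c1, c2)` frozen at the parent: `c1 (θ_j - θ_{j,b}) + c2 (r_j - r_{j,b})` -/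
noncomputable def Tan.inn (T : Tan) (j : ℕ) (b : ℝ) (c1 c2 : (ℕ → ItMk) → ℝ) : T.Ω → ℝ := fun ω =>
  c1 (T.mkP j b ω) * ((T.mrk j ω).th - trep T.δ b (T.mrk j ω).th) + c2 (T.mkP j b ω) * ((T.mrk j ω).r - trep T.δ b (T.mrk j ω).r)

/-- POINTWISE hereditary slopes on the mesh `n` of `[0, t]` -/
def Tan.SlopeAt (T : Tan) (M j : ℕ) (t : ℝ) (n : ℕ) (g : T.Ω → ℝ) (γ η : ℝ) (ω : T.Ω) : Prop :=
  ∀ k k' : ℕ, k < k' → k' ≤ n →
    (γ * (t * (k' - k) / n) - η * t) * T.L ≤ T.P.surC (fun ω' => tcell T.δ (t * k' / n) (g ω'))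
        (pair (fun ω' => tcell T.δ (t * k / n) (g ω')) (pair T.Zs (T.XiE M j))) ω

/-- the pin product `(θ_i - θ_j)(r_j - r_i)` -/
def Tan.pin (T : Tan) (i j : ℕ) : T.Ω → ℝ := fun ω => ((T.mrk i ω).th - (T.mrk j ω).th) * ((T.mrk j ω).r - (T.mrk i ω).r)

/-- the horizontal scalar annihilating `ℓ_i` and `ℓ_j` (05 (int:normal-horizontal)): `(θ_i-θ_j) dP - 2 (r_j-r_i) dB - 2 (θ_i r_j - θ_j r_i) dX` -/
def itcU (μ μ' : ItMk) : ItPh := ⟨-2 * (μ.th * μ'.r - μ'.th * μ.r), -2 * (μ'.r - μ.r), μ.th - μ'.th, 0, 0, 0⟩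

/-- the three horizontal coordinate readings -/
def itRH (Ω : Type) : List (Ω → ItPh) := [fun _ => itcX, fun _ => itcB, fun _ => itcP]

/-- the conditioning `(F_{p,z}, 𝒟)` of a WEDGE layer: horizontal depth `p → q`, centre depth `z` fixed, `q ≤ z ≤ 2p` -/
noncomputable def Tan.baseW (T : Tan) (M : ℕ) (p z : ℝ) : T.Ω → ((ℤ × ℤ × ℤ) × (ℤ × ℤ × ℤ)) × (T.γ × (Fin M → ItMk)) :=
  fun ω => (T.Hn p z ω, T.Dd M ω)

/-- `H(U_q | V_q, F_{p,z}, 𝒟)` -/
noncomputable def Tan.hhW (T : Tan) (M : ℕ) (p z q : ℝ) (U V : List (T.Ω → ItPh)) : ℝ :=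
  T.P.entC (T.rd p q U) (pair (T.rd p q V) (T.baseW M p z))

/-- lower score on a wedge layer -/
def Tan.LSW (T : Tan) (M : ℕ) (p z q : ℝ) (U V : List (T.Ω → ItPh)) (ρ η : ℝ) : Prop :=
  T.P.pr (fun ω => T.P.surC (T.rd p q U) (pair (T.rd p q V) (T.baseW M p z)) ω < (ρ - η) * (q - p) * T.L) ≤ η

/-- PATTERN of a statement on wedge layers `(p, q; z)`, `p < q ≤ z ≤ 2p`;  `short = true` : Whitney condition `q - p ≤ κ1 (2p - z)`. -/
def ItTri (quad av cr short : Bool) (a : ItPar) (Φ : Tan → ItPk → ℝ → ℝ → ℝ → ℝ → Prop) : Prop :=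
  ∀ η : ℝ, 0 < η → ∃ τ : ℝ, 0 < τ ∧ ∀ κ0 : ℝ, 0 < κ0 → ∃ κ1 : ℝ, 0 < κ1 ∧ ∀ p q z : ℝ, 0 < p → p < q → q ≤ z → z ≤ 2 * p →
    (short = true → q - p ≤ κ1 * (2 * p - z)) →
    ∃ (pk0 : ItPk) (acc0 : ℝ), pk0.Pre ∧ 0 < acc0 ∧ ∀ (pk : ItPk) (acc : ℝ) (T : Tan), pk.Ok → pk0.le pk → 0 < acc → acc ≤ acc0 →
      T.quad = quad → T.Adm a pk τ κ0 acc → (av = true → T.Avoid a pk acc) → (cr = true → T.Cross pk acc) → Φ T pk p q z η

theorem it_base_eqns_cite : True := by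
  have := @ItSym.KFree.eq_1; have := @ItSym.Hor.eq_1; have := @Tan.mkP.eq_1; have := @Tan.inn.eq_1; have := @Tan.SlopeAt.eq_1
  have := @Tan.pin.eq_1; have := @itcU.eq_1; have := @itRH.eq_1; have := @Tan.baseW.eq_1; have := @Tan.hhW.eq_1; have := @Tan.LSW.eq_1
  have := @ItTri.eq_1
  trivial

end Claimed.Agent.R256
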