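import Claimed.Agent.R256.Int.Sym

/-!
# Row 256, Sec. 5: symbols meet the layer kit      (helper6; prefix `it_sk_`)

For ALL rate blocks.  `T : Tan` with `T.Adm0 a pk`; `U : ItSym` regular.
* `it_sk_f0_bd`, `it_sk_box`, `it_sk_fld_bd` : on the support the frozen parent phase and the marks lie in the box `B0 + 1`, a regular field is bounded by `A0`;
* `it_sk_fld_base` : a field is a function of `(F_p, 𝒟)`;
* `it_sk_lin` : `it_k_lin` in symbol language (coefficients = scalar symbols bounded on the box);      * `it_sk_le_F` : a tuple of regular readings costs at most the phase name;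
* `it_sk_pr_zero`, `it_sk_one_nondeg` : a coefficient `≡ ±1` is never degenerate;      * `it_sk_itS` : `itS p q 1 1 = q`.
-/

set_option autoImplicit false

namespace Claimed.Agent.R256

open Claimed.Agent.R255
open Claimed.Agent.R255.FLaw (pair)
open scoped BigOperators
open Classical

theorem it_sk_trep_abs (δ p x : ℝ) (h0 : 0 < δ) (h1 : δ < 1) (hp : 0 ≤ p) : |trep δ p x| ≤ |x| + 1 := by
  have e1 := ig_trep_le δ p x
  have e2 := ig_lt_trep δ p x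
  have e3 : msh δ p ≤ 1 := (ig_msh_le δ p h0).trans (Real.rpow_le_one h0.le h1.le hp)
  rw [abs_le]
  constructor
  · have := neg_abs_le x
    linarith
  · have := le_abs_self x
    linarith

theorem it_sk_f0_bd (T : Tan) (a : ItPar) (pk : ItPk) (h : T.Adm0 a pk) (p : ℝ) (hp : 0 ≤ p) (ω : T.Ω) (hω : T.P.p ω ≠ 0) :
    (T.f0 p ω).nrm ≤ a.B0 + 1 := by
  have hb := (it_s_nrm_le _ _).1 (h.bdF ω hω)
  rw [it_s_nrm_le]
  have key : ∀ x : ℝ, |x| ≤ a.B0 → |trep T.δ p x| ≤ a.B0 + 1 := fun x hx =>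
    (it_sk_trep_abs T.δ p x h.δ0 h.δ1 hp).trans (by linarith)
  exact ⟨key _ hb.1, key _ hb.2.1, key _ hb.2.2.1, key _ hb.2.2.2.1, key _ hb.2.2.2.2.1, key _ hb.2.2.2.2.2⟩

theorem it_sk_box (T : Tan) (a : ItPar) (pk : ItPk) (h : T.Adm0 a pk) (ω : T.Ω) (hω : T.P.p ω ≠ 0) :
    itBoxM pk.M (a.B0 + 1) (fun i => T.mrk i ω) := fun i hi => by
  obtain ⟨h1, h2, h3⟩ := h.bdM ω hω i hi
  exact ⟨by linarith, by linarith, by linarith⟩

theorem it_sk_fld_bd (T : Tan) (a : ItPar) (pk : ItPk) (h : T.Adm0 a pk) (p : ℝ) (hp : 0 ≤ p) (U : ItSym) (A0 : ℝ)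
    (hU : U.Reg pk.M a.B0 A0) (ω : T.Ω) (hω : T.P.p ω ≠ 0) : (T.fld p U ω).nrm ≤ A0 :=
  hU.bd _ _ (it_sk_f0_bd T a pk h p hp ω hω) (it_sk_box T a pk h ω hω)

theorem it_sk_f0_base (T : Tan) (M : ℕ) (p : ℝ) (ω ω' : T.Ω) (h : T.base M p ω = T.base M p ω') : T.f0 p ω = T.f0 p ω' := by
  have h1 : T.Fn p ω = T.Fn p ω' := congrArg Prod.fst h
  simp only [Tan.Fn, itF, Prod.mk.injEq] at h1
  obtain ⟨⟨a1, a2, a3⟩, a4, a5, a6⟩ := h1
  simp only [Tan.f0, itR, trep, a1, a2, a3, a4, a5, a6]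

theorem it_sk_mrk_base (T : Tan) (M : ℕ) (p : ℝ) (ω ω' : T.Ω) (h : T.base M p ω = T.base M p ω') (i : ℕ) (hi : i < M) :
    T.mrk i ω = T.mrk i ω' := by
  have h1 : T.Dd M ω = T.Dd M ω' := congrArg Prod.snd h
  have h2 : T.Xi M ω = T.Xi M ω' := congrArg Prod.snd h1
  exact congrFun h2 ⟨i, hi⟩

/-- a scalar symbol evaluated at the frozen parent and the marks is a function of `(F_p, 𝒟)` -/
theorem it_sk_sc_base (T : Tan) (M : ℕ) (p : ℝ) (g : ItSc) (hdep : ∀ f Ξ Ξ', (∀ i < M, Ξ i = Ξ' i) → g f Ξ = g f Ξ')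
    (ω ω' : T.Ω) (h : T.base M p ω = T.base M p ω') :
    g (T.f0 p ω) (fun i => T.mrk i ω) = g (T.f0 p ω') (fun i => T.mrk i ω') := by
  rw [it_sk_f0_base T M p ω ω' h]
  exact hdep _ _ _ fun i hi => it_sk_mrk_base T M p ω ω' h i hi

theorem it_sk_fld_base (T : Tan) (M : ℕ) (p : ℝ) (U : ItSym) (hdep : ∀ f Ξ Ξ', (∀ i < M, Ξ i = Ξ' i) → U f Ξ = U f Ξ')
    (ω ω' : T.Ω) (h : T.base M p ω = T.base M p ω') : T.fld p U ω = T.fld p U ω' := by
  unfold Tan.fld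
  rw [it_sk_f0_base T M p ω ω' h]
  exact hdep _ _ _ fun i hi => it_sk_mrk_base T M p ω ω' h i hi

/-- the zero symbol -/
def itsZ : ItSym := fun _ _ => ⟨0, 0, 0, 0, 0, 0⟩

theorem it_sk_eqns_cite : True := by
  have := @itsZ.eq_1
  trivial

/-- BOUNDED LINEAR CHANGE in symbol language -/
theorem it_sk_lin (T : Tan) (a : ItPar) (pk : ItPk) (h : T.Adm0 a pk) (p q A : ℝ) (hp : 0 ≤ p) (hA : 1 ≤ A) (U U' : List ItSym)
    (V : List (T.Ω → ItPh))
    (hc : ∀ u' ∈ U', ∃ c : ℕ → ItSc, (∀ k f Ξ Ξ', (∀ i < pk.M, Ξ i = Ξ' i) → c k f Ξ = c k f Ξ') ∧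
      (∀ k f Ξ, f.nrm ≤ a.B0 + 1 → itBoxM pk.M (a.B0 + 1) Ξ → |c k f Ξ| ≤ A) ∧
      ∀ f Ξ x, itDot ((u' : ItSym) f Ξ) x = ∑ k ∈ Finset.range U.length, c k f Ξ * itDot ((U.getD k itsZ) f Ξ) x) :
    T.hh pk.M p q (U'.map (T.fld p)) V ≤ T.hh pk.M p q (U.map (T.fld p)) V + U'.length * Real.log (A * U.length + 2) := by
  have := it_k_lin T h.δ0 h.δ1 pk.M p q A hA (U.map (T.fld p)) (U'.map (T.fld p)) V ?_
  · simpa only [List.length_map] using this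
  · intro u'' hu''
    obtain ⟨u', hu', rfl⟩ := List.mem_map.1 hu''
    obtain ⟨c, c1, c2, c3⟩ := hc u' hu'
    refine ⟨fun ω k => c k (T.f0 p ω) (fun i => T.mrk i ω), fun ω ω' e => ?_, fun ω hω k => ?_, fun ω _ x => ?_⟩
    · funext k
      exact it_sk_sc_base T pk.M p (c k) (c1 k) ω ω' e
    · exact c2 k _ _ (it_sk_f0_bd T a pk h p hp ω hω) (it_sk_box T a pk h ω hω)
    · rw [List.length_map]
      have e : ∀ k, (List.map (T.fld p) U).getD k (fun _ => ⟨0, 0, 0, 0, 0, 0⟩) = T.fld p (U.getD k itsZ) := fun k => by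
        have : (fun _ => ⟨0, 0, 0, 0, 0, 0⟩ : T.Ω → ItPh) = T.fld p itsZ := rfl
        rw [this, List.getD_map]
      simp only [e]
      exact c3 _ _ x

/-- the list of the six coordinate symbols -/
def itsRF : List ItSym := [itsX, itsB, itsP, itsY, itsN, itsD]

theorem it_sk_eqns_cite2 : True := by
  have := @itsRF.eq_1
  trivial

theorem it_sk_RF (T : Tan) (p : ℝ) : itsRF.map (T.fld p) = itRF T.Ω := rfl

/-- a tuple of regular readings costs at most the phase name -/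
theorem it_sk_le_F (T : Tan) (a : ItPar) (pk : ItPk) (h : T.Adm0 a pk) (p q A0 : ℝ) (hp : 0 ≤ p) (hpq : p ≤ q) (hA : 1 ≤ A0) (Us : List ItSym)
    (hU : ∀ u ∈ Us, ItSym.Reg u pk.M a.B0 A0) :
    T.hh pk.M p q (Us.map (T.fld p)) [] ≤ T.hF pk.M p q + Us.length * Real.log (A0 * 6 + 2) := by
  rw [it_k_F T h.δ0 h.δ1 pk.M p q hpq, ← it_sk_RF T p]
  have := it_sk_lin T a pk h p q A0 hp hA itsRF Us [] ?_
  · simpa [itsRF] using this
  · intro u hu
    have hr := hU u hu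
    refine ⟨fun k f Ξ => if k = 0 then (u f Ξ).X else if k = 1 then (u f Ξ).B else if k = 2 then (u f Ξ).P else if k = 3 then (u f Ξ).Y
      else if k = 4 then (u f Ξ).N else (u f Ξ).D, fun k f Ξ Ξ' e => by simp only [hr.dep f Ξ Ξ' e], fun k f Ξ h1 h2 => ?_, fun f Ξ x => ?_⟩
    · have hb := (it_s_nrm_le _ _).1 (hr.bd f Ξ h1 h2)
      dsimp only
      split_ifs
      exacts [hb.1, hb.2.1, hb.2.2.1, hb.2.2.2.1, hb.2.2.2.2.1, hb.2.2.2.2.2]
    · simp [itsRF, Finset.sum_range_succ, itDot, itsX, itsB, itsP, itsY, itsN, itsD, itcX, itcB, itcP, itcY, itcN, itcD]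

theorem it_sk_itS (p q : ℝ) : itS p q 1 1 = q := by
  simp [itS]

/-- `δ^χ < 1` -/
theorem it_sk_rpow_lt_one (T : Tan) (h0 : 0 < T.δ) (h1 : T.δ < 1) (χ : ℝ) (hχ : 0 < χ) : T.δ ^ χ < 1 :=
  Real.rpow_lt_one h0.le h1 hχ

theorem it_sk_chi_pos (p q : ℝ) (n : ℕ) (η : ℝ) (hpq : p < q) (hn : 0 < n) (hη : 0 < η) : 0 < itChi p q n η := by
  unfold itChi
  have : (0 : ℝ) < n := by exact_mod_cast hn
  have : 0 < q - p := by linarith
  positivity

/-- a coefficient of modulus one is never degenerate -/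
theorem it_sk_one_nondeg (T : Tan) (h0 : 0 < T.δ) (h1 : T.δ < 1) (χ η : ℝ) (hχ : 0 < χ) (hη : 0 ≤ η) (g : T.Ω → ℝ) (hg : ∀ ω, |g ω| = 1) :
    T.P.pr (fun ω => |g ω| < T.δ ^ χ) ≤ η := by
  rw [ent_pr_eq_zero]
  · exact hη
  · intro ω _ hω
    rw [hg ω] at hω
    exact absurd hω (not_lt.2 (it_sk_rpow_lt_one T h0 h1 χ hχ).le)

end Claimed.Agent.R256
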