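import Claimed.Agent.R256.Int.BinKit
import Claimed.Agent.R256.Int.SymKit

/-!
# Row 256, Sec. 5, block BIN, leaves LA1, LA2: linear algebra on the good event      (helper267; prefix `it_n_la_`)

The statements are those of `Int/BinGeo.lean` with `nGood`, `itnG`, `nV5` unfolded (that file imports this one and closes its stubs by one line).
-/

set_option autoImplicit false

namespace Claimed.Agent.R256

open Claimed.Agent.R255
open Claimed.Agent.R255.FLaw (pair)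
open scoped BigOperators
open Classical

/-! ## real variables -/

/-- on the good event one of the two factors `β_0 - β_1`, `𝔨_0 - 𝔨_1` is large -/
theorem it_n_la_fac {B w th0 r0 k0 th1 r1 k1 : ℝ} (hB : 0 ≤ B) (hth : |th0| ≤ B)
    (hg : w < |(r0 - r1) - k1 * (th0 - th1)|) :
    w < (1 + B) * max |(r0 - th0 * k0) - (r1 - th1 * k1)| |k0 - k1| := by
  have e : (r0 - r1) - k1 * (th0 - th1) = ((r0 - th0 * k0) - (r1 - th1 * k1)) + th0 * (k0 - k1) := by ring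
  rw [e] at hg
  have h1 := abs_add_le ((r0 - th0 * k0) - (r1 - th1 * k1)) (th0 * (k0 - k1))
  rw [abs_mul] at h1
  have h2 : |th0| * |k0 - k1| ≤ B * |k0 - k1| := mul_le_mul_of_nonneg_right hth (abs_nonneg _)
  have h3 := le_max_left |(r0 - th0 * k0) - (r1 - th1 * k1)| |k0 - k1|
  have h4 := le_max_right |(r0 - th0 * k0) - (r1 - th1 * k1)| |k0 - k1|
  have h5 : B * |k0 - k1| ≤ B * max |(r0 - th0 * k0) - (r1 - th1 * k1)| |k0 - k1| := mul_le_mul_of_nonneg_left h4 hB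
  linarith

/-- division by the large factor -/
theorem it_n_la_div {B w m x y : ℝ} (hB : 0 ≤ B) (hw : 0 < w) (hm : w < (1 + B) * m) (h : m * |x| ≤ y) :
    |x| ≤ (1 + B) * w⁻¹ * y := by
  have hx := abs_nonneg x
  have h1 : w * |x| ≤ (1 + B) * m * |x| := mul_le_mul_of_nonneg_right hm.le hx
  have h2 : (1 + B) * (m * |x|) ≤ (1 + B) * y := mul_le_mul_of_nonneg_left h (by linarith)
  have h3 : w * |x| ≤ (1 + B) * y := by linarith
  have e : (1 + B) * w⁻¹ * y = ((1 + B) * y) / w := by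
    rw [div_eq_mul_inv]; ring
  rw [e, le_div_iff₀ hw]
  linarith

theorem it_n_la_be {B th r k : ℝ} (hB : 0 ≤ B) (h1 : |th| ≤ B) (h2 : |r| ≤ B) (h3 : |k| ≤ B) : |r - th * k| ≤ B + B * B := by
  have t := it_k_aux_term h1 hB h3
  rw [abs_le] at t h2 ⊢
  constructor <;> linarith [t.1, t.2, h2.1, h2.2]

theorem it_n_la_sub {B x y : ℝ} (h1 : |x| ≤ B) (h2 : |y| ≤ B) : |x - y| ≤ 2 * B := by
  rw [abs_le] at h1 h2 ⊢
  constructor <;> linarith [h1.1, h1.2, h2.1, h2.2]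

/-- the constant of LA1 -/
def itnLaK1 (B : ℝ) : ℝ := (3 + 6 * B + 2 * (B * B)) * ((1 + B) * (1 + 2 * B))

theorem it_n_la_eqns_cite : True := by
  have := @itnLaK1.eq_1
  trivial

theorem it_n_la_K1_nonneg {B : ℝ} (hB : 0 ≤ B) : 0 ≤ itnLaK1 B := by
  unfold itnLaK1; positivity

/-- LA1, the `6 × 6` system -/
theorem it_n_la_alg1 {B e w dX dB dP dY dN dD th0 r0 k0 th1 r1 k1 X0 P0 : ℝ} (hB : 1 ≤ B) (he : 0 ≤ e) (hw : 0 < w) (hw1 : w ≤ 1)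
    (b1 : |th0| ≤ B) (b2 : |r0| ≤ B) (b3 : |k0| ≤ B) (b6 : |k1| ≤ B) (bX : |X0| ≤ B + 1)
    (bP : |P0| ≤ B + 1) (hg : w < |(r0 - r1) - k1 * (th0 - th1)|)
    (hL0 : |-2 * (r0 - th0 * k0) * dX + 2 * k0 * dB + dP| ≤ e)
    (hL1 : |-2 * (r1 - th1 * k1) * dX + 2 * k1 * dB + dP| ≤ e)
    (hH : |dY - 2 * X0 * dB| ≤ e) (hJ : |dN - P0 * dX| ≤ e) (hK : |dD - P0 * dB| ≤ e)
    (hs : (|(r0 - th0 * k0) - (r1 - th1 * k1)| ≤ |k0 - k1| ∧ |dX| ≤ e) ∨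
      (|k0 - k1| ≤ |(r0 - th0 * k0) - (r1 - th1 * k1)| ∧ |dB| ≤ e)) :
    |dX| ≤ itnLaK1 B * w⁻¹ * e ∧ |dB| ≤ itnLaK1 B * w⁻¹ * e ∧ |dP| ≤ itnLaK1 B * w⁻¹ * e ∧ |dY| ≤ itnLaK1 B * w⁻¹ * e ∧
      |dN| ≤ itnLaK1 B * w⁻¹ * e ∧ |dD| ≤ itnLaK1 B * w⁻¹ * e := by
  have hB0 : (0 : ℝ) ≤ B := by linarith
  have hfac := it_n_la_fac (k0 := k0) hB0 b1 hg
  have hk2 : |k0 - k1| ≤ 2 * B := it_n_la_sub b3 b6
  have hwi : 1 ≤ w⁻¹ := (one_le_inv₀ hw).2 hw1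
  obtain ⟨Dm, hDm⟩ : ∃ Dm : ℝ, Dm = (1 + B) * w⁻¹ * ((1 + 2 * B) * e) := ⟨_, rfl⟩
  have heD : e ≤ Dm := by
    rw [hDm]
    have h1 : 1 * 1 * (1 * e) ≤ (1 + B) * w⁻¹ * ((1 + 2 * B) * e) := by
      gcongr <;> linarith
    linarith
  have hD0 : 0 ≤ Dm := he.trans heD
  -- the two horizontal coordinates
  have hXB : |dX| ≤ Dm ∧ |dB| ≤ Dm := by
    rcases hs with ⟨hc, hx⟩ | ⟨hc, hx⟩
    · refine ⟨hx.trans heD, ?_⟩
      rw [max_eq_right hc] at hfac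
      rw [hDm]
      refine it_n_la_div hB0 hw hfac ?_
      rw [← abs_mul]
      have e1 : (k0 - k1) * dB = ((-2 * (r0 - th0 * k0) * dX + 2 * k0 * dB + dP) - (-2 * (r1 - th1 * k1) * dX + 2 * k1 * dB + dP)) / 2
          + ((r0 - th0 * k0) - (r1 - th1 * k1)) * dX := by ring
      have t := it_k_aux_term (hc.trans hk2) (by linarith) hx
      rw [e1]
      rw [abs_le] at hL0 hL1 t ⊢
      constructor <;> linarith [hL0.1, hL0.2, hL1.1, hL1.2, t.1, t.2]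
    · refine ⟨?_, hx.trans heD⟩
      rw [max_eq_left hc] at hfac
      rw [hDm]
      refine it_n_la_div hB0 hw hfac ?_
      rw [← abs_mul]
      have e1 : ((r0 - th0 * k0) - (r1 - th1 * k1)) * dX
          = -((-2 * (r0 - th0 * k0) * dX + 2 * k0 * dB + dP) - (-2 * (r1 - th1 * k1) * dX + 2 * k1 * dB + dP)) / 2
          + (k0 - k1) * dB := by ring
      have t := it_k_aux_term hk2 (by linarith) hx
      rw [e1]
      rw [abs_le] at hL0 hL1 t ⊢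
      constructor <;> linarith [hL0.1, hL0.2, hL1.1, hL1.2, t.1, t.2]
  obtain ⟨hX, hBb⟩ := hXB
  have hbe := it_n_la_be hB0 b1 b2 b3
  have t1 := it_k_aux_term hbe (by positivity) hX
  have t2 := it_k_aux_term b3 hB0 hBb
  have t3 := it_k_aux_term bX (by linarith) hBb
  have t4 := it_k_aux_term bP (by linarith) hX
  have t5 := it_k_aux_term bP (by linarith) hBb
  have eR : itnLaK1 B * w⁻¹ * e = (3 + 6 * B + 2 * (B * B)) * Dm := by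
    rw [hDm, itnLaK1]; ring
  rw [eR]
  have hBB : 0 ≤ B * B := mul_nonneg hB0 hB0
  have q1 : 0 ≤ B * Dm := mul_nonneg hB0 hD0
  have q2 : 0 ≤ B * B * Dm := mul_nonneg hBB hD0
  rw [abs_le] at t1 t2 t3 t4 t5 hL0 hH hJ hK
  refine ⟨?_, ?_, ?_, ?_, ?_, ?_⟩
  · linarith
  · linarith
  · rw [abs_le]; constructor <;> linarith [t1.1, t1.2, t2.1, t2.2, hL0.1, hL0.2]
  · rw [abs_le]; constructor <;> linarith [t3.1, t3.2, hH.1, hH.2]
  · rw [abs_le]; constructor <;> linarith [t4.1, t4.2, hJ.1, hJ.2]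
  · rw [abs_le]; constructor <;> linarith [t5.1, t5.2, hK.1, hK.2]

/-! ## tangent data -/

/-- the selector of the missing scalar: `dX` if `|β_0 - β_1| ≤ |𝔨_0 - 𝔨_1|`, else `dB` -/
noncomputable def Tan.nLaSel (T : Tan) : T.Ω → ItPh := fun ω =>
  if |(T.mrk 0 ω).be - (T.mrk 1 ω).be| ≤ |(T.mrk 0 ω).k - (T.mrk 1 ω).k| then itcX else itcB

theorem it_n_la_eqns_cite2 : True := by
  have := @Tan.nLaSel.eq_1
  trivial

theorem it_n_la_sel_nrm (T : Tan) (ω : T.Ω) : (T.nLaSel ω).nrm ≤ 1 := by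
  unfold Tan.nLaSel
  split_ifs <;> simp [ItPh.nrm, itcX, itcB]

/-- capacity: two points with the same parent name -/
theorem it_n_la_cap (T : Tan) (h0 : 0 < T.δ) (h1 : T.δ < 1) (p q : ℝ) (hpq : p ≤ q) (ω ω' : T.Ω) (hf : T.f0 p ω = T.f0 p ω') :
    ((T.F ω).sub (T.F ω')).nrm ≤ 4 * T.δ ^ (-(q - p)) * msh T.δ q := by
  have hr := it_n_msh_ratio T.δ p q h0 h1 hpq
  have key : ∀ x y : ℝ, trep T.δ p x = trep T.δ p y → |x - y| ≤ 4 * T.δ ^ (-(q - p)) * msh T.δ q := by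
    intro x y hxy
    have a1 := it_k_aux_rep_dist T.δ p x
    have a2 := it_k_aux_rep_dist T.δ p y
    rw [hxy] at a1
    rw [abs_le] at a1 a2 ⊢
    constructor <;> linarith [a1.1, a1.2, a2.1, a2.2]
  simp only [Tan.f0, itR, ItPh.mk.injEq] at hf
  obtain ⟨e1, e2, e3, e4, e5, e6⟩ := hf
  rw [it_s_nrm_le]
  exact ⟨key _ _ e1, key _ _ e2, key _ _ e3, key _ _ e4, key _ _ e5, key _ _ e6⟩

/-- the six coordinate readings of two points with the same parent -/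
theorem it_n_la_RF (T : Tan) (p r : ℝ) (ω ω' : T.Ω) (hf : T.f0 p ω = T.f0 p ω') (h : ((T.F ω).sub (T.F ω')).nrm ≤ r) :
    ∀ v ∈ itRF T.Ω, |itVal (v ω) (T.F ω) (T.f0 p ω) - itVal (v ω') (T.F ω') (T.f0 p ω')| ≤ r := by
  intro v hv
  obtain ⟨n1, n2, n3, n4, n5, n6⟩ := (it_s_nrm_le _ _).1 h
  simp only [ItPh.sub] at n1 n2 n3 n4 n5 n6
  simp only [itRF, List.mem_cons, List.not_mem_nil, or_false] at hv
  rw [← hf]
  rcases hv with rfl | rfl | rfl | rfl | rfl | rfl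
  · rw [it_k_aux_valX, it_k_aux_valX, sub_sub_sub_cancel_right]; exact n1
  · rw [it_k_aux_valB, it_k_aux_valB, sub_sub_sub_cancel_right]; exact n2
  · rw [it_k_aux_valP, it_k_aux_valP, sub_sub_sub_cancel_right]; exact n3
  · rw [it_k_aux_valY, it_k_aux_valY, sub_sub_sub_cancel_right]; exact n4
  · rw [it_k_aux_valN, it_k_aux_valN, sub_sub_sub_cancel_right]; exact n5
  · rw [it_k_aux_valD, it_k_aux_valD, sub_sub_sub_cancel_right]; exact n6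

/-- LA1: closeness on the good event -/
theorem it_n_la_close1 (a : ItPar) (ha : a.Ok) (T : Tan) (pk : ItPk) (p q u : ℝ) (h : T.Adm0 a pk) (hM : 2 ≤ pk.M) (hp : 0 < p) (hu : 0 ≤ u)
    (ω ω' : T.Ω) (hω : T.P.p ω ≠ 0)
    (hG : T.δ ^ u < |((T.mrk 0 ω).r - (T.mrk 1 ω).r) - (T.mrk 1 ω).k * ((T.mrk 0 ω).th - (T.mrk 1 ω).th)|)
    (hrd : T.rd p q ([T.nLaSel] ++ T.cL 0 :: T.cL 1 :: T.rCz p) ω = T.rd p q ([T.nLaSel] ++ T.cL 0 :: T.cL 1 :: T.rCz p) ω')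
    (hb : T.base pk.M p ω = T.base pk.M p ω') :
    ((T.F ω).sub (T.F ω')).nrm ≤ itnLaK1 a.B0 * T.δ ^ (-u) * msh T.δ q := by
  have hB : 1 ≤ a.B0 := ha.2.2.2.2.2.2.2.2
  have f0e := it_sk_f0_base T pk.M p ω ω' hb
  have m0 := it_sk_mrk_base T pk.M p ω ω' hb 0 (by omega)
  have m1 := it_sk_mrk_base T pk.M p ω ω' hb 1 (by omega)
  rw [it_k_aux_rd_iff] at hrd
  have c := fun u hu => it_k_aux_cell_dist (hrd u hu)
  have cS := c T.nLaSel (by simp)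
  have cL0 := c (T.cL 0) (by simp)
  have cL1 := c (T.cL 1) (by simp)
  have cH := c (T.cH p) (by simp [Tan.rCz])
  have cJ := c (T.cJ p) (by simp [Tan.rCz])
  have cK := c (T.cK p) (by simp [Tan.rCz])
  simp only [Tan.cL, Tan.cH, Tan.cJ, Tan.cK, Tan.nLaSel, ← f0e, ← m0, ← m1] at cS cL0 cL1 cH cJ cK
  obtain ⟨b1, b2, b3⟩ := h.bdM ω hω 0 (by omega)
  obtain ⟨_, _, b6⟩ := h.bdM ω hω 1 (by omega)
  obtain ⟨bX, _, bP, _, _, _⟩ := (it_s_nrm_le _ _).1 (it_sk_f0_bd T a pk h p hp.le ω hω)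
  have hw : 0 < T.δ ^ u := Real.rpow_pos_of_pos h.δ0 u
  have hw1 : T.δ ^ u ≤ 1 := Real.rpow_le_one h.δ0.le h.δ1.le hu
  have hm := (ig_msh_pos T.δ q).le
  rw [Real.rpow_neg h.δ0.le, it_s_nrm_le]
  refine it_n_la_alg1 hB hm hw hw1 b1 b2 b3 b6 bX bP hG ?_ ?_ ?_ ?_ ?_ ?_
  · refine le_trans (le_of_eq (congrArg _ ?_)) cL0
    simp only [itVal, itcL, ItMk.be, ItPh.sub]; ring
  · refine le_trans (le_of_eq (congrArg _ ?_)) cL1
    simp only [itVal, itcL, ItMk.be, ItPh.sub]; ring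
  · refine le_trans (le_of_eq (congrArg _ ?_)) cH
    simp only [itVal, itcH, ItPh.sub]; ring
  · refine le_trans (le_of_eq (congrArg _ ?_)) cJ
    simp only [itVal, itcJ, ItPh.sub]; ring
  · refine le_trans (le_of_eq (congrArg _ ?_)) cK
    simp only [itVal, itcK, ItPh.sub]; ring
  · by_cases hc : |(T.mrk 0 ω).be - (T.mrk 1 ω).be| ≤ |(T.mrk 0 ω).k - (T.mrk 1 ω).k|
    · rw [if_pos hc, it_k_aux_valX, it_k_aux_valX, sub_sub_sub_cancel_right] at cS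
      exact Or.inl ⟨hc, cS⟩
    · rw [if_neg hc, it_k_aux_valB, it_k_aux_valB, sub_sub_sub_cancel_right] at cS
      exact Or.inr ⟨(not_le.1 hc).le, cS⟩

/-- the final arithmetic of LA1, LA2 -/
theorem it_n_la_fin {n x y ε lK lc l2 c0 : ℝ} (hn : 0 ≤ n) (hx : 0 ≤ x) (hy : 0 ≤ y) (hε0 : 0 ≤ ε) (hε : ε ≤ 1) (hK : 0 ≤ lK) (hc : 0 ≤ lc)
    (h2 : 0 ≤ l2) (h0 : 0 ≤ c0) :
    c0 + (n * (x + lK) + ε * (n * (y + lc)) + l2) ≤ (n + n * lK + n * lc + l2 + c0) * (x + ε * y + 1) := by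
  have q1 : 0 ≤ ε * y := mul_nonneg hε0 hy
  have q2 : 0 ≤ n * lK + n * lc + l2 + c0 := by positivity
  have q3 : 0 ≤ (n * lK + n * lc + l2 + c0) * (x + ε * y) := mul_nonneg q2 (by linarith)
  have q4 : ε * (n * lc) ≤ 1 * (n * lc) := mul_le_mul_of_nonneg_right hε (by positivity)
  nlinarith

/-- LEAF LA1 with `nGood`, `nV5` unfolded -/
theorem it_n_la_main1 (a : ItPar) (ha : a.Ok) : ∃ C : ℝ, 0 ≤ C ∧ ∀ (T : Tan) (pk : ItPk) (p q u ε : ℝ), T.Adm0 a pk → 2 ≤ pk.M → 0 < p → p ≤ q →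
    0 ≤ u → ε ≤ 1 →
    T.P.pr (fun ω => ¬ (T.δ ^ u < |((T.mrk 0 ω).r - (T.mrk 1 ω).r) - (T.mrk 1 ω).k * ((T.mrk 0 ω).th - (T.mrk 1 ω).th)|)) ≤ ε →
    T.hh pk.M p q (itRF T.Ω) (T.cL 0 :: T.cL 1 :: T.rCz p) ≤ (q - p) * T.L + C * (u * T.L + ε * ((q - p) * T.L) + 1) := by
  have hB : 1 ≤ a.B0 := ha.2.2.2.2.2.2.2.2
  have hK0 : 0 ≤ itnLaK1 a.B0 := it_n_la_K1_nonneg (by linarith)
  have l1 : 0 ≤ Real.log (itnLaK1 a.B0 + 2) := Real.log_nonneg (by linarith)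
  have l2 : 0 ≤ Real.log ((4 : ℝ) + 2) := Real.log_nonneg (by norm_num)
  have l3 : 0 ≤ Real.log 2 := Real.log_nonneg (by norm_num)
  have l4 : 0 ≤ Real.log (24 * 1 + 4) := Real.log_nonneg (by norm_num)
  refine ⟨6 + 6 * Real.log (itnLaK1 a.B0 + 2) + 6 * Real.log ((4 : ℝ) + 2) + Real.log 2 + Real.log (24 * 1 + 4), by positivity, ?_⟩
  intro T pk p q u ε h hM hp hpq hu hε hpr
  have hL := it_k_aux_L_pos T h.δ0 h.δ1
  have hε0 : 0 ≤ ε := (ent_pr_nonneg T.P _).trans hpr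
  have s1 := it_k_mono T pk.M p q (itRF T.Ω) [T.nLaSel] (T.cL 0 :: T.cL 1 :: T.rCz p)
  have s2 := it_k_chain T pk.M p q (itRF T.Ω) [T.nLaSel] (T.cL 0 :: T.cL 1 :: T.rCz p)
  have s3 := it_k_cap T h.δ0 h.δ1 pk.M p q 1 hpq le_rfl T.nLaSel (fun ω _ => it_n_la_sel_nrm T ω) (T.cL 0 :: T.cL 1 :: T.rCz p)
  have s4 : T.hh pk.M p q (itRF T.Ω) ([T.nLaSel] ++ T.cL 0 :: T.cL 1 :: T.rCz p)
      ≤ 6 * Real.log (itnLaK1 a.B0 * T.δ ^ (-u) + 2) + ε * (6 * Real.log (4 * T.δ ^ (-(q - p)) + 2)) + Real.log 2 := by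
    have := it_n_rd_close T (pair (T.rd p q ([T.nLaSel] ++ T.cL 0 :: T.cL 1 :: T.rCz p)) (T.base pk.M p)) _ p q (itRF T.Ω)
      (itnLaK1 a.B0 * T.δ ^ (-u)) (4 * T.δ ^ (-(q - p))) ε (mul_nonneg hK0 (Real.rpow_nonneg h.δ0.le _))
      (mul_nonneg (by norm_num) (Real.rpow_nonneg h.δ0.le _))
      (fun v hv ω ω' hω _ hG _ hA =>
        it_n_la_RF T p _ ω ω' (it_sk_f0_base T pk.M p ω ω' (Prod.ext_iff.1 hA).2)
          (it_n_la_close1 a ha T pk p q u h hM hp hu ω ω' hω hG (Prod.ext_iff.1 hA).1 (Prod.ext_iff.1 hA).2) v hv)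
      (fun v hv ω ω' _ _ hA =>
        it_n_la_RF T p _ ω ω' (it_sk_f0_base T pk.M p ω ω' (Prod.ext_iff.1 hA).2)
          (it_n_la_cap T h.δ0 h.δ1 p q hpq ω ω' (it_sk_f0_base T pk.M p ω ω' (Prod.ext_iff.1 hA).2)) v hv) hpr
    simpa [itRF, Tan.hh] using this
  have s5 := it_n_log_le h.δ0 h.δ1 (itnLaK1 a.B0) u hK0 hu
  have s6 := it_n_log_le h.δ0 h.δ1 4 (q - p) (by norm_num) (sub_nonneg.2 hpq)
  have s7 : ε * (6 * Real.log (4 * T.δ ^ (-(q - p)) + 2)) ≤ ε * (6 * ((q - p) * T.L + Real.log ((4 : ℝ) + 2))) :=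
    mul_le_mul_of_nonneg_left (by unfold Tan.L; linarith) hε0
  have s8 := it_n_la_fin (n := 6) (x := u * T.L) (y := (q - p) * T.L) (ε := ε) (lK := Real.log (itnLaK1 a.B0 + 2)) (lc := Real.log ((4 : ℝ) + 2))
    (l2 := Real.log 2) (c0 := Real.log (24 * 1 + 4)) (by norm_num) (mul_nonneg hu hL.le) (mul_nonneg (sub_nonneg.2 hpq) hL.le) hε0 hε l1 l2 l3 l4
  have s9 : Real.log (itnLaK1 a.B0 * T.δ ^ (-u) + 2) ≤ u * T.L + Real.log (itnLaK1 a.B0 + 2) := s5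
  linarith

/-! ## LA2 -/

/-- the constants of LA2 -/
def itnLaK2 (B : ℝ) : ℝ := (1 + B + B * B) * ((1 + B) * 2)

def itnLaA2 (B : ℝ) : ℝ := 2 * (B + B * B) + 2

theorem it_n_la_eqns_cite3 : True := by
  have := @itnLaK2.eq_1; have := @itnLaA2.eq_1
  trivial

theorem it_n_la_K2_nonneg {B : ℝ} (hB : 0 ≤ B) : 0 ≤ itnLaK2 B := by
  unfold itnLaK2; positivity

/-- LA2, the pair recovers the centre -/
theorem it_n_la_alg2 {B e w H J K th0 r0 k0 th1 r1 k1 : ℝ} (hB : 1 ≤ B) (he : 0 ≤ e) (hw : 0 < w) (hw1 : w ≤ 1)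
    (b1 : |th0| ≤ B) (b2 : |r0| ≤ B) (b3 : |k0| ≤ B) (hg : w < |(r0 - r1) - k1 * (th0 - th1)|)
    (h20 : |J - k0 * H| ≤ e) (h21 : |J - k1 * H| ≤ e) (h30 : |K - (r0 - th0 * k0) * H| ≤ e) (h31 : |K - (r1 - th1 * k1) * H| ≤ e) :
    e ≤ itnLaK2 B * w⁻¹ * e ∧ |H| ≤ itnLaK2 B * w⁻¹ * e ∧ |J| ≤ itnLaK2 B * w⁻¹ * e ∧ |K| ≤ itnLaK2 B * w⁻¹ * e := by
  have hB0 : (0 : ℝ) ≤ B := by linarith
  have hfac := it_n_la_fac (k0 := k0) hB0 b1 hg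
  have hwi : 1 ≤ w⁻¹ := (one_le_inv₀ hw).2 hw1
  obtain ⟨Dm, hDm⟩ : ∃ Dm : ℝ, Dm = (1 + B) * w⁻¹ * (2 * e) := ⟨_, rfl⟩
  have heD : e ≤ Dm := by
    rw [hDm]
    have h1 : 1 * 1 * (1 * e) ≤ (1 + B) * w⁻¹ * (2 * e) := by
      gcongr <;> linarith
    linarith
  have hD0 : 0 ≤ Dm := he.trans heD
  have hH : |H| ≤ Dm := by
    rw [hDm]
    refine it_n_la_div hB0 hw hfac ?_
    rcases le_total |(r0 - th0 * k0) - (r1 - th1 * k1)| |k0 - k1| with hc | hc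
    · rw [max_eq_right hc, ← abs_mul]
      have e1 : (k0 - k1) * H = (J - k1 * H) - (J - k0 * H) := by ring
      rw [e1]
      rw [abs_le] at h20 h21 ⊢
      constructor <;> linarith [h20.1, h20.2, h21.1, h21.2]
    · rw [max_eq_left hc, ← abs_mul]
      have e1 : ((r0 - th0 * k0) - (r1 - th1 * k1)) * H = (K - (r1 - th1 * k1) * H) - (K - (r0 - th0 * k0) * H) := by ring
      rw [e1]
      rw [abs_le] at h30 h31 ⊢
      constructor <;> linarith [h30.1, h30.2, h31.1, h31.2]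
  have hbe := it_n_la_be hB0 b1 b2 b3
  have t1 := it_k_aux_term b3 hB0 hH
  have t2 := it_k_aux_term hbe (by positivity) hH
  have eR : itnLaK2 B * w⁻¹ * e = (1 + B + B * B) * Dm := by
    rw [hDm, itnLaK2]; ring
  rw [eR]
  have hBB : 0 ≤ B * B := mul_nonneg hB0 hB0
  have q1 : 0 ≤ B * Dm := mul_nonneg hB0 hD0
  have q2 : 0 ≤ B * B * Dm := mul_nonneg hBB hD0
  rw [abs_le] at t1 t2 h20 h30
  refine ⟨?_, ?_, ?_, ?_⟩
  · linarith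
  · linarith
  · rw [abs_le]; constructor <;> linarith [t1.1, t1.2, h20.1, h20.2]
  · rw [abs_le]; constructor <;> linarith [t2.1, t2.2, h30.1, h30.2]

/-- LA2: closeness on the good event -/
theorem it_n_la_close2 (a : ItPar) (ha : a.Ok) (T : Tan) (pk : ItPk) (p q u : ℝ) (h : T.Adm0 a pk) (hq : T.quad = true) (hM : 2 ≤ pk.M)
    (hu : 0 ≤ u) (ω ω' : T.Ω) (hω : T.P.p ω ≠ 0)
    (hG : T.δ ^ u < |((T.mrk 0 ω).r - (T.mrk 1 ω).r) - (T.mrk 1 ω).k * ((T.mrk 0 ω).th - (T.mrk 1 ω).th)|)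
    (hrd : T.rd p q ((T.rG p 0 ++ T.rG p 1) ++ []) ω = T.rd p q ((T.rG p 0 ++ T.rG p 1) ++ []) ω')
    (hb : T.base pk.M p ω = T.base pk.M p ω') :
    ∀ v ∈ (T.cL 0 :: T.cL 1 :: T.rCz p), |itVal (v ω) (T.F ω) (T.f0 p ω) - itVal (v ω') (T.F ω') (T.f0 p ω')|
      ≤ itnLaK2 a.B0 * T.δ ^ (-u) * msh T.δ q := by
  have hB : 1 ≤ a.B0 := ha.2.2.2.2.2.2.2.2
  have f0e := it_sk_f0_base T pk.M p ω ω' hb
  have m0 := it_sk_mrk_base T pk.M p ω ω' hb 0 (by omega)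
  have m1 := it_sk_mrk_base T pk.M p ω ω' hb 1 (by omega)
  rw [it_k_aux_rd_iff] at hrd
  have c := fun u hu => it_k_aux_cell_dist (hrd u hu)
  have cL0 := c (T.cL 0) (by simp [Tan.rG, hq])
  have cL1 := c (T.cL 1) (by simp [Tan.rG, hq])
  have c20 := c (fun ω => itcG2 (T.f0 p ω) (T.mrk 0 ω)) (by simp [Tan.rG, hq])
  have c21 := c (fun ω => itcG2 (T.f0 p ω) (T.mrk 1 ω)) (by simp [Tan.rG, hq])
  have c30 := c (fun ω => itcG3 (T.f0 p ω) (T.mrk 0 ω)) (by simp [Tan.rG, hq])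
  have c31 := c (fun ω => itcG3 (T.f0 p ω) (T.mrk 1 ω)) (by simp [Tan.rG, hq])
  simp only [← f0e, ← m0, ← m1] at c20 c21 c30 c31
  obtain ⟨b1, b2, b3⟩ := h.bdM ω hω 0 (by omega)
  have hw : 0 < T.δ ^ u := Real.rpow_pos_of_pos h.δ0 u
  have hw1 : T.δ ^ u ≤ 1 := Real.rpow_le_one h.δ0.le h.δ1.le hu
  have hm := (ig_msh_pos T.δ q).le
  rw [Real.rpow_neg h.δ0.le]
  obtain ⟨r0, r1, r2, r3⟩ := it_n_la_alg2 (H := itVal (itcH (T.f0 p ω)) (T.F ω) (T.f0 p ω) - itVal (itcH (T.f0 p ω)) (T.F ω') (T.f0 p ω))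
    (J := itVal (itcJ (T.f0 p ω)) (T.F ω) (T.f0 p ω) - itVal (itcJ (T.f0 p ω)) (T.F ω') (T.f0 p ω))
    (K := itVal (itcK (T.f0 p ω)) (T.F ω) (T.f0 p ω) - itVal (itcK (T.f0 p ω)) (T.F ω') (T.f0 p ω))
    hB hm hw hw1 b1 b2 b3 hG
    (by
      refine le_trans (le_of_eq (congrArg _ ?_)) c20
      simp only [itVal, itcG2, itcH, itcJ]; ring)
    (by
      refine le_trans (le_of_eq (congrArg _ ?_)) c21
      simp only [itVal, itcG2, itcH, itcJ]; ring)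
    (by
      refine le_trans (le_of_eq (congrArg _ ?_)) c30
      simp only [itVal, itcG3, itcH, itcK, ItMk.be]; ring)
    (by
      refine le_trans (le_of_eq (congrArg _ ?_)) c31
      simp only [itVal, itcG3, itcH, itcK, ItMk.be]; ring)
  intro v hv
  simp only [Tan.rCz, List.mem_cons, List.not_mem_nil, or_false] at hv
  rcases hv with rfl | rfl | rfl | rfl | rfl
  · exact cL0.trans r0
  · exact cL1.trans r0
  · simp only [Tan.cH, ← f0e]; exact r1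
  · simp only [Tan.cJ, ← f0e]; exact r2
  · simp only [Tan.cK, ← f0e]; exact r3

/-- the covectors of `V5` are bounded -/
theorem it_n_la_V5_bd (a : ItPar) (ha : a.Ok) (T : Tan) (pk : ItPk) (p : ℝ) (h : T.Adm0 a pk) (hM : 2 ≤ pk.M) (hp : 0 < p)
    (ω : T.Ω) (hω : T.P.p ω ≠ 0) : ∀ v ∈ (T.cL 0 :: T.cL 1 :: T.rCz p), (v ω).nrm ≤ itnLaA2 a.B0 := by
  have hB : 1 ≤ a.B0 := ha.2.2.2.2.2.2.2.2
  have hB0 : (0 : ℝ) ≤ a.B0 := by linarith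
  have hBB : 0 ≤ a.B0 * a.B0 := mul_nonneg hB0 hB0
  obtain ⟨bX, _, bP, _, _, _⟩ := (it_s_nrm_le _ _).1 (it_sk_f0_bd T a pk h p hp.le ω hω)
  have hL : ∀ i < pk.M, (T.cL i ω).nrm ≤ itnLaA2 a.B0 := by
    intro i hi
    obtain ⟨b1, b2, b3⟩ := h.bdM ω hω i hi
    have hbe := it_n_la_be hB0 b1 b2 b3
    rw [it_s_nrm_le]
    simp only [Tan.cL, itcL, ItMk.be, itnLaA2, abs_mul, abs_neg, abs_two, abs_one, abs_zero]
    refine ⟨by linarith, by linarith, by linarith, by linarith, by linarith, by linarith⟩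
  intro v hv
  simp only [Tan.rCz, List.mem_cons, List.not_mem_nil, or_false] at hv
  rcases hv with rfl | rfl | rfl | rfl | rfl
  · exact hL 0 (by omega)
  · exact hL 1 (by omega)
  · rw [it_s_nrm_le]
    simp only [Tan.cH, itcH, itnLaA2, abs_mul, abs_neg, abs_two, abs_one, abs_zero]
    refine ⟨by linarith, by linarith, by linarith, by linarith, by linarith, by linarith⟩
  · rw [it_s_nrm_le]
    simp only [Tan.cJ, itcJ, itnLaA2, abs_neg, abs_one, abs_zero]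
    refine ⟨by linarith, by linarith, by linarith, by linarith, by linarith, by linarith⟩
  · rw [it_s_nrm_le]
    simp only [Tan.cK, itcK, itnLaA2, abs_neg, abs_one, abs_zero]
    refine ⟨by linarith, by linarith, by linarith, by linarith, by linarith, by linarith⟩

/-- capacity of a bounded reading -/
theorem it_n_la_cap2 (T : Tan) (h0 : 0 < T.δ) (h1 : T.δ < 1) (p q A : ℝ) (hpq : p ≤ q) (hA : 0 ≤ A) (v : T.Ω → ItPh) (ω ω' : T.Ω)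
    (hv : (v ω).nrm ≤ A) (hv' : (v ω').nrm ≤ A) :
    |itVal (v ω) (T.F ω) (T.f0 p ω) - itVal (v ω') (T.F ω') (T.f0 p ω')| ≤ 24 * A * T.δ ^ (-(q - p)) * msh T.δ q := by
  have hr := it_n_msh_ratio T.δ p q h0 h1 hpq
  have b1 := it_k_aux_val_bd T.δ p A hA (v ω) (T.F ω) hv
  have b2 := it_k_aux_val_bd T.δ p A hA (v ω') (T.F ω') hv'
  have b3 : 12 * A * msh T.δ p ≤ 12 * A * (2 * T.δ ^ (-(q - p)) * msh T.δ q) := mul_le_mul_of_nonneg_left hr (by linarith)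
  unfold Tan.f0
  rw [abs_le] at b1 b2 ⊢
  constructor <;> linarith [b1.1, b1.2, b2.1, b2.2]

/-- LEAF LA2 with `nGood`, `nV5` unfolded -/
theorem it_n_la_main2 (a : ItPar) (ha : a.Ok) : ∃ C : ℝ, 0 ≤ C ∧ ∀ (T : Tan) (pk : ItPk) (p q u ε : ℝ), T.Adm0 a pk → T.quad = true → 2 ≤ pk.M →
    0 < p → p ≤ q → 0 ≤ u → ε ≤ 1 →
    T.P.pr (fun ω => ¬ (T.δ ^ u < |((T.mrk 0 ω).r - (T.mrk 1 ω).r) - (T.mrk 1 ω).k * ((T.mrk 0 ω).th - (T.mrk 1 ω).th)|)) ≤ ε →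
    T.hh pk.M p q (T.cL 0 :: T.cL 1 :: T.rCz p) [] ≤ T.hh pk.M p q (T.rG p 0 ++ T.rG p 1) [] + C * (u * T.L + ε * ((q - p) * T.L) + 1) := by
  have hB : 1 ≤ a.B0 := ha.2.2.2.2.2.2.2.2
  have hK0 : 0 ≤ itnLaK2 a.B0 := it_n_la_K2_nonneg (by linarith)
  have hA0 : 0 ≤ itnLaA2 a.B0 := by unfold itnLaA2; nlinarith
  have l1 : 0 ≤ Real.log (itnLaK2 a.B0 + 2) := Real.log_nonneg (by linarith)
  have l2 : 0 ≤ Real.log (24 * itnLaA2 a.B0 + 2) := Real.log_nonneg (by linarith)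
  have l3 : 0 ≤ Real.log 2 := Real.log_nonneg (by norm_num)
  refine ⟨5 + 5 * Real.log (itnLaK2 a.B0 + 2) + 5 * Real.log (24 * itnLaA2 a.B0 + 2) + Real.log 2 + 0, by positivity, ?_⟩
  intro T pk p q u ε h hq hM hp hpq hu hε hpr
  have hL := it_k_aux_L_pos T h.δ0 h.δ1
  have hε0 : 0 ≤ ε := (ent_pr_nonneg T.P _).trans hpr
  have s1 := it_k_mono T pk.M p q (T.cL 0 :: T.cL 1 :: T.rCz p) (T.rG p 0 ++ T.rG p 1) []
  have s2 := it_k_chain T pk.M p q (T.cL 0 :: T.cL 1 :: T.rCz p) (T.rG p 0 ++ T.rG p 1) []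
  have s4 : T.hh pk.M p q (T.cL 0 :: T.cL 1 :: T.rCz p) ((T.rG p 0 ++ T.rG p 1) ++ [])
      ≤ 5 * Real.log (itnLaK2 a.B0 * T.δ ^ (-u) + 2) + ε * (5 * Real.log (24 * itnLaA2 a.B0 * T.δ ^ (-(q - p)) + 2)) + Real.log 2 := by
    have := it_n_rd_close T (pair (T.rd p q ((T.rG p 0 ++ T.rG p 1) ++ [])) (T.base pk.M p)) _ p q (T.cL 0 :: T.cL 1 :: T.rCz p)
      (itnLaK2 a.B0 * T.δ ^ (-u)) (24 * itnLaA2 a.B0 * T.δ ^ (-(q - p))) ε (mul_nonneg hK0 (Real.rpow_nonneg h.δ0.le _))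
      (mul_nonneg (by linarith) (Real.rpow_nonneg h.δ0.le _))
      (fun v hv ω ω' hω _ hG _ hA =>
        it_n_la_close2 a ha T pk p q u h hq hM hu ω ω' hω hG (Prod.ext_iff.1 hA).1 (Prod.ext_iff.1 hA).2 v hv)
      (fun v hv ω ω' hω hω' _ =>
        it_n_la_cap2 T h.δ0 h.δ1 p q _ hpq hA0 v ω ω' (it_n_la_V5_bd a ha T pk p h hM hp ω hω v hv)
          (it_n_la_V5_bd a ha T pk p h hM hp ω' hω' v hv)) hpr
    simpa [Tan.rCz, Tan.hh] using this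
  have s5 := it_n_log_le h.δ0 h.δ1 (itnLaK2 a.B0) u hK0 hu
  have s6 := it_n_log_le h.δ0 h.δ1 (24 * itnLaA2 a.B0) (q - p) (by linarith) (sub_nonneg.2 hpq)
  have s7 : ε * (5 * Real.log (24 * itnLaA2 a.B0 * T.δ ^ (-(q - p)) + 2)) ≤ ε * (5 * ((q - p) * T.L + Real.log (24 * itnLaA2 a.B0 + 2))) :=
    mul_le_mul_of_nonneg_left (by unfold Tan.L; linarith) hε0
  have s8 := it_n_la_fin (n := 5) (x := u * T.L) (y := (q - p) * T.L) (ε := ε) (lK := Real.log (itnLaK2 a.B0 + 2))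
    (lc := Real.log (24 * itnLaA2 a.B0 + 2))
    (l2 := Real.log 2) (c0 := 0) (by norm_num) (mul_nonneg hu hL.le) (mul_nonneg (sub_nonneg.2 hpq) hL.le) hε0 hε l1 l2 l3 le_rfl
  have s9 : Real.log (itnLaK2 a.B0 * T.δ ^ (-u) + 2) ≤ u * T.L + Real.log (itnLaK2 a.B0 + 2) := s5
  linarith

end Claimed.Agent.R256
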