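import Claimed.Agent.R256.Int.Comb

/-!
# Row 256, Sec. 5: THE SYMBOLS of the readings and their regularity      (helper6; prefix `it_s_`, symbols `its*`; no sorry)

For ALL rate blocks.   `T.fld p (itsW i) = T.cW i` etc. hold by `rfl` (`it_s_fld_*`).
REGULARITY.  `ItSc.RegE g n B` : the scalar symbol `g` depends on the marks `< n` only and is bounded and Lipschitz on the box of size `B`, with SOME constant.
Closed under constants, coordinates, `+ - * neg`  (`it_s_c_*`): a polynomial symbol is regular by `it_s_poly` style `first | apply ..` chains, see the examples below.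
`it_s_reg_mk` : six regular components give `∃ A0, ∀ M ≥ n, U.Reg M B0 A0` (`ItSym.RegU U n B0`); `it_s_regU_list` : ONE constant for a finite list of symbols (the constant `A0` of the tests of `Int/Meta.lean` is chosen first).
-/

set_option autoImplicit false
set_option linter.unreachableTactic false
set_option linter.unusedTactic false

namespace Claimed.Agent.R256

open Claimed.Agent.R255
open scoped BigOperators
open Classical

theorem it_s_nrm_le (f : ItPh) (A : ℝ) :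
    f.nrm ≤ A ↔ |f.X| ≤ A ∧ |f.B| ≤ A ∧ |f.P| ≤ A ∧ |f.Y| ≤ A ∧ |f.N| ≤ A ∧ |f.D| ≤ A := by
  simp only [ItPh.nrm, max_le_iff]
  tauto

theorem it_s_nrm_nonneg (f : ItPh) : 0 ≤ f.nrm :=
  (abs_nonneg f.X).trans (((it_s_nrm_le f f.nrm).1 le_rfl).1)

/-- scalar symbols -/
abbrev ItSc : Type := ItPh → (ℕ → ItMk) → ℝ

/-- regular scalar symbol -/
structure ItSc.Reg (g : ItSc) (n : ℕ) (B A : ℝ) : Prop where
  dep : ∀ f Ξ Ξ', (∀ i < n, Ξ i = Ξ' i) → g f Ξ = g f Ξ'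
  bd : ∀ f Ξ, f.nrm ≤ B → itBoxM n B Ξ → |g f Ξ| ≤ A
  lip : ∀ f f' Ξ Ξ' ε, f.nrm ≤ B → f'.nrm ≤ B → itBoxM n B Ξ → itBoxM n B Ξ' →
    (f.sub f').nrm ≤ ε → itNearM n ε Ξ Ξ' → |g f Ξ - g f' Ξ'| ≤ A * ε

/-- regular with some constant -/
def ItSc.RegE (g : ItSc) (n : ℕ) (B : ℝ) : Prop := ∃ A : ℝ, 0 ≤ A ∧ g.Reg n B A

/-- regular vector symbol, uniformly in the number of records -/
def ItSym.RegU (U : ItSym) (n : ℕ) (B0 : ℝ) : Prop := ∃ A0 : ℝ, 0 ≤ A0 ∧ ∀ M, n ≤ M → U.Reg M B0 A0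

theorem it_s_eqns_cite : True := by
  have := @ItSc.RegE.eq_1; have := @ItSym.RegU.eq_1
  trivial

theorem it_s_c_const (c : ℝ) (n : ℕ) (B : ℝ) : ItSc.RegE (fun _ _ => c) n B := by
  refine ⟨|c|, abs_nonneg _, fun _ _ _ _ => rfl, fun _ _ _ _ => le_rfl, fun f f' Ξ Ξ' ε _ _ _ _ h _ => ?_⟩
  have hε : 0 ≤ ε := (it_s_nrm_nonneg _).trans h
  simp only [sub_self, abs_zero]
  positivity

theorem it_s_c_add {g h : ItSc} {n : ℕ} {B : ℝ} (hg : g.RegE n B) (hh : h.RegE n B) : ItSc.RegE (fun f Ξ => g f Ξ + h f Ξ) n B := by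
  obtain ⟨A, hA, G⟩ := hg
  obtain ⟨A', hA', H⟩ := hh
  refine ⟨A + A', by positivity, fun f Ξ Ξ' e => by rw [G.dep f Ξ Ξ' e, H.dep f Ξ Ξ' e], fun f Ξ h1 h2 => ?_,
    fun f f' Ξ Ξ' ε h1 h2 h3 h4 h5 h6 => ?_⟩
  · exact (abs_add_le _ _).trans (add_le_add (G.bd f Ξ h1 h2) (H.bd f Ξ h1 h2))
  · have e : g f Ξ + h f Ξ - (g f' Ξ' + h f' Ξ') = (g f Ξ - g f' Ξ') + (h f Ξ - h f' Ξ') := by ring
    rw [e, add_mul]
    exact (abs_add_le _ _).trans (add_le_add (G.lip f f' Ξ Ξ' ε h1 h2 h3 h4 h5 h6) (H.lip f f' Ξ Ξ' ε h1 h2 h3 h4 h5 h6))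

theorem it_s_c_neg {g : ItSc} {n : ℕ} {B : ℝ} (hg : g.RegE n B) : ItSc.RegE (fun f Ξ => -g f Ξ) n B := by
  obtain ⟨A, hA, G⟩ := hg
  refine ⟨A, hA, fun f Ξ Ξ' e => by rw [G.dep f Ξ Ξ' e], fun f Ξ h1 h2 => by rw [abs_neg]; exact G.bd f Ξ h1 h2,
    fun f f' Ξ Ξ' ε h1 h2 h3 h4 h5 h6 => ?_⟩
  have e : -g f Ξ - -g f' Ξ' = -(g f Ξ - g f' Ξ') := by ring
  rw [e, abs_neg]
  exact G.lip f f' Ξ Ξ' ε h1 h2 h3 h4 h5 h6

theorem it_s_c_sub {g h : ItSc} {n : ℕ} {B : ℝ} (hg : g.RegE n B) (hh : h.RegE n B) : ItSc.RegE (fun f Ξ => g f Ξ - h f Ξ) n B := by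
  have := it_s_c_add hg (it_s_c_neg hh)
  simpa only [sub_eq_add_neg] using this

theorem it_s_c_mul {g h : ItSc} {n : ℕ} {B : ℝ} (hg : g.RegE n B) (hh : h.RegE n B) : ItSc.RegE (fun f Ξ => g f Ξ * h f Ξ) n B := by
  obtain ⟨A, hA, G⟩ := hg
  obtain ⟨A', hA', H⟩ := hh
  refine ⟨2 * (A * A'), by positivity, fun f Ξ Ξ' e => by rw [G.dep f Ξ Ξ' e, H.dep f Ξ Ξ' e], fun f Ξ h1 h2 => ?_,
    fun f f' Ξ Ξ' ε h1 h2 h3 h4 h5 h6 => ?_⟩
  · rw [abs_mul]
    have := mul_le_mul (G.bd f Ξ h1 h2) (H.bd f Ξ h1 h2) (abs_nonneg _) hA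
    nlinarith [mul_nonneg hA hA']
  · have e : g f Ξ * h f Ξ - g f' Ξ' * h f' Ξ' = g f Ξ * (h f Ξ - h f' Ξ') + (g f Ξ - g f' Ξ') * h f' Ξ' := by ring
    have hε : 0 ≤ ε := (it_s_nrm_nonneg _).trans h5
    rw [e]
    refine (abs_add_le _ _).trans ?_
    rw [abs_mul, abs_mul]
    have e1 := mul_le_mul (G.bd f Ξ h1 h3) (H.lip f f' Ξ Ξ' ε h1 h2 h3 h4 h5 h6) (abs_nonneg _) hA
    have e2 := mul_le_mul (G.lip f f' Ξ Ξ' ε h1 h2 h3 h4 h5 h6) (H.bd f' Ξ' h2 h4) (abs_nonneg _) (by positivity)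
    nlinarith

theorem it_s_c_pow {g : ItSc} {n : ℕ} {B : ℝ} (hg : g.RegE n B) (k : ℕ) : ItSc.RegE (fun f Ξ => g f Ξ ^ k) n B := by
  induction k with
  | zero => simpa using it_s_c_const 1 n B
  | succ k ih => simpa only [pow_succ] using it_s_c_mul ih hg

/-- a coordinate of the phase -/
theorem it_s_c_ph (π : ItPh → ℝ) (hπ : ∀ f, |π f| ≤ f.nrm) (hsub : ∀ f f', π f - π f' = π (f.sub f')) (n : ℕ) (B : ℝ) :
    ItSc.RegE (fun f _ => π f) n B := by
  refine ⟨max B 1, by positivity, fun _ _ _ _ => rfl, fun f _ h _ => ((hπ f).trans h).trans (le_max_left _ _),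
    fun f f' _ _ ε _ _ _ _ h _ => ?_⟩
  have hε : 0 ≤ ε := (it_s_nrm_nonneg _).trans h
  rw [hsub]
  calc |π (f.sub f')| ≤ ε := (hπ _).trans h
    _ ≤ max B 1 * ε := le_mul_of_one_le_left hε (le_max_right _ _)

theorem it_s_c_X (n : ℕ) (B : ℝ) : ItSc.RegE (fun f _ => f.X) n B :=
  it_s_c_ph (fun f => f.X) (fun f => ((it_s_nrm_le f _).1 le_rfl).1) (fun _ _ => rfl) n B
theorem it_s_c_B (n : ℕ) (B : ℝ) : ItSc.RegE (fun f _ => f.B) n B :=
  it_s_c_ph (fun f => f.B) (fun f => ((it_s_nrm_le f _).1 le_rfl).2.1) (fun _ _ => rfl) n B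
theorem it_s_c_P (n : ℕ) (B : ℝ) : ItSc.RegE (fun f _ => f.P) n B :=
  it_s_c_ph (fun f => f.P) (fun f => ((it_s_nrm_le f _).1 le_rfl).2.2.1) (fun _ _ => rfl) n B
theorem it_s_c_Y (n : ℕ) (B : ℝ) : ItSc.RegE (fun f _ => f.Y) n B :=
  it_s_c_ph (fun f => f.Y) (fun f => ((it_s_nrm_le f _).1 le_rfl).2.2.2.1) (fun _ _ => rfl) n B
theorem it_s_c_N (n : ℕ) (B : ℝ) : ItSc.RegE (fun f _ => f.N) n B :=
  it_s_c_ph (fun f => f.N) (fun f => ((it_s_nrm_le f _).1 le_rfl).2.2.2.2.1) (fun _ _ => rfl) n B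
theorem it_s_c_D (n : ℕ) (B : ℝ) : ItSc.RegE (fun f _ => f.D) n B :=
  it_s_c_ph (fun f => f.D) (fun f => ((it_s_nrm_le f _).1 le_rfl).2.2.2.2.2) (fun _ _ => rfl) n B

theorem it_s_c_th (i n : ℕ) (hi : i < n) (B : ℝ) : ItSc.RegE (fun _ Ξ => (Ξ i).th) n B := by
  refine ⟨max B 1, by positivity, fun _ Ξ Ξ' e => by rw [e i hi], fun _ Ξ _ h => (h i hi).1.trans (le_max_left _ _),
    fun f f' Ξ Ξ' ε _ _ _ _ h5 h => ?_⟩
  have hε : 0 ≤ ε := (it_s_nrm_nonneg _).trans h5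
  exact (h i hi).1.trans (le_mul_of_one_le_left hε (le_max_right _ _))

theorem it_s_c_r (i n : ℕ) (hi : i < n) (B : ℝ) : ItSc.RegE (fun _ Ξ => (Ξ i).r) n B := by
  refine ⟨max B 1, by positivity, fun _ Ξ Ξ' e => by rw [e i hi], fun _ Ξ _ h => (h i hi).2.1.trans (le_max_left _ _),
    fun f f' Ξ Ξ' ε _ _ _ _ h5 h => ?_⟩
  have hε : 0 ≤ ε := (it_s_nrm_nonneg _).trans h5
  exact (h i hi).2.1.trans (le_mul_of_one_le_left hε (le_max_right _ _))

theorem it_s_c_k (i n : ℕ) (hi : i < n) (B : ℝ) : ItSc.RegE (fun _ Ξ => (Ξ i).k) n B := by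
  refine ⟨max B 1, by positivity, fun _ Ξ Ξ' e => by rw [e i hi], fun _ Ξ _ h => (h i hi).2.2.trans (le_max_left _ _),
    fun f f' Ξ Ξ' ε _ _ _ _ h5 h => ?_⟩
  have hε : 0 ≤ ε := (it_s_nrm_nonneg _).trans h5
  exact (h i hi).2.2.trans (le_mul_of_one_le_left hε (le_max_right _ _))

theorem it_s_box_mono {n M : ℕ} (h : n ≤ M) {B : ℝ} {Ξ : ℕ → ItMk} (hb : itBoxM M B Ξ) : itBoxM n B Ξ :=
  fun i hi => hb i (hi.trans_le h)

theorem it_s_near_mono {n M : ℕ} (h : n ≤ M) {ε : ℝ} {Ξ Ξ' : ℕ → ItMk} (hb : itNearM M ε Ξ Ξ') : itNearM n ε Ξ Ξ' :=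
  fun i hi => hb i (hi.trans_le h)

/-- monotone in the constant -/
theorem it_s_reg_mono {U : ItSym} {M : ℕ} {B0 A A' : ℝ} (hA : A ≤ A') (h : U.Reg M B0 A) : U.Reg M B0 A' :=
  ⟨h.dep, fun f Ξ h1 h2 => (h.bd f Ξ h1 h2).trans hA, fun f f' Ξ Ξ' ε h1 h2 h3 h4 h5 h6 =>
    (h.lip f f' Ξ Ξ' ε h1 h2 h3 h4 h5 h6).trans (mul_le_mul_of_nonneg_right hA ((it_s_nrm_nonneg _).trans h5))⟩

/-- six regular components give a regular symbol -/
theorem it_s_reg_mk (U : ItSym) (n : ℕ) (B0 : ℝ)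
    (hX : ItSc.RegE (fun f Ξ => (U f Ξ).X) n (B0 + 1)) (hB : ItSc.RegE (fun f Ξ => (U f Ξ).B) n (B0 + 1))
    (hP : ItSc.RegE (fun f Ξ => (U f Ξ).P) n (B0 + 1)) (hY : ItSc.RegE (fun f Ξ => (U f Ξ).Y) n (B0 + 1))
    (hN : ItSc.RegE (fun f Ξ => (U f Ξ).N) n (B0 + 1)) (hD : ItSc.RegE (fun f Ξ => (U f Ξ).D) n (B0 + 1)) : U.RegU n B0 := by
  obtain ⟨a1, p1, G1⟩ := hX
  obtain ⟨a2, p2, G2⟩ := hB
  obtain ⟨a3, p3, G3⟩ := hP
  obtain ⟨a4, p4, G4⟩ := hY
  obtain ⟨a5, p5, G5⟩ := hN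
  obtain ⟨a6, p6, G6⟩ := hD
  refine ⟨a1 + a2 + a3 + a4 + a5 + a6, by positivity, fun M hM => ⟨fun f Ξ Ξ' e => ?_, fun f Ξ h1 h2 => ?_,
    fun f f' Ξ Ξ' ε h1 h2 h3 h4 h5 h6 => ?_⟩⟩
  · have e' : ∀ i < n, Ξ i = Ξ' i := fun i hi => e i (hi.trans_le hM)
    have q1 := G1.dep f Ξ Ξ' e'
    have q2 := G2.dep f Ξ Ξ' e'
    have q3 := G3.dep f Ξ Ξ' e'
    have q4 := G4.dep f Ξ Ξ' e'
    have q5 := G5.dep f Ξ Ξ' e'
    have q6 := G6.dep f Ξ Ξ' e'
    cases hU : U f Ξ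
    cases hU' : U f Ξ'
    simp only [hU, hU'] at q1 q2 q3 q4 q5 q6
    subst q1 q2 q3 q4 q5 q6
    rfl
  · have h2' := it_s_box_mono hM h2
    rw [it_s_nrm_le]
    refine ⟨(G1.bd f Ξ h1 h2').trans ?_, (G2.bd f Ξ h1 h2').trans ?_, (G3.bd f Ξ h1 h2').trans ?_, (G4.bd f Ξ h1 h2').trans ?_,
      (G5.bd f Ξ h1 h2').trans ?_, (G6.bd f Ξ h1 h2').trans ?_⟩ <;> linarith
  · have h3' := it_s_box_mono hM h3
    have h4' := it_s_box_mono hM h4
    have h6' := it_s_near_mono hM h6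
    have hε : 0 ≤ ε := (it_s_nrm_nonneg _).trans h5
    rw [it_s_nrm_le]
    refine ⟨(G1.lip f f' Ξ Ξ' ε h1 h2 h3' h4' h5 h6').trans ?_, (G2.lip f f' Ξ Ξ' ε h1 h2 h3' h4' h5 h6').trans ?_,
      (G3.lip f f' Ξ Ξ' ε h1 h2 h3' h4' h5 h6').trans ?_, (G4.lip f f' Ξ Ξ' ε h1 h2 h3' h4' h5 h6').trans ?_,
      (G5.lip f f' Ξ Ξ' ε h1 h2 h3' h4' h5 h6').trans ?_, (G6.lip f f' Ξ Ξ' ε h1 h2 h3' h4' h5 h6').trans ?_⟩ <;>
    exact mul_le_mul_of_nonneg_right (by linarith) hε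

/-- more records -/
theorem it_s_regU_mono {U : ItSym} {n n' : ℕ} {B0 : ℝ} (h : n ≤ n') (hU : U.RegU n B0) : U.RegU n' B0 := by
  obtain ⟨A, hA, H⟩ := hU
  exact ⟨A, hA, fun M hM => H M (h.trans hM)⟩

/-- ONE constant for a finite list of symbols -/
theorem it_s_regU_list (l : List ItSym) (n : ℕ) (B0 : ℝ) (h : ∀ U ∈ l, ItSym.RegU U n B0) :
    ∃ A0 : ℝ, 0 ≤ A0 ∧ ∀ U ∈ l, ∀ M, n ≤ M → ItSym.Reg U M B0 A0 := by
  induction l with
  | nil => exact ⟨0, le_rfl, fun U hU => by simp at hU⟩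
  | cons V l ih =>
    obtain ⟨A, hA, H⟩ := ih fun U hU => h U (List.mem_cons_of_mem _ hU)
    obtain ⟨A', hA', H'⟩ := h V List.mem_cons_self
    refine ⟨max A A', le_max_of_le_left hA, fun U hU M hM => ?_⟩
    rcases List.mem_cons.1 hU with rfl | hU
    · exact it_s_reg_mono (le_max_right _ _) (H' M hM)
    · exact it_s_reg_mono (le_max_left _ _) (H U hU M hM)

/-! ## the symbols of Sec. 5 -/

def itsX : ItSym := fun _ _ => itcX
def itsB : ItSym := fun _ _ => itcB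
def itsP : ItSym := fun _ _ => itcP
def itsY : ItSym := fun _ _ => itcY
def itsN : ItSym := fun _ _ => itcN
def itsD : ItSym := fun _ _ => itcD
def itsH : ItSym := fun f _ => itcH f
def itsJ : ItSym := fun f _ => itcJ f
def itsK : ItSym := fun f _ => itcK f
def itsW (i : ℕ) : ItSym := fun _ Ξ => itcW (Ξ i)
def itsxq (i : ℕ) : ItSym := fun f Ξ => itcxq f (Ξ i)
def itsxl (i : ℕ) : ItSym := fun _ Ξ => itcxl (Ξ i)
def itsL (i : ℕ) : ItSym := fun _ Ξ => itcL (Ξ i)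
def itsG2 (i : ℕ) : ItSym := fun f Ξ => itcG2 f (Ξ i)
def itsG3 (i : ℕ) : ItSym := fun f Ξ => itcG3 f (Ξ i)
def itsGa (i : ℕ) : ItSym := fun _ Ξ => itcGa (Ξ i)
def itsGb (i : ℕ) : ItSym := fun _ Ξ => itcGb (Ξ i)

theorem it_s_eqns_cite2 : True := by
  have := @itsX.eq_1; have := @itsB.eq_1; have := @itsP.eq_1; have := @itsY.eq_1; have := @itsN.eq_1; have := @itsD.eq_1
  have := @itsH.eq_1; have := @itsJ.eq_1; have := @itsK.eq_1; have := @itsW.eq_1; have := @itsxq.eq_1; have := @itsxl.eq_1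
  have := @itsL.eq_1; have := @itsG2.eq_1; have := @itsG3.eq_1; have := @itsGa.eq_1; have := @itsGb.eq_1
  trivial

section fld
variable (T : Tan) (p : ℝ) (i : ℕ)
theorem it_s_fld_X : T.fld p itsX = fun _ => itcX := rfl
theorem it_s_fld_B : T.fld p itsB = fun _ => itcB := rfl
theorem it_s_fld_P : T.fld p itsP = fun _ => itcP := rfl
theorem it_s_fld_Y : T.fld p itsY = fun _ => itcY := rfl
theorem it_s_fld_N : T.fld p itsN = fun _ => itcN := rfl
theorem it_s_fld_D : T.fld p itsD = fun _ => itcD := rfl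
theorem it_s_fld_H : T.fld p itsH = T.cH p := rfl
theorem it_s_fld_J : T.fld p itsJ = T.cJ p := rfl
theorem it_s_fld_K : T.fld p itsK = T.cK p := rfl
theorem it_s_fld_W : T.fld p (itsW i) = T.cW i := rfl
theorem it_s_fld_L : T.fld p (itsL i) = T.cL i := rfl
theorem it_s_fld_xq (h : T.quad = true) : T.fld p (itsxq i) = T.cx p i := by
  funext ω
  simp [Tan.fld, Tan.cx, itsxq, h]
theorem it_s_fld_xl (h : T.quad = false) : T.fld p (itsxl i) = T.cx p i := by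
  funext ω
  simp [Tan.fld, Tan.cx, itsxl, h]
theorem it_s_fld_Gq (h : T.quad = true) : [itsL i, itsG2 i, itsG3 i].map (T.fld p) = T.rG p i := by
  simp [Tan.rG, h]
  exact ⟨rfl, rfl, rfl⟩
theorem it_s_fld_Gl (h : T.quad = false) : [itsGa i, itsGb i].map (T.fld p) = T.rG p i := by
  simp [Tan.rG, h]
  exact ⟨rfl, rfl⟩
end fld

/-! ## regularity of the symbols -/

theorem it_s_regU_X (B0 : ℝ) : ItSym.RegU itsX 0 B0 := by
  apply it_s_reg_mk <;> dsimp only [itsX, itcX] <;>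
    repeat' first
      | exact it_s_c_const _ _ _ | exact it_s_c_X _ _ | exact it_s_c_B _ _ | exact it_s_c_P _ _ | exact it_s_c_Y _ _ | exact it_s_c_N _ _
      | exact it_s_c_D _ _ | exact it_s_c_th _ _ (by omega) _ | exact it_s_c_r _ _ (by omega) _ | exact it_s_c_k _ _ (by omega) _
      | apply it_s_c_add | apply it_s_c_sub | apply it_s_c_mul | apply it_s_c_neg | apply it_s_c_pow

theorem it_s_regU_B (B0 : ℝ) : ItSym.RegU itsB 0 B0 := by
  apply it_s_reg_mk <;> dsimp only [itsB, itcB] <;>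
    repeat' first
      | exact it_s_c_const _ _ _ | exact it_s_c_X _ _ | exact it_s_c_B _ _ | exact it_s_c_P _ _ | exact it_s_c_Y _ _ | exact it_s_c_N _ _
      | exact it_s_c_D _ _ | exact it_s_c_th _ _ (by omega) _ | exact it_s_c_r _ _ (by omega) _ | exact it_s_c_k _ _ (by omega) _
      | apply it_s_c_add | apply it_s_c_sub | apply it_s_c_mul | apply it_s_c_neg | apply it_s_c_pow

theorem it_s_regU_P (B0 : ℝ) : ItSym.RegU itsP 0 B0 := by
  apply it_s_reg_mk <;> dsimp only [itsP, itcP] <;>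
    repeat' first
      | exact it_s_c_const _ _ _ | exact it_s_c_X _ _ | exact it_s_c_B _ _ | exact it_s_c_P _ _ | exact it_s_c_Y _ _ | exact it_s_c_N _ _
      | exact it_s_c_D _ _ | exact it_s_c_th _ _ (by omega) _ | exact it_s_c_r _ _ (by omega) _ | exact it_s_c_k _ _ (by omega) _
      | apply it_s_c_add | apply it_s_c_sub | apply it_s_c_mul | apply it_s_c_neg | apply it_s_c_pow

theorem it_s_regU_Y (B0 : ℝ) : ItSym.RegU itsY 0 B0 := by
  apply it_s_reg_mk <;> dsimp only [itsY, itcY] <;>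
    repeat' first
      | exact it_s_c_const _ _ _ | exact it_s_c_X _ _ | exact it_s_c_B _ _ | exact it_s_c_P _ _ | exact it_s_c_Y _ _ | exact it_s_c_N _ _
      | exact it_s_c_D _ _ | exact it_s_c_th _ _ (by omega) _ | exact it_s_c_r _ _ (by omega) _ | exact it_s_c_k _ _ (by omega) _
      | apply it_s_c_add | apply it_s_c_sub | apply it_s_c_mul | apply it_s_c_neg | apply it_s_c_pow

theorem it_s_regU_N (B0 : ℝ) : ItSym.RegU itsN 0 B0 := by
  apply it_s_reg_mk <;> dsimp only [itsN, itcN] <;>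
    repeat' first
      | exact it_s_c_const _ _ _ | exact it_s_c_X _ _ | exact it_s_c_B _ _ | exact it_s_c_P _ _ | exact it_s_c_Y _ _ | exact it_s_c_N _ _
      | exact it_s_c_D _ _ | exact it_s_c_th _ _ (by omega) _ | exact it_s_c_r _ _ (by omega) _ | exact it_s_c_k _ _ (by omega) _
      | apply it_s_c_add | apply it_s_c_sub | apply it_s_c_mul | apply it_s_c_neg | apply it_s_c_pow

theorem it_s_regU_D (B0 : ℝ) : ItSym.RegU itsD 0 B0 := by
  apply it_s_reg_mk <;> dsimp only [itsD, itcD] <;>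
    repeat' first
      | exact it_s_c_const _ _ _ | exact it_s_c_X _ _ | exact it_s_c_B _ _ | exact it_s_c_P _ _ | exact it_s_c_Y _ _ | exact it_s_c_N _ _
      | exact it_s_c_D _ _ | exact it_s_c_th _ _ (by omega) _ | exact it_s_c_r _ _ (by omega) _ | exact it_s_c_k _ _ (by omega) _
      | apply it_s_c_add | apply it_s_c_sub | apply it_s_c_mul | apply it_s_c_neg | apply it_s_c_pow

theorem it_s_regU_H (B0 : ℝ) : ItSym.RegU itsH 0 B0 := by
  apply it_s_reg_mk <;> dsimp only [itsH, itcH] <;>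
    repeat' first
      | exact it_s_c_const _ _ _ | exact it_s_c_X _ _ | exact it_s_c_B _ _ | exact it_s_c_P _ _ | exact it_s_c_Y _ _ | exact it_s_c_N _ _
      | exact it_s_c_D _ _ | exact it_s_c_th _ _ (by omega) _ | exact it_s_c_r _ _ (by omega) _ | exact it_s_c_k _ _ (by omega) _
      | apply it_s_c_add | apply it_s_c_sub | apply it_s_c_mul | apply it_s_c_neg | apply it_s_c_pow

theorem it_s_regU_J (B0 : ℝ) : ItSym.RegU itsJ 0 B0 := by
  apply it_s_reg_mk <;> dsimp only [itsJ, itcJ] <;>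
    repeat' first
      | exact it_s_c_const _ _ _ | exact it_s_c_X _ _ | exact it_s_c_B _ _ | exact it_s_c_P _ _ | exact it_s_c_Y _ _ | exact it_s_c_N _ _
      | exact it_s_c_D _ _ | exact it_s_c_th _ _ (by omega) _ | exact it_s_c_r _ _ (by omega) _ | exact it_s_c_k _ _ (by omega) _
      | apply it_s_c_add | apply it_s_c_sub | apply it_s_c_mul | apply it_s_c_neg | apply it_s_c_pow

theorem it_s_regU_K (B0 : ℝ) : ItSym.RegU itsK 0 B0 := by
  apply it_s_reg_mk <;> dsimp only [itsK, itcK] <;>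
    repeat' first
      | exact it_s_c_const _ _ _ | exact it_s_c_X _ _ | exact it_s_c_B _ _ | exact it_s_c_P _ _ | exact it_s_c_Y _ _ | exact it_s_c_N _ _
      | exact it_s_c_D _ _ | exact it_s_c_th _ _ (by omega) _ | exact it_s_c_r _ _ (by omega) _ | exact it_s_c_k _ _ (by omega) _
      | apply it_s_c_add | apply it_s_c_sub | apply it_s_c_mul | apply it_s_c_neg | apply it_s_c_pow

theorem it_s_regU_W (i : ℕ) (B0 : ℝ) : ItSym.RegU (itsW i) (i + 1) B0 := by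
  apply it_s_reg_mk <;> dsimp only [itsW, itcW] <;>
    repeat' first
      | exact it_s_c_const _ _ _ | exact it_s_c_X _ _ | exact it_s_c_B _ _ | exact it_s_c_P _ _ | exact it_s_c_Y _ _ | exact it_s_c_N _ _
      | exact it_s_c_D _ _ | exact it_s_c_th _ _ (by omega) _ | exact it_s_c_r _ _ (by omega) _ | exact it_s_c_k _ _ (by omega) _
      | apply it_s_c_add | apply it_s_c_sub | apply it_s_c_mul | apply it_s_c_neg | apply it_s_c_pow

theorem it_s_regU_xq (i : ℕ) (B0 : ℝ) : ItSym.RegU (itsxq i) (i + 1) B0 := by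
  apply it_s_reg_mk <;> dsimp only [itsxq, itcxq] <;>
    repeat' first
      | exact it_s_c_const _ _ _ | exact it_s_c_X _ _ | exact it_s_c_B _ _ | exact it_s_c_P _ _ | exact it_s_c_Y _ _ | exact it_s_c_N _ _
      | exact it_s_c_D _ _ | exact it_s_c_th _ _ (by omega) _ | exact it_s_c_r _ _ (by omega) _ | exact it_s_c_k _ _ (by omega) _
      | apply it_s_c_add | apply it_s_c_sub | apply it_s_c_mul | apply it_s_c_neg | apply it_s_c_pow

theorem it_s_regU_xl (i : ℕ) (B0 : ℝ) : ItSym.RegU (itsxl i) (i + 1) B0 := by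
  apply it_s_reg_mk <;> dsimp only [itsxl, itcxl] <;>
    repeat' first
      | exact it_s_c_const _ _ _ | exact it_s_c_X _ _ | exact it_s_c_B _ _ | exact it_s_c_P _ _ | exact it_s_c_Y _ _ | exact it_s_c_N _ _
      | exact it_s_c_D _ _ | exact it_s_c_th _ _ (by omega) _ | exact it_s_c_r _ _ (by omega) _ | exact it_s_c_k _ _ (by omega) _
      | apply it_s_c_add | apply it_s_c_sub | apply it_s_c_mul | apply it_s_c_neg | apply it_s_c_pow

theorem it_s_regU_L (i : ℕ) (B0 : ℝ) : ItSym.RegU (itsL i) (i + 1) B0 := by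
  apply it_s_reg_mk <;> dsimp only [itsL, itcL, ItMk.be] <;>
    repeat' first
      | exact it_s_c_const _ _ _ | exact it_s_c_X _ _ | exact it_s_c_B _ _ | exact it_s_c_P _ _ | exact it_s_c_Y _ _ | exact it_s_c_N _ _
      | exact it_s_c_D _ _ | exact it_s_c_th _ _ (by omega) _ | exact it_s_c_r _ _ (by omega) _ | exact it_s_c_k _ _ (by omega) _
      | apply it_s_c_add | apply it_s_c_sub | apply it_s_c_mul | apply it_s_c_neg | apply it_s_c_pow

theorem it_s_regU_G2 (i : ℕ) (B0 : ℝ) : ItSym.RegU (itsG2 i) (i + 1) B0 := by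
  apply it_s_reg_mk <;> dsimp only [itsG2, itcG2] <;>
    repeat' first
      | exact it_s_c_const _ _ _ | exact it_s_c_X _ _ | exact it_s_c_B _ _ | exact it_s_c_P _ _ | exact it_s_c_Y _ _ | exact it_s_c_N _ _
      | exact it_s_c_D _ _ | exact it_s_c_th _ _ (by omega) _ | exact it_s_c_r _ _ (by omega) _ | exact it_s_c_k _ _ (by omega) _
      | apply it_s_c_add | apply it_s_c_sub | apply it_s_c_mul | apply it_s_c_neg | apply it_s_c_pow

theorem it_s_regU_G3 (i : ℕ) (B0 : ℝ) : ItSym.RegU (itsG3 i) (i + 1) B0 := by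
  apply it_s_reg_mk <;> dsimp only [itsG3, itcG3, ItMk.be] <;>
    repeat' first
      | exact it_s_c_const _ _ _ | exact it_s_c_X _ _ | exact it_s_c_B _ _ | exact it_s_c_P _ _ | exact it_s_c_Y _ _ | exact it_s_c_N _ _
      | exact it_s_c_D _ _ | exact it_s_c_th _ _ (by omega) _ | exact it_s_c_r _ _ (by omega) _ | exact it_s_c_k _ _ (by omega) _
      | apply it_s_c_add | apply it_s_c_sub | apply it_s_c_mul | apply it_s_c_neg | apply it_s_c_pow

theorem it_s_regU_Ga (i : ℕ) (B0 : ℝ) : ItSym.RegU (itsGa i) (i + 1) B0 := by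
  apply it_s_reg_mk <;> dsimp only [itsGa, itcGa] <;>
    repeat' first
      | exact it_s_c_const _ _ _ | exact it_s_c_X _ _ | exact it_s_c_B _ _ | exact it_s_c_P _ _ | exact it_s_c_Y _ _ | exact it_s_c_N _ _
      | exact it_s_c_D _ _ | exact it_s_c_th _ _ (by omega) _ | exact it_s_c_r _ _ (by omega) _ | exact it_s_c_k _ _ (by omega) _
      | apply it_s_c_add | apply it_s_c_sub | apply it_s_c_mul | apply it_s_c_neg | apply it_s_c_pow

theorem it_s_regU_Gb (i : ℕ) (B0 : ℝ) : ItSym.RegU (itsGb i) (i + 1) B0 := by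
  apply it_s_reg_mk <;> dsimp only [itsGb, itcGb] <;>
    repeat' first
      | exact it_s_c_const _ _ _ | exact it_s_c_X _ _ | exact it_s_c_B _ _ | exact it_s_c_P _ _ | exact it_s_c_Y _ _ | exact it_s_c_N _ _
      | exact it_s_c_D _ _ | exact it_s_c_th _ _ (by omega) _ | exact it_s_c_r _ _ (by omega) _ | exact it_s_c_k _ _ (by omega) _
      | apply it_s_c_add | apply it_s_c_sub | apply it_s_c_mul | apply it_s_c_neg | apply it_s_c_pow

end Claimed.Agent.R256
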