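import Claimed.Agent.R256.Int.BinKit
import Claimed.Agent.R256.Int.BinLA
import Claimed.Agent.R256.Int.Sym

/-!
# Row 256, Sec. 5, block BIN (`it_cost_bin`, `it_e_bin`), file 2: THE LEAVES      (architect helper148; prefix `it_n_`)

Paper: 05-interior.tex l.1122-1213 (Prop int:binary).   PLAN (everything in EXPECTED form; no lower scores, no tests of `Int/Meta.lean`, no short layers: the binary layer `p → q = 2p` is treated in one piece).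
Notation: `base = (F_p, 𝒟)`, `V5 = (L_0, L_1, H, J, K)`, `hh M p q U V = H(U_q | V_q, base)`, `ε_p = msh δ p ≤ δ^p ≤ 2 ε_p`, `ε_p² ≤ 2 ε_q` (`it_n_msh_sq`).
 T1-T3   `F_{p,2p}` is `(F_p, (H,J,K)_{2p})` up to bounded lists:  `bm = hh F V5 ± C`,  `hW ≤ hA(p) + hh (H,J,K) + C`.
 LA1-LA3 linear algebra on the GOOD event `nGood u = {δ^u < |g|}`, `g = itnG ξ_0 ξ_1 = (r_0 - r_1) - 𝔨_1 (θ_0 - θ_1) = L_1(ℓ_0)/2`:  `V5` + one scalar list `F`;  `(G_0, G_1)` lists `V5`;  `F` lists `V5`.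
 H1a-H1e the angular fibre of the record `0` (`Q_0` held):  `L_0, H, J, K` are constant up to `O(δ^{2p})`, `L_1` reads `X` with the factor `2g`;  budgets (fib), (ang).
 H2a-H2c the display of the child name `O_l` reads `G_0` to depth `2p` in the contact basis at `F_p`;  `aux = ((β_0)_p, (𝔨_0)_p)` is output-predicted.
 AV      line avoidance with a line chosen by the record `1`.
ALL leaves are "closeness" statements: two support points `ω, ω'` with the same conditioning have the listed reals within `R · mesh`; then `it_n_rd_close(')`, `it_n_Fn_close(')`, `it_n_cell_close`, `it_n_ent_close(')` of `Int/BinKit.lean`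
(+ `it_n_log_le` for `log (C δ^(-g) + 2) ≤ g L + log (C + 2)`, `it_n_msh_ratio` for the capacity `ε_p ≤ 2 δ^(-(q-p)) ε_q`).   Same cell ⟹ distance `≤ mesh`: `it_k_aux_cell_dist`.  `|x - trep δ p x| ≤ ε_p`: `it_k_aux_rep_dist`.
The constant `C` of every leaf depends on the regime `a` only (a polynomial in `B0`): THE PROVER CHOOSES IT.
Provers: statements are frozen; helpers ABOVE your theorem, prefix `it_n_<leaf>_`.
-/

set_option autoImplicit false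

namespace Claimed.Agent.R256

open Claimed.Agent.R255
open Claimed.Agent.R255.FLaw (pair)
open scoped BigOperators
open Classical

/-- `g = L_1(ℓ_0) / 2 = (r_0 - r_1) - 𝔨_1 (θ_0 - θ_1)` -/
def itnG (μ μ' : ItMk) : ℝ := (μ.r - μ'.r) - μ'.k * (μ.th - μ'.th)

/-- the good event -/
def Tan.nGood (T : Tan) (u : ℝ) : T.Ω → Prop := fun ω => T.δ ^ u < |itnG (T.mrk 0 ω) (T.mrk 1 ω)|

/-- the five readings `(L_0, L_1, H, J, K)` -/
noncomputable def Tan.nV5 (T : Tan) (p : ℝ) : List (T.Ω → ItPh) := T.cL 0 :: T.cL 1 :: T.rCz p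

/-- the output-predicted auxiliary data `((β_0)_p, (𝔨_0)_p)` -/
noncomputable def Tan.nAux (T : Tan) (p : ℝ) : T.Ω → ℤ × ℤ := fun ω => (tcell T.δ p (T.mrk 0 ω).be, tcell T.δ p (T.mrk 0 ω).k)

theorem it_n_geo_eqns_cite : True := by
  have := @itnG.eq_1; have := @Tan.nGood.eq_1; have := @Tan.nV5.eq_1; have := @Tan.nAux.eq_1
  trivial

/-! ## T. the Heisenberg name -/

/-- coordinates of a support point -/
theorem it_n_T1_bdF (T : Tan) (a : ItPar) (pk : ItPk) (h : T.Adm0 a pk) (ω : T.Ω) (hω : T.P.p ω ≠ 0) :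
    |(T.F ω).X| ≤ a.B0 ∧ |(T.F ω).B| ≤ a.B0 ∧ |(T.F ω).P| ≤ a.B0 ∧ |(T.F ω).Y| ≤ a.B0 ∧ |(T.F ω).N| ≤ a.B0 ∧ |(T.F ω).D| ≤ a.B0 :=
  (it_s_nrm_le _ _).1 (h.bdF ω hω)

/-- same phase name, same frozen parent -/
theorem it_n_T1_f0 (T : Tan) (p : ℝ) (ω ω' : T.Ω) (h : T.Fn p ω = T.Fn p ω') : T.f0 p ω = T.f0 p ω' := by
  simp only [Tan.Fn, itF, Prod.mk.injEq] at h
  obtain ⟨⟨a1, a2, a3⟩, b1, b2, b3⟩ := h
  simp only [Tan.f0, itR, trep, a1, a2, a3, b1, b2, b3]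

/-- same `𝒟`, same marks -/
theorem it_n_T1_mrk (T : Tan) (M : ℕ) (ω ω' : T.Ω) (h : T.Dd M ω = T.Dd M ω') (i : ℕ) (hi : i < M) : T.mrk i ω = T.mrk i ω' :=
  congrFun (Prod.ext_iff.1 h).2 ⟨i, hi⟩

/-- `|a + b| ≤ A + B` -/
theorem it_n_T1_add {a b A B : ℝ} (ha : |a| ≤ A) (hb : |b| ≤ B) : |a + b| ≤ A + B :=
  (abs_add_le a b).trans (add_le_add ha hb)

/-- `|a - b| ≤ A + B` -/
theorem it_n_T1_sub {a b A B : ℝ} (ha : |a| ≤ A) (hb : |b| ≤ B) : |a - b| ≤ A + B :=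
  (abs_sub a b).trans (add_le_add ha hb)

/-- `|a b| ≤ A B` -/
theorem it_n_T1_mul {a b A B : ℝ} (ha : |a| ≤ A) (hb : |b| ≤ B) : |a * b| ≤ A * B := by
  rw [abs_mul]
  exact mul_le_mul ha hb (abs_nonneg _) ((abs_nonneg _).trans ha)

/-- the mesh is at most one -/
theorem it_n_T1_msh_one (δ p : ℝ) (h0 : 0 < δ) (h1 : δ < 1) (hp : 0 ≤ p) : msh δ p ≤ 1 :=
  (ig_msh_le δ p h0).trans (Real.rpow_le_one h0.le h1.le hp)

/-- the representative of a bounded real -/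
theorem it_n_T1_rep_bd (δ p x B : ℝ) (h0 : 0 < δ) (h1 : δ < 1) (hp : 0 ≤ p) (hx : |x| ≤ B) : |trep δ p x| ≤ B + 1 := by
  have h := it_k_aux_rep_dist δ p x
  have h' := it_n_T1_msh_one δ p h0 h1 hp
  have e : trep δ p x = x - (x - trep δ p x) := by ring
  rw [e]
  exact it_n_T1_sub hx (h.trans h')

/-- the contact readings are the recentred coordinates up to a function of the parent -/
theorem it_n_T1_rc (T : Tan) (p : ℝ) (ω ω' : T.Ω) (hf : T.f0 p ω = T.f0 p ω') :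
    (itVal (T.cH p ω) (T.F ω) (T.f0 p ω) - itVal (T.cH p ω') (T.F ω') (T.f0 p ω')
        = ((T.F ω).Y - 2 * trep T.δ p (T.F ω).X * (T.F ω).B) - ((T.F ω').Y - 2 * trep T.δ p (T.F ω').X * (T.F ω').B)) ∧
      (itVal (T.cJ p ω) (T.F ω) (T.f0 p ω) - itVal (T.cJ p ω') (T.F ω') (T.f0 p ω')
        = ((T.F ω).N - trep T.δ p (T.F ω).P * (T.F ω).X) - ((T.F ω').N - trep T.δ p (T.F ω').P * (T.F ω').X)) ∧
      (itVal (T.cK p ω) (T.F ω) (T.f0 p ω) - itVal (T.cK p ω') (T.F ω') (T.f0 p ω')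
        = ((T.F ω).D - trep T.δ p (T.F ω).P * (T.F ω).B) - ((T.F ω').D - trep T.δ p (T.F ω').P * (T.F ω').B)) := by
  have hX : trep T.δ p (T.F ω').X = (T.f0 p ω).X := by rw [hf]; rfl
  have hP : trep T.δ p (T.F ω').P = (T.f0 p ω).P := by rw [hf]; rfl
  have hX' : trep T.δ p (T.F ω).X = (T.f0 p ω).X := rfl
  have hP' : trep T.δ p (T.F ω).P = (T.f0 p ω).P := rfl
  rw [hX, hP, hX', hP']
  simp only [Tan.cH, Tan.cJ, Tan.cK, ← hf, itcH, itcJ, itcK, itVal]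
  refine ⟨by ring, by ring, by ring⟩

/-- the Heisenberg name is listed by the parent name and the contact readings -/
theorem it_n_T1_hs (T : Tan) {α : Type} (A : T.Ω → α) (p q : ℝ) (hF : ∀ ω ω', A ω = A ω' → T.Fn p ω = T.Fn p ω')
    (hC : ∀ ω ω', A ω = A ω' → T.rd p q (T.rCz p) ω = T.rd p q (T.rCz p) ω') :
    T.P.entC (T.Hn p q) A ≤ 3 * Real.log 3 := by
  have h1 := it_n_ent_close' T.P A T.δ q [fun ω => (T.F ω).Y - 2 * trep T.δ p (T.F ω).X * (T.F ω).B,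
    fun ω => (T.F ω).N - trep T.δ p (T.F ω).P * (T.F ω).X, fun ω => (T.F ω).D - trep T.δ p (T.F ω).P * (T.F ω).B] 1 (by norm_num)
    (fun v hv ω ω' _ _ hA => by
      obtain ⟨r1, r2, r3⟩ := it_n_T1_rc T p ω ω' (it_n_T1_f0 T p ω ω' (hF ω ω' hA))
      have hc := hC ω ω' hA
      simp only [Tan.rd, Tan.rCz, List.map_cons, List.map_nil, List.cons.injEq, and_true] at hc
      obtain ⟨c1, c2, c3⟩ := hc
      have d1 := it_k_aux_cell_dist c1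
      have d2 := it_k_aux_cell_dist c2
      have d3 := it_k_aux_cell_dist c3
      rw [r1] at d1
      rw [r2] at d2
      rw [r3] at d3
      rw [one_mul]
      simp only [List.mem_cons, List.not_mem_nil, or_false] at hv
      rcases hv with rfl | rfl | rfl
      exacts [d1, d2, d3])
  have h2 : T.P.entC (T.Hn p q) A ≤ T.P.entC (fun ω => [fun ω => (T.F ω).Y - 2 * trep T.δ p (T.F ω).X * (T.F ω).B,
      fun ω => (T.F ω).N - trep T.δ p (T.F ω).P * (T.F ω).X, fun ω => (T.F ω).D - trep T.δ p (T.F ω).P * (T.F ω).B].map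
        fun v => tcell T.δ q (v ω)) A := by
    refine ent_entC_mono T.P _ _ A fun ω ω' _ _ hW hA => ?_
    have hf := hF ω ω' hA
    simp only [Tan.Fn, itF, Prod.mk.injEq] at hf
    simp only [List.map_cons, List.map_nil, List.cons.injEq, and_true] at hW
    simp only [Tan.Hn, itHs, Prod.mk.injEq]
    exact ⟨hf.1, hW⟩
  have e : ((1 : ℝ) + 2) = 3 := by norm_num
  rw [e] at h1
  simpa using h2.trans h1

/-- the Heisenberg name lists the parent name: algebra -/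
theorem it_n_T1_alg (B0 e X0 P0 X X' B B' Y Y' N N' D D' : ℝ) (hX0 : |X0| ≤ B0 + 1) (hP0 : |P0| ≤ B0 + 1)
    (dX : |X - X'| ≤ e) (dB : |B - B'| ≤ e) (dy : |(Y - 2 * X0 * B) - (Y' - 2 * X0 * B')| ≤ e)
    (dn : |(N - P0 * X) - (N' - P0 * X')| ≤ e) (dd : |(D - P0 * B) - (D' - P0 * B')| ≤ e) :
    |Y - Y'| ≤ (3 + 2 * B0) * e ∧ |N - N'| ≤ (3 + 2 * B0) * e ∧ |D - D'| ≤ (3 + 2 * B0) * e := by
  have two : |(2 : ℝ)| ≤ 2 := le_of_eq abs_two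
  have he : 0 ≤ e := (abs_nonneg _).trans dX
  have hB : 0 ≤ B0 + 1 := (abs_nonneg _).trans hX0
  have hY : |Y - Y'| ≤ e + 2 * ((B0 + 1) * e) := by
    have e1 : Y - Y' = ((Y - 2 * X0 * B) - (Y' - 2 * X0 * B')) + 2 * (X0 * (B - B')) := by ring
    rw [e1]
    exact it_n_T1_add dy (it_n_T1_mul two (it_n_T1_mul hX0 dB))
  have hN : |N - N'| ≤ e + (B0 + 1) * e := by
    have e1 : N - N' = ((N - P0 * X) - (N' - P0 * X')) + P0 * (X - X') := by ring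
    rw [e1]
    exact it_n_T1_add dn (it_n_T1_mul hP0 dX)
  have hD : |D - D'| ≤ e + (B0 + 1) * e := by
    have e1 : D - D' = ((D - P0 * B) - (D' - P0 * B')) + P0 * (B - B') := by ring
    rw [e1]
    exact it_n_T1_add dd (it_n_T1_mul hP0 dB)
  refine ⟨hY.trans ?_, hN.trans ?_, hD.trans ?_⟩ <;> nlinarith

/-- the Heisenberg name lists the parent name -/
theorem it_n_T1_par (a : ItPar) (ha : a.Ok) (T : Tan) (pk : ItPk) (h0 : T.Adm0 a pk) {α : Type} (A : T.Ω → α) (p q : ℝ) (hp : 0 ≤ p)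
    (hpq : p ≤ q) (hH : ∀ ω ω', A ω = A ω' → T.Hn p q ω = T.Hn p q ω') :
    T.P.entC (T.Fn p) A ≤ 6 * Real.log ((3 + 2 * a.B0) + 2) := by
  have hB0 : 1 ≤ a.B0 := ha.2.2.2.2.2.2.2.2
  refine it_n_Fn_close' T A p _ (by linarith) fun ω ω' hω hω' hA => ?_
  have hh := hH ω ω' hA
  simp only [Tan.Hn, itHs, Prod.mk.injEq] at hh
  obtain ⟨⟨a1, a2, a3⟩, b1, b2, b3⟩ := hh
  have hX : trep T.δ p (T.F ω').X = trep T.δ p (T.F ω).X := by simp only [trep, a1]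
  have hP : trep T.δ p (T.F ω').P = trep T.δ p (T.F ω).P := by simp only [trep, a3]
  rw [hX] at b1
  rw [hP] at b2 b3
  have hmm := ig_msh_anti T.δ p q h0.δ0 h0.δ1 hpq
  have hm0 := (ig_msh_pos T.δ p).le
  obtain ⟨f1, -, f3, -, -, -⟩ := it_n_T1_bdF T a pk h0 ω hω
  have x1 := it_n_T1_rep_bd T.δ p _ _ h0.δ0 h0.δ1 hp f1
  have x3 := it_n_T1_rep_bd T.δ p _ _ h0.δ0 h0.δ1 hp f3
  obtain ⟨c1, c2, c3⟩ := it_n_T1_alg a.B0 (msh T.δ p) (trep T.δ p (T.F ω).X) (trep T.δ p (T.F ω).P) (T.F ω).X (T.F ω').X (T.F ω).B (T.F ω').B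
    (T.F ω).Y (T.F ω').Y (T.F ω).N (T.F ω').N (T.F ω).D (T.F ω').D x1 x3 (it_k_aux_cell_dist a1) (it_k_aux_cell_dist a2)
    ((it_k_aux_cell_dist b1).trans hmm) ((it_k_aux_cell_dist b2).trans hmm) ((it_k_aux_cell_dist b3).trans hmm)
  have k : msh T.δ p ≤ (3 + 2 * a.B0) * msh T.δ p := le_mul_of_one_le_left hm0 (by linarith)
  exact (it_s_nrm_le _ _).2 ⟨(it_k_aux_cell_dist a1).trans k, (it_k_aux_cell_dist a2).trans k, (it_k_aux_cell_dist a3).trans k, c1, c2, c3⟩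

/-- the parent name and the Heisenberg name list the contact readings -/
theorem it_n_T1_cz (T : Tan) {α : Type} (A : T.Ω → α) (p q : ℝ) (hF : ∀ ω ω', A ω = A ω' → T.Fn p ω = T.Fn p ω')
    (hH : ∀ ω ω', A ω = A ω' → T.Hn p q ω = T.Hn p q ω') :
    T.P.entC (T.rd p q (T.rCz p)) A ≤ 3 * Real.log 3 := by
  have h1 := it_n_rd_close' T A p q (T.rCz p) 1 (by norm_num) (fun u hu ω ω' _ _ hA => by
    obtain ⟨r1, r2, r3⟩ := it_n_T1_rc T p ω ω' (it_n_T1_f0 T p ω ω' (hF ω ω' hA))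
    have hh := hH ω ω' hA
    simp only [Tan.Hn, itHs, Prod.mk.injEq] at hh
    obtain ⟨-, b1, b2, b3⟩ := hh
    rw [one_mul]
    simp only [Tan.rCz, List.mem_cons, List.not_mem_nil, or_false] at hu
    rcases hu with rfl | rfl | rfl
    · rw [r1]; exact it_k_aux_cell_dist b1
    · rw [r2]; exact it_k_aux_cell_dist b2
    · rw [r3]; exact it_k_aux_cell_dist b3)
  have e : ((1 : ℝ) + 2) = 3 := by norm_num
  rw [e] at h1
  simpa [Tan.rCz] using h1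

/-- LEAF L-256-BIN-T1 (~200 l.).  `Z1 = ((F_{p,q}, (L_0,L_1)_q), 𝒟)`, `Z2 = (V5_q, base)`.  `bm = H(F_q | Z1) ≤ H(F_q | Z2) + H(Z2 | Z1)` (`it_n_ent_cond`), `H(F_q | Z2) = hh F V5` (`it_n_F_hh`).
`H(Z2 | Z1) ≤ H(F_p | Z1) + H(V5_q | F_p, Z1)` (`ent_entC_chain`, `ent_entC_mono/anti/eq_zero`).   Same `Z1`: same `X_0, B_0, P_0`, `|B - B'|, |X - X'| ≤ ε_p`, `|(Y - 2X_0 B) - (Y' - 2X_0 B')| ≤ ε_q ≤ ε_p`,
so `|Y - Y'| ≤ (3 + 2 B0) ε_p`, the same for `N, D` (`|X_0|, |P_0| ≤ B0 + 1`): `it_n_Fn_close'`.   Same `(F_p, Z1)`: same `f0`, `itVal (cH) = (Y - 2 X_0 B) - (Y_0 - 2 X_0 B_0)` etc.: `R = 1`; `(L_0, L_1)_q` is held. -/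
theorem it_n_T1 (a : ItPar) (ha : a.Ok) : ∃ C : ℝ, 0 ≤ C ∧ ∀ (T : Tan) (pk : ItPk) (p : ℝ), T.Adm0 a pk → 0 < p →
    T.bm pk.M p ≤ T.hh pk.M p (2 * p) (itRF T.Ω) (T.nV5 p) + C := by
  have hB0 : 1 ≤ a.B0 := ha.2.2.2.2.2.2.2.2
  have l1 : 0 ≤ Real.log ((3 + 2 * a.B0) + 2) := Real.log_nonneg (by linarith)
  have l2 : 0 ≤ Real.log (3 : ℝ) := Real.log_nonneg (by norm_num)
  refine ⟨6 * Real.log ((3 + 2 * a.B0) + 2) + 3 * Real.log 3, by positivity, fun T pk p h0 hp => ?_⟩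
  rw [it_n_F_hh T h0.δ0 h0.δ1 pk.M p (2 * p) (by linarith)]
  unfold Tan.bm
  have s1 := it_n_ent_cond T.P (T.Fn (2 * p)) (pair (pair (T.Hn p (2 * p)) (T.rd p (2 * p) [T.cL 0, T.cL 1])) (T.Dd pk.M))
    (pair (T.rd p (2 * p) (T.nV5 p)) (T.base pk.M p))
  have s2 : T.P.entC (pair (T.rd p (2 * p) (T.nV5 p)) (T.base pk.M p))
        (pair (pair (T.Hn p (2 * p)) (T.rd p (2 * p) [T.cL 0, T.cL 1])) (T.Dd pk.M))
      ≤ T.P.entC (pair (T.Fn p) (T.rd p (2 * p) (T.rCz p)))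
        (pair (pair (T.Hn p (2 * p)) (T.rd p (2 * p) [T.cL 0, T.cL 1])) (T.Dd pk.M)) := by
    refine ent_entC_mono T.P _ _ _ fun ω ω' _ _ h1 h2 => ?_
    simp only [FLaw.pair, Prod.mk.injEq] at h1 h2
    obtain ⟨⟨-, g2⟩, g3⟩ := h2
    simp only [FLaw.pair, Tan.base, Prod.mk.injEq]
    refine ⟨?_, h1.1, g3⟩
    have e : T.nV5 p = [T.cL 0, T.cL 1] ++ T.rCz p := rfl
    rw [e, it_k_aux_rd_append]
    exact ⟨g2, h1.2⟩
  have s3 := ent_entC_chain T.P (T.Fn p) (T.rd p (2 * p) (T.rCz p))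
    (pair (pair (T.Hn p (2 * p)) (T.rd p (2 * p) [T.cL 0, T.cL 1])) (T.Dd pk.M))
  have s4 := it_n_T1_par a ha T pk h0 (pair (pair (T.Hn p (2 * p)) (T.rd p (2 * p) [T.cL 0, T.cL 1])) (T.Dd pk.M)) p (2 * p) hp.le
    (by linarith) (fun ω ω' h => (Prod.ext_iff.1 (Prod.ext_iff.1 h).1).1)
  have s5 := it_n_T1_cz T (pair (T.Fn p) (pair (pair (T.Hn p (2 * p)) (T.rd p (2 * p) [T.cL 0, T.cL 1])) (T.Dd pk.M))) p (2 * p)
    (fun ω ω' h => (Prod.ext_iff.1 h).1) (fun ω ω' h => (Prod.ext_iff.1 (Prod.ext_iff.1 (Prod.ext_iff.1 h).2).1).1)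
  linarith

/-- LEAF L-256-BIN-T2 (~120 l.).  `hh F V5 = H(F_q | Z2) ≤ H(F_q | Z1) + H(Z1 | Z2)`;  given `Z2` the names `X_p, B_p, P_p`, `(L_0, L_1)_q`, `𝒟` are fixed and the three recentred coordinates are fixed within `ε_q`
(`Y - 2 X_0 B = itVal (cH) + (Y_0 - 2 X_0 B_0)`): at most `27` values. -/
theorem it_n_T2 (a : ItPar) (ha : a.Ok) : ∃ C : ℝ, 0 ≤ C ∧ ∀ (T : Tan) (pk : ItPk) (p : ℝ), T.Adm0 a pk → 0 < p →
    T.hh pk.M p (2 * p) (itRF T.Ω) (T.nV5 p) ≤ T.bm pk.M p + C := by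
  have l2 : 0 ≤ Real.log (3 : ℝ) := Real.log_nonneg (by norm_num)
  refine ⟨3 * Real.log 3, by positivity, fun T pk p h0 hp => ?_⟩
  rw [it_n_F_hh T h0.δ0 h0.δ1 pk.M p (2 * p) (by linarith)]
  unfold Tan.bm
  have s1 := it_n_ent_cond T.P (T.Fn (2 * p)) (pair (T.rd p (2 * p) (T.nV5 p)) (T.base pk.M p))
    (pair (pair (T.Hn p (2 * p)) (T.rd p (2 * p) [T.cL 0, T.cL 1])) (T.Dd pk.M))
  have e : T.nV5 p = [T.cL 0, T.cL 1] ++ T.rCz p := rfl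
  have s2 : T.P.entC (pair (pair (T.Hn p (2 * p)) (T.rd p (2 * p) [T.cL 0, T.cL 1])) (T.Dd pk.M))
        (pair (T.rd p (2 * p) (T.nV5 p)) (T.base pk.M p))
      ≤ T.P.entC (T.Hn p (2 * p)) (pair (T.rd p (2 * p) (T.nV5 p)) (T.base pk.M p)) := by
    refine ent_entC_mono T.P _ _ _ fun ω ω' _ _ h1 h2 => ?_
    simp only [FLaw.pair, Tan.base, Prod.mk.injEq] at h2
    obtain ⟨g1, -, g3⟩ := h2
    rw [e, it_k_aux_rd_append] at g1
    simp only [FLaw.pair, Prod.mk.injEq]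
    exact ⟨⟨h1, g1.1⟩, g3⟩
  have s3 := it_n_T1_hs T (pair (T.rd p (2 * p) (T.nV5 p)) (T.base pk.M p)) p (2 * p)
    (fun ω ω' h => (Prod.ext_iff.1 (Prod.ext_iff.1 h).2).1) (fun ω ω' h => by
      have g1 := (Prod.ext_iff.1 h).1
      simp only [FLaw.pair] at g1
      rw [e, it_k_aux_rd_append] at g1
      exact g1.2)
  linarith

/-- LEAF L-256-BIN-T3 (~120 l.).  `H(F_{p,q} | 𝒟) ≤ H(F_p | 𝒟) + H(F_{p,q} | F_p, 𝒟)` and `H(F_{p,q} | base) ≤ H((H,J,K)_q | base) + H(F_{p,q} | (H,J,K)_q, base)` (`it_n_ent_via`), the last `≤ log 27` as in T2. -/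
theorem it_n_T3 (a : ItPar) (ha : a.Ok) : ∃ C : ℝ, 0 ≤ C ∧ ∀ (T : Tan) (pk : ItPk) (p : ℝ), T.Adm0 a pk → 0 < p →
    T.hW pk.M p (2 * p) ≤ T.hA pk.M p + T.hh pk.M p (2 * p) (T.rCz p) [] + C := by
  have l2 : 0 ≤ Real.log (3 : ℝ) := Real.log_nonneg (by norm_num)
  refine ⟨3 * Real.log 3, by positivity, fun T pk p h0 hp => ?_⟩
  rw [it_n_hh_nil]
  unfold Tan.hW Tan.hA
  have s1 := it_n_ent_via T.P (T.Hn p (2 * p)) (T.Fn p) (T.Dd pk.M)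
  have s2 := it_n_ent_via T.P (T.Hn p (2 * p)) (T.rd p (2 * p) (T.rCz p)) (T.base pk.M p)
  have s3 := it_n_T1_hs T (pair (T.rd p (2 * p) (T.rCz p)) (T.base pk.M p)) p (2 * p)
    (fun ω ω' h => (Prod.ext_iff.1 (Prod.ext_iff.1 h).2).1) (fun ω ω' h => (Prod.ext_iff.1 h).1)
  have e : pair (T.Fn p) (T.Dd pk.M) = T.base pk.M p := rfl
  rw [e] at s1
  linarith

/-! ## LA. linear algebra on the good event -/

/-- LEAF L-256-BIN-LA1 (~300 l.).  ONE MISSING SCALAR.  `s ω = itcX` if `|β_0 - β_1| ≤ |𝔨_0 - 𝔨_1|`, else `itcB` (a function of `𝒟`).  `hh F V5 ≤ hh [s] V5 + hh F (s :: V5)` (`it_k_mono`, `it_k_chain`), `hh [s] V5 ≤ (q-p) L + log 28` (`it_k_cap`).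
`hh F (s :: V5)` by `it_n_rd_close` with `G = nGood u`.  Same `base`, same cells of `s, L_0, L_1, H, J, K`; `z = F ω - F ω'`: `|⟨w, z⟩| ≤ ε_q` for the six covectors `w`.
`β_0 - β_1 = g - θ_0 (𝔨_0 - 𝔨_1)`, so on `G`: `max(|β_0 - β_1|, |𝔨_0 - 𝔨_1|) ≥ δ^u / (1 + B0)`.   `L_0 - L_1 = -2(β_0 - β_1) dX + 2(𝔨_0 - 𝔨_1) dB` gives the second of `dX, dB` within `C δ^(-u) ε_q`;
`dP = L_0 + 2β_0 dX - 2𝔨_0 dB`, `dY = H + 2X_0 dB`, `dN = J + P_0 dX`, `dD = K + P_0 dB`.   Capacity: all six within `2 ε_p ≤ 4 δ^(-(q-p)) ε_q`. -/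
theorem it_n_LA1 (a : ItPar) (ha : a.Ok) : ∃ C : ℝ, 0 ≤ C ∧ ∀ (T : Tan) (pk : ItPk) (p q u ε : ℝ), T.Adm0 a pk → 2 ≤ pk.M → 0 < p → p ≤ q →
    0 ≤ u → ε ≤ 1 → T.P.pr (fun ω => ¬ T.nGood u ω) ≤ ε →
    T.hh pk.M p q (itRF T.Ω) (T.nV5 p) ≤ (q - p) * T.L + C * (u * T.L + ε * ((q - p) * T.L) + 1) :=
  it_n_la_main1 a ha

/-- LEAF L-256-BIN-LA2 (~300 l.).  THE PAIR `G_0, G_1` RECOVERS `V5`.  `hh V5 [] ≤ hh (G_0 ++ G_1) [] + hh V5 (G_0 ++ G_1)` (`it_k_mono`, `it_k_chain`); the last by `it_n_rd_close` with `G = nGood u`.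
`G_i = (L_i, J - 𝔨_i H, K - β_i H)` (`T.rG`, `T.quad = true`).   `(𝔨_1 - 𝔨_0) H = (J - 𝔨_0 H) - (J - 𝔨_1 H)`, `(β_1 - β_0) H = (K - β_0 H) - (K - β_1 H)`; on `G` one of the two factors is `≥ δ^u / (1 + B0)` (see LA1);
`J = (J - 𝔨_0 H) + 𝔨_0 H`, `K = (K - β_0 H) + β_0 H`.   Capacity: covectors bounded by `C(B0)`, `it_k_aux_val_bd`, `it_n_msh_ratio`. -/
theorem it_n_LA2 (a : ItPar) (ha : a.Ok) : ∃ C : ℝ, 0 ≤ C ∧ ∀ (T : Tan) (pk : ItPk) (p q u ε : ℝ), T.Adm0 a pk → T.quad = true → 2 ≤ pk.M →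
    0 < p → p ≤ q → 0 ≤ u → ε ≤ 1 → T.P.pr (fun ω => ¬ T.nGood u ω) ≤ ε →
    T.hh pk.M p q (T.nV5 p) [] ≤ T.hh pk.M p q (T.rG p 0 ++ T.rG p 1) [] + C * (u * T.L + ε * ((q - p) * T.L) + 1) :=
  it_n_la_main2 a ha

/-- one covector on two increments -/
theorem it_n_LA3_val (u f f0 f' f0' : ItPh) (A e : ℝ) (hu : u.nrm ≤ A)
    (h1 : |(f.X - f0.X) - (f'.X - f0'.X)| ≤ e) (h2 : |(f.B - f0.B) - (f'.B - f0'.B)| ≤ e) (h3 : |(f.P - f0.P) - (f'.P - f0'.P)| ≤ e)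
    (h4 : |(f.Y - f0.Y) - (f'.Y - f0'.Y)| ≤ e) (h5 : |(f.N - f0.N) - (f'.N - f0'.N)| ≤ e) (h6 : |(f.D - f0.D) - (f'.D - f0'.D)| ≤ e) :
    |itVal u f f0 - itVal u f' f0'| ≤ 6 * A * e := by
  obtain ⟨n1, n2, n3, n4, n5, n6⟩ := it_k_aux_nrm_le u
  have e1 : itVal u f f0 - itVal u f' f0' = u.X * ((f.X - f0.X) - (f'.X - f0'.X)) + u.B * ((f.B - f0.B) - (f'.B - f0'.B))
      + u.P * ((f.P - f0.P) - (f'.P - f0'.P)) + u.Y * ((f.Y - f0.Y) - (f'.Y - f0'.Y)) + u.N * ((f.N - f0.N) - (f'.N - f0'.N))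
      + u.D * ((f.D - f0.D) - (f'.D - f0'.D)) := by
    unfold itVal
    ring
  rw [e1]
  refine (it_n_T1_add (it_n_T1_add (it_n_T1_add (it_n_T1_add (it_n_T1_add (it_n_T1_mul (n1.trans hu) h1) (it_n_T1_mul (n2.trans hu) h2))
    (it_n_T1_mul (n3.trans hu) h3)) (it_n_T1_mul (n4.trans hu) h4)) (it_n_T1_mul (n5.trans hu) h5)) (it_n_T1_mul (n6.trans hu) h6)).trans ?_
  exact le_of_eq (by ring)

/-- `|β| ≤ B0 + B0²` -/
theorem it_n_LA3_be (μ : ItMk) (B0 : ℝ) (h1 : |μ.th| ≤ B0) (h2 : |μ.r| ≤ B0) (h3 : |μ.k| ≤ B0) : |μ.be| ≤ B0 + B0 * B0 :=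
  it_n_T1_sub h2 (it_n_T1_mul h1 h3)

/-- the covector `L_i` is bounded -/
theorem it_n_LA3_cL (μ : ItMk) (B0 : ℝ) (hB : 1 ≤ B0) (h1 : |μ.th| ≤ B0) (h2 : |μ.r| ≤ B0) (h3 : |μ.k| ≤ B0) :
    (itcL μ).nrm ≤ 4 * B0 ^ 2 := by
  have hb := it_n_LA3_be μ B0 h1 h2 h3
  rw [it_s_nrm_le]
  simp only [itcL, abs_mul, abs_neg, abs_two, abs_one, abs_zero]
  refine ⟨?_, ?_, ?_, ?_, ?_, ?_⟩ <;> nlinarith

/-- the contact covectors are bounded -/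
theorem it_n_LA3_cz (f0 : ItPh) (B0 : ℝ) (hB : 1 ≤ B0) (h1 : |f0.X| ≤ B0 + 1) (h2 : |f0.P| ≤ B0 + 1) :
    (itcH f0).nrm ≤ 4 * B0 ^ 2 ∧ (itcJ f0).nrm ≤ 4 * B0 ^ 2 ∧ (itcK f0).nrm ≤ 4 * B0 ^ 2 := by
  simp only [it_s_nrm_le]
  simp only [itcH, itcJ, itcK, abs_mul, abs_neg, abs_two, abs_one, abs_zero]
  refine ⟨⟨?_, ?_, ?_, ?_, ?_, ?_⟩, ⟨?_, ?_, ?_, ?_, ?_, ?_⟩, ?_, ?_, ?_, ?_, ?_, ?_⟩ <;> nlinarith

/-- the frozen parent is bounded -/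
theorem it_n_LA3_f0 (T : Tan) (a : ItPar) (pk : ItPk) (h : T.Adm0 a pk) (p : ℝ) (hp : 0 ≤ p) (ω : T.Ω) (hω : T.P.p ω ≠ 0) :
    |(T.f0 p ω).X| ≤ a.B0 + 1 ∧ |(T.f0 p ω).B| ≤ a.B0 + 1 ∧ |(T.f0 p ω).P| ≤ a.B0 + 1 := by
  obtain ⟨f1, f2, f3, -, -, -⟩ := it_n_T1_bdF T a pk h ω hω
  exact ⟨it_n_T1_rep_bd T.δ p _ _ h.δ0 h.δ1 hp f1, it_n_T1_rep_bd T.δ p _ _ h.δ0 h.δ1 hp f2, it_n_T1_rep_bd T.δ p _ _ h.δ0 h.δ1 hp f3⟩

/-- the five covectors are bounded on the support -/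
theorem it_n_LA3_cov (T : Tan) (a : ItPar) (ha : a.Ok) (pk : ItPk) (h : T.Adm0 a pk) (hM : 2 ≤ pk.M) (p : ℝ) (hp : 0 ≤ p) (ω : T.Ω)
    (hω : T.P.p ω ≠ 0) : ∀ u ∈ T.nV5 p, (u ω).nrm ≤ 4 * a.B0 ^ 2 := by
  have hB0 : 1 ≤ a.B0 := ha.2.2.2.2.2.2.2.2
  obtain ⟨x1, -, x3⟩ := it_n_LA3_f0 T a pk h p hp ω hω
  obtain ⟨c1, c2, c3⟩ := it_n_LA3_cz (T.f0 p ω) a.B0 hB0 x1 x3
  obtain ⟨m1, m2, m3⟩ := h.bdM ω hω 0 (by omega)
  obtain ⟨n1, n2, n3⟩ := h.bdM ω hω 1 (by omega)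
  intro u hu
  simp only [Tan.nV5, Tan.rCz, List.mem_cons, List.not_mem_nil, or_false] at hu
  rcases hu with rfl | rfl | rfl | rfl | rfl
  exacts [it_n_LA3_cL _ _ hB0 m1 m2 m3, it_n_LA3_cL _ _ hB0 n1 n2 n3, c1, c2, c3]

/-- the five covectors are functions of the base -/
theorem it_n_LA3_same (T : Tan) (M : ℕ) (hM : 2 ≤ M) (p : ℝ) (ω ω' : T.Ω) (hF : T.Fn p ω = T.Fn p ω') (hD : T.Dd M ω = T.Dd M ω') :
    ∀ u ∈ T.nV5 p, u ω = u ω' := by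
  have h0 := it_n_T1_f0 T p ω ω' hF
  have m0 := it_n_T1_mrk T M ω ω' hD 0 (by omega)
  have m1 := it_n_T1_mrk T M ω ω' hD 1 (by omega)
  intro u hu
  simp only [Tan.nV5, Tan.rCz, List.mem_cons, List.not_mem_nil, or_false] at hu
  rcases hu with rfl | rfl | rfl | rfl | rfl
  · simp only [Tan.cL, m0]
  · simp only [Tan.cL, m1]
  · simp only [Tan.cH, h0]
  · simp only [Tan.cJ, h0]
  · simp only [Tan.cK, h0]

/-- LEAF L-256-BIN-LA3 (~100 l.).  The phase name lists `V5`: covectors bounded by `C(B0)` on the support, same `base` and same six coordinate cells ⟹ `|val - val'| ≤ 6 C ε_q` (`it_n_rd_close'`; or `it_k_aux_lin_nval`). -/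
theorem it_n_LA3 (a : ItPar) (ha : a.Ok) : ∃ C : ℝ, 0 ≤ C ∧ ∀ (T : Tan) (pk : ItPk) (p q : ℝ), T.Adm0 a pk → 2 ≤ pk.M → 0 < p → p ≤ q →
    T.hh pk.M p q (T.nV5 p) (itRF T.Ω) ≤ C := by
  have hB0 : 1 ≤ a.B0 := ha.2.2.2.2.2.2.2.2
  have hR : (0 : ℝ) ≤ 6 * (4 * a.B0 ^ 2) := by positivity
  refine ⟨5 * Real.log (6 * (4 * a.B0 ^ 2) + 2), mul_nonneg (by norm_num) (Real.log_nonneg (by linarith)), fun T pk p q h0 hM hp hpq => ?_⟩
  unfold Tan.hh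
  have key := it_n_rd_close' T (pair (T.rd p q (itRF T.Ω)) (T.base pk.M p)) p q (T.nV5 p) _ hR fun u hu ω ω' hω hω' hA => ?_
  · simpa [Tan.nV5, Tan.rCz] using key
  simp only [FLaw.pair, Tan.base, Prod.mk.injEq] at hA
  obtain ⟨hrd, hF, hD⟩ := hA
  rw [← it_n_LA3_same T pk.M hM p ω ω' hF hD u hu]
  simp only [Tan.rd, itRF, List.map_cons, List.map_nil, List.cons.injEq, and_true, it_k_aux_valX, it_k_aux_valB,
    it_k_aux_valP, it_k_aux_valY, it_k_aux_valN, it_k_aux_valD] at hrd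
  obtain ⟨r1, r2, r3, r4, r5, r6⟩ := hrd
  exact it_n_LA3_val _ _ _ _ _ _ _ (it_n_LA3_cov T a ha pk h0 hM p hp.le ω hω u hu) (it_k_aux_cell_dist r1) (it_k_aux_cell_dist r2)
    (it_k_aux_cell_dist r3) (it_k_aux_cell_dist r4) (it_k_aux_cell_dist r5) (it_k_aux_cell_dist r6)

/-! ## H1. the angular fibre of the record `0`.   Fibre coordinates (`itQ`, quadratic): `b = B + θ_0 X`, `y = Y + θ_0 X²`, `d = D + θ_0 N`, `π = P - 2 r_0 X`, `n = N - P X + r_0 X²`. -/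

theorem it_n_H1a_abs3 (a b c : ℝ) : |a + b + c| ≤ |a| + |b| + |c| := by
  have h3 := abs_add_le (a + b) c
  have h4 := abs_add_le a b
  linarith

theorem it_n_H1a_mul {a x A m : ℝ} (ha : |a| ≤ A) (hx : |x| ≤ m) : |a * x| ≤ A * m := by
  rw [abs_mul]
  exact mul_le_mul ha hx (abs_nonneg _) ((abs_nonneg _).trans ha)

theorem it_n_H1a_f0 (T : Tan) (p : ℝ) {ω ω' : T.Ω} (h : T.Fn p ω = T.Fn p ω') : T.f0 p ω = T.f0 p ω' := by
  simp only [Tan.Fn, itF, Prod.mk.injEq] at h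
  obtain ⟨⟨a1, a2, a3⟩, b1, b2, b3⟩ := h
  simp only [Tan.f0, itR, trep, a1, a2, a3, b1, b2, b3]

theorem it_n_H1a_trep (δ p x B : ℝ) (h0 : 0 < δ) (h1 : δ < 1) (hp : 0 ≤ p) (hx : |x| ≤ B) : |trep δ p x| ≤ B + 1 := by
  have a1 := it_k_aux_rep_dist δ p x
  have hm1 : msh δ p ≤ 1 := (ig_msh_le δ p h0).trans (Real.rpow_le_one h0.le h1.le hp)
  rw [abs_le] at a1 hx ⊢
  constructor <;> linarith [a1.1, a1.2, hx.1, hx.2]

/-- two points of the same parent cell on the same angular fibre -/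
structure ItnFb (b m e : ℝ) (f g f0 : ItPh) (μ : ItMk) : Prop where
  hb : 1 ≤ b
  hm : 0 ≤ m
  he : 0 ≤ e
  hsq : e * e ≤ 2 * m
  fX : |f.X| ≤ b
  x0 : |f0.X| ≤ b + 1
  p0 : |f0.P| ≤ b + 1
  mt : |μ.th| ≤ b
  mr : |μ.r| ≤ b
  mkk : |μ.k| ≤ b
  dX : |f.X - g.X| ≤ e
  fX0 : |f.X - f0.X| ≤ e
  gX0 : |g.X - f0.X| ≤ e
  gP0 : |g.P - f0.P| ≤ e
  h1 : |(f.B + μ.th * f.X) - (g.B + μ.th * g.X)| ≤ m
  h2 : |(f.Y + μ.th * f.X ^ 2) - (g.Y + μ.th * g.X ^ 2)| ≤ m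
  h3 : |(f.D + μ.th * f.N) - (g.D + μ.th * g.N)| ≤ m
  h4 : |(f.P - 2 * μ.r * f.X) - (g.P - 2 * μ.r * g.X)| ≤ m
  h5 : |(f.N - f.P * f.X + μ.r * f.X ^ 2) - (g.N - g.P * g.X + μ.r * g.X ^ 2)| ≤ m
theorem it_n_H1a_ptL {b m e : ℝ} {f g f0 : ItPh} {μ : ItMk} (h : ItnFb b m e f g f0 μ) :
    |itVal (itcL μ) f f0 - itVal (itcL μ) g f0| ≤ m + 2 * (b * m) := by
  have key : itVal (itcL μ) f f0 - itVal (itcL μ) g f0
      = ((f.P - 2 * μ.r * f.X) - (g.P - 2 * μ.r * g.X)) + 2 * (μ.k * ((f.B + μ.th * f.X) - (g.B + μ.th * g.X))) + 0 := by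
    simp only [itVal, itcL, ItMk.be]; ring
  rw [key]
  refine (it_n_H1a_abs3 _ _ _).trans ?_
  rw [abs_mul, abs_two, abs_zero]
  have := it_n_H1a_mul h.mkk h.h1
  linarith [h.h4]

theorem it_n_H1a_ptH {b m e : ℝ} {f g f0 : ItPh} {μ : ItMk} (h : ItnFb b m e f g f0 μ) :
    |itVal (itcH f0) f f0 - itVal (itcH f0) g f0| ≤ 3 * m + 6 * (b * m) := by
  have key : itVal (itcH f0) f f0 - itVal (itcH f0) g f0
      = ((f.Y + μ.th * f.X ^ 2) - (g.Y + μ.th * g.X ^ 2)) + -(2 * (f0.X * ((f.B + μ.th * f.X) - (g.B + μ.th * g.X))))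
        + -(μ.th * ((f.X - f0.X) * (f.X - f0.X) - (g.X - f0.X) * (g.X - f0.X))) := by
    simp only [itVal, itcH]; ring
  rw [key]
  refine (it_n_H1a_abs3 _ _ _).trans ?_
  rw [abs_neg, abs_neg, abs_mul, abs_two]
  have a1 := it_n_H1a_mul h.x0 h.h1
  have a2 : |(f.X - f0.X) * (f.X - f0.X) - (g.X - f0.X) * (g.X - f0.X)| ≤ e * e + e * e := by
    have c1 := it_n_H1a_mul h.fX0 h.fX0
    have c2 := it_n_H1a_mul h.gX0 h.gX0
    have c3 := abs_sub ((f.X - f0.X) * (f.X - f0.X)) ((g.X - f0.X) * (g.X - f0.X))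
    linarith
  have a3 := it_n_H1a_mul h.mt a2
  have a4 : b * (e * e + e * e) ≤ b * (4 * m) := mul_le_mul_of_nonneg_left (by linarith [h.hsq]) (by linarith [h.hb])
  have e1 : (b + 1) * m = b * m + m := by ring
  have e2 : b * (4 * m) = 4 * (b * m) := by ring
  linarith [h.h2]

theorem it_n_H1a_ptJ {b m e : ℝ} {f g f0 : ItPh} {μ : ItMk} (h : ItnFb b m e f g f0 μ) :
    |itVal (itcJ f0) f f0 - itVal (itcJ f0) g f0| ≤ 3 * m + 3 * (b * m) := by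
  have key : itVal (itcJ f0) f f0 - itVal (itcJ f0) g f0
      = ((f.N - f.P * f.X + μ.r * f.X ^ 2) - (g.N - g.P * g.X + μ.r * g.X ^ 2)) + f.X * ((f.P - 2 * μ.r * f.X) - (g.P - 2 * μ.r * g.X))
        + (f.X - g.X) * ((g.P - f0.P) + μ.r * (f.X - g.X)) := by
    simp only [itVal, itcJ]; ring
  rw [key]
  refine (it_n_H1a_abs3 _ _ _).trans ?_
  have a1 := it_n_H1a_mul h.fX h.h4
  have a2 : |(g.P - f0.P) + μ.r * (f.X - g.X)| ≤ e + b * e := by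
    have c1 := it_n_H1a_mul h.mr h.dX
    have c2 := abs_add_le (g.P - f0.P) (μ.r * (f.X - g.X))
    linarith [h.gP0]
  have a3 := it_n_H1a_mul h.dX a2
  have e1 : e * (e + b * e) = (1 + b) * (e * e) := by ring
  have a4 : (1 + b) * (e * e) ≤ (1 + b) * (2 * m) := mul_le_mul_of_nonneg_left h.hsq (by linarith [h.hb])
  have e2 : (1 + b) * (2 * m) = 2 * m + 2 * (b * m) := by ring
  linarith [h.h5]

theorem it_n_H1a_ptK {b m e : ℝ} {f g f0 : ItPh} {μ : ItMk} (h : ItnFb b m e f g f0 μ) :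
    |itVal (itcK f0) f f0 - itVal (itcK f0) g f0| ≤ 2 * m + 4 * (b * m) + 3 * (b ^ 2 * m) := by
  have key : itVal (itcK f0) f f0 - itVal (itcK f0) g f0
      = ((f.D + μ.th * f.N) - (g.D + μ.th * g.N)) + -(f0.P * ((f.B + μ.th * f.X) - (g.B + μ.th * g.X)))
        + -(μ.th * (itVal (itcJ f0) f f0 - itVal (itcJ f0) g f0)) := by
    simp only [itVal, itcK, itcJ]; ring
  rw [key]
  refine (it_n_H1a_abs3 _ _ _).trans ?_
  rw [abs_neg, abs_neg]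
  have a1 := it_n_H1a_mul h.p0 h.h1
  have a2 := it_n_H1a_mul h.mt (it_n_H1a_ptJ h)
  have e1 : (b + 1) * m = b * m + m := by ring
  have e2 : b * (3 * m + 3 * (b * m)) = 3 * (b * m) + 3 * (b ^ 2 * m) := by ring
  linarith [h.h3]

/-- LEAF L-256-BIN-H1a (~250 l.).  `L_0, H, J, K` ARE CONSTANT ON THE FIBRE.  Same `base` (same `f0`, same marks) and same `Q_0` (fibre coordinates within `ρ = msh δ RQ ≤ ε_q`, `q = 2p ≤ RQ`); `|X - X_0|, |X' - X_0|, |P' - P_0| ≤ ε_p`.  Identities (`ring`):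
`ΔL_0 = Δπ + 2 𝔨_0 Δb`;   `ΔH = Δy - 2 X_0 Δb - θ_0 ((X - X_0)² - (X' - X_0)²)`;   `ΔJ = Δn + X Δπ + (X - X') ((P' - P_0) + r_0 (X - X'))`;   `ΔK = Δd - P_0 Δb - θ_0 ΔJ`
(`Δ` = value at `ω` minus value at `ω'`).   `ε_p² ≤ 2 ε_q`.   `it_n_rd_close'`. -/
theorem it_n_H1a (a : ItPar) (ha : a.Ok) : ∃ C : ℝ, 0 ≤ C ∧ ∀ (T : Tan) (pk : ItPk) (p : ℝ), T.Adm0 a pk → T.quad = true → 1 ≤ pk.M → 0 < p →
    2 * p ≤ pk.RQ →
    T.P.entC (T.rd p (2 * p) (T.cL 0 :: T.rCz p)) (pair (T.base pk.M p) (T.Qn pk.RQ 0)) ≤ C := by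
  have hB : 1 ≤ a.B0 := ha.2.2.2.2.2.2.2.2
  have hlog : 0 ≤ Real.log (10 * a.B0 ^ 2 + 2) := Real.log_nonneg (by nlinarith)
  refine ⟨4 * Real.log (10 * a.B0 ^ 2 + 2), by positivity, ?_⟩
  intro T pk p hT hq hM hp hRQ
  have h0 := hT.δ0
  have h1 := hT.δ1
  have hρ : msh T.δ pk.RQ ≤ msh T.δ (2 * p) := ig_msh_anti T.δ (2 * p) pk.RQ h0 h1 hRQ
  have hm0 : 0 ≤ msh T.δ (2 * p) := (ig_msh_pos _ _).le
  have hcl : ∀ ω ω', T.P.p ω ≠ 0 → T.P.p ω' ≠ 0 →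
      pair (T.base pk.M p) (T.Qn pk.RQ 0) ω = pair (T.base pk.M p) (T.Qn pk.RQ 0) ω' →
      T.f0 p ω' = T.f0 p ω ∧ T.mrk 0 ω' = T.mrk 0 ω ∧
        ItnFb a.B0 (msh T.δ (2 * p)) (msh T.δ p) (T.F ω) (T.F ω') (T.f0 p ω) (T.mrk 0 ω) := by
    intro ω ω' hω hω' hA
    simp only [FLaw.pair, Prod.mk.injEq, Tan.base, Tan.Dd] at hA
    obtain ⟨⟨e1, _, e2⟩, e3⟩ := hA
    have hμ0 : T.mrk 0 ω' = T.mrk 0 ω := (congrFun e2 ⟨0, by omega⟩).symm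
    have f2 := it_n_H1a_f0 T p e1
    refine ⟨f2.symm, hμ0, ?_⟩
    simp only [Tan.Qn, itQ, hq, if_true, Prod.mk.injEq, hμ0] at e3
    obtain ⟨⟨c1, c2, c3⟩, c4, c5⟩ := e3
    simp only [Tan.Fn, itF, Prod.mk.injEq] at e1
    obtain ⟨n1, _, n3, _, _, _⟩ := it_k_aux_nrm_le (T.F ω)
    obtain ⟨m1, m2, m3⟩ := hT.bdM ω hω 0 (by omega)
    have hbF := hT.bdF ω hω
    exact
      { hb := hB
        hm := hm0
        he := (ig_msh_pos _ _).le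
        hsq := it_n_msh_sq T.δ p h0 h1 hp.le
        fX := n1.trans hbF
        x0 := it_n_H1a_trep T.δ p _ a.B0 h0 h1 hp.le (n1.trans hbF)
        p0 := it_n_H1a_trep T.δ p _ a.B0 h0 h1 hp.le (n3.trans hbF)
        mt := m1
        mr := m2
        mkk := m3
        dX := it_k_aux_cell_dist e1.1.1
        fX0 := it_k_aux_rep_dist T.δ p _
        gX0 := by rw [f2]; exact it_k_aux_rep_dist T.δ p _
        gP0 := by rw [f2]; exact it_k_aux_rep_dist T.δ p _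
        h1 := (it_k_aux_cell_dist c1).trans hρ
        h2 := (it_k_aux_cell_dist c2).trans hρ
        h3 := (it_k_aux_cell_dist c3).trans hρ
        h4 := (it_k_aux_cell_dist c4).trans hρ
        h5 := (it_k_aux_cell_dist c5).trans hρ }
  have q1 : a.B0 * msh T.δ (2 * p) ≤ a.B0 ^ 2 * msh T.δ (2 * p) := mul_le_mul_of_nonneg_right (by nlinarith) hm0
  have q0 : msh T.δ (2 * p) ≤ a.B0 ^ 2 * msh T.δ (2 * p) := by
    have := mul_le_mul_of_nonneg_right (by nlinarith : (1 : ℝ) ≤ a.B0 ^ 2) hm0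
    linarith
  have hmain := it_n_rd_close' T (pair (T.base pk.M p) (T.Qn pk.RQ 0)) p (2 * p) (T.cL 0 :: T.rCz p)
    (10 * a.B0 ^ 2) (by positivity) (by
      intro u hu ω ω' hω hω' hA
      obtain ⟨f2, hμ, hc⟩ := hcl ω ω' hω hω' hA
      simp only [Tan.rCz, List.mem_cons, List.not_mem_nil, or_false] at hu
      rw [mul_assoc]
      rcases hu with rfl | rfl | rfl | rfl
      · have := it_n_H1a_ptL hc
        simp only [Tan.cL, f2, hμ]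
        linarith
      · have := it_n_H1a_ptH hc
        simp only [Tan.cH, f2]
        linarith
      · have := it_n_H1a_ptJ hc
        simp only [Tan.cJ, f2]
        linarith
      · have := it_n_H1a_ptK hc
        simp only [Tan.cK, f2]
        linarith)
  have hlen : ((T.cL 0 :: T.rCz p).length : ℝ) = 4 := by
    simp only [Tan.rCz, List.length_cons, List.length_nil]
    norm_num
  rw [hlen] at hmain
  exact hmain

theorem it_n_H1b_f0 (T : Tan) (p : ℝ) {ω ω' : T.Ω} (h : T.Fn p ω = T.Fn p ω') : T.f0 p ω = T.f0 p ω' := by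
  simp only [Tan.Fn, itF, Prod.mk.injEq] at h
  obtain ⟨⟨a1, a2, a3⟩, b1, b2, b3⟩ := h
  simp only [Tan.f0, itR, trep, a1, a2, a3, b1, b2, b3]

/-- `L_1` reads `X` on the fibre of the record `0` -/
theorem it_n_H1b_pt (b m du : ℝ) (f g f0 : ItPh) (μ μ' : ItMk) (hb : 0 ≤ b) (hm : 0 ≤ m) (hdu : 0 < du) (mk : |μ'.k| ≤ b)
    (hg : du < |itnG μ μ'|) (hL : |itVal (itcL μ') f f0 - itVal (itcL μ') g f0| ≤ m)
    (h1 : |(f.B + μ.th * f.X) - (g.B + μ.th * g.X)| ≤ m) (h4 : |(f.P - 2 * μ.r * f.X) - (g.P - 2 * μ.r * g.X)| ≤ m) :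
    |f.X - g.X| ≤ (1 + b) * du⁻¹ * m := by
  have key : 2 * (itnG μ μ' * (f.X - g.X)) = (itVal (itcL μ') f f0 - itVal (itcL μ') g f0)
      + -((f.P - 2 * μ.r * f.X) - (g.P - 2 * μ.r * g.X)) + -(2 * (μ'.k * ((f.B + μ.th * f.X) - (g.B + μ.th * g.X)))) := by
    simp only [itVal, itcL, ItMk.be, itnG]; ring
  have a1 : |2 * (itnG μ μ' * (f.X - g.X))| ≤ m + m + 2 * (b * m) := by
    rw [key]
    have h3 := abs_add_le ((itVal (itcL μ') f f0 - itVal (itcL μ') g f0) + -((f.P - 2 * μ.r * f.X) - (g.P - 2 * μ.r * g.X)))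
      (-(2 * (μ'.k * ((f.B + μ.th * f.X) - (g.B + μ.th * g.X)))))
    have h4' := abs_add_le (itVal (itcL μ') f f0 - itVal (itcL μ') g f0) (-((f.P - 2 * μ.r * f.X) - (g.P - 2 * μ.r * g.X)))
    rw [abs_neg] at h3 h4'
    have h5 : |μ'.k * ((f.B + μ.th * f.X) - (g.B + μ.th * g.X))| ≤ b * m := by
      rw [abs_mul]
      exact mul_le_mul mk h1 (abs_nonneg _) hb
    rw [abs_mul, abs_two] at h3
    linarith
  rw [abs_mul, abs_two, abs_mul] at a1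
  have a2 : du * |f.X - g.X| ≤ |itnG μ μ'| * |f.X - g.X| := mul_le_mul_of_nonneg_right hg.le (abs_nonneg _)
  have a3 : du * |f.X - g.X| ≤ (1 + b) * m := by linarith
  have a4 : |f.X - g.X| = du⁻¹ * (du * |f.X - g.X|) := by
    rw [← mul_assoc, inv_mul_cancel₀ hdu.ne', one_mul]
  rw [a4]
  have a5 := mul_le_mul_of_nonneg_left a3 (inv_nonneg.2 hdu.le)
  have e : (1 + b) * du⁻¹ * m = du⁻¹ * ((1 + b) * m) := by ring
  rw [e]
  exact a5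

/-- LEAF L-256-BIN-H1b (~200 l.).  `L_1` READS `X` ON THE FIBRE.  Same `base`, same `Q_0`, same cell of `L_1` at depth `q = 2p`:  `ΔL_1 = Δπ + 2 𝔨_1 Δb + 2 g (X - X')` (`ring`), so on `nGood u`
`|X - X'| ≤ (1 + B0) ε_q δ^(-u)`.   Capacity `|X - X'| ≤ ε_p ≤ 2 δ^(-p) ε_q`.   `it_n_cell_close` (`T.Xn q = fun ω => tcell δ q (F ω).X`), `it_n_log_le`. -/
theorem it_n_H1b (a : ItPar) (ha : a.Ok) : ∃ C : ℝ, 0 ≤ C ∧ ∀ (T : Tan) (pk : ItPk) (p u ε : ℝ), T.Adm0 a pk → T.quad = true → 2 ≤ pk.M → 0 < p →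
    2 * p ≤ pk.RQ → 0 ≤ u → ε ≤ 1 → T.P.pr (fun ω => ¬ T.nGood u ω) ≤ ε →
    T.P.entC (T.Xn (2 * p)) (pair (T.rd p (2 * p) [T.cL 1]) (pair (T.base pk.M p) (T.Qn pk.RQ 0)))
      ≤ u * T.L + ε * (p * T.L) + C := by
  have hB : 1 ≤ a.B0 := ha.2.2.2.2.2.2.2.2
  have hl1 : 0 ≤ Real.log (1 + a.B0 + 2) := Real.log_nonneg (by linarith)
  have hl2 : 0 ≤ Real.log ((2 : ℝ) + 2) := Real.log_nonneg (by norm_num)
  have hl3 : 0 ≤ Real.log 2 := Real.log_nonneg (by norm_num)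
  refine ⟨Real.log (1 + a.B0 + 2) + Real.log (2 + 2) + Real.log 2, by positivity, ?_⟩
  intro T pk p u ε hT hq hM hp hRQ hu hε hpr
  have h0 := hT.δ0
  have h1 := hT.δ1
  have hL : 0 < T.L := it_cb_L_pos T h0 h1
  have hε0 : 0 ≤ ε := (ent_pr_nonneg _ _).trans hpr
  have hρ : msh T.δ pk.RQ ≤ msh T.δ (2 * p) := ig_msh_anti T.δ (2 * p) pk.RQ h0 h1 hRQ
  have hmain := it_n_cell_close T.P (pair (T.rd p (2 * p) [T.cL 1]) (pair (T.base pk.M p) (T.Qn pk.RQ 0))) (T.nGood u) T.δ (2 * p)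
    (fun ω => (T.F ω).X) ((1 + a.B0) * T.δ ^ (-u)) (2 * T.δ ^ (-p)) ε
    (mul_nonneg (by linarith) (Real.rpow_nonneg h0.le _)) (mul_nonneg (by norm_num) (Real.rpow_nonneg h0.le _))
    (by
      intro ω ω' hω hω' hG _ hA
      simp only [FLaw.pair, Prod.mk.injEq, Tan.base, Tan.Dd] at hA
      obtain ⟨e0, ⟨e1, _, e2⟩, e3⟩ := hA
      have hμ0 : T.mrk 0 ω' = T.mrk 0 ω := (congrFun e2 ⟨0, by omega⟩).symm
      have hμ1 : T.mrk 1 ω' = T.mrk 1 ω := (congrFun e2 ⟨1, by omega⟩).symm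
      have f2 := it_n_H1b_f0 T p e1
      simp only [Tan.Qn, itQ, hq, if_true, Prod.mk.injEq, hμ0] at e3
      obtain ⟨⟨c1, _, _⟩, c4, _⟩ := e3
      simp only [Tan.rd, List.map_cons, List.map_nil, List.cons.injEq, and_true, Tan.cL, hμ1, ← f2] at e0
      obtain ⟨_, _, m3⟩ := hT.bdM ω hω 1 (by omega)
      have := it_n_H1b_pt a.B0 (msh T.δ (2 * p)) (T.δ ^ u) (T.F ω) (T.F ω') (T.f0 p ω) (T.mrk 0 ω) (T.mrk 1 ω) (by linarith)
        (ig_msh_pos _ _).le (Real.rpow_pos_of_pos h0 _) m3 hG (it_k_aux_cell_dist e0) ((it_k_aux_cell_dist c1).trans hρ)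
        ((it_k_aux_cell_dist c4).trans hρ)
      rwa [← Real.rpow_neg h0.le] at this)
    (by
      intro ω ω' hω hω' hA
      simp only [FLaw.pair, Prod.mk.injEq, Tan.base] at hA
      obtain ⟨_, ⟨e1, _⟩, _⟩ := hA
      simp only [Tan.Fn, itF, Prod.mk.injEq] at e1
      have r := it_n_msh_ratio T.δ p (2 * p) h0 h1 (by linarith)
      have e : 2 * p - p = p := by ring
      rw [e] at r
      exact (it_k_aux_cell_dist e1.1.1).trans r)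
    hpr
  have g1 := it_n_log_le h0 h1 (1 + a.B0) u (by linarith) hu
  have g2 := it_n_log_le h0 h1 2 p (by norm_num) hp.le
  have hLdef : lg T.δ = T.L := rfl
  rw [hLdef] at g1 g2
  have g3 : ε * Real.log (2 * T.δ ^ (-p) + 2) ≤ ε * (p * T.L) + Real.log (2 + 2) := by
    have a1 := mul_le_mul_of_nonneg_left g2 hε0
    have a2 := mul_le_mul_of_nonneg_right hε hl2
    linarith
  have e : T.Xn (2 * p) = fun ω => tcell T.δ (2 * p) (T.F ω).X := rfl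
  rw [e]
  linarith

theorem it_n_H1c_abs3 (a b c : ℝ) : |a + b + c| ≤ |a| + |b| + |c| := by
  have h3 := abs_add_le (a + b) c
  have h4 := abs_add_le a b
  linarith

theorem it_n_H1c_mul {a x A m : ℝ} (ha : |a| ≤ A) (hx : |x| ≤ m) : |a * x| ≤ A * m := by
  rw [abs_mul]
  exact mul_le_mul ha hx (abs_nonneg _) ((abs_nonneg _).trans ha)

/-- Lipschitz inversion of the fibre coordinates -/
theorem it_n_H1c_pt (b e : ℝ) (f g : ItPh) (μ : ItMk) (hb : 1 ≤ b) (he : 0 ≤ e) (fX : |f.X| ≤ b) (gX : |g.X| ≤ b) (fP : |f.P| ≤ b)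
    (mt : |μ.th| ≤ b) (mr : |μ.r| ≤ b) (hX : |f.X - g.X| ≤ e)
    (h1 : |(f.B + μ.th * f.X) - (g.B + μ.th * g.X)| ≤ e) (h2 : |(f.Y + μ.th * f.X ^ 2) - (g.Y + μ.th * g.X ^ 2)| ≤ e)
    (h3 : |(f.D + μ.th * f.N) - (g.D + μ.th * g.N)| ≤ e) (h4 : |(f.P - 2 * μ.r * f.X) - (g.P - 2 * μ.r * g.X)| ≤ e)
    (h5 : |(f.N - f.P * f.X + μ.r * f.X ^ 2) - (g.N - g.P * g.X + μ.r * g.X ^ 2)| ≤ e) :
    (f.sub g).nrm ≤ 8 * b ^ 3 * e := by
  have hb0 : 0 ≤ b := by linarith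
  have b2 : b ≤ b ^ 2 := by nlinarith
  have b3 : b ^ 2 ≤ b ^ 3 := by nlinarith [sq_nonneg b]
  have q0 : e ≤ b ^ 3 * e := by
    have := mul_le_mul_of_nonneg_right (by linarith : (1 : ℝ) ≤ b ^ 3) he
    linarith
  have q1 : b * e ≤ b ^ 3 * e := mul_le_mul_of_nonneg_right (by linarith) he
  have q2 : b ^ 2 * e ≤ b ^ 3 * e := mul_le_mul_of_nonneg_right b3 he
  have hm : 0 ≤ b ^ 3 * e := by positivity
  have sXX : |f.X + g.X| ≤ 2 * b := by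
    have := abs_add_le f.X g.X
    linarith
  have tB : |f.B - g.B| ≤ e + b * e := by
    have key : f.B - g.B = ((f.B + μ.th * f.X) - (g.B + μ.th * g.X)) + -(μ.th * (f.X - g.X)) + 0 := by ring
    rw [key]
    refine (it_n_H1c_abs3 _ _ _).trans ?_
    rw [abs_neg, abs_zero]
    have := it_n_H1c_mul mt hX
    linarith
  have tP : |f.P - g.P| ≤ e + 2 * (b * e) := by
    have key : f.P - g.P = ((f.P - 2 * μ.r * f.X) - (g.P - 2 * μ.r * g.X)) + 2 * (μ.r * (f.X - g.X)) + 0 := by ring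
    rw [key]
    refine (it_n_H1c_abs3 _ _ _).trans ?_
    rw [abs_mul, abs_two, abs_zero]
    have := it_n_H1c_mul mr hX
    linarith
  have tY : |f.Y - g.Y| ≤ e + 2 * (b ^ 2 * e) := by
    have key : f.Y - g.Y = ((f.Y + μ.th * f.X ^ 2) - (g.Y + μ.th * g.X ^ 2)) + -(μ.th * ((f.X + g.X) * (f.X - g.X))) + 0 := by ring
    rw [key]
    refine (it_n_H1c_abs3 _ _ _).trans ?_
    rw [abs_neg, abs_zero]
    have := it_n_H1c_mul mt (it_n_H1c_mul sXX hX)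
    have e' : b * (2 * b * e) = 2 * (b ^ 2 * e) := by ring
    linarith
  have tN : |f.N - g.N| ≤ e + 2 * (b * e) + 4 * (b ^ 2 * e) := by
    have key : f.N - g.N = ((f.N - f.P * f.X + μ.r * f.X ^ 2) - (g.N - g.P * g.X + μ.r * g.X ^ 2))
        + (f.P * (f.X - g.X) + (f.P - g.P) * g.X) + -(μ.r * ((f.X + g.X) * (f.X - g.X))) := by ring
    rw [key]
    refine (it_n_H1c_abs3 _ _ _).trans ?_
    rw [abs_neg]
    have a1 := it_n_H1c_mul mr (it_n_H1c_mul sXX hX)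
    have a2 := it_n_H1c_mul fP hX
    have a3 := it_n_H1c_mul tP gX
    have a4 := abs_add_le (f.P * (f.X - g.X)) ((f.P - g.P) * g.X)
    have e1 : b * (2 * b * e) = 2 * (b ^ 2 * e) := by ring
    have e2 : (e + 2 * (b * e)) * b = b * e + 2 * (b ^ 2 * e) := by ring
    linarith
  have tD : |f.D - g.D| ≤ e + b * e + 2 * (b ^ 2 * e) + 4 * (b ^ 3 * e) := by
    have key : f.D - g.D = ((f.D + μ.th * f.N) - (g.D + μ.th * g.N)) + -(μ.th * (f.N - g.N)) + 0 := by ring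
    rw [key]
    refine (it_n_H1c_abs3 _ _ _).trans ?_
    rw [abs_neg, abs_zero]
    have := it_n_H1c_mul mt tN
    have e1 : b * (e + 2 * (b * e) + 4 * (b ^ 2 * e)) = b * e + 2 * (b ^ 2 * e) + 4 * (b ^ 3 * e) := by ring
    linarith
  rw [it_s_nrm_le]
  have e8 : 8 * b ^ 3 * e = 8 * (b ^ 3 * e) := by ring
  rw [e8]
  refine ⟨?_, ?_, ?_, ?_, ?_, ?_⟩
  · show |f.X - g.X| ≤ _
    linarith
  · show |f.B - g.B| ≤ _
    linarith
  · show |f.P - g.P| ≤ _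
    linarith
  · show |f.Y - g.Y| ≤ _
    linarith
  · show |f.N - g.N| ≤ _
    linarith
  · show |f.D - g.D| ≤ _
    linarith

/-- LEAF L-256-BIN-H1c (~200 l.).  `(X_p, Q_0, 𝒟)` LISTS `F_p`.  `B = b - θ_0 X`, `P = π + 2 r_0 X`, `Y = y - θ_0 X²`, `N = n + P X - r_0 X²`, `D = d - θ_0 N`: all Lipschitz in `(X, b, y, d, π, n)` with constants `C(B0)` on the box;
`|X - X'| ≤ ε_p`, fibre coordinates within `msh δ RQ ≤ ε_p`.   `it_n_Fn_close'`. -/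
theorem it_n_H1c (a : ItPar) (ha : a.Ok) : ∃ C : ℝ, 0 ≤ C ∧ ∀ (T : Tan) (pk : ItPk) (p : ℝ), T.Adm0 a pk → T.quad = true → 1 ≤ pk.M → 0 < p →
    p ≤ pk.RQ →
    T.P.entC (T.Fn p) (pair (T.Xn p) (pair (T.Dd pk.M) (T.Qn pk.RQ 0))) ≤ C := by
  have hB : 1 ≤ a.B0 := ha.2.2.2.2.2.2.2.2
  have hlog : 0 ≤ Real.log (8 * a.B0 ^ 3 + 2) := Real.log_nonneg (by nlinarith [pow_pos (by linarith : 0 < a.B0) 3])
  refine ⟨6 * Real.log (8 * a.B0 ^ 3 + 2), by positivity, ?_⟩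
  intro T pk p hT hq hM hp hRQ
  have h0 := hT.δ0
  have h1 := hT.δ1
  have hρ : msh T.δ pk.RQ ≤ msh T.δ p := ig_msh_anti T.δ p pk.RQ h0 h1 hRQ
  refine it_n_Fn_close' T _ p (8 * a.B0 ^ 3) (by positivity) ?_
  intro ω ω' hω hω' hA
  simp only [FLaw.pair, Prod.mk.injEq, Tan.Dd, Tan.Xn] at hA
  obtain ⟨e1, ⟨_, e2⟩, e3⟩ := hA
  have hμ : T.mrk 0 ω' = T.mrk 0 ω := (congrFun e2 ⟨0, by omega⟩).symm
  simp only [Tan.Qn, itQ, hq, if_true, Prod.mk.injEq, hμ] at e3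
  obtain ⟨⟨c1, c2, c3⟩, c4, c5⟩ := e3
  obtain ⟨n1, _, n3, _, _, _⟩ := it_k_aux_nrm_le (T.F ω)
  obtain ⟨n1', _, _, _, _, _⟩ := it_k_aux_nrm_le (T.F ω')
  obtain ⟨m1, m2, _⟩ := hT.bdM ω hω 0 (by omega)
  exact it_n_H1c_pt a.B0 (msh T.δ p) (T.F ω) (T.F ω') (T.mrk 0 ω) hB (ig_msh_pos _ _).le (n1.trans (hT.bdF ω hω))
    (n1'.trans (hT.bdF ω' hω')) (n3.trans (hT.bdF ω hω)) m1 m2 (it_k_aux_cell_dist e1)
    ((it_k_aux_cell_dist c1).trans hρ) ((it_k_aux_cell_dist c2).trans hρ) ((it_k_aux_cell_dist c3).trans hρ)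
    ((it_k_aux_cell_dist c4).trans hρ) ((it_k_aux_cell_dist c5).trans hρ)

theorem it_n_H1d_nest (T : Tan) (h0 : 0 < T.δ) (h1 : T.δ < 1) {p q : ℝ} (hpq : p ≤ q) {ω ω' : T.Ω}
    (h : T.Xn q ω = T.Xn q ω') : T.Xn p ω = T.Xn p ω' :=
  it_k_aux_cell_nest h0 h1 hpq h

/-- LEAF L-256-BIN-H1d (~100 l.).  (fib).  `W = (Q_0, Ξ)`.  `I(X_q ; W | X_p, C_*) ≤ I((X_q, X_p) ; W | C_*) = I(X_q ; W | C_*) ≤ I(X_K ; W | C_*) ≤ acc L`
(`ent_miC_chain`, `ent_miC_comm`, `ent_miC_mono`, nesting `it_k_aux_cell_nest`), `ent_miC_eq`, and `(W, (X_p, C_*)) ≅ (X_p, (𝒟, Q_0))` (`ent_entC_congr`). -/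
theorem it_n_H1d (T : Tan) (a : ItPar) (pk : ItPk) (acc p q : ℝ) (h0 : T.Adm0 a pk) (hi : T.AdmI a pk acc) (hM : 1 ≤ pk.M) (hpq : p ≤ q)
    (hqK : q ≤ pk.K) :
    T.P.entC (T.Xn q) (pair (T.Xn p) T.Cs) - acc * T.L ≤ T.P.entC (T.Xn q) (pair (T.Xn p) (pair (T.Dd pk.M) (T.Qn pk.RQ 0))) := by
  have hδ0 := h0.δ0
  have hδ1 := h0.δ1
  have e1 := ent_miC_eq T.P (T.Xn q) (pair (T.Qn pk.RQ 0) (T.Xi pk.M)) (pair (T.Xn p) T.Cs)
  have e2 : T.P.entC (T.Xn q) (pair (pair (T.Qn pk.RQ 0) (T.Xi pk.M)) (pair (T.Xn p) T.Cs))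
      = T.P.entC (T.Xn q) (pair (T.Xn p) (pair (T.Dd pk.M) (T.Qn pk.RQ 0))) :=
    ent_entC_congr T.P _ _ _ _ (fun ω ω' _ _ => by
      simp only [Tan.Dd, FLaw.pair, Prod.mk.injEq]
      tauto) (fun _ _ _ _ _ => Iff.rfl)
  have e3 := ent_miC_chain T.P (pair (T.Qn pk.RQ 0) (T.Xi pk.M)) (T.Xn q) (T.Xn p) T.Cs
  have e4 := ent_miC_nonneg T.P (pair (T.Qn pk.RQ 0) (T.Xi pk.M)) (T.Xn p) T.Cs
  have e5 : T.P.miC (pair (T.Qn pk.RQ 0) (T.Xi pk.M)) (pair (T.Xn q) (T.Xn p)) T.Cs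
      ≤ T.P.miC (pair (T.Qn pk.RQ 0) (T.Xi pk.M)) (T.Xn pk.K) T.Cs :=
    ent_miC_mono T.P _ _ _ _ fun ω ω' _ _ hx _ => by
      simp only [FLaw.pair, Prod.mk.injEq]
      exact ⟨it_n_H1d_nest T hδ0 hδ1 hqK hx, it_n_H1d_nest T hδ0 hδ1 (hpq.trans hqK) hx⟩
  have e7 := ent_miC_comm T.P (T.Xn q) (pair (T.Qn pk.RQ 0) (T.Xi pk.M)) (pair (T.Xn p) T.Cs)
  have e8 := ent_miC_comm T.P (T.Xn pk.K) (pair (T.Qn pk.RQ 0) (T.Xi pk.M)) T.Cs
  have e6 := hi.fib 0 (by omega)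
  rw [← e2]
  linarith

/-- LEAF L-256-BIN-H1e (~150 l.).  (ang).  `H(X_q | X_p, C_*) = H(X_q | C_*) - H(X_p | C_*)` (nested names, `ent_entC_chain`).   Lower: `ltk_ent_ge` with `c = (m q - acc) L` (if `c < 0` use `ent_entC_nonneg`).
Upper: `it_k_aux_ent_us` with `c = (m p + acc) L`, `N = (4 B0 + 4) δ^(-p)` (`it_k_aux_cell_mem`, `it_k_aux_Icc_card`, `ig_pow_lev_le`, as in `it_k_hA_cap`), `it_k_aux_log_cap`. -/
theorem it_n_H1e (a : ItPar) (ha : a.Ok) : ∃ C : ℝ, 0 ≤ C ∧ ∀ (T : Tan) (pk : ItPk) (acc p q : ℝ), T.Adm0 a pk → T.AdmI a pk acc → 0 < acc → acc ≤ 1 →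
    0 ≤ p → p ≤ q → p ∈ pk.G → q ∈ pk.G →
    a.m * (q - p) * T.L - acc * (2 + p + q) * T.L - C ≤ T.P.entC (T.Xn q) (pair (T.Xn p) T.Cs) := by
  obtain ⟨-, -, -, hm0, hm1, -, -, -, hB⟩ := ha
  have hlB : 0 ≤ Real.log (4 * a.B0 + 4) := Real.log_nonneg (by linarith)
  have hl2 : 0 ≤ Real.log 2 := Real.log_nonneg (by norm_num)
  refine ⟨Real.log (4 * a.B0 + 4) + Real.log 2, by linarith, fun T pk acc p q h0 hi hacc hacc1 hp hpq hpG hqG => ?_⟩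
  have hδ0 := h0.δ0
  have hδ1 := h0.δ1
  have hL : 0 < T.L := it_cb_L_pos T hδ0 hδ1
  have hq : 0 ≤ q := hp.trans hpq
  -- chain rule
  have c1 := ent_entC_chain T.P (T.Xn p) (T.Xn q) T.Cs
  have c2 : T.P.entC (pair (T.Xn p) (T.Xn q)) T.Cs = T.P.entC (T.Xn q) T.Cs :=
    ent_entC_congr T.P _ _ _ _ (fun _ _ _ _ => Iff.rfl) (fun ω ω' _ _ _ => by
      simp only [FLaw.pair, Prod.mk.injEq]
      exact ⟨fun h => h.2, fun h => ⟨it_n_H1d_nest T hδ0 hδ1 hpq h, h⟩⟩)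
  -- lower bound at `q`
  have lo : a.m * q * T.L - acc * T.L - acc * q * T.L ≤ T.P.entC (T.Xn q) T.Cs := by
    by_cases hc : 0 ≤ (a.m * q - acc) * T.L
    · have hb : T.P.pr (fun ω => T.P.surC (T.Xn q) T.Cs ω < (a.m * q - acc) * T.L) ≤ acc := by
        refine le_trans (ent_pr_mono T.P fun ω _ hlt => ?_) (hi.ang q hqG)
        refine lt_of_lt_of_le ?_ (neg_le_abs _)
        linarith
      have hge := ltk_ent_ge T.P (T.Xn q) T.Cs hc hb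
      have k2 : 0 ≤ (acc * q * (1 - a.m) + acc ^ 2) * T.L :=
        mul_nonneg (add_nonneg (mul_nonneg (mul_nonneg hacc.le hq) (by linarith)) (by positivity)) hL.le
      linarith
    · have hneg : (a.m * q - acc) * T.L < 0 := not_le.1 hc
      have k1 : 0 ≤ acc * q * T.L := mul_nonneg (mul_nonneg hacc.le hq) hL.le
      have k2 := ent_entC_nonneg T.P (T.Xn q) T.Cs
      linarith
  -- upper bound at `p`
  have up : T.P.entC (T.Xn p) T.Cs ≤ (a.m * p + acc) * T.L + acc * p * T.L + Real.log (4 * a.B0 + 4) + Real.log 2 := by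
    have hone : (1 : ℝ) ≤ T.δ ^ (-p) := Real.one_le_rpow_of_pos_of_le_one_of_nonpos hδ0 hδ1.le (by linarith)
    have hN : 1 ≤ (4 * a.B0 + 4) * T.δ ^ (-p) := by nlinarith
    have hb : T.P.pr (fun ω => (a.m * p + acc) * T.L < T.P.surC (T.Xn p) T.Cs ω) ≤ acc := by
      refine le_trans (ent_pr_mono T.P fun ω _ hlt => ?_) (hi.ang p hpG)
      refine lt_of_lt_of_le ?_ (le_abs_self _)
      linarith
    have hcap : T.P.NVal (fun _ => True) (T.Xn p) T.Cs ((4 * a.B0 + 4) * T.δ ^ (-p)) := by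
      intro ω₀
      have hb0 : (0 : ℝ) ≤ a.B0 * 2 ^ tlev T.δ p := mul_nonneg (by linarith) (by positivity)
      obtain ⟨d1, -⟩ := it_k_aux_Icc_card _ hb0
      refine ⟨Finset.Icc ⌊-(a.B0 * 2 ^ tlev T.δ p)⌋ ⌊a.B0 * 2 ^ tlev T.δ p⌋, ?_, fun ω hω _ _ => ?_⟩
      · have hpw := ig_pow_lev_le T.δ p hδ0 hδ1 hp
        have : a.B0 * 2 ^ tlev T.δ p ≤ a.B0 * (2 * T.δ ^ (-p)) := mul_le_mul_of_nonneg_left hpw (by linarith)
        linarith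
      · exact it_k_aux_cell_mem _ _ _ _ ((it_k_aux_nrm_le (T.F ω)).1.trans (h0.bdF ω hω))
    have hus := it_k_aux_ent_us T.P (T.Xn p) T.Cs
      (mul_nonneg (add_nonneg (mul_nonneg hm0 hp) hacc.le) hL.le) hN hb hcap
    rw [it_k_aux_log_cap hδ0 _ _ (by linarith)] at hus
    have e : lg T.δ = T.L := rfl
    rw [e] at hus
    have k1 : acc * Real.log (4 * a.B0 + 4) ≤ 1 * Real.log (4 * a.B0 + 4) := mul_le_mul_of_nonneg_right hacc1 hlB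
    linarith
  linarith

/-! ## H2. the display.   `s = T.dsp l ω` (a function of `(O_l, C_*)`: `AdmG.dfun`), `A = δ^(-acc)`, `β' = s.R - s.th * s.b`, `k' = s.b`;  `|k' - 𝔨_0| + |β' - β_0| ≤ A δ^((c-1) l) ≤ A δ^p` (`cutn`). -/

/-- LEAF L-256-BIN-H2a (~150 l.).  THE OUTPUT PREDICTS `aux`.  Same `(O_l, C_*)` ⟹ same display ⟹ `|𝔨_0 - 𝔨_0'|, |β_0 - β_0'| ≤ 2 A δ^p ≤ 4 A ε_p`.   `it_n_ent_close'` with the list `[β_0, 𝔨_0]` + `ent_entC_congr`, `it_n_log_le`. -/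
theorem it_n_H2a (a : ItPar) (ha : a.Ok) (hc : 1 < a.c) : ∃ C : ℝ, 0 ≤ C ∧ ∀ (T : Tan) (pk : ItPk) (τ κ0 acc p l : ℝ), T.Adm a pk τ κ0 acc →
    T.quad = true → 0 < acc → 0 < p → l ∈ pk.Lam → p ≤ (a.c - 1) * l →
    T.P.entC (T.nAux p) (pair (T.O l) (pair T.Cs (T.Fn p))) ≤ C * (acc * T.L + 1) := by
  have hlog : 0 ≤ Real.log ((4 : ℝ) + 2) := Real.log_nonneg (by norm_num)
  refine ⟨2 + 2 * Real.log (4 + 2), by positivity, ?_⟩
  intro T pk τ κ0 acc p l hT hq hacc hp hl h1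
  have h0 := hT.t0.δ0
  have h1' := hT.t0.δ1
  have hL : 0 < T.L := it_cb_L_pos T h0 h1'
  have hA0 : 0 ≤ T.δ ^ (-acc) := Real.rpow_nonneg h0.le _
  have hcut : ∀ ω, T.P.p ω ≠ 0 → |(T.dsp l ω).b - (T.mrk 0 ω).k|
      + |(T.dsp l ω).R - (T.dsp l ω).th * (T.dsp l ω).b - (T.mrk 0 ω).be| ≤ T.δ ^ (-acc) * (2 * msh T.δ p) := by
    intro ω hω
    refine ((hT.tg.dsp l hl ω hω).cutn hq hc).trans (mul_le_mul_of_nonneg_left ?_ hA0)
    exact it_n_rpow_le_msh T.δ _ p h0 h1' hp.le h1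
  have hmain := it_n_ent_close' T.P (pair (T.O l) (pair T.Cs (T.Fn p))) T.δ p
    [fun ω => (T.mrk 0 ω).be, fun ω => (T.mrk 0 ω).k] (4 * T.δ ^ (-acc)) (by positivity) (by
      intro v hv ω ω' hω hω' hA
      simp only [FLaw.pair, Prod.mk.injEq] at hA
      have f1 := hT.tg.dfun l hl ω ω' hω hω' hA.1 hA.2.1
      have g1 := hcut ω hω
      have g2 := hcut ω' hω'
      rw [← f1] at g2
      have n1 := abs_nonneg ((T.dsp l ω).b - (T.mrk 0 ω).k)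
      have n2 := abs_nonneg ((T.dsp l ω).R - (T.dsp l ω).th * (T.dsp l ω).b - (T.mrk 0 ω).be)
      have n3 := abs_nonneg ((T.dsp l ω).b - (T.mrk 0 ω').k)
      have n4 := abs_nonneg ((T.dsp l ω).R - (T.dsp l ω).th * (T.dsp l ω).b - (T.mrk 0 ω').be)
      have e : 4 * T.δ ^ (-acc) * msh T.δ p = 2 * (T.δ ^ (-acc) * (2 * msh T.δ p)) := by ring
      rw [e]
      simp only [List.mem_cons, List.not_mem_nil, or_false] at hv
      rcases hv with rfl | rfl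
      · have k1 : |(T.dsp l ω).R - (T.dsp l ω).th * (T.dsp l ω).b - (T.mrk 0 ω).be| ≤ T.δ ^ (-acc) * (2 * msh T.δ p) := by linarith
        have k2 : |(T.dsp l ω).R - (T.dsp l ω).th * (T.dsp l ω).b - (T.mrk 0 ω').be| ≤ T.δ ^ (-acc) * (2 * msh T.δ p) := by linarith
        rw [abs_le] at k1 k2 ⊢
        constructor <;> linarith [k1.1, k1.2, k2.1, k2.2]
      · have k1 : |(T.dsp l ω).b - (T.mrk 0 ω).k| ≤ T.δ ^ (-acc) * (2 * msh T.δ p) := by linarith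
        have k2 : |(T.dsp l ω).b - (T.mrk 0 ω').k| ≤ T.δ ^ (-acc) * (2 * msh T.δ p) := by linarith
        rw [abs_le] at k1 k2 ⊢
        constructor <;> linarith [k1.1, k1.2, k2.1, k2.2])
  have e1 : T.P.entC (T.nAux p) (pair (T.O l) (pair T.Cs (T.Fn p)))
      = T.P.entC (fun ω => [fun ω => (T.mrk 0 ω).be, fun ω => (T.mrk 0 ω).k].map fun v => tcell T.δ p (v ω))
          (pair (T.O l) (pair T.Cs (T.Fn p))) :=
    ent_entC_congr T.P _ _ _ _ (fun _ _ _ _ => Iff.rfl) (fun ω ω' _ _ _ => by simp [Tan.nAux])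
  rw [e1]
  have hlg := it_n_log_le h0 h1' 4 acc (by norm_num) hacc.le
  have hLdef : lg T.δ = T.L := rfl
  rw [hLdef] at hlg
  simp only [List.length_cons, List.length_nil] at hmain
  push_cast at hmain
  have e : (2 + 2 * Real.log (4 + 2)) * (acc * T.L + 1)
      = 2 * (acc * T.L + Real.log (4 + 2)) + (2 + 2 * Real.log (4 + 2) * (acc * T.L)) := by ring
  have hnn : 0 ≤ 2 * Real.log (4 + 2) * (acc * T.L) := by positivity
  rw [e]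
  linarith

theorem it_n_H2b_abs5 (a b c d e : ℝ) : |a + b + c + d + e| ≤ |a| + |b| + |c| + |d| + |e| := by
  have h1 := abs_add_le (a + b + c + d) e
  have h2 := abs_add_le (a + b + c) d
  have h3 := abs_add_le (a + b) c
  have h4 := abs_add_le a b
  linarith

theorem it_n_H2b_mul {a x A m : ℝ} (ha : |a| ≤ A) (hx : |x| ≤ m) : |a * x| ≤ A * m := by
  rw [abs_mul]
  exact mul_le_mul ha hx (abs_nonneg _) ((abs_nonneg _).trans ha)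

/-- what the display and the parent predict for the three readings of `G_0` -/
def itnK1 (s : ItDsp) (f0 : ItPh) : ℝ := s.L - (f0.P - 2 * (s.R - s.th * s.b) * f0.X + 2 * s.b * f0.B)

def itnK2 (s : ItDsp) (f0 : ItPh) : ℝ :=
  s.vel - (f0.N - s.L * f0.X - (s.R - s.th * s.b) * f0.X ^ 2 - s.b * (f0.Y - 2 * f0.X * f0.B))

def itnK3 (s : ItDsp) (f0 : ItPh) : ℝ :=
  s.pos - s.th * s.vel - (f0.D - s.L * f0.B - (s.R - s.th * s.b) * f0.Y + s.b * f0.B ^ 2)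

theorem it_n_H2b_eqns_cite : True := by
  have := @itnK1.eq_1; have := @itnK2.eq_1; have := @itnK3.eq_1
  trivial

/-- numerical hypotheses at one sample point -/
structure ItnDs (B0 A e d1 d2 : ℝ) (f f0 : ItPh) (μ : ItMk) (s : ItDsp) : Prop where
  hB : 0 ≤ B0
  hA : 1 ≤ A
  he0 : 0 ≤ e
  he : e ≤ d1
  hd1 : d1 ≤ 1
  hd : d1 * d1 = d2
  dX : |f.X - f0.X| ≤ e
  dB : |f.B - f0.B| ≤ e
  dP : |f.P - f0.P| ≤ e
  dY : |f.Y - f0.Y| ≤ e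
  x0 : |f0.X| ≤ B0 + 1
  th : |s.th| ≤ A
  sR : |s.R| ≤ A
  sb : |s.b| ≤ A
  cut : |s.b - μ.k| + |s.R - s.th * s.b - μ.be| ≤ A * d1
  vel : |s.vel - (f.N - s.L * f.X - s.R * f.X ^ 2 - s.b * ((f.Y + s.th * f.X ^ 2) - 2 * f.X * (f.B + s.th * f.X)))| ≤ A * d2
  pos : |s.pos - (f.D + s.th * f.N - s.L * (f.B + s.th * f.X) - s.R * (f.Y + s.th * f.X ^ 2) + s.b * (f.B + s.th * f.X) ^ 2)| ≤ A * d2
  der : |f.P - s.L - 2 * s.R * f.X + 2 * s.b * (f.B + s.th * f.X)| ≤ A * d2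
theorem it_n_H2b_basic {B0 A e d1 d2 : ℝ} {f f0 : ItPh} {μ : ItMk} {s : ItDsp} (h : ItnDs B0 A e d1 d2 f f0 μ s) :
    0 ≤ d2 ∧ e * e ≤ d2 ∧ d1 * e ≤ d2 ∧ d2 ≤ A ^ 2 * d2 ∧ A * d2 ≤ A ^ 2 * d2 ∧ |s.R - s.th * s.b| ≤ 2 * A ^ 2 ∧ e ≤ 1 ∧
      |(f.Y - f0.Y) - 2 * f0.X * (f.B - f0.B)| ≤ (3 + 2 * B0) * e ∧ |s.b - μ.k| ≤ A * d1 ∧ |s.R - s.th * s.b - μ.be| ≤ A * d1 := by
  have hd10 : 0 ≤ d1 := h.he0.trans h.he
  have hd2 : 0 ≤ d2 := by rw [← h.hd]; positivity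
  have hA0 : 0 ≤ A := by linarith [h.hA]
  have hAA : A ≤ A ^ 2 := by nlinarith [h.hA]
  have h1A : 1 ≤ A ^ 2 := by nlinarith [h.hA]
  refine ⟨hd2, ?_, ?_, ?_, ?_, ?_, h.he.trans h.hd1, ?_, ?_, ?_⟩
  · rw [← h.hd]; exact mul_le_mul h.he h.he h.he0 hd10
  · rw [← h.hd]; exact mul_le_mul_of_nonneg_left h.he hd10
  · nlinarith
  · exact mul_le_mul_of_nonneg_right hAA hd2
  · have a1 : |s.th * s.b| ≤ A * A := it_n_H2b_mul h.th h.sb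
    have a2 := abs_sub (s.R) (s.th * s.b)
    have a3 := h.sR
    nlinarith
  · have a1 : |2 * f0.X * (f.B - f0.B)| ≤ (2 * (B0 + 1)) * e := by
      refine it_n_H2b_mul ?_ h.dB
      rw [abs_mul, abs_two]
      linarith [h.x0]
    have a2 := abs_sub (f.Y - f0.Y) (2 * f0.X * (f.B - f0.B))
    have a3 := h.dY
    linarith
  · linarith [h.cut, abs_nonneg (s.R - s.th * s.b - μ.be)]
  · linarith [h.cut, abs_nonneg (s.b - μ.k)]

theorem it_n_H2b_pt1 {B0 A e d1 d2 : ℝ} {f f0 : ItPh} {μ : ItMk} {s : ItDsp} (h : ItnDs B0 A e d1 d2 f f0 μ s) :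
    |itVal (itcL μ) f f0 - itnK1 s f0| ≤ (12 + 2 * B0) * (A ^ 2 * d2) := by
  obtain ⟨b1, b2, b3, b4, b5, b6, b7, b8, b9, b10⟩ := it_n_H2b_basic h
  have hA0 : 0 ≤ A := by linarith [h.hA]
  have key : itVal (itcL μ) f f0 - itnK1 s f0
      = 2 * ((s.R - s.th * s.b - μ.be) * (f.X - f0.X)) + (-2) * ((s.b - μ.k) * (f.B - f0.B))
        + (f.P - s.L - 2 * s.R * f.X + 2 * s.b * (f.B + s.th * f.X)) + 0 + 0 := by
    simp only [itVal, itcL, itnK1]; ring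
  rw [key]
  refine (it_n_H2b_abs5 _ _ _ _ _).trans ?_
  have t1 : |(s.R - s.th * s.b - μ.be) * (f.X - f0.X)| ≤ (A * d1) * e := it_n_H2b_mul b10 h.dX
  have t2 : |(s.b - μ.k) * (f.B - f0.B)| ≤ (A * d1) * e := it_n_H2b_mul b9 h.dB
  have t3 := h.der
  have t4 : (A * d1) * e ≤ A * d2 := by
    rw [mul_assoc]; exact mul_le_mul_of_nonneg_left b3 hA0
  have v1 : |2 * ((s.R - s.th * s.b - μ.be) * (f.X - f0.X))| = 2 * |(s.R - s.th * s.b - μ.be) * (f.X - f0.X)| := by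
    rw [abs_mul, abs_two]
  have v2 : |(-2) * ((s.b - μ.k) * (f.B - f0.B))| = 2 * |(s.b - μ.k) * (f.B - f0.B)| := by
    rw [abs_mul, abs_neg, abs_two]
  rw [v1, v2, abs_zero]
  have hm : 0 ≤ A ^ 2 * d2 := by positivity
  have hB := h.hB
  have hBm : 0 ≤ B0 * (A ^ 2 * d2) := mul_nonneg hB hm
  linarith

theorem it_n_H2b_pt2 {B0 A e d1 d2 : ℝ} {f f0 : ItPh} {μ : ItMk} {s : ItDsp} (h : ItnDs B0 A e d1 d2 f f0 μ s) :
    |itVal (itcG2 f0 μ) f f0 - itnK2 s f0| ≤ (12 + 2 * B0) * (A ^ 2 * d2) := by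
  obtain ⟨b1, b2, b3, b4, b5, b6, b7, b8, b9, b10⟩ := it_n_H2b_basic h
  have hA0 : 0 ≤ A := by linarith [h.hA]
  have key : itVal (itcG2 f0 μ) f f0 - itnK2 s f0
      = -(s.vel - (f.N - s.L * f.X - s.R * f.X ^ 2 - s.b * ((f.Y + s.th * f.X ^ 2) - 2 * f.X * (f.B + s.th * f.X))))
        + (f.P - f0.P) * (f.X - f0.X) + -((s.R - s.th * s.b) * ((f.X - f0.X) * (f.X - f0.X)))
        + -((f.P - s.L - 2 * s.R * f.X + 2 * s.b * (f.B + s.th * f.X)) * (f.X - f0.X))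
        + (s.b - μ.k) * ((f.Y - f0.Y) - 2 * f0.X * (f.B - f0.B)) := by
    simp only [itVal, itcG2, itnK2]; ring
  rw [key]
  refine (it_n_H2b_abs5 _ _ _ _ _).trans ?_
  rw [abs_neg, abs_neg, abs_neg]
  have t1 := h.vel
  have t2 : |(f.P - f0.P) * (f.X - f0.X)| ≤ e * e := it_n_H2b_mul h.dP h.dX
  have t3 : |(s.R - s.th * s.b) * ((f.X - f0.X) * (f.X - f0.X))| ≤ (2 * A ^ 2) * (e * e) :=
    it_n_H2b_mul b6 (it_n_H2b_mul h.dX h.dX)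
  have t4 : |(f.P - s.L - 2 * s.R * f.X + 2 * s.b * (f.B + s.th * f.X)) * (f.X - f0.X)| ≤ (A * d2) * e := it_n_H2b_mul h.der h.dX
  have t5 : |(s.b - μ.k) * ((f.Y - f0.Y) - 2 * f0.X * (f.B - f0.B))| ≤ (A * d1) * ((3 + 2 * B0) * e) := it_n_H2b_mul b9 b8
  have u3 : (2 * A ^ 2) * (e * e) ≤ 2 * (A ^ 2 * d2) := by
    rw [mul_assoc]; exact mul_le_mul_of_nonneg_left (mul_le_mul_of_nonneg_left b2 (by positivity)) (by norm_num)
  have u4 : (A * d2) * e ≤ A * d2 := by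
    have : (A * d2) * e ≤ (A * d2) * 1 := mul_le_mul_of_nonneg_left b7 (by positivity)
    linarith
  have u5 : (A * d1) * ((3 + 2 * B0) * e) ≤ (3 + 2 * B0) * (A * d2) := by
    have : (A * d1) * ((3 + 2 * B0) * e) = (3 + 2 * B0) * (A * (d1 * e)) := by ring
    rw [this]
    exact mul_le_mul_of_nonneg_left (mul_le_mul_of_nonneg_left b3 hA0) (by linarith [h.hB])
  have u6 : (3 + 2 * B0) * (A * d2) ≤ (3 + 2 * B0) * (A ^ 2 * d2) := mul_le_mul_of_nonneg_left b5 (by linarith [h.hB])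
  have hm : 0 ≤ A ^ 2 * d2 := by positivity
  linarith

theorem it_n_H2b_pt3 {B0 A e d1 d2 : ℝ} {f f0 : ItPh} {μ : ItMk} {s : ItDsp} (h : ItnDs B0 A e d1 d2 f f0 μ s) :
    |itVal (itcG3 f0 μ) f f0 - itnK3 s f0| ≤ (12 + 2 * B0) * (A ^ 2 * d2) := by
  obtain ⟨b1, b2, b3, b4, b5, b6, b7, b8, b9, b10⟩ := it_n_H2b_basic h
  have hA0 : 0 ≤ A := by linarith [h.hA]
  have key : itVal (itcG3 f0 μ) f f0 - itnK3 s f0
      = (-(s.pos - (f.D + s.th * f.N - s.L * (f.B + s.th * f.X) - s.R * (f.Y + s.th * f.X ^ 2) + s.b * (f.B + s.th * f.X) ^ 2))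
          + s.th * (s.vel - (f.N - s.L * f.X - s.R * f.X ^ 2 - s.b * ((f.Y + s.th * f.X ^ 2) - 2 * f.X * (f.B + s.th * f.X)))))
        + (f.P - f0.P) * (f.B - f0.B)
        + ((-2) * ((s.R - s.th * s.b) * ((f.X - f0.X) * (f.B - f0.B))) + s.b * ((f.B - f0.B) * (f.B - f0.B)))
        + -((f.P - s.L - 2 * s.R * f.X + 2 * s.b * (f.B + s.th * f.X)) * (f.B - f0.B))
        + (s.R - s.th * s.b - μ.be) * ((f.Y - f0.Y) - 2 * f0.X * (f.B - f0.B)) := by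
    simp only [itVal, itcG3, itnK3]; ring
  rw [key]
  refine (it_n_H2b_abs5 _ _ _ _ _).trans ?_
  have t1a := h.pos
  have t1b : |s.th * (s.vel - (f.N - s.L * f.X - s.R * f.X ^ 2 - s.b * ((f.Y + s.th * f.X ^ 2) - 2 * f.X * (f.B + s.th * f.X))))|
      ≤ A * (A * d2) := it_n_H2b_mul h.th h.vel
  have t1 := abs_add_le (-(s.pos - (f.D + s.th * f.N - s.L * (f.B + s.th * f.X) - s.R * (f.Y + s.th * f.X ^ 2) + s.b * (f.B + s.th * f.X) ^ 2)))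
    (s.th * (s.vel - (f.N - s.L * f.X - s.R * f.X ^ 2 - s.b * ((f.Y + s.th * f.X ^ 2) - 2 * f.X * (f.B + s.th * f.X)))))
  rw [abs_neg] at t1
  have t2 : |(f.P - f0.P) * (f.B - f0.B)| ≤ e * e := it_n_H2b_mul h.dP h.dB
  have t3a : |(s.R - s.th * s.b) * ((f.X - f0.X) * (f.B - f0.B))| ≤ (2 * A ^ 2) * (e * e) :=
    it_n_H2b_mul b6 (it_n_H2b_mul h.dX h.dB)
  have t3b : |s.b * ((f.B - f0.B) * (f.B - f0.B))| ≤ A * (e * e) := it_n_H2b_mul h.sb (it_n_H2b_mul h.dB h.dB)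
  have t3 := abs_add_le ((-2) * ((s.R - s.th * s.b) * ((f.X - f0.X) * (f.B - f0.B)))) (s.b * ((f.B - f0.B) * (f.B - f0.B)))
  have v2 : |(-2) * ((s.R - s.th * s.b) * ((f.X - f0.X) * (f.B - f0.B)))| = 2 * |(s.R - s.th * s.b) * ((f.X - f0.X) * (f.B - f0.B))| := by
    rw [abs_mul, abs_neg, abs_two]
  rw [v2] at t3
  have t4 : |(f.P - s.L - 2 * s.R * f.X + 2 * s.b * (f.B + s.th * f.X)) * (f.B - f0.B)| ≤ (A * d2) * e := it_n_H2b_mul h.der h.dB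
  have t5 : |(s.R - s.th * s.b - μ.be) * ((f.Y - f0.Y) - 2 * f0.X * (f.B - f0.B))| ≤ (A * d1) * ((3 + 2 * B0) * e) := it_n_H2b_mul b10 b8
  rw [abs_neg]
  have u1 : A * (A * d2) = A ^ 2 * d2 := by ring
  have u3 : (2 * A ^ 2) * (e * e) ≤ 2 * (A ^ 2 * d2) := by
    rw [mul_assoc]; exact mul_le_mul_of_nonneg_left (mul_le_mul_of_nonneg_left b2 (by positivity)) (by norm_num)
  have u3b : A * (e * e) ≤ A * d2 := mul_le_mul_of_nonneg_left b2 hA0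
  have u4 : (A * d2) * e ≤ A * d2 := by
    have : (A * d2) * e ≤ (A * d2) * 1 := mul_le_mul_of_nonneg_left b7 (by positivity)
    linarith
  have u5 : (A * d1) * ((3 + 2 * B0) * e) ≤ (3 + 2 * B0) * (A * d2) := by
    have : (A * d1) * ((3 + 2 * B0) * e) = (3 + 2 * B0) * (A * (d1 * e)) := by ring
    rw [this]
    exact mul_le_mul_of_nonneg_left (mul_le_mul_of_nonneg_left b3 hA0) (by linarith [h.hB])
  have u6 : (3 + 2 * B0) * (A * d2) ≤ (3 + 2 * B0) * (A ^ 2 * d2) := mul_le_mul_of_nonneg_left b5 (by linarith [h.hB])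
  have hm : 0 ≤ A ^ 2 * d2 := by positivity
  linarith

theorem it_n_H2b_f0 (T : Tan) (p : ℝ) {ω ω' : T.Ω} (h : T.Fn p ω = T.Fn p ω') : T.f0 p ω = T.f0 p ω' := by
  simp only [Tan.Fn, itF, Prod.mk.injEq] at h
  obtain ⟨⟨a1, a2, a3⟩, b1, b2, b3⟩ := h
  simp only [Tan.f0, itR, trep, a1, a2, a3, b1, b2, b3]

/-- the hypotheses hold at every support point -/
theorem it_n_H2b_ds (a : ItPar) (ha : a.Ok) (hc : 1 < a.c) (T : Tan) (pk : ItPk) (τ κ0 acc p l : ℝ) (hT : T.Adm a pk τ κ0 acc)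
    (hq : T.quad = true) (hpk : pk.Ok) (hacc : 0 < acc) (hp : 0 < p) (hl : l ∈ pk.Lam) (h1 : p ≤ (a.c - 1) * l) (h2 : 2 * p ≤ a.c * l)
    (ω : T.Ω) (hω : T.P.p ω ≠ 0) :
    ItnDs a.B0 (T.δ ^ (-acc)) (msh T.δ p) (T.δ ^ p) (T.δ ^ (2 * p)) (T.F ω) (T.f0 p ω) (T.mrk 0 ω) (T.dsp l ω) := by
  have h0 := hT.t0.δ0
  have h1' := hT.t0.δ1
  have hB : 1 ≤ a.B0 := ha.2.2.2.2.2.2.2.2
  have hd := hT.tg.dsp l hl ω hω
  have hl0 : 0 < l := hpk.2.2.2.2.2.1 l hl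
  have hA : 1 ≤ T.δ ^ (-acc) := Real.one_le_rpow_of_pos_of_le_one_of_nonpos h0 h1'.le (by linarith)
  have hA0 : 0 ≤ T.δ ^ (-acc) := by linarith
  have mono : ∀ x y : ℝ, y ≤ x → T.δ ^ (-acc) * T.δ ^ x ≤ T.δ ^ (-acc) * T.δ ^ y := fun x y hxy =>
    mul_le_mul_of_nonneg_left (Real.rpow_le_rpow_of_exponent_ge h0 h1'.le hxy) hA0
  obtain ⟨n1, _, _, _, _, _⟩ := it_k_aux_nrm_le (T.F ω)
  have hm1 : msh T.δ p ≤ 1 := (ig_msh_le T.δ p h0).trans (Real.rpow_le_one h0.le h1'.le hp.le)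
  exact
    { hB := by linarith
      hA := hA
      he0 := (ig_msh_pos T.δ p).le
      he := ig_msh_le T.δ p h0
      hd1 := Real.rpow_le_one h0.le h1'.le hp.le
      hd := by rw [← Real.rpow_add h0]; congr 1; ring
      dX := it_k_aux_rep_dist T.δ p _
      dB := it_k_aux_rep_dist T.δ p _
      dP := it_k_aux_rep_dist T.δ p _
      dY := it_k_aux_rep_dist T.δ p _
      x0 := by
        have a1 := it_k_aux_rep_dist T.δ p (T.F ω).X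
        have a2 := n1.trans (hT.t0.bdF ω hω)
        have a3 : |trep T.δ p (T.F ω).X| ≤ |(T.F ω).X| + |(T.F ω).X - trep T.δ p (T.F ω).X| := by
          have := abs_sub (T.F ω).X ((T.F ω).X - trep T.δ p (T.F ω).X)
          simpa using this
        show |trep T.δ p (T.F ω).X| ≤ a.B0 + 1
        linarith
      th := hd.bd.1
      sR := hd.bd.2.2.1
      sb := hd.bd.2.2.2
      cut := (hd.cutn hq hc).trans (mono _ _ h1)
      vel := hd.vel.trans (mono _ _ h2)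
      pos := hd.pos.trans (mono _ _ (by nlinarith))
      der := (hd.derq hq).trans (mono _ _ h2) }

/-- LEAF L-256-BIN-H2b (~400 l.).  THE OUTPUT READS `G_0` TO DEPTH `2p`.  For ONE support point, `f = F ω`, `f0 = T.f0 p ω`, `dX = X - X_0`, ... (`|d·| ≤ ε_p`), `e1 = P - s.L - 2β' X + 2k' B` (`|e1| ≤ A δ^(c l)`, `derq`):
 `Φ2(f) = N - s.L X - β' X² - k' (Y - 2 X B)` is the bracket of `vel`;  `Φ3(f) = D - s.L B - β' Y + k' B²` is (bracket of `pos`) `- s.th` (bracket of `vel`).  Identities (`ring`):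
 (1) `dP - 2β' dX + 2k' dB = s.L - (P_0 - 2β' X_0 + 2k' B_0) + e1`;
 (2) `dN - P_0 dX - k' (dY - 2 X_0 dB) = Φ2(f) - Φ2(f0) + dP dX - β' dX² - e1 dX`;
 (3) `dD - P_0 dB - β' (dY - 2 X_0 dB) = Φ3(f) - Φ3(f0) + dP dB - 2β' dX dB + k' dB² - e1 dB`.
So each reading of `G_0` (true `β_0, 𝔨_0`) is within `C A² δ^(2p)` of a function of `(s, f0)`: replace `(β', k')` by `(β_0, 𝔨_0)` at the cost `A δ^p · C ε_p`; `c l ≥ 2p`, `(1 + c) l ≥ 2p`; `|β'| ≤ A + A²`, `|s.th| ≤ A`, `1 ≤ A`.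
Two points with the same `(O_l, C_*, F_p)` have the same `(s, f0)`.   `it_n_rd_close'` with `R = C δ^(-2 acc)`, `it_n_log_le`. -/
theorem it_n_H2b (a : ItPar) (ha : a.Ok) (hc : 1 < a.c) : ∃ C : ℝ, 0 ≤ C ∧ ∀ (T : Tan) (pk : ItPk) (τ κ0 acc p l : ℝ), T.Adm a pk τ κ0 acc →
    T.quad = true → pk.Ok → 0 < acc → 0 < p → l ∈ pk.Lam → p ≤ (a.c - 1) * l → 2 * p ≤ a.c * l →
    T.P.entC (T.rd p (2 * p) (T.rG p 0)) (pair (T.O l) (pair (T.nAux p) (pair T.Cs (T.Fn p)))) ≤ C * (acc * T.L + 1) := by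
  have hB : 1 ≤ a.B0 := ha.2.2.2.2.2.2.2.2
  obtain ⟨c0, hc0⟩ : ∃ c0 : ℝ, c0 = 4 * (12 + 2 * a.B0) := ⟨_, rfl⟩
  have hc00 : 0 ≤ c0 := by rw [hc0]; linarith
  have hlog : 0 ≤ Real.log (c0 + 2) := Real.log_nonneg (by linarith)
  refine ⟨6 + 3 * Real.log (c0 + 2), by positivity, ?_⟩
  intro T pk τ κ0 acc p l hT hq hpk hacc hp hl h1 h2
  have h0 := hT.t0.δ0
  have h1' := hT.t0.δ1
  have hL : 0 < T.L := it_cb_L_pos T h0 h1'
  have hA2 : (T.δ ^ (-acc)) ^ 2 = T.δ ^ (-(2 * acc)) := by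
    rw [← Real.rpow_natCast, ← Real.rpow_mul h0.le]
    congr 1
    push_cast
    ring
  have hd2 : T.δ ^ (2 * p) ≤ 2 * msh T.δ (2 * p) := ig_le_msh T.δ (2 * p) h0 h1' (by linarith)
  have hR : 0 ≤ c0 * T.δ ^ (-(2 * acc)) := mul_nonneg hc00 (Real.rpow_nonneg h0.le _)
  have hclose : ∀ (K : ItDsp → ItPh → ℝ) (u : T.Ω → ItPh),
      (∀ ω, T.P.p ω ≠ 0 → |itVal (u ω) (T.F ω) (T.f0 p ω) - K (T.dsp l ω) (T.f0 p ω)|
        ≤ (12 + 2 * a.B0) * ((T.δ ^ (-acc)) ^ 2 * T.δ ^ (2 * p))) →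
      ∀ ω ω', T.P.p ω ≠ 0 → T.P.p ω' ≠ 0 →
        pair (T.O l) (pair (T.nAux p) (pair T.Cs (T.Fn p))) ω = pair (T.O l) (pair (T.nAux p) (pair T.Cs (T.Fn p))) ω' →
        |itVal (u ω) (T.F ω) (T.f0 p ω) - itVal (u ω') (T.F ω') (T.f0 p ω')| ≤ c0 * T.δ ^ (-(2 * acc)) * msh T.δ (2 * p) := by
    intro K u hK ω ω' hω hω' hA
    simp only [FLaw.pair, Prod.mk.injEq] at hA
    obtain ⟨e1, _, e2, e3⟩ := hA
    have f1 := hT.tg.dfun l hl ω ω' hω hω' e1 e2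
    have f2 := it_n_H2b_f0 T p e3
    have g1 := hK ω hω
    have g2 := hK ω' hω'
    rw [← f1, ← f2] at g2
    rw [hA2] at g1 g2
    have g3 : (12 + 2 * a.B0) * (T.δ ^ (-(2 * acc)) * T.δ ^ (2 * p)) ≤ (12 + 2 * a.B0) * (T.δ ^ (-(2 * acc)) * (2 * msh T.δ (2 * p))) :=
      mul_le_mul_of_nonneg_left (mul_le_mul_of_nonneg_left hd2 (Real.rpow_nonneg h0.le _)) (by linarith)
    have g4 : c0 * T.δ ^ (-(2 * acc)) * msh T.δ (2 * p) = 2 * ((12 + 2 * a.B0) * (T.δ ^ (-(2 * acc)) * (2 * msh T.δ (2 * p)))) := by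
      rw [hc0]; ring
    rw [g4, ← f2]
    rw [abs_le] at g1 g2 ⊢
    constructor <;> linarith [g1.1, g1.2, g2.1, g2.2]
  have hmain := it_n_rd_close' T (pair (T.O l) (pair (T.nAux p) (pair T.Cs (T.Fn p)))) p (2 * p) (T.rG p 0)
    (c0 * T.δ ^ (-(2 * acc))) hR (by
      intro u hu
      unfold Tan.rG at hu
      rw [if_pos hq] at hu
      simp only [List.mem_cons, List.not_mem_nil, or_false] at hu
      rcases hu with rfl | rfl | rfl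
      · exact hclose itnK1 _ fun ω hω => it_n_H2b_pt1 (it_n_H2b_ds a ha hc T pk τ κ0 acc p l hT hq hpk hacc hp hl h1 h2 ω hω)
      · exact hclose itnK2 _ fun ω hω => it_n_H2b_pt2 (it_n_H2b_ds a ha hc T pk τ κ0 acc p l hT hq hpk hacc hp hl h1 h2 ω hω)
      · exact hclose itnK3 _ fun ω hω => it_n_H2b_pt3 (it_n_H2b_ds a ha hc T pk τ κ0 acc p l hT hq hpk hacc hp hl h1 h2 ω hω))
  have hlen : ((T.rG p 0).length : ℝ) = 3 := by
    unfold Tan.rG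
    rw [if_pos hq]
    norm_num
  rw [hlen] at hmain
  have hlg := it_n_log_le h0 h1' c0 (2 * acc) hc00 (by linarith)
  have hLdef : lg T.δ = T.L := rfl
  rw [hLdef] at hlg
  have e : (6 + 3 * Real.log (c0 + 2)) * (acc * T.L + 1)
      = 3 * (2 * acc * T.L + Real.log (c0 + 2)) + (6 + 3 * Real.log (c0 + 2) * (acc * T.L)) := by ring
  have hnn : 0 ≤ 3 * Real.log (c0 + 2) * (acc * T.L) := by positivity
  rw [e]
  linarith

/-- two points in the same child cell, coefficients within the parent mesh -/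
structure ItnCl (Q eq ep : ℝ) (f g f0 : ItPh) (μ μ' : ItMk) : Prop where
  hQ : 1 ≤ Q
  heq : 0 ≤ eq
  hep : 0 ≤ ep
  hsq : ep * ep ≤ 2 * eq
  fX : |f.X - g.X| ≤ eq
  fB : |f.B - g.B| ≤ eq
  fP : |f.P - g.P| ≤ eq
  fY : |f.Y - g.Y| ≤ eq
  fN : |f.N - g.N| ≤ eq
  fD : |f.D - g.D| ≤ eq
  gX : |g.X - f0.X| ≤ ep
  gB : |g.B - f0.B| ≤ ep
  gY : |g.Y - f0.Y| ≤ ep
  be : |μ.be| ≤ Q
  k : |μ.k| ≤ Q
  x0 : |f0.X| ≤ Q
  p0 : |f0.P| ≤ Q
  dbe : |μ.be - μ'.be| ≤ ep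
  dk : |μ.k - μ'.k| ≤ ep
theorem it_n_H2c_aux {Q eq ep : ℝ} {f g f0 : ItPh} {μ μ' : ItMk} (h : ItnCl Q eq ep f g f0 μ μ') :
    Q ≤ Q ^ 2 ∧ 1 ≤ Q ^ 2 ∧ 0 ≤ Q ^ 2 * eq ∧ eq ≤ Q ^ 2 * eq ∧ Q * eq ≤ Q ^ 2 * eq ∧
      |2 * f0.X * (g.B - f0.B) - (g.Y - f0.Y)| ≤ 3 * Q * ep := by
  have hQ := h.hQ
  have h1 : Q ≤ Q ^ 2 := by nlinarith
  have h2 : 1 ≤ Q ^ 2 := by nlinarith
  refine ⟨h1, h2, mul_nonneg (by positivity) h.heq, ?_, mul_le_mul_of_nonneg_right h1 h.heq, ?_⟩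
  · have := mul_le_mul_of_nonneg_right h2 h.heq
    linarith
  · have a1 : |2 * f0.X * (g.B - f0.B)| ≤ (2 * Q) * ep := by
      refine it_n_H2b_mul ?_ h.gB
      rw [abs_mul, abs_two]
      linarith [h.x0]
    have a2 := abs_sub (2 * f0.X * (g.B - f0.B)) (g.Y - f0.Y)
    have a3 := h.gY
    have a4 : ep ≤ Q * ep := by
      have := mul_le_mul_of_nonneg_right hQ h.hep
      linarith
    linarith

theorem it_n_H2c_pt1 {Q eq ep : ℝ} {f g f0 : ItPh} {μ μ' : ItMk} (h : ItnCl Q eq ep f g f0 μ μ') :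
    |itVal (itcL μ) f f0 - itVal (itcL μ') g f0| ≤ 13 * (Q ^ 2 * eq) := by
  obtain ⟨q1, q2, q3, q4, q5, q6⟩ := it_n_H2c_aux h
  have key : itVal (itcL μ) f f0 - itVal (itcL μ') g f0
      = (f.P - g.P) + (-2) * (μ.be * (f.X - g.X)) + 2 * (μ.k * (f.B - g.B)) + (-2) * ((μ.be - μ'.be) * (g.X - f0.X))
        + 2 * ((μ.k - μ'.k) * (g.B - f0.B)) := by
    simp only [itVal, itcL]; ring
  rw [key]
  refine (it_n_H2b_abs5 _ _ _ _ _).trans ?_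
  have t1 := h.fP
  have t2 : |μ.be * (f.X - g.X)| ≤ Q * eq := it_n_H2b_mul h.be h.fX
  have t3 : |μ.k * (f.B - g.B)| ≤ Q * eq := it_n_H2b_mul h.k h.fB
  have t4 : |(μ.be - μ'.be) * (g.X - f0.X)| ≤ ep * ep := it_n_H2b_mul h.dbe h.gX
  have t5 : |(μ.k - μ'.k) * (g.B - f0.B)| ≤ ep * ep := it_n_H2b_mul h.dk h.gB
  have v : ∀ x : ℝ, |(-2) * x| = 2 * |x| := fun x => by rw [abs_mul, abs_neg, abs_two]
  have v' : ∀ x : ℝ, |2 * x| = 2 * |x| := fun x => by rw [abs_mul, abs_two]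
  rw [v, v, v', v']
  have := h.hsq
  linarith

theorem it_n_H2c_pt2 {Q eq ep : ℝ} {f g f0 : ItPh} {μ μ' : ItMk} (h : ItnCl Q eq ep f g f0 μ μ') :
    |itVal (itcG2 f0 μ) f f0 - itVal (itcG2 f0 μ') g f0| ≤ 13 * (Q ^ 2 * eq) := by
  obtain ⟨q1, q2, q3, q4, q5, q6⟩ := it_n_H2c_aux h
  have key : itVal (itcG2 f0 μ) f f0 - itVal (itcG2 f0 μ') g f0
      = (f.N - g.N) + -(f0.P * (f.X - g.X)) + 2 * (μ.k * (f0.X * (f.B - g.B))) + -(μ.k * (f.Y - g.Y))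
        + (μ.k - μ'.k) * (2 * f0.X * (g.B - f0.B) - (g.Y - f0.Y)) := by
    simp only [itVal, itcG2]; ring
  rw [key]
  refine (it_n_H2b_abs5 _ _ _ _ _).trans ?_
  have t1 := h.fN
  have t2 : |f0.P * (f.X - g.X)| ≤ Q * eq := it_n_H2b_mul h.p0 h.fX
  have t3 : |μ.k * (f0.X * (f.B - g.B))| ≤ Q * (Q * eq) := it_n_H2b_mul h.k (it_n_H2b_mul h.x0 h.fB)
  have t4 : |μ.k * (f.Y - g.Y)| ≤ Q * eq := it_n_H2b_mul h.k h.fY
  have t5 : |(μ.k - μ'.k) * (2 * f0.X * (g.B - f0.B) - (g.Y - f0.Y))| ≤ ep * (3 * Q * ep) := it_n_H2b_mul h.dk q6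
  have v' : ∀ x : ℝ, |2 * x| = 2 * |x| := fun x => by rw [abs_mul, abs_two]
  rw [abs_neg, abs_neg, v']
  have u3 : Q * (Q * eq) = Q ^ 2 * eq := by ring
  have u5 : ep * (3 * Q * ep) ≤ 6 * (Q * eq) := by
    have : ep * (3 * Q * ep) = 3 * Q * (ep * ep) := by ring
    rw [this]
    have := mul_le_mul_of_nonneg_left h.hsq (by linarith [h.hQ] : 0 ≤ 3 * Q)
    linarith
  linarith

theorem it_n_H2c_pt3 {Q eq ep : ℝ} {f g f0 : ItPh} {μ μ' : ItMk} (h : ItnCl Q eq ep f g f0 μ μ') :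
    |itVal (itcG3 f0 μ) f f0 - itVal (itcG3 f0 μ') g f0| ≤ 13 * (Q ^ 2 * eq) := by
  obtain ⟨q1, q2, q3, q4, q5, q6⟩ := it_n_H2c_aux h
  have key : itVal (itcG3 f0 μ) f f0 - itVal (itcG3 f0 μ') g f0
      = (f.D - g.D) + -(f0.P * (f.B - g.B)) + 2 * (μ.be * (f0.X * (f.B - g.B))) + -(μ.be * (f.Y - g.Y))
        + (μ.be - μ'.be) * (2 * f0.X * (g.B - f0.B) - (g.Y - f0.Y)) := by
    simp only [itVal, itcG3]; ring
  rw [key]
  refine (it_n_H2b_abs5 _ _ _ _ _).trans ?_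
  have t1 := h.fD
  have t2 : |f0.P * (f.B - g.B)| ≤ Q * eq := it_n_H2b_mul h.p0 h.fB
  have t3 : |μ.be * (f0.X * (f.B - g.B))| ≤ Q * (Q * eq) := it_n_H2b_mul h.be (it_n_H2b_mul h.x0 h.fB)
  have t4 : |μ.be * (f.Y - g.Y)| ≤ Q * eq := it_n_H2b_mul h.be h.fY
  have t5 : |(μ.be - μ'.be) * (2 * f0.X * (g.B - f0.B) - (g.Y - f0.Y))| ≤ ep * (3 * Q * ep) := it_n_H2b_mul h.dbe q6
  have v' : ∀ x : ℝ, |2 * x| = 2 * |x| := fun x => by rw [abs_mul, abs_two]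
  rw [abs_neg, abs_neg, v']
  have u3 : Q * (Q * eq) = Q ^ 2 * eq := by ring
  have u5 : ep * (3 * Q * ep) ≤ 6 * (Q * eq) := by
    have : ep * (3 * Q * ep) = 3 * Q * (ep * ep) := by ring
    rw [this]
    have := mul_le_mul_of_nonneg_left h.hsq (by linarith [h.hQ] : 0 ≤ 3 * Q)
    linarith
  linarith

theorem it_n_H2c_trep (δ p x B : ℝ) (h0 : 0 < δ) (h1 : δ < 1) (hp : 0 ≤ p) (hx : |x| ≤ B) : |trep δ p x| ≤ B + 1 := by
  have a1 := it_k_aux_rep_dist δ p x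
  have hm1 : msh δ p ≤ 1 := (ig_msh_le δ p h0).trans (Real.rpow_le_one h0.le h1.le hp)
  rw [abs_le] at a1 hx ⊢
  constructor <;> linarith [a1.1, a1.2, hx.1, hx.2]

/-- LEAF L-256-BIN-H2c (~200 l.).  `(F_q, aux)` LISTS `(G_0)_q`.  Same `F_q` (hence same `F_p`, `f0`; `|F ω - F ω'| ≤ ε_q`), same `aux` (`|β_0 - β_0'|, |𝔨_0 - 𝔨_0'| ≤ ε_p`):
`val ω - val ω' = ⟨w ω, F ω - F ω'⟩ + ⟨w ω - w ω', F ω' - f0⟩`, `|w| ≤ C(B0)`, `|w ω - w ω'| ≤ C(B0) ε_p`, `|F ω' - f0| ≤ ε_p`, `ε_p² ≤ 2 ε_q`.   `it_n_rd_close'`. -/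
theorem it_n_H2c (a : ItPar) (ha : a.Ok) : ∃ C : ℝ, 0 ≤ C ∧ ∀ (T : Tan) (pk : ItPk) (p : ℝ), T.Adm0 a pk → T.quad = true → 1 ≤ pk.M → 0 < p →
    T.P.entC (T.rd p (2 * p) (T.rG p 0)) (pair (T.Fn (2 * p)) (pair (T.nAux p) (pair T.Cs (T.Fn p)))) ≤ C := by
  have hB : 1 ≤ a.B0 := ha.2.2.2.2.2.2.2.2
  obtain ⟨Q, hQ⟩ : ∃ Q : ℝ, Q = (a.B0 + 1) ^ 2 := ⟨_, rfl⟩
  have hQ1 : 1 ≤ Q := by rw [hQ]; nlinarith
  have hQB : a.B0 + 1 ≤ Q := by rw [hQ]; nlinarith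
  have hlog : 0 ≤ Real.log (13 * Q ^ 2 + 2) := Real.log_nonneg (by nlinarith)
  refine ⟨3 * Real.log (13 * Q ^ 2 + 2), by positivity, ?_⟩
  intro T pk p hT hq hM hp
  have h0 := hT.δ0
  have h1 := hT.δ1
  have hcl : ∀ ω ω', T.P.p ω ≠ 0 → T.P.p ω' ≠ 0 →
      pair (T.Fn (2 * p)) (pair (T.nAux p) (pair T.Cs (T.Fn p))) ω = pair (T.Fn (2 * p)) (pair (T.nAux p) (pair T.Cs (T.Fn p))) ω' →
      T.f0 p ω = T.f0 p ω' ∧ ItnCl Q (msh T.δ (2 * p)) (msh T.δ p) (T.F ω) (T.F ω') (T.f0 p ω) (T.mrk 0 ω) (T.mrk 0 ω') := by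
    intro ω ω' hω hω' hA
    simp only [FLaw.pair, Prod.mk.injEq] at hA
    obtain ⟨e1, e2, _, e3⟩ := hA
    have f2 := it_n_H2b_f0 T p e3
    refine ⟨f2, ?_⟩
    simp only [Tan.Fn, itF, Prod.mk.injEq] at e1
    obtain ⟨⟨a1, a2, a3⟩, b1, b2, b3⟩ := e1
    simp only [Tan.nAux, Prod.mk.injEq] at e2
    obtain ⟨n1, n2, n3, n4, n5, n6⟩ := it_k_aux_nrm_le (T.F ω)
    have hbF := hT.bdF ω hω
    obtain ⟨m1, m2, m3⟩ := hT.bdM ω hω 0 (by omega)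
    exact
      { hQ := hQ1
        heq := (ig_msh_pos _ _).le
        hep := (ig_msh_pos _ _).le
        hsq := it_n_msh_sq T.δ p h0 h1 hp.le
        fX := it_k_aux_cell_dist a1
        fB := it_k_aux_cell_dist a2
        fP := it_k_aux_cell_dist a3
        fY := it_k_aux_cell_dist b1
        fN := it_k_aux_cell_dist b2
        fD := it_k_aux_cell_dist b3
        gX := by rw [f2]; exact it_k_aux_rep_dist T.δ p _
        gB := by rw [f2]; exact it_k_aux_rep_dist T.δ p _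
        gY := by rw [f2]; exact it_k_aux_rep_dist T.δ p _
        be := by
          have c1 : |(T.mrk 0 ω).th * (T.mrk 0 ω).k| ≤ a.B0 * a.B0 := it_n_H2b_mul m1 m3
          have c2 := abs_sub (T.mrk 0 ω).r ((T.mrk 0 ω).th * (T.mrk 0 ω).k)
          show |(T.mrk 0 ω).r - (T.mrk 0 ω).th * (T.mrk 0 ω).k| ≤ Q
          rw [hQ]
          nlinarith
        k := by linarith
        x0 := (it_n_H2c_trep T.δ p _ a.B0 h0 h1 hp.le (n1.trans hbF)).trans hQB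
        p0 := (it_n_H2c_trep T.δ p _ a.B0 h0 h1 hp.le (n3.trans hbF)).trans hQB
        dbe := it_k_aux_cell_dist e2.1
        dk := it_k_aux_cell_dist e2.2 }
  have hmain := it_n_rd_close' T (pair (T.Fn (2 * p)) (pair (T.nAux p) (pair T.Cs (T.Fn p)))) p (2 * p) (T.rG p 0)
    (13 * Q ^ 2) (by positivity) (by
      intro u hu ω ω' hω hω' hA
      obtain ⟨f2, hc⟩ := hcl ω ω' hω hω' hA
      unfold Tan.rG at hu
      rw [if_pos hq] at hu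
      simp only [List.mem_cons, List.not_mem_nil, or_false] at hu
      rw [← f2, mul_assoc]
      rcases hu with rfl | rfl | rfl
      · exact it_n_H2c_pt1 hc
      · have := it_n_H2c_pt2 hc
        simpa only [← f2] using this
      · have := it_n_H2c_pt3 hc
        simpa only [← f2] using this)
  have hlen : ((T.rG p 0).length : ℝ) = 3 := by
    unfold Tan.rG
    rw [if_pos hq]
    norm_num
  rw [hlen] at hmain
  exact hmain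

/-! ## AV. line avoidance -/

/-- `CI` summed over the values `u` of `x` with `A u` -/
theorem it_n_ci_sup_ev {Ω α β γ : Type} [Fintype Ω] (P : FLaw Ω) (x : Ω → α) (V : Ω → β) (Zs : Ω → γ) (h : P.CI x V Zs)
    (A : α → Prop) (b : β) (z : γ) :
    P.pr (fun ω => A (x ω) ∧ V ω = b ∧ Zs ω = z) * P.pr (fun ω => Zs ω = z)
      = P.pr (fun ω => A (x ω) ∧ Zs ω = z) * P.pr (fun ω => V ω = b ∧ Zs ω = z) := by
  have hS : ∀ ω, x ω ∈ (Finset.univ.image x) := fun ω => Finset.mem_image_of_mem x (Finset.mem_univ ω)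
  rw [ent_pr_sum_values P (fun ω => A (x ω) ∧ V ω = b ∧ Zs ω = z) x (Finset.univ.image x) (fun ω _ _ => hS ω),
    ent_pr_sum_values P (fun ω => A (x ω) ∧ Zs ω = z) x (Finset.univ.image x) (fun ω _ _ => hS ω),
    Finset.sum_mul, Finset.sum_mul]
  refine Finset.sum_congr rfl fun u _ => ?_
  by_cases hA : A u
  · have e1 : P.pr (fun ω => (A (x ω) ∧ V ω = b ∧ Zs ω = z) ∧ x ω = u) = P.pr (fun ω => x ω = u ∧ V ω = b ∧ Zs ω = z) := by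
      refine ent_pr_congr P fun ω _ => ⟨fun hh => ⟨hh.2, hh.1.2⟩, fun hh => ⟨⟨by rw [hh.1]; exact hA, hh.2⟩, hh.1⟩⟩
    have e2 : P.pr (fun ω => (A (x ω) ∧ Zs ω = z) ∧ x ω = u) = P.pr (fun ω => x ω = u ∧ Zs ω = z) := by
      refine ent_pr_congr P fun ω _ => ⟨fun hh => ⟨hh.2, hh.1.2⟩, fun hh => ⟨⟨by rw [hh.1]; exact hA, hh.2⟩, hh.1⟩⟩
    rw [e1, e2]
    exact h u b z
  · have e1 : P.pr (fun ω => (A (x ω) ∧ V ω = b ∧ Zs ω = z) ∧ x ω = u) = 0 := by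
      refine ent_pr_eq_zero P fun ω _ hh => hA ?_
      rw [← hh.2]; exact hh.1.1
    have e2 : P.pr (fun ω => (A (x ω) ∧ Zs ω = z) ∧ x ω = u) = 0 := by
      refine ent_pr_eq_zero P fun ω _ hh => hA ?_
      rw [← hh.2]; exact hh.1.1
    rw [e1, e2]; ring

/-- one fibre of `Zs` -/
theorem it_n_ci_sup_fib {Ω α β γ : Type} [Fintype Ω] (P : FLaw Ω) (x : Ω → α) (V : Ω → β) (Zs : Ω → γ) (h : P.CI x V Zs)
    (E : α → β → Prop) (z : γ) (b0 : β)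
    (hb0 : ∀ b ∈ Finset.univ.image V, P.pr (fun ω => E (x ω) b ∧ Zs ω = z) ≤ P.pr (fun ω => E (x ω) b0 ∧ Zs ω = z)) :
    P.pr (fun ω => E (x ω) (V ω) ∧ Zs ω = z) ≤ P.pr (fun ω => E (x ω) b0 ∧ Zs ω = z) := by
  have hS : ∀ ω, V ω ∈ (Finset.univ.image V) := fun ω => Finset.mem_image_of_mem V (Finset.mem_univ ω)
  have hz0 : 0 ≤ P.pr (fun ω => Zs ω = z) := ent_pr_nonneg P _
  rcases hz0.eq_or_lt with hz | hz
  · have h1 : P.pr (fun ω => E (x ω) (V ω) ∧ Zs ω = z) ≤ P.pr (fun ω => Zs ω = z) := ent_pr_mono P fun ω _ hh => hh.2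
    have h2 := ent_pr_nonneg P (fun ω => E (x ω) b0 ∧ Zs ω = z)
    linarith
  · refine le_of_mul_le_mul_right ?_ hz
    rw [ent_pr_sum_values P (fun ω => E (x ω) (V ω) ∧ Zs ω = z) V (Finset.univ.image V) (fun ω _ _ => hS ω), Finset.sum_mul]
    have e0 : P.pr (fun ω => Zs ω = z) = ∑ b ∈ Finset.univ.image V, P.pr (fun ω => V ω = b ∧ Zs ω = z) := by
      rw [ent_pr_sum_values P (fun ω => Zs ω = z) V (Finset.univ.image V) (fun ω _ _ => hS ω)]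
      refine Finset.sum_congr rfl fun b _ => ent_pr_congr P fun ω _ => ⟨fun hh => ⟨hh.2, hh.1⟩, fun hh => ⟨hh.2, hh.1⟩⟩
    calc ∑ b ∈ Finset.univ.image V, P.pr (fun ω => (E (x ω) (V ω) ∧ Zs ω = z) ∧ V ω = b) * P.pr (fun ω => Zs ω = z)
        = ∑ b ∈ Finset.univ.image V, P.pr (fun ω => E (x ω) b ∧ Zs ω = z) * P.pr (fun ω => V ω = b ∧ Zs ω = z) := by
          refine Finset.sum_congr rfl fun b _ => ?_
          rw [← it_n_ci_sup_ev P x V Zs h (fun u => E u b) b z]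
          congr 1
          refine ent_pr_congr P fun ω _ => ⟨fun hh => ⟨by rw [← hh.2]; exact hh.1.1, hh.2, hh.1.2⟩,
            fun hh => ⟨⟨by rw [hh.2.1]; exact hh.1, hh.2.2⟩, hh.2.1⟩⟩
      _ ≤ ∑ b ∈ Finset.univ.image V, P.pr (fun ω => E (x ω) b0 ∧ Zs ω = z) * P.pr (fun ω => V ω = b ∧ Zs ω = z) :=
          Finset.sum_le_sum fun b hb => mul_le_mul_of_nonneg_right (hb0 b hb) (ent_pr_nonneg P _)
      _ = P.pr (fun ω => E (x ω) b0 ∧ Zs ω = z) * P.pr (fun ω => Zs ω = z) := by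
          rw [e0, Finset.mul_sum]

/-- LEAF L-256-BIN-AV1 (~150 l.).  SUP OVER THE INDEPENDENT RECORD.  `v z` = a value `b` of `V` maximising `P(Zs = z, E (a ·) b)` (finitely many values: `Finset.exists_max_image` on `univ.image V`).
`P(E(a,V)) = ∑_z ∑_b P(z, V = b, E(a, b))` (`ent_pr_sum_values`);  by `CI` summed over the values `x` of `a` with `E x b`:  `P(z, V = b, E(a,b)) P(z) = P(z, V = b) P(z, E(a,b)) ≤ P(z, V = b) P(z, E(a, v z))`;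
sum over `b`, cancel `P(z)` (if `P(z) = 0` everything vanishes), sum over `z`. -/
theorem it_n_ci_sup {Ω α β γ : Type} [Fintype Ω] [Nonempty β] (P : FLaw Ω) (x : Ω → α) (V : Ω → β) (Zs : Ω → γ) (h : P.CI x V Zs)
    (E : α → β → Prop) : ∃ v : γ → β, P.pr (fun ω => E (x ω) (V ω)) ≤ P.pr (fun ω => E (x ω) (v (Zs ω))) := by
  have hex : ∀ z : γ, ∃ b0 : β, ∀ b ∈ Finset.univ.image V,
      P.pr (fun ω => E (x ω) b ∧ Zs ω = z) ≤ P.pr (fun ω => E (x ω) b0 ∧ Zs ω = z) := by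
    intro z
    by_cases hne : (Finset.univ.image V).Nonempty
    · obtain ⟨b0, -, hb0⟩ := Finset.exists_max_image (Finset.univ.image V) (fun b => P.pr (fun ω => E (x ω) b ∧ Zs ω = z)) hne
      exact ⟨b0, hb0⟩
    · rw [Finset.not_nonempty_iff_eq_empty] at hne
      exact ⟨Classical.arbitrary β, fun b hb => by rw [hne] at hb; simp at hb⟩
  choose v hv using hex
  refine ⟨v, ?_⟩
  have hS : ∀ ω, Zs ω ∈ (Finset.univ.image Zs) := fun ω => Finset.mem_image_of_mem Zs (Finset.mem_univ ω)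
  rw [ent_pr_sum_values P (fun ω => E (x ω) (V ω)) Zs (Finset.univ.image Zs) (fun ω _ _ => hS ω),
    ent_pr_sum_values P (fun ω => E (x ω) (v (Zs ω))) Zs (Finset.univ.image Zs) (fun ω _ _ => hS ω)]
  refine Finset.sum_le_sum fun z _ => ?_
  refine (it_n_ci_sup_fib P x V Zs h E z (v z) (hv z)).trans (le_of_eq ?_)
  refine ent_pr_congr P fun ω _ => ⟨fun hh => ⟨by rw [hh.2]; exact hh.1, hh.2⟩, fun hh => ⟨by rw [← hh.2]; exact hh.1, hh.2⟩⟩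

/-- LEAF L-256-BIN-AV2 (~120 l.).  `it_n_ci_sup` with `x = mrk 0`, `V = XiE M 0`, `E μ w = |itnG μ (w ⟨1, _⟩)| ≤ δ^u` (`XiE M 0 ω ⟨1,_⟩ = mrk 1 ω`).  For `μ' = v z ⟨1,_⟩`, `s = √(1 + μ'.k²) ≥ 1`:
`al = -μ'.k / s`, `be = 1 / s`, `ga = (μ'.r - μ'.k μ'.th) / s`, `al² + be² = 1`, `al θ + be r - ga = itnG μ μ' / s`.   `hav u hu al be ga`. -/
theorem it_n_avoid (T : Tan) (a : ItPar) (pk : ItPk) (acc u : ℝ) (hM : 2 ≤ pk.M) (hCI : T.P.CI (T.mrk 0) (T.XiE pk.M 0) T.Zs)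
    (hav : T.Avoid a pk acc) (hu : u ∈ pk.G) :
    T.P.pr (fun ω => ¬ T.nGood u ω) ≤ T.δ ^ (a.e0 * u - acc) := by
  have : Nonempty (Fin pk.M → ItMk) := ⟨fun _ => ⟨0, 0, 0⟩⟩
  obtain ⟨i1, hi1⟩ : ∃ i1 : Fin pk.M, (i1 : ℕ) = 1 := ⟨⟨1, by omega⟩, rfl⟩
  obtain ⟨v, hv⟩ := it_n_ci_sup T.P (T.mrk 0) (T.XiE pk.M 0) T.Zs hCI (fun μ w => |itnG μ (w i1)| ≤ T.δ ^ u)
  have e1 : T.P.pr (fun ω => ¬ T.nGood u ω) = T.P.pr (fun ω => |itnG (T.mrk 0 ω) (T.XiE pk.M 0 ω i1)| ≤ T.δ ^ u) := by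
    refine ent_pr_congr T.P fun ω _ => ?_
    have e2 : T.XiE pk.M 0 ω i1 = T.mrk 1 ω := by
      unfold Tan.XiE
      rw [hi1, if_neg (by norm_num)]
    rw [e2]
    unfold Tan.nGood
    exact not_lt
  rw [e1]
  refine hv.trans (le_trans (ent_pr_mono T.P fun ω _ hω => ?_)
    (hav u hu (fun z => -(v z i1).k / Real.sqrt (1 + (v z i1).k ^ 2)) (fun z => 1 / Real.sqrt (1 + (v z i1).k ^ 2))
      (fun z => ((v z i1).r - (v z i1).k * (v z i1).th) / Real.sqrt (1 + (v z i1).k ^ 2)) (fun z => ?_)))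
  · obtain ⟨μ', hμ'⟩ : ∃ μ', μ' = v (T.Zs ω) i1 := ⟨_, rfl⟩
    beta_reduce at hω ⊢
    rw [← hμ'] at hω ⊢
    have hs1 : 1 ≤ Real.sqrt (1 + μ'.k ^ 2) := by
      rw [Real.le_sqrt' (by norm_num)]
      nlinarith [sq_nonneg μ'.k]
    have hs0 : 0 < Real.sqrt (1 + μ'.k ^ 2) := by linarith
    have e3 : -μ'.k / Real.sqrt (1 + μ'.k ^ 2) * (T.mrk 0 ω).th + 1 / Real.sqrt (1 + μ'.k ^ 2) * (T.mrk 0 ω).r
        - (μ'.r - μ'.k * μ'.th) / Real.sqrt (1 + μ'.k ^ 2) = itnG (T.mrk 0 ω) μ' / Real.sqrt (1 + μ'.k ^ 2) := by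
      unfold itnG
      field_simp
      ring
    rw [e3, abs_div, abs_of_pos hs0]
    exact (div_le_self (abs_nonneg _) hs1).trans hω
  · have hpos : (0 : ℝ) < 1 + (v z i1).k ^ 2 := by positivity
    have hs0 : 0 < Real.sqrt (1 + (v z i1).k ^ 2) := Real.sqrt_pos.2 hpos
    rw [div_pow, div_pow, Real.sq_sqrt hpos.le]
    field_simp
    ring

end Claimed.Agent.R256
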