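import Claimed.Agent.R256.Int.Comb

/-!
# Row 256, Sec. 5, block BIN (`it_cost_bin`, `it_e_bin`), file 1: the law kit      (architect helper148; prefix `it_n_`)

PAPER-FREE, TAN-FREE.  Finite laws `P : FLaw Ω` (R255/Base/Law; lemmas `ent_*` of R255/Ent/Basic, `ltk_*` of R256/LT/Kit), dyadic cells `tcell δ q x` of mesh `msh δ q`.
 * `it_n_ent_drop`   `H(A | C) - H(B | C) ≤ H(A | B, C)`
 * `it_n_ent_cond`   `H(X | Z1) ≤ H(X | Z2) + H(Z2 | Z1)`
 * `it_n_ent_via`    `H(A | Z) ≤ H(B | Z) + H(A | B, Z)`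
 * `it_n_mi_aux`     `I(X ; Y | W, Z) - H(W | Y, Z) ≤ I(X ; Y | Z)`            (output-predicted auxiliary data)
 * `it_n_mi_low`     `H(W | Z) - H(W | Y, Z) - H(W | X, Z) ≤ I(X ; Y | Z)`     (a label listed by `X` and by `Y`)
 * `it_n_ent_good`   `N` values on a good event, `Nc` values always: `H(B | A) ≤ log N + P(bad) log Nc + log 2`
 * `it_n_ent_close`  THE WORKHORSE: a list of reals which the conditioning fixes within `R · mesh` on the good event and within `Rc · mesh` always.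
-/

set_option autoImplicit false

namespace Claimed.Agent.R256

open Claimed.Agent.R255
open Claimed.Agent.R255.FLaw (pair)
open scoped BigOperators
open Classical

variable {Ω : Type} [Fintype Ω] {α β γ κ : Type}

/-- `H(A | Z) ≤ H(B | Z) + H(A | B, Z)` -/
theorem it_n_ent_via (P : FLaw Ω) (A : Ω → α) (B : Ω → β) (Z : Ω → γ) :
    P.entC A Z ≤ P.entC B Z + P.entC A (pair B Z) := by
  have h1 := ent_entC_chain P B A Z
  have h2 : P.entC A Z ≤ P.entC (pair B A) Z :=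
    ent_entC_mono P (pair B A) A Z fun ω ω' _ _ h _ => (Prod.ext_iff.1 h).2
  linarith

/-- `H(A | C) - H(B | C) ≤ H(A | B, C)` -/
theorem it_n_ent_drop (P : FLaw Ω) (A : Ω → α) (B : Ω → β) (C : Ω → γ) :
    P.entC A C - P.entC B C ≤ P.entC A (pair B C) := by
  have := it_n_ent_via P A B C
  linarith

/-- `H(X | Z1) ≤ H(X | Z2) + H(Z2 | Z1)` -/
theorem it_n_ent_cond (P : FLaw Ω) (X : Ω → α) (Z1 : Ω → β) (Z2 : Ω → γ) :
    P.entC X Z1 ≤ P.entC X Z2 + P.entC Z2 Z1 := by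
  have h1 := it_n_ent_via P X Z2 Z1
  have h2 := ent_entC_pair_le P X Z2 Z1
  linarith

/-- output-predicted auxiliary data -/
theorem it_n_mi_aux (P : FLaw Ω) (X : Ω → α) (Y : Ω → β) (Z : Ω → γ) (W : Ω → κ) :
    P.miC X Y (pair W Z) - P.entC W (pair Y Z) ≤ P.miC X Y Z := by
  have h1 := ent_miC_chain P X Y W Z
  have h2 := ent_miC_chain P X W Y Z
  have h3 : P.miC X (pair Y W) Z = P.miC X (pair W Y) Z :=
    it_k_aux_miC_congr P _ _ _ _ _ _ (fun _ _ => Iff.rfl) (fun ω ω' => by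
      simp only [FLaw.pair, Prod.mk.injEq]
      exact and_comm) (fun _ _ => Iff.rfl)
  have h4 := ent_miC_nonneg P X W Z
  have h5 := ent_miC_le_right P X W (pair Y Z)
  linarith

/-- a label listed by `X` and by `Y` -/
theorem it_n_mi_low (P : FLaw Ω) (X : Ω → α) (Y : Ω → β) (Z : Ω → γ) (W : Ω → κ) :
    P.entC W Z - P.entC W (pair Y Z) - P.entC W (pair X Z) ≤ P.miC X Y Z := by
  have h1 := ent_miC_eq P W Y Z
  have h2 := ent_miC_chain P Y W X Z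
  have h3 : P.miC Y W Z ≤ P.miC Y (pair W X) Z :=
    ent_miC_mono P Y (pair W X) W Z fun ω ω' _ _ h _ => (Prod.ext_iff.1 h).1
  have h4 := ent_miC_le_right P Y W (pair X Z)
  have h5 := ent_miC_comm P W Y Z
  have h6 := ent_miC_comm P X Y Z
  linarith

/-- `N` values on the good event, `Nc` values always -/
theorem it_n_ent_good (P : FLaw Ω) (B : Ω → β) (A : Ω → α) (G : Ω → Prop) {N Nc ε : ℝ} (hN : 1 ≤ N) (hNc : 1 ≤ Nc)
    (h : P.NVal G B A N) (hc : P.NVal (fun _ => True) B A Nc) (hε : P.pr (fun ω => ¬ G ω) ≤ ε) :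
    P.entC B A ≤ Real.log N + ε * Real.log Nc + Real.log 2 := by
  obtain ⟨Ex, hEx⟩ : ∃ Ex : Ω → Prop, Ex = fun ω => ¬ G ω := ⟨_, rfl⟩
  rw [← hEx] at hε
  have hlogN := Real.log_nonneg hN
  have hlogNc := Real.log_nonneg hNc
  have s1 : P.entC B A ≤ P.entC (pair Ex B) A :=
    ent_entC_mono P (pair Ex B) B A fun ω ω' _ _ h _ => (Prod.ext_iff.1 h).2
  have s2 := ent_entC_chain P Ex B A
  have s3 : P.entC Ex A ≤ Real.log 2 := (ent_entC_le P Ex A).trans (ent_prop_le P Ex)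
  have s4 : P.entC B (pair Ex A) = P.entC B (pair A Ex) := by
    refine ent_entC_congr P B B _ _ (fun ω ω' _ _ => ?_) fun _ _ _ _ _ => Iff.rfl
    simp only [FLaw.pair, Prod.mk.injEq]
    exact and_comm
  have s5 := ent_entC_pair_eq_avg P B A Ex
  have s6 : P.ev (fun ω => (P.cfib Ex ω).entC B A) ≤ Real.log N * (1 - P.pr Ex) + Real.log Nc * P.pr Ex := by
    refine ent_ev_le_of_bad P Ex (fun ω hω hex => ?_) (fun ω hω hex => ?_)
    · have hpos : 0 < P.pr (fun ω'' => Ex ω'' = Ex ω) := ent_fib_pos P Ex hω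
      exact ent_entC_le_log_nval (P.cfib Ex ω) B A (fun ω₀ => by
        obtain ⟨S', hS'c, hS'⟩ := h ω₀
        refine ⟨S', hS'c, fun ω' hω' _ hA => ?_⟩
        have hsup := (ent_cnd_supp P (fun ω'' => Ex ω'' = Ex ω) hpos).1 hω'
        refine hS' ω' hsup.2 ?_ hA
        have h1 : ¬ Ex ω' := by rw [hsup.1]; exact hex
        rw [hEx] at h1
        exact not_not.1 h1)
    · have hpos : 0 < P.pr (fun ω'' => Ex ω'' = Ex ω) := ent_fib_pos P Ex hω
      exact ent_entC_le_log_nval (P.cfib Ex ω) B A (fun ω₀ => by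
        obtain ⟨S', hS'c, hS'⟩ := hc ω₀
        refine ⟨S', hS'c, fun ω' hω' _ hA => ?_⟩
        have hsup := (ent_cnd_supp P (fun ω'' => Ex ω'' = Ex ω) hpos).1 hω'
        exact hS' ω' hsup.2 trivial hA)
  have hpr0 := ent_pr_nonneg P Ex
  have s7 : Real.log N * (1 - P.pr Ex) ≤ Real.log N := by nlinarith
  have s8 : Real.log Nc * P.pr Ex ≤ ε * Real.log Nc := by nlinarith
  linarith

/-- a list of reals fixed within `R · mesh` by the conditioning on the event `G` has at most `(R + 2)^n` names -/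
theorem it_n_nval_close (P : FLaw Ω) (A : Ω → α) (G : Ω → Prop) (δ q : ℝ) (vs : List (Ω → ℝ)) (R : ℝ) (hR : 0 ≤ R)
    (h : ∀ v ∈ vs, ∀ ω ω', P.p ω ≠ 0 → P.p ω' ≠ 0 → G ω → G ω' → A ω = A ω' → |v ω - v ω'| ≤ R * msh δ q) :
    P.NVal G (fun ω => vs.map fun v => tcell δ q (v ω)) A ((R + 2) ^ vs.length) := by
  have hpos : (0 : ℝ) ≤ R + 2 := by linarith
  have hm := ig_msh_pos δ q
  induction vs with
  | nil =>
    intro ω₀
    exact ⟨{[]}, by simp, fun ω _ _ _ => by simp⟩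
  | cons v vs' ih =>
    have h1 := ih fun w hw => h w (List.mem_cons_of_mem _ hw)
    have h2 := ltk_nval_close P G A v (tlev δ q) (R := R * msh δ q) (mul_nonneg hR hm.le) (h v List.mem_cons_self)
    have e : R * msh δ q * 2 ^ (tlev δ q) + 2 = R + 2 := by
      unfold msh
      field_simp
    rw [e] at h2
    have h3 : P.NVal G (fun ω => ⌊v ω * 2 ^ (tlev δ q)⌋) (pair (fun ω => vs'.map fun v => tcell δ q (v ω)) A) (R + 2) :=
      ltk_nval_mono P h2 (fun _ h => h) (fun ω ω' h => (Prod.ext_iff.1 h).2) ⟨id, fun _ => rfl⟩ le_rfl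
    have h4 := ltk_nval_comp P G _ _ _ hpos h1 h3
    refine ltk_nval_mono P h4 (fun _ h => h) (fun _ _ h => h) ⟨fun x => x.1 :: x.2, fun ω => ?_⟩ ?_
    · simp [FLaw.pair, tcell]
    · rw [List.length_cons, pow_succ]

/-- THE WORKHORSE.  The conditioning `A` fixes every real of the list within `R · mesh` on the good event `G` and within `Rc · mesh` always. -/
theorem it_n_ent_close (P : FLaw Ω) (A : Ω → α) (G : Ω → Prop) (δ q : ℝ) (vs : List (Ω → ℝ)) (R Rc ε : ℝ) (hR : 0 ≤ R) (hRc : 0 ≤ Rc)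
    (hG : ∀ v ∈ vs, ∀ ω ω', P.p ω ≠ 0 → P.p ω' ≠ 0 → G ω → G ω' → A ω = A ω' → |v ω - v ω'| ≤ R * msh δ q)
    (hc : ∀ v ∈ vs, ∀ ω ω', P.p ω ≠ 0 → P.p ω' ≠ 0 → A ω = A ω' → |v ω - v ω'| ≤ Rc * msh δ q)
    (hε : P.pr (fun ω => ¬ G ω) ≤ ε) :
    P.entC (fun ω => vs.map fun v => tcell δ q (v ω)) A
      ≤ vs.length * Real.log (R + 2) + ε * (vs.length * Real.log (Rc + 2)) + Real.log 2 := by
  have h1 := it_n_nval_close P A G δ q vs R hR hG
  have h2 := it_n_nval_close P A (fun _ => True) δ q vs Rc hRc (fun v hv ω ω' a b _ _ c => hc v hv ω ω' a b c)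
  have h3 := it_n_ent_good P _ A G (one_le_pow₀ (by linarith : (1 : ℝ) ≤ R + 2)) (one_le_pow₀ (by linarith : (1 : ℝ) ≤ Rc + 2)) h1 h2 hε
  rwa [Real.log_pow, Real.log_pow] at h3

/-- no bad event -/
theorem it_n_ent_close' (P : FLaw Ω) (A : Ω → α) (δ q : ℝ) (vs : List (Ω → ℝ)) (R : ℝ) (hR : 0 ≤ R)
    (h : ∀ v ∈ vs, ∀ ω ω', P.p ω ≠ 0 → P.p ω' ≠ 0 → A ω = A ω' → |v ω - v ω'| ≤ R * msh δ q) :
    P.entC (fun ω => vs.map fun v => tcell δ q (v ω)) A ≤ vs.length * Real.log (R + 2) := by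
  have h2 := it_n_nval_close P A (fun _ => True) δ q vs R hR (fun v hv ω ω' a b _ _ c => h v hv ω ω' a b c)
  have h3 := ent_entC_le_log_nval P _ A h2
  rwa [Real.log_pow] at h3

/-! ## meshes and logarithms -/

theorem it_n_msh_ratio (δ p q : ℝ) (h0 : 0 < δ) (h1 : δ < 1) (hpq : p ≤ q) : msh δ p ≤ 2 * δ ^ (-(q - p)) * msh δ q := by
  have hr := ig_ratio_le δ p (q - p) h0 h1 (sub_nonneg.2 hpq)
  rw [add_sub_cancel] at hr
  rw [ig_msh_ratio δ p q h0 h1 hpq]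
  exact mul_le_mul_of_nonneg_right hr (ig_msh_pos δ q).le

theorem it_n_rpow_le_msh (δ x q : ℝ) (h0 : 0 < δ) (h1 : δ < 1) (hq : 0 ≤ q) (hqx : q ≤ x) : δ ^ x ≤ 2 * msh δ q :=
  (Real.rpow_le_rpow_of_exponent_ge h0 h1.le hqx).trans (ig_le_msh δ q h0 h1 hq)

theorem it_n_msh_sq (δ p : ℝ) (h0 : 0 < δ) (h1 : δ < 1) (hp : 0 ≤ p) : msh δ p * msh δ p ≤ 2 * msh δ (2 * p) := by
  have a := ig_msh_le δ p h0
  have b := (ig_msh_pos δ p).le
  have c : msh δ p * msh δ p ≤ δ ^ p * δ ^ p := mul_le_mul a a b (b.trans a)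
  rw [← Real.rpow_add h0] at c
  exact c.trans (it_n_rpow_le_msh δ (p + p) (2 * p) h0 h1 (by linarith) (by linarith))

theorem it_n_log_le {δ : ℝ} (h0 : 0 < δ) (h1 : δ < 1) (C g : ℝ) (hC : 0 ≤ C) (hg : 0 ≤ g) :
    Real.log (C * δ ^ (-g) + 2) ≤ g * lg δ + Real.log (C + 2) := by
  have hone : (1 : ℝ) ≤ δ ^ (-g) := Real.one_le_rpow_of_pos_of_le_one_of_nonpos h0 h1.le (by linarith)
  rw [← it_k_aux_log_cap h0 g (C + 2) (by linarith)]
  refine Real.log_le_log (by positivity) ?_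
  nlinarith

/-! ## wrappers for the names of a tangent datum -/

theorem it_n_rd_eq (T : Tan) (p q : ℝ) (U : List (T.Ω → ItPh)) :
    T.rd p q U = fun ω => (U.map fun u => fun ω' => itVal (u ω') (T.F ω') (T.f0 p ω')).map fun v => tcell T.δ q (v ω) := by
  funext ω
  simp [Tan.rd, List.map_map, Function.comp_def]

/-- readings: the conditioning fixes every reading of the tuple within `R · mesh` on `G`, within `Rc · mesh` always -/
theorem it_n_rd_close (T : Tan) (A : T.Ω → α) (G : T.Ω → Prop) (p q : ℝ) (U : List (T.Ω → ItPh)) (R Rc ε : ℝ)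
    (hR : 0 ≤ R) (hRc : 0 ≤ Rc)
    (hG : ∀ u ∈ U, ∀ ω ω', T.P.p ω ≠ 0 → T.P.p ω' ≠ 0 → G ω → G ω' → A ω = A ω' →
      |itVal (u ω) (T.F ω) (T.f0 p ω) - itVal (u ω') (T.F ω') (T.f0 p ω')| ≤ R * msh T.δ q)
    (hc : ∀ u ∈ U, ∀ ω ω', T.P.p ω ≠ 0 → T.P.p ω' ≠ 0 → A ω = A ω' →
      |itVal (u ω) (T.F ω) (T.f0 p ω) - itVal (u ω') (T.F ω') (T.f0 p ω')| ≤ Rc * msh T.δ q)
    (hε : T.P.pr (fun ω => ¬ G ω) ≤ ε) :
    T.P.entC (T.rd p q U) A ≤ U.length * Real.log (R + 2) + ε * (U.length * Real.log (Rc + 2)) + Real.log 2 := by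
  have h := it_n_ent_close T.P A G T.δ q (U.map fun u => fun ω' => itVal (u ω') (T.F ω') (T.f0 p ω')) R Rc ε hR hRc
    (fun v hv => by
      obtain ⟨u, hu, rfl⟩ := List.mem_map.1 hv
      exact hG u hu)
    (fun v hv => by
      obtain ⟨u, hu, rfl⟩ := List.mem_map.1 hv
      exact hc u hu) hε
  rw [List.length_map, ← it_n_rd_eq] at h
  exact h

/-- readings, no bad event -/
theorem it_n_rd_close' (T : Tan) (A : T.Ω → α) (p q : ℝ) (U : List (T.Ω → ItPh)) (R : ℝ) (hR : 0 ≤ R)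
    (h : ∀ u ∈ U, ∀ ω ω', T.P.p ω ≠ 0 → T.P.p ω' ≠ 0 → A ω = A ω' →
      |itVal (u ω) (T.F ω) (T.f0 p ω) - itVal (u ω') (T.F ω') (T.f0 p ω')| ≤ R * msh T.δ q) :
    T.P.entC (T.rd p q U) A ≤ U.length * Real.log (R + 2) := by
  have h' := it_n_ent_close' T.P A T.δ q (U.map fun u => fun ω' => itVal (u ω') (T.F ω') (T.f0 p ω')) R hR
    (fun v hv => by
      obtain ⟨u, hu, rfl⟩ := List.mem_map.1 hv
      exact h u hu)
  rw [List.length_map, ← it_n_rd_eq] at h'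
  exact h'

/-- the six coordinates of the phase -/
def Tan.nCo (T : Tan) : List (T.Ω → ℝ) :=
  [fun ω => (T.F ω).X, fun ω => (T.F ω).B, fun ω => (T.F ω).P, fun ω => (T.F ω).Y, fun ω => (T.F ω).N, fun ω => (T.F ω).D]

theorem it_n_kit_eqns_cite : True := by
  have := @Tan.nCo.eq_1
  trivial

theorem it_n_Fn_iff (T : Tan) (q : ℝ) (ω ω' : T.Ω) :
    T.Fn q ω = T.Fn q ω' ↔ (T.nCo.map fun v => tcell T.δ q (v ω)) = (T.nCo.map fun v => tcell T.δ q (v ω')) := by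
  simp only [Tan.Fn, itF, Tan.nCo, List.map_cons, List.map_nil, List.cons.injEq, Prod.mk.injEq, and_true]
  tauto

/-- phase names: the conditioning fixes the phase within `R · mesh` on `G`, within `Rc · mesh` always -/
theorem it_n_Fn_close (T : Tan) (A : T.Ω → α) (G : T.Ω → Prop) (q : ℝ) (R Rc ε : ℝ) (hR : 0 ≤ R) (hRc : 0 ≤ Rc)
    (hG : ∀ ω ω', T.P.p ω ≠ 0 → T.P.p ω' ≠ 0 → G ω → G ω' → A ω = A ω' → ((T.F ω).sub (T.F ω')).nrm ≤ R * msh T.δ q)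
    (hc : ∀ ω ω', T.P.p ω ≠ 0 → T.P.p ω' ≠ 0 → A ω = A ω' → ((T.F ω).sub (T.F ω')).nrm ≤ Rc * msh T.δ q)
    (hε : T.P.pr (fun ω => ¬ G ω) ≤ ε) :
    T.P.entC (T.Fn q) A ≤ 6 * Real.log (R + 2) + ε * (6 * Real.log (Rc + 2)) + Real.log 2 := by
  have key : ∀ (r : ℝ) (ω ω' : T.Ω), ((T.F ω).sub (T.F ω')).nrm ≤ r → ∀ v ∈ T.nCo, |v ω - v ω'| ≤ r := by
    intro r ω ω' hr v hv
    obtain ⟨n1, n2, n3, n4, n5, n6⟩ := it_k_aux_nrm_le ((T.F ω).sub (T.F ω'))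
    simp only [Tan.nCo, List.mem_cons, List.not_mem_nil, or_false] at hv
    rcases hv with rfl | rfl | rfl | rfl | rfl | rfl
    exacts [n1.trans hr, n2.trans hr, n3.trans hr, n4.trans hr, n5.trans hr, n6.trans hr]
  have h := it_n_ent_close T.P A G T.δ q T.nCo R Rc ε hR hRc
    (fun v hv ω ω' a b c d e => key _ ω ω' (hG ω ω' a b c d e) v hv)
    (fun v hv ω ω' a b e => key _ ω ω' (hc ω ω' a b e) v hv) hε
  have e : T.P.entC (T.Fn q) A = T.P.entC (fun ω => T.nCo.map fun v => tcell T.δ q (v ω)) A :=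
    ent_entC_congr T.P _ _ _ _ (fun _ _ _ _ => Iff.rfl) (fun ω ω' _ _ _ => it_n_Fn_iff T q ω ω')
  rw [e]
  simpa [Tan.nCo] using h

/-- phase names, no bad event -/
theorem it_n_Fn_close' (T : Tan) (A : T.Ω → α) (q : ℝ) (R : ℝ) (hR : 0 ≤ R)
    (h : ∀ ω ω', T.P.p ω ≠ 0 → T.P.p ω' ≠ 0 → A ω = A ω' → ((T.F ω).sub (T.F ω')).nrm ≤ R * msh T.δ q) :
    T.P.entC (T.Fn q) A ≤ 6 * Real.log (R + 2) := by
  have key : ∀ (r : ℝ) (ω ω' : T.Ω), ((T.F ω).sub (T.F ω')).nrm ≤ r → ∀ v ∈ T.nCo, |v ω - v ω'| ≤ r := by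
    intro r ω ω' hr v hv
    obtain ⟨n1, n2, n3, n4, n5, n6⟩ := it_k_aux_nrm_le ((T.F ω).sub (T.F ω'))
    simp only [Tan.nCo, List.mem_cons, List.not_mem_nil, or_false] at hv
    rcases hv with rfl | rfl | rfl | rfl | rfl | rfl
    exacts [n1.trans hr, n2.trans hr, n3.trans hr, n4.trans hr, n5.trans hr, n6.trans hr]
  have h' := it_n_ent_close' T.P A T.δ q T.nCo R hR (fun v hv ω ω' a b e => key _ ω ω' (h ω ω' a b e) v hv)
  have e : T.P.entC (T.Fn q) A = T.P.entC (fun ω => T.nCo.map fun v => tcell T.δ q (v ω)) A :=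
    ent_entC_congr T.P _ _ _ _ (fun _ _ _ _ => Iff.rfl) (fun ω ω' _ _ _ => it_n_Fn_iff T q ω ω')
  rw [e]
  simpa [Tan.nCo] using h'

/-- one real -/
theorem it_n_cell_close (P : FLaw Ω) (A : Ω → α) (G : Ω → Prop) (δ q : ℝ) (v : Ω → ℝ) (R Rc ε : ℝ) (hR : 0 ≤ R) (hRc : 0 ≤ Rc)
    (hG : ∀ ω ω', P.p ω ≠ 0 → P.p ω' ≠ 0 → G ω → G ω' → A ω = A ω' → |v ω - v ω'| ≤ R * msh δ q)
    (hc : ∀ ω ω', P.p ω ≠ 0 → P.p ω' ≠ 0 → A ω = A ω' → |v ω - v ω'| ≤ Rc * msh δ q)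
    (hε : P.pr (fun ω => ¬ G ω) ≤ ε) :
    P.entC (fun ω => tcell δ q (v ω)) A ≤ Real.log (R + 2) + ε * Real.log (Rc + 2) + Real.log 2 := by
  have h := it_n_ent_close P A G δ q [v] R Rc ε hR hRc
    (fun w hw => by rw [List.mem_singleton.1 hw]; exact hG) (fun w hw => by rw [List.mem_singleton.1 hw]; exact hc) hε
  have e : P.entC (fun ω => tcell δ q (v ω)) A = P.entC (fun ω => [v].map fun v => tcell δ q (v ω)) A :=
    ent_entC_congr P _ _ _ _ (fun _ _ _ _ => Iff.rfl) (fun ω ω' _ _ _ => by simp)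
  rw [e]
  simpa using h

/-- the phase name of the child depth is the tuple of the six coordinate readings, any held data -/
theorem it_n_F_hh (T : Tan) (h0 : 0 < T.δ) (h1 : T.δ < 1) (M : ℕ) (p q : ℝ) (hpq : p ≤ q) (V : List (T.Ω → ItPh)) :
    T.hh M p q (itRF T.Ω) V = T.P.entC (T.Fn q) (pair (T.rd p q V) (T.base M p)) := by
  unfold Tan.hh
  refine ent_entC_congr T.P _ _ _ _ (fun ω ω' _ _ => Iff.rfl) (fun ω ω' _ _ hb => ?_)
  have hb' : T.Fn p ω = T.Fn p ω' := (Prod.ext_iff.1 (Prod.ext_iff.1 hb).2).1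
  simp only [Tan.Fn, itF, Prod.mk.injEq] at hb' ⊢
  obtain ⟨⟨a1, a2, a3⟩, b1, b2, b3⟩ := hb'
  simp only [Tan.rd, itRF, List.map_cons, List.map_nil, List.cons.injEq, and_true, it_k_aux_valX, it_k_aux_valB,
    it_k_aux_valP, it_k_aux_valY, it_k_aux_valN, it_k_aux_valD, Tan.f0, itR]
  rw [it_k_aux_shift_iff h0 h1 hpq a1, it_k_aux_shift_iff h0 h1 hpq a2, it_k_aux_shift_iff h0 h1 hpq a3,
    it_k_aux_shift_iff h0 h1 hpq b1, it_k_aux_shift_iff h0 h1 hpq b2, it_k_aux_shift_iff h0 h1 hpq b3]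
  tauto

/-- no held readings -/
theorem it_n_hh_nil (T : Tan) (M : ℕ) (p q : ℝ) (U : List (T.Ω → ItPh)) :
    T.hh M p q U [] = T.P.entC (T.rd p q U) (T.base M p) := by
  unfold Tan.hh
  exact ent_entC_congr T.P _ _ _ _ (fun ω ω' _ _ => by simp [FLaw.pair, Tan.rd]) (fun _ _ _ _ _ => Iff.rfl)

end Claimed.Agent.R256
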