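import Claimed.Agent.R256.Int.RadCore
import Claimed.Agent.R256.Int.Sym

/-!
# Row 256, Sec. 5, block RAD, file 3: from `Tan.Adm`, `Tan.Avoid` to the hypotheses of the cores (= unit U3 "Iid")      (architect helper9; prefix `it_r_`)

PAPER-FREE.  Definitions: `Int/Defs.lean` (`Tan`, `Adm0`, `AdmM`, `Avoid`), `Int/Meta.lean` (`Tan.XiE`, `Tan.nInc`, `Tan.Slope`), `Int/RadKit.lean`.
`tcell δ u x = icCell (tlev δ u) x`, `T.xin j u = icQ (T.pl j) (tlev T.δ u)`, `(trep δ u y.1, trep δ u y.2) = pjCor (tlev δ u) y`, `T.nInc i j u ω = itNI (tlev T.δ u) (T.pl i ω) (T.pl j ω)`:  all by `rfl`.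
 T1 `it_r_ci`      record `j` is independent of all the other records given the side
 T2 `it_r_iid`     `PjIid` for two planar marks
 T3 `it_r_step`    one step of the planar mark of the record `i` has score `(d - τ)(u' - u)`   (all regimes of `c`)
 T4 `it_r_strip`   one strip width from `Avoid`
 T5 `it_r_lev`     levels and depths
 T6 `it_r_win`     hereditary windows `[0, t]` and `[p, p + t]`
Statements are FROZEN (a defect: one line to helper9).  Helper lemmas: prefix `it_r_aux_`, directly above your theorem.  Splice only your theorem on a fresh pull.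
-/

set_option autoImplicit false

namespace Claimed.Agent.R256

open Claimed.Agent.R255
open Claimed.Agent.R255.FLaw (pair)
open scoped BigOperators
open Classical

/-- the planar mark `ξ_i = (θ_i, r_i)` -/
def Tan.pl (T : Tan) (i : ℕ) : T.Ω → ℝ × ℝ := fun ω => ((T.mrk i ω).th, (T.mrk i ω).r)

theorem it_r_tan_eqns_cite : True := by
  have := @Tan.pl.eq_1
  trivial

theorem it_r_aux_lev_mono (δ u u' : ℝ) (h0 : 0 < δ) (h1 : δ < 1) (h : u ≤ u') : tlev δ u ≤ tlev δ u' := by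
  have hl : 0 ≤ Real.logb 2 (1 / δ) := by
    apply Real.logb_nonneg (by norm_num)
    rw [le_div_iff₀ h0]; linarith
  exact Nat.ceil_mono (mul_le_mul_of_nonneg_right h hl)

theorem it_r_aux_lev_add (δ u g : ℝ) : tlev δ (u + g) ≤ tlev δ u + tlev δ g := by
  unfold tlev
  rw [add_mul]
  exact Nat.ceil_add_le _ _

theorem it_r_aux_lev_zero (δ : ℝ) : tlev δ 0 = 0 := by simp [tlev]

theorem it_r_aux_lg_pos (δ : ℝ) (h0 : 0 < δ) (h1 : δ < 1) : 0 < lg δ := by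
  unfold lg
  apply Real.log_pos
  rw [lt_div_iff₀ h0]; linarith

/-- LEAF L-256-RAD-T1 (~250 l.).  Fix `u v z`, `π = pr (Zs = z)`.  If `π = 0` both sides vanish (`ent_pr_mono`).  If `v ⟨j, hj⟩ ≠ ⟨0,0,0⟩` both sides vanish.  Otherwise, with `x^w = Function.update v ⟨j,hj⟩ w`:
`{mrk j = w, XiE = v} = {∀ i, mrk i = x^w i}`, so by `h.indep`  `pr (Zs = z, mrk j = w, XiE = v) π^M = π (∏_{i ≠ j} m_i(v i)) m_j(w)`, `m_i(y) = pr (Zs = z, mrk i = y)` (`Finset.prod_update_of_mem` / `Fintype.prod_eq_mul_prod_compl`);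
summing over the values `w` of `mrk j` (`ent_pr_sum_values`): `pr (Zs = z, XiE = v) π^M = π (∏_{i ≠ j} m_i(v i)) π`.  Multiply out and cancel `π^M ≠ 0`. -/
theorem it_r_ci (T : Tan) (a : ItPar) (pk : ItPk) (h : T.Adm0 a pk) (j : ℕ) (hj : j < pk.M) :
    T.P.CI (T.mrk j) (T.XiE pk.M j) T.Zs := by
  intro u v z
  obtain ⟨π, hπ⟩ : ∃ π, π = T.P.pr (fun ω => T.Zs ω = z) := ⟨_, rfl⟩
  rw [← hπ]
  have hπ0 : 0 ≤ π := hπ ▸ ent_pr_nonneg _ _
  rcases hπ0.eq_or_lt with h0 | hpos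
  · have e1 : T.P.pr (fun ω => T.mrk j ω = u ∧ T.Zs ω = z) = 0 := by
      refine le_antisymm ?_ (ent_pr_nonneg _ _)
      rw [h0, hπ]
      exact ent_pr_mono _ fun ω _ hh => hh.2
    rw [e1, ← h0]; ring
  by_cases hv : v ⟨j, hj⟩ = ⟨0, 0, 0⟩
  swap
  · have hne : ∀ ω, T.XiE pk.M j ω ≠ v := by
      intro ω he
      apply hv
      rw [← he]
      simp [Tan.XiE]
    have z1 : T.P.pr (fun ω => T.mrk j ω = u ∧ T.XiE pk.M j ω = v ∧ T.Zs ω = z) = 0 :=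
      ent_pr_eq_zero T.P fun ω _ hh => hne ω hh.2.1
    have z2 : T.P.pr (fun ω => T.XiE pk.M j ω = v ∧ T.Zs ω = z) = 0 :=
      ent_pr_eq_zero T.P fun ω _ hh => hne ω hh.1
    rw [z1, z2]
    ring
  obtain ⟨m, hm⟩ : ∃ m : Fin pk.M → ItMk → ℝ, m = fun (i : Fin pk.M) y => T.P.pr (fun ω => T.Zs ω = z ∧ T.mrk i ω = y) := ⟨_, rfl⟩
  obtain ⟨C, hC⟩ : ∃ C, C = ∏ i ∈ ({(⟨j, hj⟩ : Fin pk.M)} : Finset (Fin pk.M))ᶜ, m i (v i) := ⟨_, rfl⟩
  have hA : ∀ w, T.P.pr (fun ω => T.mrk j ω = w ∧ T.XiE pk.M j ω = v ∧ T.Zs ω = z) * π ^ pk.M = π * (m ⟨j, hj⟩ w * C) := by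
    intro w
    have hi := h.indep z (Function.update v ⟨j, hj⟩ w)
    rw [← hπ] at hi
    have e1 : T.P.pr (fun ω => T.mrk j ω = w ∧ T.XiE pk.M j ω = v ∧ T.Zs ω = z)
        = T.P.pr (fun ω => T.Zs ω = z ∧ ∀ i : Fin pk.M, T.mrk i ω = Function.update v ⟨j, hj⟩ w i) := by
      refine ent_pr_congr T.P fun ω _ => ?_
      constructor
      · rintro ⟨h1, h2, h3⟩
        refine ⟨h3, fun i => ?_⟩
        by_cases hij : i = ⟨j, hj⟩
        · subst hij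
          simpa using h1
        · rw [Function.update_of_ne hij, ← h2]
          have : (i : ℕ) ≠ j := fun e => hij (Fin.ext e)
          simp [Tan.XiE, this]
      · rintro ⟨h3, h2⟩
        refine ⟨by simpa using h2 ⟨j, hj⟩, ?_, h3⟩
        funext i
        by_cases hij : i = ⟨j, hj⟩
        · subst hij
          rw [hv]
          simp [Tan.XiE]
        · have : (i : ℕ) ≠ j := fun e => hij (Fin.ext e)
          have h4 := h2 i
          rw [Function.update_of_ne hij] at h4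
          simp [Tan.XiE, this, h4]
    rw [e1, hi]
    congr 1
    rw [Fintype.prod_eq_mul_prod_compl (⟨j, hj⟩ : Fin pk.M), hC, hm]
    congr 1
    · simp
    · refine Finset.prod_congr rfl fun i hi' => ?_
      have hij : i ≠ ⟨j, hj⟩ := by simpa using hi'
      rw [Function.update_of_ne hij]
  obtain ⟨S, hS⟩ : ∃ S : Finset ItMk, S = Finset.univ.image (T.mrk j) := ⟨_, rfl⟩
  have hmem : ∀ ω, T.mrk j ω ∈ S := fun ω => hS ▸ Finset.mem_image_of_mem _ (Finset.mem_univ _)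
  have hB : T.P.pr (fun ω => T.XiE pk.M j ω = v ∧ T.Zs ω = z) * π ^ pk.M = π * (π * C) := by
    rw [ent_pr_sum_values T.P _ (T.mrk j) S (fun ω _ _ => hmem ω), Finset.sum_mul]
    have e2 : π = ∑ w ∈ S, m ⟨j, hj⟩ w := by
      rw [hπ, ent_pr_sum_values T.P _ (T.mrk j) S (fun ω _ _ => hmem ω), hm]
    have e3 : ∀ w ∈ S, T.P.pr (fun ω => (T.XiE pk.M j ω = v ∧ T.Zs ω = z) ∧ T.mrk j ω = w) * π ^ pk.M
        = π * (m ⟨j, hj⟩ w * C) := by
      intro w _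
      rw [← hA w]
      congr 1
      exact ent_pr_congr T.P fun ω _ => ⟨fun hh => ⟨hh.2, hh.1.1, hh.1.2⟩, fun hh => ⟨⟨hh.2.1, hh.2.2⟩, hh.1⟩⟩
    rw [Finset.sum_congr rfl e3, ← Finset.mul_sum, ← Finset.sum_mul, ← e2]
  have hpM : π ^ pk.M ≠ 0 := (pow_pos hpos _).ne'
  have e4 : T.P.pr (fun ω => T.mrk j ω = u ∧ T.Zs ω = z) = m ⟨j, hj⟩ u := by
    rw [hm]
    exact ent_pr_congr T.P fun ω _ => ⟨fun hh => ⟨hh.2, hh.1⟩, fun hh => ⟨hh.2, hh.1⟩⟩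
  rw [e4]
  apply mul_right_cancel₀ hpM
  have a1 := hA u
  calc T.P.pr (fun ω => T.mrk j ω = u ∧ T.XiE pk.M j ω = v ∧ T.Zs ω = z) * π * π ^ pk.M
      = (T.P.pr (fun ω => T.mrk j ω = u ∧ T.XiE pk.M j ω = v ∧ T.Zs ω = z) * π ^ pk.M) * π := by ring
    _ = m ⟨j, hj⟩ u * (π * (π * C)) := by rw [a1]; ring
    _ = m ⟨j, hj⟩ u * T.P.pr (fun ω => T.XiE pk.M j ω = v ∧ T.Zs ω = z) * π ^ pk.M := by rw [← hB]; ring

/-- LEAF L-256-RAD-T2 (~150 l.).  Independence: `it_r_ci` for `j`, `ent_ci_comp` with `f μ _ = (μ.th, μ.r)`, `g v _ = ((v ⟨i,hi⟩).th, (v ⟨i,hi⟩).r)` (`XiE` at `i ≠ j` is `mrk i`), reorder the conjunctions (`ent_pr_congr`).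
Identical laws: `(it_r_ident T.P T.Zs (T.mrk i) (T.mrk j) (h.ident ..)).1` with `Φ z' μ = (z' = z ∧ (μ.th, μ.r) = x)`. -/
theorem it_r_iid (T : Tan) (a : ItPar) (pk : ItPk) (h : T.Adm0 a pk) (i j : ℕ) (hi : i < pk.M) (hj : j < pk.M) (hij : i ≠ j) :
    PjIid T.P T.Zs (T.pl i) (T.pl j) := by
  constructor
  · intro z x y
    have h1 := it_r_ci T a pk h j hj
    have h2 := ent_ci_comp T.P _ _ _ h1 (fun (μ : ItMk) (_ : T.ζ) => (μ.th, μ.r))
      (fun (v : Fin pk.M → ItMk) (_ : T.ζ) => ((v ⟨i, hi⟩).th, (v ⟨i, hi⟩).r))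
    have h3 := h2 y x z
    have eg : ∀ ω, (((T.XiE pk.M j ω) ⟨i, hi⟩).th, ((T.XiE pk.M j ω) ⟨i, hi⟩).r) = T.pl i ω := by
      intro ω
      simp [Tan.XiE, hij, Tan.pl]
    simp only [eg] at h3
    have a1 : T.P.pr (fun ω => T.Zs ω = z ∧ T.pl i ω = x ∧ T.pl j ω = y)
        = T.P.pr (fun ω => ((T.mrk j ω).th, (T.mrk j ω).r) = y ∧ T.pl i ω = x ∧ T.Zs ω = z) :=
      ent_pr_congr T.P fun ω _ => ⟨fun hh => ⟨hh.2.2, hh.2.1, hh.1⟩, fun hh => ⟨hh.2.2, hh.2.1, hh.1⟩⟩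
    have a2 : T.P.pr (fun ω => T.Zs ω = z ∧ T.pl i ω = x) = T.P.pr (fun ω => T.pl i ω = x ∧ T.Zs ω = z) :=
      ent_pr_congr T.P fun ω _ => ⟨fun hh => ⟨hh.2, hh.1⟩, fun hh => ⟨hh.2, hh.1⟩⟩
    have a3 : T.P.pr (fun ω => T.Zs ω = z ∧ T.pl j ω = y)
        = T.P.pr (fun ω => ((T.mrk j ω).th, (T.mrk j ω).r) = y ∧ T.Zs ω = z) :=
      ent_pr_congr T.P fun ω _ => ⟨fun hh => ⟨hh.2, hh.1⟩, fun hh => ⟨hh.2, hh.1⟩⟩
    rw [a1, a2, a3, h3]
    ring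
  · intro z x
    exact (it_r_ident (α' := Unit) (β' := Unit) T.P T.Zs (T.mrk i) (T.mrk j) (fun z v => h.ident z v i hi j hj)).1
      (fun z' μ => z' = z ∧ (μ.th, μ.r) = x)

theorem it_r_aux_step0 (T : Tan) (a : ItPar) (ha : a.Ok) (pk : ItPk) (τ κ0 acc : ℝ) (hT : T.Adm a pk τ κ0 acc) (hτ : 0 ≤ τ)
    (u u' : ℝ) (hu0 : 0 ≤ u) (hu : u ∈ pk.G) (hu' : u' ∈ pk.G) (huu : u < u')
    (hval : 1 ≤ a.c ∨ (0 < u ∧ u' - u ≤ κ0 * u)) (x : ℝ) (hx : 0 ≤ x) :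
    T.P.pr (fun ω => T.P.surC (T.xin 0 u') (pair T.Zs (T.xin 0 u)) ω
      < ((a.d - τ) * (u' - u) - acc) * T.L - x) ≤ acc + Real.exp (-x) := by
  have hL : 0 < T.L := it_r_aux_lg_pos T.δ hT.t0.δ0 hT.t0.δ1
  by_cases hc : a.c < 1
  · have hv : 0 < u ∧ u' - u ≤ κ0 * u := by
      rcases hval with h | h
      · exact absurd hc (not_lt.2 h)
      · exact h
    have h1 := hT.tm.joint hc u hu u' hu' hv.1 huu hv.2
    have h2 : T.P.pr (fun ω => T.P.surC (T.xin 0 u') (pair T.Zs (T.xin 0 u)) ω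
        < ((a.d - τ) * (u' - u) - acc) * T.L - x) ≤ acc :=
      le_trans (ent_pr_mono _ fun ω _ hh => by linarith) h1
    have := Real.exp_pos (-x)
    linarith
  · have hc1 : 1 ≤ a.c := not_lt.1 hc
    have hρ : u ≤ T.rdep a u := by
      unfold Tan.rdep
      split_ifs
      · rw [min_eq_left hc1]; linarith
      · nlinarith
    have hlev : tlev T.δ u ≤ tlev T.δ (T.rdep a u) := ig_lev_mono _ _ _ hT.t0.δ0 hT.t0.δ1 hρ
    have h1 := hT.tm.time u hu u' hu' huu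
    have h2 := ltk_lp T.P (T.thn 0 u') (pair T.Zs (T.xin 0 u)) (T.rn 0 (T.rdep a u)) x
    refine le_trans (le_trans (ent_pr_mono _ fun ω hω hh => ?_) (ent_pr_or_le _ _ _)) (add_le_add h1 h2)
    by_contra hcon
    rw [not_or, not_lt, not_lt] at hcon
    obtain ⟨c1, c2⟩ := hcon
    have e1 : T.P.surC (T.xin 0 u') (pair T.Zs (T.xin 0 u)) ω
        = T.P.surC (T.thn 0 u') (pair T.Zs (T.xin 0 u)) ω
          + T.P.surC (T.rn 0 u') (pair (T.thn 0 u') (pair T.Zs (T.xin 0 u))) ω :=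
      ent_surC_chain T.P (T.thn 0 u') (T.rn 0 u') (pair T.Zs (T.xin 0 u)) hω
    have e2 := ent_surC_nonneg T.P (T.rn 0 u') (pair (T.thn 0 u') (pair T.Zs (T.xin 0 u))) hω
    have e3 : T.P.surC (T.thn 0 u') (pair (T.rn 0 (T.rdep a u)) (pair T.Zs (T.xin 0 u))) ω
        = T.P.surC (T.thn 0 u') (pair T.Zs (pair (T.thn 0 u) (T.rn 0 (T.rdep a u)))) ω := by
      refine ent_surC_congr T.P _ _ _ _ ω (fun ω' _ => ?_) (fun ω' _ _ => Iff.rfl)
      simp only [FLaw.pair, Prod.mk.injEq, Tan.xin, itXi, Tan.thn, Tan.rn]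
      constructor
      · rintro ⟨r1, r2, r3, r4⟩
        exact ⟨r2, r3, r1⟩
      · rintro ⟨r2, r3, r1⟩
        exact ⟨r1, r2, r3, ic_cell_nest hlev r1⟩
    have e4 : (a.d - τ) * (u' - u) * T.L ≤ a.d * (u' - u) * T.L := by
      apply mul_le_mul_of_nonneg_right _ hL.le
      apply mul_le_mul_of_nonneg_right _ (by linarith)
      linarith
    rw [e3] at c2
    nlinarith

/-- LEAF L-256-RAD-T3 (~300 l.).  ONE STEP.  First for the record `0`, then `(it_r_ident T.P T.Zs (T.mrk 0) (T.mrk i) ..).2` (`F μ` = planar cell of level `tlev δ u'`, `G μ` = planar cell of level `tlev δ u`) and `ent_surC_congr` to reorder the pair.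
`c < 1`: `hT.tm.joint` (then `hval` is its right alternative), `x ≥ 0`.
`c ≥ 1`: `hT.tm.time`;  `ρ = T.rdep a u ≥ u` (`min 1 c = 1`, resp. `c u ≥ u`), so `r`-cell of depth `ρ` refines the one of depth `u` (`ig_lev_mono`, `ic_cell_nest`).  Pointwise on the support
`surC (ξ_u') (ξ_u, Zs) ≥ surC (θ_u') (ξ_u, Zs)` (`ent_surC_chain`, `ent_surC_nonneg`), and off probability `e^(-x)`  `surC (θ_u') (ξ_u, Zs) + x ≥ surC (θ_u') (r_ρ, (ξ_u, Zs))` (`ltk_lp`) `= surC (θ_u') (Zs, (θ_u, r_ρ))` (`ent_surC_congr`).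
`(d - τ)(u' - u) L ≤ d (u' - u) L` since `L = lg δ ≥ 0`. -/
theorem it_r_step (T : Tan) (a : ItPar) (ha : a.Ok) (pk : ItPk) (τ κ0 acc : ℝ) (hT : T.Adm a pk τ κ0 acc) (hτ : 0 ≤ τ)
    (i : ℕ) (hi : i < pk.M) (u u' : ℝ) (hu0 : 0 ≤ u) (hu : u ∈ pk.G) (hu' : u' ∈ pk.G) (huu : u < u')
    (hval : 1 ≤ a.c ∨ (0 < u ∧ u' - u ≤ κ0 * u)) (x : ℝ) (hx : 0 ≤ x) :
    T.P.pr (fun ω => T.P.surC (icQ (T.pl i) (tlev T.δ u')) (pair (icQ (T.pl i) (tlev T.δ u)) T.Zs) ω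
      < ((a.d - τ) * (u' - u) - acc) * T.L - x) ≤ acc + Real.exp (-x) := by
  have h0 := it_r_aux_step0 T a ha pk τ κ0 acc hT hτ u u' hu0 hu hu' huu hval x hx
  have hM : 0 < pk.M := Nat.lt_of_le_of_lt (Nat.zero_le _) hi
  have h1 := (it_r_ident T.P T.Zs (T.mrk 0) (T.mrk i) (fun z v => hT.t0.ident z v 0 hM i hi)).2
    (itXi T.δ u') (itXi T.δ u) (((a.d - τ) * (u' - u) - acc) * T.L - x)
  refine le_trans (le_of_eq ?_) h0
  refine Eq.trans ?_ h1.symm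
  refine ent_pr_congr T.P fun ω _ => ?_
  have e : T.P.surC (icQ (T.pl i) (tlev T.δ u')) (pair (icQ (T.pl i) (tlev T.δ u)) T.Zs) ω
      = T.P.surC (fun ω => itXi T.δ u' (T.mrk i ω)) (pair T.Zs (fun ω => itXi T.δ u (T.mrk i ω))) ω := by
    refine ent_surC_congr T.P _ _ _ _ ω (fun ω' _ => ?_) (fun ω' _ _ => Iff.rfl)
    simp only [FLaw.pair, Prod.mk.injEq]
    exact ⟨fun hh => ⟨hh.2, hh.1⟩, fun hh => ⟨hh.2, hh.1⟩⟩
  rw [e]

/-- LEAF L-256-RAD-T4 (~200 l.).  ONE STRIP WIDTH.  `u = 3/4 t₀ t`.  `hav u hG al be ga` bounds the strip of half-width `δ^u` for the record `0`; transfer to `i` by `(it_r_ident ..).1`.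
`2^(-(t₀ n)) = e^(-t₀ n log 2) ≤ e^(-t₀ (t L - log 2)) ≤ e^(-u L) = δ^u`  (`t L / 4 ≥ log 2`);
`δ^(e0 u - acc) = e^(-(e0 u - acc) L) ≤ e^(-(e0 t₀/2)(t L + log 2)) ≤ 2^(-(e0 t₀/2) n)`  (`(e0 t₀ t/4 - acc) L ≥ (e0 t₀ t/8) L ≥ (e0 t₀/2) log 2`).      `δ^y = exp (-(y L))`: `Real.rpow_def_of_pos`, `L = lg δ = -log δ`. -/
theorem it_r_strip (T : Tan) (a : ItPar) (ha : a.Ok) (pk : ItPk) (acc : ℝ) (h0 : T.Adm0 a pk) (hav : T.Avoid a pk acc)
    (i : ℕ) (hi : i < pk.M) (t₀ t : ℝ) (ht₀ : 0 < t₀) (ht : 0 < t) (hG : 3 / 4 * t₀ * t ∈ pk.G) (hacc : acc ≤ a.e0 * t₀ * t / 8)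
    (hL : 4 * Real.log 2 ≤ t * T.L) (n : ℕ) (hn : |(n : ℝ) * Real.log 2 - t * T.L| ≤ Real.log 2) :
    PjNoStrip T.P T.Zs (T.pl i) ((2 : ℝ) ^ (-(t₀ * n))) ((2 : ℝ) ^ (-(a.e0 * t₀ / 2 * n))) := by
  intro al be ga hab
  have hLp : 0 < T.L := it_r_aux_lg_pos T.δ h0.δ0 h0.δ1
  have hM : 0 < pk.M := Nat.lt_of_le_of_lt (Nat.zero_le _) hi
  have he0 : 0 < a.e0 := ha.2.2.2.2.2.2.2.1
  have hl2 : 0 < Real.log 2 := Real.log_pos one_lt_two
  obtain ⟨n1, n2⟩ := abs_le.1 hn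
  have hδ : ∀ y : ℝ, T.δ ^ y = Real.exp (-(y * T.L)) := by
    intro y
    rw [Real.rpow_def_of_pos h0.δ0]
    congr 1
    unfold Tan.L lg
    rw [one_div, Real.log_inv]
    ring
  have h2 : ∀ y : ℝ, (2 : ℝ) ^ y = Real.exp (y * Real.log 2) := by
    intro y
    rw [Real.rpow_def_of_pos two_pos, mul_comm]
  have h1 := hav _ hG al be ga hab
  have h3 := (it_r_ident (α' := Unit) (β' := Unit) T.P T.Zs (T.mrk 0) (T.mrk i) (fun z v => h0.ident z v 0 hM i hi)).1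
    (fun z μ => |al z * μ.th + be z * μ.r - ga z| ≤ T.δ ^ (3 / 4 * t₀ * t))
  rw [h3] at h1
  have w1 : (2 : ℝ) ^ (-(t₀ * n)) ≤ T.δ ^ (3 / 4 * t₀ * t) := by
    rw [hδ, h2]
    apply Real.exp_le_exp.2
    have : t₀ * (t * T.L - Real.log 2) ≤ t₀ * (n * Real.log 2) := mul_le_mul_of_nonneg_left (by linarith) ht₀.le
    have : t₀ * (3 / 4 * (t * T.L)) ≤ t₀ * (t * T.L - Real.log 2) := mul_le_mul_of_nonneg_left (by linarith) ht₀.le
    nlinarith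
  have w2 : T.δ ^ (a.e0 * (3 / 4 * t₀ * t) - acc) ≤ (2 : ℝ) ^ (-(a.e0 * t₀ / 2 * n)) := by
    rw [hδ, h2]
    apply Real.exp_le_exp.2
    have hp : 0 < a.e0 * t₀ := mul_pos he0 ht₀
    have b1 : a.e0 * t₀ * (n * Real.log 2) ≤ a.e0 * t₀ * (t * T.L + Real.log 2) := mul_le_mul_of_nonneg_left (by linarith) hp.le
    have b2 : a.e0 * t₀ * (4 * Real.log 2) ≤ a.e0 * t₀ * (t * T.L) := mul_le_mul_of_nonneg_left hL hp.le
    have b3 : acc * T.L ≤ a.e0 * t₀ * t / 8 * T.L := mul_le_mul_of_nonneg_right hacc hLp.le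
    nlinarith
  refine le_trans (le_trans (ent_pr_mono _ fun ω _ hh => ?_) h1) w2
  exact le_trans hh w1

/-- LEAF L-256-RAD-T5 (~60 l.).  `tlev δ u = ⌈u logb 2 (1/δ)⌉₊`, `logb 2 (1/δ) = lg δ / log 2`;  `Nat.le_ceil`, `Nat.ceil_lt_add_one`. -/
theorem it_r_lev (δ u : ℝ) (h0 : 0 < δ) (h1 : δ < 1) (hu : 0 ≤ u) :
    u * lg δ ≤ (tlev δ u : ℝ) * Real.log 2 ∧ (tlev δ u : ℝ) * Real.log 2 < u * lg δ + Real.log 2 := by
  have hL : 0 < Real.log 2 := Real.log_pos one_lt_two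
  have e : Real.logb 2 (1 / δ) = lg δ / Real.log 2 := rfl
  have hlg : 0 ≤ lg δ := by
    unfold lg
    exact Real.log_nonneg (by rw [le_div_iff₀ h0]; linarith)
  have hx : 0 ≤ u * Real.logb 2 (1 / δ) := by rw [e]; positivity
  have a1 := Nat.le_ceil (u * Real.logb 2 (1 / δ))
  have a2 := Nat.ceil_lt_add_one hx
  have e2 : u * Real.logb 2 (1 / δ) * Real.log 2 = u * lg δ := by rw [e]; field_simp
  unfold tlev
  constructor
  · rw [← e2]; exact mul_le_mul_of_nonneg_right a1 hL.le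
  · have := mul_lt_mul_of_pos_right a2 hL
    rw [add_mul, e2, one_mul] at this
    exact this

theorem it_r_aux_win_mono {Ω α δ : Type} [Fintype Ω] (P : FLaw Ω) (X : ℕ → Ω → α) (D : Ω → δ) {e c c' : ℝ} {k₀ k₁ : ℕ} (h : c ≤ c')
    {ω : Ω} (hg : ItWin P X D e c k₀ k₁ ω) : ItWin P X D e c' k₀ k₁ ω := by
  intro k k' h0 hkk hk'
  refine le_trans ?_ (hg k k' h0 hkk hk')
  have hl2 : 0 < Real.log 2 := Real.log_pos (by norm_num)
  exact mul_le_mul_of_nonneg_right (by linarith) hl2.le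

/-- deterministic part of `it_r_win` -/
theorem it_r_aux_win_det {Ω α ζ : Type} [Fintype Ω] (P : FLaw Ω) (X : ℕ → Ω → α) (Zs : Ω → ζ)
    (hX : ∀ k k', k ≤ k' → ∀ ω ω', X k' ω = X k' ω' → X k ω = X k ω') (δ u₀ h d s : ℝ) (hδ0 : 0 < δ) (hδ1 : δ < 1)
    (hu₀ : 0 ≤ u₀) (hh : 0 < h) (hd : 0 ≤ d) (R r₀ : ℕ) (hs : s ≤ d * (h * lg δ + Real.log 2)) {ω : Ω} (hω : P.p ω ≠ 0)
    (hstep : ∀ r : ℕ, r₀ ≤ r → r < R →
      s ≤ P.surC (X (tlev δ (u₀ + ((r + 1 : ℕ) : ℝ) * h))) (pair (X (tlev δ (u₀ + (r : ℝ) * h))) Zs) ω) :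
    ItWin P X Zs d ((2 * d * (h * lg δ + Real.log 2) + R * (d * (h * lg δ + Real.log 2) - s)
      + r₀ * (d * (h * lg δ + Real.log 2))) / Real.log 2) (tlev δ u₀) (tlev δ (u₀ + (R : ℝ) * h)) ω := by
  have hl2 : 0 < Real.log 2 := Real.log_pos (by norm_num)
  have hL : 0 < lg δ := it_r_aux_lg_pos δ hδ0 hδ1
  obtain ⟨B, hB⟩ : ∃ B, B = d * (h * lg δ + Real.log 2) := ⟨_, rfl⟩
  rw [← hB] at hs ⊢
  have hB0 : 0 ≤ B := by rw [hB]; positivity
  have hur : ∀ r : ℕ, 0 ≤ u₀ + (r : ℝ) * h := fun r => by positivity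
  have hdiff : ∀ r : ℕ, d * (((tlev δ (u₀ + ((r + 1 : ℕ) : ℝ) * h) : ℕ) : ℝ) - (tlev δ (u₀ + (r : ℝ) * h) : ℕ)) * Real.log 2 ≤ B := by
    intro r
    have a1 := (it_r_lev δ (u₀ + ((r + 1 : ℕ) : ℝ) * h) hδ0 hδ1 (hur (r + 1))).2
    have a2 := (it_r_lev δ (u₀ + (r : ℝ) * h) hδ0 hδ1 (hur r)).1
    have a3 : (((tlev δ (u₀ + ((r + 1 : ℕ) : ℝ) * h) : ℕ) : ℝ) - (tlev δ (u₀ + (r : ℝ) * h) : ℕ)) * Real.log 2
        ≤ h * lg δ + Real.log 2 := by
      push_cast at a1 ⊢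
      nlinarith
    rw [hB, mul_assoc]
    exact mul_le_mul_of_nonneg_left a3 hd
  have key := it_r_her_of_steps P X Zs hX d hd R (tlev δ h) (fun r => tlev δ (u₀ + (r : ℝ) * h))
    (fun r => (B - s) / Real.log 2 + if r < r₀ then B / Real.log 2 else 0)
    (fun r _ => it_r_aux_lev_mono δ _ _ hδ0 hδ1 (by push_cast; nlinarith))
    (fun r _ => by
      have e : u₀ + ((r + 1 : ℕ) : ℝ) * h = (u₀ + (r : ℝ) * h) + h := by push_cast; ring
      show tlev δ (u₀ + ((r + 1 : ℕ) : ℝ) * h) ≤ _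
      rw [e]
      exact it_r_aux_lev_add δ _ _)
    (fun r _ => by
      have : 0 ≤ (B - s) / Real.log 2 := div_nonneg (by linarith) hl2.le
      split_ifs
      · have : 0 ≤ B / Real.log 2 := div_nonneg hB0 hl2.le
        linarith
      · linarith) hω
    (fun r hr => by
      have h1 := hdiff r
      show (d * (((tlev δ (u₀ + ((r + 1 : ℕ) : ℝ) * h) : ℕ) : ℝ) - (tlev δ (u₀ + (r : ℝ) * h) : ℕ))
        - ((B - s) / Real.log 2 + if r < r₀ then B / Real.log 2 else 0)) * Real.log 2 ≤ _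
      by_cases hr0 : r < r₀
      · rw [if_pos hr0]
        have h2 := ent_surC_nonneg P (X (tlev δ (u₀ + ((r + 1 : ℕ) : ℝ) * h))) (pair (X (tlev δ (u₀ + (r : ℝ) * h))) Zs) hω
        refine le_trans ?_ h2
        have e : (d * (((tlev δ (u₀ + ((r + 1 : ℕ) : ℝ) * h) : ℕ) : ℝ) - (tlev δ (u₀ + (r : ℝ) * h) : ℕ))
            - ((B - s) / Real.log 2 + B / Real.log 2)) * Real.log 2
            = d * (((tlev δ (u₀ + ((r + 1 : ℕ) : ℝ) * h) : ℕ) : ℝ) - (tlev δ (u₀ + (r : ℝ) * h) : ℕ)) * Real.log 2 - (B - s) - B := by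
          field_simp
          ring
        rw [e]; linarith
      · rw [if_neg hr0]
        refine le_trans ?_ (hstep r (by omega) hr)
        have e : (d * (((tlev δ (u₀ + ((r + 1 : ℕ) : ℝ) * h) : ℕ) : ℝ) - (tlev δ (u₀ + (r : ℝ) * h) : ℕ))
            - ((B - s) / Real.log 2 + 0)) * Real.log 2
            = d * (((tlev δ (u₀ + ((r + 1 : ℕ) : ℝ) * h) : ℕ) : ℝ) - (tlev δ (u₀ + (r : ℝ) * h) : ℕ)) * Real.log 2 - (B - s) := by
          field_simp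
          ring
        rw [e]; linarith)
  have e0 : tlev δ (u₀ + ((0 : ℕ) : ℝ) * h) = tlev δ u₀ := by simp
  simp only [e0] at key
  refine it_r_aux_win_mono P X Zs ?_ key
  -- the total loss
  have s1 : ∑ r ∈ Finset.range R, ((B - s) / Real.log 2 + if r < r₀ then B / Real.log 2 else 0)
      ≤ R * ((B - s) / Real.log 2) + r₀ * (B / Real.log 2) := by
    rw [Finset.sum_add_distrib, Finset.sum_const, Finset.card_range, nsmul_eq_mul]
    have s2 : ∑ r ∈ Finset.range R, (if r < r₀ then B / Real.log 2 else 0) ≤ r₀ * (B / Real.log 2) := by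
      rw [← Finset.sum_filter, Finset.sum_const, nsmul_eq_mul]
      have s3 : ((Finset.range R).filter fun r => r < r₀).card ≤ r₀ := by
        calc ((Finset.range R).filter fun r => r < r₀).card ≤ (Finset.range r₀).card := by
              apply Finset.card_le_card
              intro r hr
              rw [Finset.mem_filter] at hr
              exact Finset.mem_range.2 hr.2
          _ = r₀ := Finset.card_range _
      have s4 : (((Finset.range R).filter fun r => r < r₀).card : ℝ) ≤ r₀ := by exact_mod_cast s3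
      exact mul_le_mul_of_nonneg_right s4 (div_nonneg hB0 hl2.le)
    linarith
  have s5 : 2 * d * (tlev δ h : ℕ) ≤ 2 * B / Real.log 2 := by
    rw [le_div_iff₀ hl2, hB]
    have a1 := (it_r_lev δ h hδ0 hδ1 hh.le).2
    have a2 : d * ((tlev δ h : ℕ) * Real.log 2) ≤ d * (h * lg δ + Real.log 2) := mul_le_mul_of_nonneg_left a1.le hd
    linarith
  have e1 : (2 * B + R * (B - s) + r₀ * B) / Real.log 2
      = 2 * B / Real.log 2 + (R * ((B - s) / Real.log 2) + r₀ * (B / Real.log 2)) := by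
    field_simp
    ring
  have e2 : 2 * d * (h * lg δ + Real.log 2) = 2 * B := by rw [hB]; ring
  rw [e2, e1]
  linarith

/-- numerics of `it_r_win` -/
theorem it_r_aux_win_num (d η₁ t h L acc x l2 R r₀ nt : ℝ) (hd : 0 < d) (hd1 : d ≤ 1) (hη₁ : 0 < η₁) (hh : 0 < h)
    (hL : 0 < L) (hacc : 0 < acc) (hl2 : 0 < l2) (hR : 0 < R) (hr₀ : 0 ≤ r₀) (hRh : R * h = t)
    (ha : 16 * (2 + r₀) ≤ η₁ * R) (hb : acc * (8 * R) ≤ η₁ * t) (hc : 8 * l2 * (2 + r₀ + R) ≤ η₁ * (t * L))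
    (hx : R * x = η₁ * (t * L) / 8) (hnt : t * L ≤ nt * l2) :
    ((d - η₁ / 8) * h - acc) * L - x ≤ d * (h * L + l2) ∧
    (2 * d * (h * L + l2) + R * (d * (h * L + l2) - (((d - η₁ / 8) * h - acc) * L - x)) + r₀ * (d * (h * L + l2))) / l2
      ≤ η₁ * nt := by
  have hx0 : 0 ≤ x := by
    have ht : 0 < t := by rw [← hRh]; positivity
    have : 0 ≤ R * x := by rw [hx]; positivity
    exact nonneg_of_mul_nonneg_right this hR
  have hhL : 0 < h * L := by positivity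
  constructor
  · have a1 : 0 ≤ η₁ / 8 * h * L := by positivity
    have a2 : 0 ≤ acc * L := by positivity
    have a3 : 0 ≤ d * l2 := by positivity
    nlinarith
  · rw [div_le_iff₀ hl2]
    have X1 : 16 * (2 + r₀) * (h * L) ≤ η₁ * (t * L) := by
      have := mul_le_mul_of_nonneg_right ha hhL.le
      calc 16 * (2 + r₀) * (h * L) ≤ η₁ * R * (h * L) := this
        _ = η₁ * ((R * h) * L) := by ring
        _ = η₁ * (t * L) := by rw [hRh]
    have X2 : R * (acc * L) ≤ η₁ * (t * L) / 8 := by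
      have := mul_le_mul_of_nonneg_right hb hL.le
      nlinarith
    have X4 : R * (η₁ / 8 * h * L) = η₁ * (t * L) / 8 := by
      rw [← hRh]; ring
    have B1 : d * (h * L + l2) ≤ h * L + l2 := by
      have : 0 ≤ h * L + l2 := by positivity
      nlinarith
    have B2 : (2 + r₀) * (d * (h * L + l2)) ≤ (2 + r₀) * (h * L + l2) :=
      mul_le_mul_of_nonneg_left B1 (by linarith)
    have B3 : R * (d * l2) ≤ R * l2 := by
      apply mul_le_mul_of_nonneg_left _ hR.le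
      nlinarith
    have e : 2 * d * (h * L + l2) + R * (d * (h * L + l2) - (((d - η₁ / 8) * h - acc) * L - x)) + r₀ * (d * (h * L + l2))
        = (2 + r₀) * (d * (h * L + l2)) + (R * (d * l2) + R * (η₁ / 8 * h * L) + R * (acc * L) + R * x) := by ring
    rw [e, X4, hx]
    have f1 : η₁ * (t * L) ≤ η₁ * nt * l2 := by
      have := mul_le_mul_of_nonneg_left hnt hη₁.le
      linarith
    have f2 : (2 + r₀) * (h * L + l2) = (2 + r₀) * (h * L) + (2 + r₀) * l2 := by ring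
    have f3 : 0 < η₁ * (t * L) := by
      have ht : 0 < t := by rw [← hRh]; positivity
      positivity
    nlinarith

theorem it_r_aux_lg_ge (δ L₀ : ℝ) (h0 : 0 < δ) (h : δ ≤ Real.exp (-L₀)) : L₀ ≤ lg δ := by
  unfold lg
  rw [one_div, Real.log_inv]
  have := Real.log_le_log h0 h
  rw [Real.log_exp] at this
  linarith

theorem it_r_aux_valid (κ0 u₀ t h r₀ r : ℝ) (hκ0 : 0 < κ0) (hu₀ : 0 ≤ u₀) (ht : 0 < t) (hh0 : 0 < h) (hht : h ≤ t)
    (hut : u₀ = 0 ∨ t ≤ κ0 * u₀) (hr₀ : 1 / κ0 ≤ r₀) (hrr : r₀ ≤ r) : 0 < u₀ + r * h ∧ h ≤ κ0 * (u₀ + r * h) := by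
  have hr1 : 1 ≤ κ0 * r := by
    have : 1 / κ0 ≤ r := hr₀.trans hrr
    rw [div_le_iff₀ hκ0] at this
    linarith
  have hrpos : 0 < r := by
    by_contra hcon
    have : κ0 * r ≤ 0 := mul_nonpos_of_nonneg_of_nonpos hκ0.le (not_lt.1 hcon)
    linarith
  have h1 : 0 < r * h := by positivity
  refine ⟨by linarith, ?_⟩
  have h2 : h ≤ κ0 * r * h := by nlinarith
  have h3 : 0 ≤ κ0 * u₀ := by positivity
  nlinarith

/-- GLUE T6 (helper9).  HEREDITARY WINDOWS: `[0, t]` (root) and `[u₀, u₀ + t]`, `t ≤ κ0 u₀` (layer).  Loss `η₁ · tlev δ t` bits. -/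
theorem it_r_win (a : ItPar) (ha : a.Ok) (η₁ : ℝ) (hη₁ : 0 < η₁) :
    ∃ τ : ℝ, 0 < τ ∧ ∀ κ0 : ℝ, 0 < κ0 → ∀ u₀ t : ℝ, 0 ≤ u₀ → 0 < t → (u₀ = 0 ∨ t ≤ κ0 * u₀) →
      ∃ (G₀ : Finset ℝ) (acc0 : ℝ), (∀ u ∈ G₀, 0 ≤ u) ∧ 0 < acc0 ∧ ∀ (pk : ItPk) (acc : ℝ) (T : Tan), G₀ ⊆ pk.G → 0 < acc →
        acc ≤ acc0 → T.Adm a pk τ κ0 acc → ∀ i < pk.M,
        T.P.pr (fun ω => ¬ ItWin T.P (icQ (T.pl i)) T.Zs a.d (η₁ * tlev T.δ t) (tlev T.δ u₀) (tlev T.δ (u₀ + t)) ω) ≤ η₁ := by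
  have hl2 : 0 < Real.log 2 := Real.log_pos (by norm_num)
  have hd := ha.2.1
  have hd1 := ha.2.2.1
  refine ⟨η₁ / 8, by positivity, fun κ0 hκ0 u₀ t hu₀ ht hut => ?_⟩
  obtain ⟨r₀, hr₀⟩ : ∃ r₀ : ℕ, 1 / κ0 ≤ (r₀ : ℝ) := exists_nat_ge _
  obtain ⟨R, hR⟩ : ∃ R : ℕ, 16 * (2 + (r₀ : ℝ)) / η₁ + 1 ≤ (R : ℝ) := exists_nat_ge _
  have hr₀0 : (0 : ℝ) ≤ r₀ := Nat.cast_nonneg _
  have hR1 : (1 : ℝ) ≤ R := by
    have : 0 ≤ 16 * (2 + (r₀ : ℝ)) / η₁ := by positivity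
    linarith
  have hR0 : (0 : ℝ) < R := by linarith
  obtain ⟨h, hh⟩ : ∃ h : ℝ, h = t / R := ⟨_, rfl⟩
  have hh0 : 0 < h := by rw [hh]; positivity
  have hRh : (R : ℝ) * h = t := by rw [hh]; field_simp
  have hht : h ≤ t := by rw [← hRh]; nlinarith
  obtain ⟨L₀, hL₀⟩ : ∃ L₀ : ℝ, L₀ = max 1 (max (8 * Real.log 2 * (2 + r₀ + R) / (η₁ * t))
      (8 * R * Real.log (2 * R / η₁) / (η₁ * t))) := ⟨_, rfl⟩
  refine ⟨(Finset.range (R + 1)).image (fun r : ℕ => u₀ + (r : ℝ) * h),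
    min (η₁ * t / (8 * R)) (min (η₁ / (2 * R)) (Real.exp (-L₀))), ?_, ?_, ?_⟩
  · intro u hu
    rw [Finset.mem_image] at hu
    obtain ⟨r, -, rfl⟩ := hu
    positivity
  · exact lt_min (by positivity) (lt_min (by positivity) (Real.exp_pos _))
  intro pk acc T hG hacc0 hacc hT i hi
  have hδ0 := hT.t0.δ0
  have hδ1 := hT.t0.δ1
  have ac1 : acc ≤ η₁ * t / (8 * R) := hacc.trans (min_le_left _ _)
  have ac2 : acc ≤ η₁ / (2 * R) := hacc.trans ((min_le_right _ _).trans (min_le_left _ _))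
  have ac3 : acc ≤ Real.exp (-L₀) := hacc.trans ((min_le_right _ _).trans (min_le_right _ _))
  have hLL : L₀ ≤ T.L := it_r_aux_lg_ge T.δ L₀ hδ0 (hT.small.le.trans ac3)
  have hL1 : 1 ≤ T.L := le_trans (by rw [hL₀]; exact le_max_left _ _) hLL
  have hL2 : 8 * Real.log 2 * (2 + r₀ + R) / (η₁ * t) ≤ T.L :=
    le_trans (by rw [hL₀]; exact (le_max_left _ _).trans (le_max_right _ _)) hLL
  have hL3 : 8 * R * Real.log (2 * R / η₁) / (η₁ * t) ≤ T.L :=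
    le_trans (by rw [hL₀]; exact (le_max_right _ _).trans (le_max_right _ _)) hLL
  have hLpos : 0 < T.L := by linarith
  obtain ⟨x, hx⟩ : ∃ x : ℝ, x = η₁ * (t * T.L) / (8 * R) := ⟨_, rfl⟩
  have hx0 : 0 ≤ x := by rw [hx]; positivity
  have hRx : (R : ℝ) * x = η₁ * (t * T.L) / 8 := by rw [hx]; field_simp
  obtain ⟨num1, num2⟩ := it_r_aux_win_num a.d η₁ t h T.L acc x (Real.log 2) R r₀ (tlev T.δ t) hd hd1 hη₁ hh0 hLpos hacc0 hl2 hR0
    hr₀0 hRh (by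
      have : 16 * (2 + (r₀ : ℝ)) / η₁ ≤ R := by linarith
      rw [div_le_iff₀ hη₁] at this
      linarith) (by
      rw [le_div_iff₀ (by positivity)] at ac1
      exact ac1) (by
      rw [div_le_iff₀ (by positivity)] at hL2
      linarith) hRx (it_r_lev T.δ t hδ0 hδ1 ht.le).1
  -- the bad steps
  obtain ⟨s, hs⟩ : ∃ s : ℝ, s = ((a.d - η₁ / 8) * h - acc) * T.L - x := ⟨_, rfl⟩
  have hbad : ∀ r : ℕ, r₀ ≤ r → r < R →
      T.P.pr (fun ω => T.P.surC (icQ (T.pl i) (tlev T.δ (u₀ + ((r + 1 : ℕ) : ℝ) * h)))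
        (pair (icQ (T.pl i) (tlev T.δ (u₀ + (r : ℝ) * h))) T.Zs) ω < s) ≤ acc + Real.exp (-x) := by
    intro r hr0 hrR
    have hrr : (r₀ : ℝ) ≤ r := by exact_mod_cast hr0
    have e : u₀ + ((r + 1 : ℕ) : ℝ) * h - (u₀ + (r : ℝ) * h) = h := by push_cast; ring
    have key := it_r_step T a ha pk (η₁ / 8) κ0 acc hT (by positivity) i hi (u₀ + (r : ℝ) * h)
      (u₀ + ((r + 1 : ℕ) : ℝ) * h) (by positivity)
      (hG (Finset.mem_image.2 ⟨r, Finset.mem_range.2 (by omega), rfl⟩))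
      (hG (Finset.mem_image.2 ⟨r + 1, Finset.mem_range.2 (by omega), rfl⟩)) (by push_cast; linarith) ?_ x hx0
    · rw [e, ← hs] at key
      exact key
    · right
      rw [e]
      exact it_r_aux_valid κ0 u₀ t h r₀ r hκ0 hu₀ ht hh0 hht hut hr₀ hrr
  have hprob : (R : ℝ) * (acc + Real.exp (-x)) ≤ η₁ := by
    have q1 : (R : ℝ) * acc ≤ η₁ / 2 := by
      rw [le_div_iff₀ (by positivity)] at ac2
      linarith
    have q2 : Real.exp (-x) ≤ η₁ / (2 * R) := by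
      have q3 : Real.log (2 * R / η₁) ≤ x := by
        rw [div_le_iff₀ (by positivity)] at hL3
        rw [hx, le_div_iff₀ (by positivity)]
        linarith
      calc Real.exp (-x) ≤ Real.exp (-Real.log (2 * R / η₁)) := Real.exp_le_exp.2 (by linarith)
        _ = η₁ / (2 * R) := by
          rw [Real.exp_neg, Real.exp_log (by positivity), inv_div]
    have q4 : (R : ℝ) * Real.exp (-x) ≤ η₁ / 2 := by
      calc (R : ℝ) * Real.exp (-x) ≤ R * (η₁ / (2 * R)) := mul_le_mul_of_nonneg_left q2 hR0.le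
        _ = η₁ / 2 := by field_simp
    linarith
  have hsum : T.P.pr (fun ω => ∃ r ∈ (Finset.range R).filter (fun r => r₀ ≤ r),
      T.P.surC (icQ (T.pl i) (tlev T.δ (u₀ + ((r + 1 : ℕ) : ℝ) * h)))
        (pair (icQ (T.pl i) (tlev T.δ (u₀ + (r : ℝ) * h))) T.Zs) ω < s) ≤ R * (acc + Real.exp (-x)) := by
    refine le_trans (ent_pr_exists_le T.P _ _) ?_
    have hpos : 0 ≤ acc + Real.exp (-x) := by positivity
    calc _ ≤ ∑ _r ∈ (Finset.range R).filter (fun r => r₀ ≤ r), (acc + Real.exp (-x)) := by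
          refine Finset.sum_le_sum fun r hr => ?_
          rw [Finset.mem_filter, Finset.mem_range] at hr
          exact hbad r hr.2 hr.1
      _ = (((Finset.range R).filter (fun r => r₀ ≤ r)).card : ℝ) * (acc + Real.exp (-x)) := by
          rw [Finset.sum_const, nsmul_eq_mul]
      _ ≤ R * (acc + Real.exp (-x)) := by
          apply mul_le_mul_of_nonneg_right _ hpos
          have : ((Finset.range R).filter (fun r => r₀ ≤ r)).card ≤ R :=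
            (Finset.card_filter_le _ _).trans (Finset.card_range R).le
          exact_mod_cast this
  refine le_trans (ent_pr_mono T.P fun ω hω hbadω => ?_) (hsum.trans hprob)
  by_contra hcon
  push Not at hcon
  apply hbadω
  have det := it_r_aux_win_det T.P (icQ (T.pl i)) T.Zs (fun k k' hk ω ω' hq => ic_aux_Q_nest _ hk ω ω' hq) T.δ u₀ h a.d s hδ0 hδ1
    hu₀ hh0 hd.le R r₀ (hs ▸ num1) hω (fun r hr0 hrR => hcon r (Finset.mem_filter.2 ⟨Finset.mem_range.2 hrR, hr0⟩))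
  rw [hRh] at det
  refine it_r_aux_win_mono T.P _ _ ?_ det
  rw [hs]
  exact num2

theorem it_r_aux_levels (δ p q : ℝ) (h0 : 0 < δ) (h1 : δ < 1) (hp : 0 < p) (hpq : p < q) (htp : q - p ≤ p / 4) (n₁ : ℕ)
    (hL : ((n₁ : ℝ) + 6) * Real.log 2 ≤ (q - p) * lg δ) :
    ∃ n : ℕ, tlev δ q = tlev δ p + n ∧ |(n : ℝ) * Real.log 2 - (q - p) * lg δ| ≤ Real.log 2 ∧ n ≤ tlev δ (q - p) ∧
      tlev δ (q - p) ≤ n + 1 ∧ n₁ ≤ n ∧ 1 ≤ n ∧ 2 * n ≤ tlev δ p := by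
  have hl2 : 0 < Real.log 2 := Real.log_pos (by norm_num)
  have hLp : 0 < lg δ := it_r_aux_lg_pos δ h0 h1
  have hm := it_r_aux_lev_mono δ p q h0 h1 hpq.le
  obtain ⟨n, hn⟩ := Nat.exists_eq_add_of_le hm
  have a1 := it_r_lev δ p h0 h1 hp.le
  have a2 := it_r_lev δ q h0 h1 (by linarith)
  have a3 := it_r_lev δ (q - p) h0 h1 (by linarith)
  have e : ((tlev δ q : ℕ) : ℝ) = (tlev δ p : ℕ) + n := by rw [hn]; push_cast; ring
  rw [e] at a2
  have b1 : (n : ℝ) * Real.log 2 < (q - p) * lg δ + Real.log 2 := by nlinarith [a1.1, a2.2]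
  have b2 : (q - p) * lg δ - Real.log 2 < (n : ℝ) * Real.log 2 := by nlinarith [a1.2, a2.1]
  have c1 : n ≤ tlev δ (q - p) := by
    have := it_r_aux_lev_add δ p (q - p)
    rw [show p + (q - p) = q by ring, hn] at this
    omega
  have c2 : tlev δ (q - p) ≤ n + 1 := by
    have : ((tlev δ (q - p) : ℕ) : ℝ) * Real.log 2 < ((n : ℝ) + 2) * Real.log 2 := by nlinarith [a3.2]
    have h3 : ((tlev δ (q - p) : ℕ) : ℝ) < (n : ℝ) + 2 := lt_of_mul_lt_mul_right this hl2.le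
    have h4 : tlev δ (q - p) < n + 2 := by exact_mod_cast h3
    omega
  have c3 : (n₁ : ℝ) + 5 < n := by
    have : ((n₁ : ℝ) + 5) * Real.log 2 < (n : ℝ) * Real.log 2 := by nlinarith
    exact lt_of_mul_lt_mul_right this hl2.le
  have c4 : n₁ + 5 < n := by exact_mod_cast c3
  have c5 : 2 * n ≤ tlev δ p := by
    have d1 : (q - p) * lg δ ≤ p / 4 * lg δ := mul_le_mul_of_nonneg_right htp hLp.le
    have d2 : 6 * Real.log 2 ≤ (q - p) * lg δ := by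
      have : (0 : ℝ) ≤ n₁ := Nat.cast_nonneg _
      nlinarith
    have d3 : (2 * (n : ℝ)) * Real.log 2 ≤ ((tlev δ p : ℕ) : ℝ) * Real.log 2 := by nlinarith [a1.1]
    have d4 : 2 * (n : ℝ) ≤ ((tlev δ p : ℕ) : ℝ) := le_of_mul_le_mul_right d3 hl2
    exact_mod_cast d4
  refine ⟨n, hn, ?_, c1, c2, by omega, by omega, c5⟩
  rw [abs_le]
  constructor <;> linarith

/-- bounded planar marks -/
theorem it_r_aux_bd (T : Tan) (a : ItPar) (pk : ItPk) (h : T.Adm0 a pk) (i : ℕ) (hi : i < pk.M) : ItBdS T.P a.B0 (T.pl i) :=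
  fun ω hω => ⟨(h.bdM ω hω i hi).1, (h.bdM ω hω i hi).2.1⟩

theorem it_r_aux_V (T : Tan) (M i j : ℕ) (hi : i < M) (hij : i ≠ j) (ω ω' : T.Ω) (h : T.XiE M j ω = T.XiE M j ω') :
    T.pl i ω = T.pl i ω' := by
  have h1 := congrFun h ⟨i, hi⟩
  unfold Tan.XiE at h1
  simp only [hij, if_false] at h1
  unfold Tan.pl
  rw [h1]

theorem it_r_aux_ci_pl (T : Tan) (a : ItPar) (pk : ItPk) (h : T.Adm0 a pk) (j : ℕ) (hj : j < pk.M) :
    T.P.CI (T.pl j) (T.XiE pk.M j) T.Zs :=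
  ent_ci_comp T.P (T.mrk j) (T.XiE pk.M j) T.Zs (it_r_ci T a pk h j hj) (fun μ _ => (μ.th, μ.r)) (fun v _ => v)

/-- root window ⟹ `PjGoodH` -/
theorem it_r_aux_root {Ω α δ : Type} [Fintype Ω] (P : FLaw Ω) (X : ℕ → Ω → α) (D : Ω → δ) (e η₁ : ℝ) (n nt : ℕ) (hη₁ : 0 ≤ η₁)
    (h1 : n ≤ nt) (h2 : nt ≤ n + 1) (h3 : 1 ≤ n) {ω : Ω} (h : ItWin P X D e (η₁ / 2 * nt) 0 nt ω) : PjGoodH P X D e η₁ n ω := by
  intro k k' hk hk'
  refine le_trans ?_ (h k k' (Nat.zero_le _) hk (hk'.trans h1))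
  have hl2 : 0 < Real.log 2 := Real.log_pos (by norm_num)
  apply mul_le_mul_of_nonneg_right _ hl2.le
  have a1 : (nt : ℝ) ≤ n + 1 := by exact_mod_cast h2
  have a2 : (1 : ℝ) ≤ n := by exact_mod_cast h3
  nlinarith

/-- layer window ⟹ `IcGood` of the children -/
theorem it_r_aux_layer {Ω α δ : Type} [Fintype Ω] (P : FLaw Ω) (X : ℕ → Ω → α) (D : Ω → δ) (e η₁ : ℝ) (m n nt : ℕ) (hη₁ : 0 ≤ η₁)
    (h2 : nt ≤ n + 1) (h3 : 1 ≤ n) {ω : Ω} (h : ItWin P X D e (η₁ / 2 * nt) m (m + n) ω) :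
    IcGood P (fun k => X (m + k)) (pair D (X m)) e η₁ n ω := by
  intro k hk
  have h1 := h m (m + k) le_rfl (by omega) (by omega)
  have e1 : P.surC (X (m + k)) (pair (X m) D) ω = P.surC (X (m + k)) (pair D (X m)) ω := by
    refine ent_surC_congr P _ _ _ _ ω (fun ω' _ => ?_) (fun _ _ _ => Iff.rfl)
    simp only [pair, Prod.mk.injEq]
    tauto
  rw [e1] at h1
  refine le_trans ?_ h1
  have hl2 : 0 < Real.log 2 := Real.log_pos (by norm_num)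
  apply mul_le_mul_of_nonneg_right _ hl2.le
  have a1 : (nt : ℝ) ≤ n + 1 := by exact_mod_cast h2
  have a2 : (1 : ℝ) ≤ n := by exact_mod_cast h3
  push_cast
  nlinarith

theorem it_r_aux_score_conv (d η n l2 Y : ℝ) (hd : 0 < d) (hd1 : d ≤ 1) (hη : 0 < η) (hl2 : 0 < l2) (hn : |n * l2 - Y| ≤ l2)
    (hY : 2 * (1 + η) / η * l2 ≤ Y) : (d - η) * Y ≤ (d - η / 2) * n * l2 := by
  rw [abs_le] at hn
  have h1 : 2 * (1 + η) * l2 ≤ η * Y := by
    have e : 2 * (1 + η) / η * l2 = 2 * (1 + η) * l2 / η := by ring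
    rw [e, div_le_iff₀ hη] at hY
    linarith
  rcases le_or_gt 0 (d - η / 2) with h | h
  · have : (d - η / 2) * (Y - l2) ≤ (d - η / 2) * (n * l2) := mul_le_mul_of_nonneg_left (by linarith) h
    nlinarith
  · have : (d - η / 2) * (Y + l2) ≤ (d - η / 2) * (n * l2) := mul_le_mul_of_nonpos_left (by linarith) h.le
    nlinarith

/-- EXIT 1 (helper9) = `it_mark_proj` of `Int/Meta.lean`, verbatim. -/
theorem it_r_mark_proj (quad : Bool) (a : ItPar) (ha : a.Ok) :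
    ItLayer quad true false a (fun T pk p q η => ∀ i < pk.M, ∀ j < pk.M, i ≠ j →
      T.P.pr (fun ω => T.P.surC (fun ω' => tcell T.δ q (T.nInc i j p ω')) (pair (T.xin j p) (pair T.Zs (T.XiE pk.M j))) ω
        < (a.d - η) * (q - p) * T.L) ≤ η) := by
  intro η hη
  have hl2 : 0 < Real.log 2 := Real.log_pos (by norm_num)
  have hd := ha.2.1
  have hd1 := ha.2.2.1
  have he0 : 0 < a.e0 := ha.2.2.2.2.2.2.2.1
  have hB0 : 1 ≤ a.B0 := ha.2.2.2.2.2.2.2.2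
  obtain ⟨t₀, ht₀, ht₀1, Hc⟩ := it_r_core a.B0 a.d (η / 2) hB0 hd hd1 (by positivity)
  obtain ⟨η₁, hη₁, n₁, Hc'⟩ := Hc (a.e0 * t₀ / 2) (by positivity)
  obtain ⟨τ, hτ, Hw⟩ := it_r_win a ha (η₁ / 2) (by positivity)
  refine ⟨τ, hτ, fun κ0 hκ0 => ⟨min κ0 (1 / 4), lt_min hκ0 (by norm_num), fun p q hp hpq hq => ?_⟩⟩
  obtain ⟨t, ht⟩ : ∃ t, t = q - p := ⟨_, rfl⟩
  have ht0 : 0 < t := by rw [ht]; linarith
  have htm : t ≤ min κ0 (1 / 4) * p := by rw [ht]; linarith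
  have htκ : t ≤ κ0 * p := htm.trans (mul_le_mul_of_nonneg_right (min_le_left _ _) hp.le)
  have htp : t ≤ p / 4 := by
    have := htm.trans (mul_le_mul_of_nonneg_right (min_le_right _ _) hp.le)
    linarith
  obtain ⟨G₁, acc₁, hG₁, hacc₁, W₁⟩ := Hw κ0 hκ0 0 t le_rfl ht0 (Or.inl rfl)
  obtain ⟨G₂, acc₂, hG₂, hacc₂, W₂⟩ := Hw κ0 hκ0 p t hp.le ht0 (Or.inr htκ)
  obtain ⟨L₀, hL₀⟩ : ∃ L₀ : ℝ, L₀ = (((n₁ : ℝ) + 6) + 2 * (1 + η) / η) * Real.log 2 / t := ⟨_, rfl⟩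
  refine ⟨⟨0, 0, 0, 1, G₁ ∪ G₂ ∪ {3 / 4 * t₀ * t}, ∅⟩, min acc₁ (min acc₂ (min (a.e0 * t₀ * t / 8) (Real.exp (-L₀)))),
    ⟨one_pos, ?_⟩, lt_min hacc₁ (lt_min hacc₂ (lt_min (by positivity) (Real.exp_pos _))), ?_⟩
  · intro u hu
    simp only [Finset.mem_union, Finset.mem_singleton] at hu
    rcases hu with (hu | hu) | hu
    · exact hG₁ u hu
    · exact hG₂ u hu
    · rw [hu]; positivity
  intro pk acc T hpk hle hacc0 hacc hquad hT hav _ i hi j hj hij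
  have hδ0 := hT.t0.δ0
  have hδ1 := hT.t0.δ1
  have hGsub : G₁ ∪ G₂ ∪ {3 / 4 * t₀ * t} ⊆ pk.G := hle.2.2.2.2
  have hs1 : G₁ ⊆ pk.G := fun u hu => hGsub (by simp [hu])
  have hs2 : G₂ ⊆ pk.G := fun u hu => hGsub (by simp [hu])
  have hs3 : 3 / 4 * t₀ * t ∈ pk.G := hGsub (by simp)
  have ac1 : acc ≤ acc₁ := hacc.trans (min_le_left _ _)
  have ac2 : acc ≤ acc₂ := hacc.trans ((min_le_right _ _).trans (min_le_left _ _))
  have ac3 : acc ≤ a.e0 * t₀ * t / 8 := hacc.trans ((min_le_right _ _).trans ((min_le_right _ _).trans (min_le_left _ _)))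
  have ac4 : acc ≤ Real.exp (-L₀) := hacc.trans ((min_le_right _ _).trans ((min_le_right _ _).trans (min_le_right _ _)))
  have hLL : L₀ ≤ T.L := it_r_aux_lg_ge T.δ L₀ hδ0 (hT.small.le.trans ac4)
  have hY : (((n₁ : ℝ) + 6) + 2 * (1 + η) / η) * Real.log 2 ≤ t * T.L := by
    rw [hL₀, div_le_iff₀ ht0] at hLL
    linarith
  have hpos1 : 0 ≤ 2 * (1 + η) / η * Real.log 2 := by positivity
  have hpos2 : 0 ≤ ((n₁ : ℝ) + 6) * Real.log 2 := by positivity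
  have hY1 : ((n₁ : ℝ) + 6) * Real.log 2 ≤ (q - p) * lg T.δ := by
    rw [← ht]
    have : t * T.L = t * lg T.δ := rfl
    linarith
  have hY2 : 2 * (1 + η) / η * Real.log 2 ≤ t * T.L := by linarith
  have hY3 : 4 * Real.log 2 ≤ t * T.L := by
    have : (0 : ℝ) ≤ n₁ := Nat.cast_nonneg _
    nlinarith
  obtain ⟨n, hn, hnabs, hnt1, hnt2, hn1, hn2, hnm⟩ := it_r_aux_levels T.δ p q hδ0 hδ1 hp hpq (ht ▸ htp) n₁ hY1
  rw [← ht] at hnabs hnt1 hnt2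
  -- hypotheses of the core
  have hroot : T.P.pr (fun ω => ¬ PjGoodH T.P (icQ (T.pl i)) T.Zs a.d η₁ n ω) ≤ η₁ := by
    have w := W₁ pk acc T hs1 hacc0 ac1 hT i hi
    rw [it_r_aux_lev_zero, zero_add] at w
    refine le_trans (ent_pr_mono T.P fun ω _ h => ?_) (w.trans (by linarith))
    exact fun hw => h (it_r_aux_root T.P _ _ a.d η₁ n _ hη₁.le hnt1 hnt2 hn2 hw)
  have hlay : T.P.pr (fun ω => ¬ IcGood T.P (fun k => icQ (T.pl j) (tlev T.δ p + k)) (pair T.Zs (icQ (T.pl j) (tlev T.δ p)))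
      a.d η₁ n ω) ≤ η₁ := by
    have w := W₂ pk acc T hs2 hacc0 ac2 hT j hj
    rw [show p + t = q by rw [ht]; ring, hn] at w
    refine le_trans (ent_pr_mono T.P fun ω _ h => ?_) (w.trans (by linarith))
    exact fun hw => h (it_r_aux_layer T.P _ _ a.d η₁ _ n _ hη₁.le hnt2 hn2 hw)
  have hstrip := it_r_strip T a ha pk acc hT.t0 (hav rfl) i hi t₀ t ht₀ ht0 hs3 ac3 hY3 n hnabs
  have key := Hc' n hn1 (tlev T.δ p) hnm T.Ω T.ζ (Fin pk.M → ItMk) T.P T.Zs (T.pl i) (T.pl j) (T.XiE pk.M j)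
    (it_r_iid T a pk hT.t0 i j hi hj hij) (it_r_aux_bd T a pk hT.t0 i hi) (it_r_aux_bd T a pk hT.t0 j hj)
    (it_r_aux_V T pk.M i j hi hij) (it_r_aux_ci_pl T a pk hT.t0 j hj) hroot hstrip hlay
  refine le_trans (ent_pr_mono T.P fun ω _ h => ?_) (key.trans (by linarith))
  have conv := it_r_aux_score_conv a.d η n (Real.log 2) (t * T.L) hd hd1 hη hl2 hnabs hY2
  have h' : T.P.surC (fun ω' => icCell (tlev T.δ q) (itNI (tlev T.δ p) (T.pl i ω') (T.pl j ω')))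
      (pair (icQ (T.pl j) (tlev T.δ p)) (pair T.Zs (T.XiE pk.M j))) ω < (a.d - η) * (q - p) * T.L := h
  rw [hn] at h'
  refine lt_of_lt_of_le h' ?_
  rw [← ht, mul_assoc]
  exact conv

theorem it_r_aux_slope_lev (δ t : ℝ) (h0 : 0 < δ) (h1 : δ < 1) (ht : 0 < t) (n k k' : ℕ) (hn : 0 < n) (hk : k < k') (hk' : k' ≤ n)
    (hL : Real.log 2 ≤ t * lg δ) :
    tlev δ (t * k / n) ≤ tlev δ (t * k' / n) ∧ tlev δ (t * k' / n) ≤ tlev δ t ∧
    1 / (2 * (n : ℝ)) * (tlev δ t : ℕ) ≤ (tlev δ (t * k' / n) : ℕ) ∧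
    t * ((k' : ℝ) - k) / n * lg δ - Real.log 2 ≤ (((tlev δ (t * k' / n) : ℕ) : ℝ) - (tlev δ (t * k / n) : ℕ)) * Real.log 2 := by
  have hl2 : 0 < Real.log 2 := Real.log_pos (by norm_num)
  have hLp : 0 < lg δ := it_r_aux_lg_pos δ h0 h1
  have hn0 : (0 : ℝ) < n := by exact_mod_cast hn
  have hkk : (k : ℝ) < k' := by exact_mod_cast hk
  have hkn : (k' : ℝ) ≤ n := by exact_mod_cast hk'
  have hk0 : (0 : ℝ) ≤ k := Nat.cast_nonneg k
  have hk1 : (1 : ℝ) ≤ k' := by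
    have : 1 ≤ k' := by omega
    exact_mod_cast this
  have u1 : t * k / n ≤ t * k' / n := by gcongr
  have u2 : t * k' / n ≤ t := by
    rw [div_le_iff₀ hn0]
    exact mul_le_mul_of_nonneg_left hkn ht.le
  have u0 : 0 ≤ t * k / n := by positivity
  have a1 := it_r_lev δ (t * k / n) h0 h1 u0
  have a2 := it_r_lev δ (t * k' / n) h0 h1 (u0.trans u1)
  have a3 := it_r_lev δ t h0 h1 ht.le
  refine ⟨it_r_aux_lev_mono δ _ _ h0 h1 u1, it_r_aux_lev_mono δ _ _ h0 h1 u2, ?_, ?_⟩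
  · have b1 : t / n * lg δ ≤ t * k' / n * lg δ := by
      apply mul_le_mul_of_nonneg_right _ hLp.le
      rw [div_le_div_iff_of_pos_right hn0]
      nlinarith
    have b2 : 1 / (2 * (n : ℝ)) * (tlev δ t : ℕ) * Real.log 2 ≤ t / n * lg δ := by
      have e1 : 1 / (2 * (n : ℝ)) * (tlev δ t : ℕ) * Real.log 2 = ((tlev δ t : ℕ) * Real.log 2) / (2 * n) := by ring
      have e2 : t / n * lg δ = (2 * (t * lg δ)) / (2 * n) := by field_simp
      rw [e1, e2, div_le_div_iff_of_pos_right (by positivity)]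
      linarith [a3.2]
    have b3 : 1 / (2 * (n : ℝ)) * (tlev δ t : ℕ) * Real.log 2 ≤ ((tlev δ (t * k' / n) : ℕ) : ℝ) * Real.log 2 := by
      linarith [a2.1]
    exact le_of_mul_le_mul_right b3 hl2
  · have e : t * ((k' : ℝ) - k) / n * lg δ = t * k' / n * lg δ - t * k / n * lg δ := by ring
    rw [e]
    nlinarith [a1.2, a2.1]

theorem it_r_aux_slope_conv (d η Y D l2 S Nt : ℝ) (hd : 0 < d) (hd1 : d ≤ 1) (hη : 0 < η) (hl2 : 0 < l2)
    (hS : D - l2 ≤ S * l2) (hNt : Nt * l2 < Y + l2) (hY : (1 + η / 4) * l2 ≤ 3 * η / 4 * Y) :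
    d * D - η * Y ≤ (d * S - η / 4 * Nt) * l2 := by
  have a1 : d * (D - l2) ≤ d * (S * l2) := mul_le_mul_of_nonneg_left hS hd.le
  have a2 : η / 4 * (Nt * l2) ≤ η / 4 * (Y + l2) := mul_le_mul_of_nonneg_left hNt.le (by positivity)
  have a3 : d * l2 ≤ l2 := by nlinarith
  nlinarith

/-- EXIT 2 (helper9) = `it_slope_rad` of `Int/Meta.lean`, verbatim. -/
theorem it_r_slope_rad (quad : Bool) (a : ItPar) (ha : a.Ok) (n : ℕ) (hn : 0 < n) :
    ItLayer quad true false a (fun T pk p q η => ∀ i < pk.M, ∀ j < pk.M, i ≠ j →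
      T.Slope pk.M j p q n (fun ω => |(T.mrk i ω).r - (T.mrk j ω).r| ≤ |(T.mrk i ω).th - (T.mrk j ω).th|)
          (fun ω => ((T.mrk i ω).r - (T.mrk j ω).r) / ((T.mrk i ω).th - (T.mrk j ω).th)) a.d η ∧
      T.Slope pk.M j p q n (fun ω => |(T.mrk i ω).th - (T.mrk j ω).th| ≤ |(T.mrk i ω).r - (T.mrk j ω).r|)
          (fun ω => ((T.mrk i ω).th - (T.mrk j ω).th) / ((T.mrk i ω).r - (T.mrk j ω).r)) a.d η) := by
  intro η hη
  have hl2 : 0 < Real.log 2 := Real.log_pos (by norm_num)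
  have hn0 : (0 : ℝ) < n := by exact_mod_cast hn
  have hd := ha.2.1
  have hd1 := ha.2.2.1
  have he0 : 0 < a.e0 := ha.2.2.2.2.2.2.2.1
  have hB0 : 1 ≤ a.B0 := ha.2.2.2.2.2.2.2.2
  obtain ⟨t₀, ht₀, ht₀1, Hc⟩ := it_r_slope_core a.B0 a.d (η / 4) (1 / (2 * (n : ℝ))) hB0 hd hd1 (by positivity) (by positivity)
  obtain ⟨η₁, hη₁, n₁, Hc'⟩ := Hc (a.e0 * t₀ / 2) (by positivity)
  obtain ⟨τ, hτ, Hw⟩ := it_r_win a ha η₁ hη₁
  refine ⟨τ, hτ, fun κ0 hκ0 => ⟨1, one_pos, fun p q hp hpq hq => ?_⟩⟩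
  obtain ⟨t, ht⟩ : ∃ t, t = q - p := ⟨_, rfl⟩
  have ht0 : 0 < t := by rw [ht]; linarith
  obtain ⟨G₁, acc₁, hG₁, hacc₁, W₁⟩ := Hw κ0 hκ0 0 t le_rfl ht0 (Or.inl rfl)
  obtain ⟨L₀, hL₀⟩ : ∃ L₀ : ℝ, L₀ = (((n₁ : ℝ) + 4) + (1 + η / 4) / (3 * η / 4)) * Real.log 2 / t := ⟨_, rfl⟩
  refine ⟨⟨0, 0, 0, 1, G₁ ∪ {3 / 4 * t₀ * t}, ∅⟩, min acc₁ (min (a.e0 * t₀ * t / 8) (Real.exp (-L₀))),
    ⟨one_pos, ?_⟩, lt_min hacc₁ (lt_min (by positivity) (Real.exp_pos _)), ?_⟩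
  · intro u hu
    simp only [Finset.mem_union, Finset.mem_singleton] at hu
    rcases hu with hu | hu
    · exact hG₁ u hu
    · rw [hu]; positivity
  intro pk acc T hpk hle hacc0 hacc hquad hT hav _ i hi j hj hij
  have hδ0 := hT.t0.δ0
  have hδ1 := hT.t0.δ1
  have hGsub : G₁ ∪ {3 / 4 * t₀ * t} ⊆ pk.G := hle.2.2.2.2
  have hs1 : G₁ ⊆ pk.G := fun u hu => hGsub (by simp [hu])
  have hs3 : 3 / 4 * t₀ * t ∈ pk.G := hGsub (by simp)
  have ac1 : acc ≤ acc₁ := hacc.trans (min_le_left _ _)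
  have ac3 : acc ≤ a.e0 * t₀ * t / 8 := hacc.trans ((min_le_right _ _).trans (min_le_left _ _))
  have ac4 : acc ≤ Real.exp (-L₀) := hacc.trans ((min_le_right _ _).trans (min_le_right _ _))
  have hLL : L₀ ≤ T.L := it_r_aux_lg_ge T.δ L₀ hδ0 (hT.small.le.trans ac4)
  have hY : (((n₁ : ℝ) + 4) + (1 + η / 4) / (3 * η / 4)) * Real.log 2 ≤ t * T.L := by
    rw [hL₀, div_le_iff₀ ht0] at hLL
    linarith
  have hpos1 : 0 ≤ (1 + η / 4) / (3 * η / 4) * Real.log 2 := by positivity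
  have hn10 : (0 : ℝ) ≤ n₁ := Nat.cast_nonneg _
  have hY1 : ((n₁ : ℝ) + 4) * Real.log 2 ≤ t * T.L := by linarith
  have hY2 : (1 + η / 4) * Real.log 2 ≤ 3 * η / 4 * (t * T.L) := by
    have : (1 + η / 4) / (3 * η / 4) * Real.log 2 ≤ t * T.L := by
      have : 0 ≤ ((n₁ : ℝ) + 4) * Real.log 2 := by positivity
      linarith
    have e : (1 + η / 4) / (3 * η / 4) * Real.log 2 = (1 + η / 4) * Real.log 2 / (3 * η / 4) := by ring
    rw [e, div_le_iff₀ (by positivity)] at this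
    linarith
  have hY3 : 4 * Real.log 2 ≤ t * T.L := by nlinarith
  have lt := it_r_lev T.δ t hδ0 hδ1 ht0.le
  have hnabs : |((tlev T.δ t : ℕ) : ℝ) * Real.log 2 - t * T.L| ≤ Real.log 2 := by
    have e : t * T.L = t * lg T.δ := rfl
    rw [abs_le, e]
    constructor <;> linarith [lt.1, lt.2]
  have hn1 : n₁ ≤ tlev T.δ t := by
    have : (n₁ : ℝ) * Real.log 2 ≤ ((tlev T.δ t : ℕ) : ℝ) * Real.log 2 := by
      have e : t * T.L = t * lg T.δ := rfl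
      nlinarith [lt.1]
    have := le_of_mul_le_mul_right this hl2
    exact_mod_cast this
  have hroot : T.P.pr (fun ω => ¬ PjGoodH T.P (icQ (T.pl i)) T.Zs a.d η₁ (tlev T.δ t) ω) ≤ η₁ := by
    have w := W₁ pk acc T hs1 hacc0 ac1 hT i hi
    rw [it_r_aux_lev_zero, zero_add] at w
    refine le_trans (ent_pr_mono T.P fun ω _ h => ?_) w
    exact fun hw => h (fun k k' hk hk' => hw k k' (Nat.zero_le _) hk hk')
  have hstrip := it_r_strip T a ha pk acc hT.t0 (hav rfl) i hi t₀ t ht₀ ht0 hs3 ac3 hY3 (tlev T.δ t) hnabs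
  have key := Hc' (tlev T.δ t) hn1 T.Ω T.ζ (Fin pk.M → ItMk) T.P T.Zs (T.pl i) (T.pl j) (T.XiE pk.M j)
    (it_r_iid T a pk hT.t0 i j hi hj hij) (it_r_aux_bd T a pk hT.t0 i hi) (it_r_aux_bd T a pk hT.t0 j hj)
    (it_r_aux_V T pk.M i j hi hij) (it_r_aux_ci_pl T a pk hT.t0 j hj) hroot hstrip
  have main : ∀ k k' : ℕ, k < k' → k' ≤ n →
      (a.d * ((q - p) * ((k' : ℝ) - k) / n) - η * (q - p)) * T.L
        ≤ (a.d * (((tlev T.δ ((q - p) * k' / n) : ℕ) : ℝ) - (tlev T.δ ((q - p) * k / n) : ℕ)) - η / 4 * (tlev T.δ t : ℕ)) * Real.log 2 := by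
    intro k k' hk hk'
    obtain ⟨-, -, -, l4⟩ := it_r_aux_slope_lev T.δ t hδ0 hδ1 ht0 n k k' hn hk hk' (by
      have e : t * T.L = t * lg T.δ := rfl
      linarith)
    rw [← ht]
    have c := it_r_aux_slope_conv a.d η (t * T.L) (t * ((k' : ℝ) - k) / n * lg T.δ) (Real.log 2)
      (((tlev T.δ (t * k' / n) : ℕ) : ℝ) - (tlev T.δ (t * k / n) : ℕ)) (tlev T.δ t : ℕ) hd hd1 hη hl2 l4 lt.2 hY2
    have e : (a.d * (t * ((k' : ℝ) - k) / n) - η * t) * T.L = a.d * (t * ((k' : ℝ) - k) / n * lg T.δ) - η * (t * T.L) := by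
      have : T.L = lg T.δ := rfl
      rw [this]; ring
    rw [e]
    exact c
  constructor
  · intro k k' hk hk'
    obtain ⟨l1, l2, l3, -⟩ := it_r_aux_slope_lev T.δ t hδ0 hδ1 ht0 n k k' hn hk hk' (by
      have e : t * T.L = t * lg T.δ := rfl
      linarith)
    have kk := (key (tlev T.δ (t * k / n)) (tlev T.δ (t * k' / n)) l1 l2 l3).1
    refine le_trans (ent_pr_mono T.P fun ω _ h => ?_) (kk.trans (by linarith))
    refine ⟨?_, ?_⟩
    · have := h.1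
      unfold PjHorP Tan.pl
      simp only
      rw [abs_sub_comm (T.mrk j ω).r, abs_sub_comm (T.mrk j ω).th]
      exact this
    · have m := main k k' hk hk'
      rw [← ht] at m
      exact lt_of_lt_of_le (ht ▸ h.2) m
  · intro k k' hk hk'
    obtain ⟨l1, l2, l3, -⟩ := it_r_aux_slope_lev T.δ t hδ0 hδ1 ht0 n k k' hn hk hk' (by
      have e : t * T.L = t * lg T.δ := rfl
      linarith)
    have kk := (key (tlev T.δ (t * k / n)) (tlev T.δ (t * k' / n)) l1 l2 l3).2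
    refine le_trans (ent_pr_mono T.P fun ω _ h => ?_) (kk.trans (by linarith))
    refine ⟨?_, ?_⟩
    · have := h.1
      unfold PjHorP Tan.pl
      simp only [Prod.fst_swap, Prod.snd_swap]
      rw [abs_sub_comm (T.mrk j ω).r, abs_sub_comm (T.mrk j ω).th]
      exact this
    · have m := main k k' hk hk'
      rw [← ht] at m
      exact lt_of_lt_of_le (ht ▸ h.2) m

end Claimed.Agent.R256
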