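import Claimed.Agent.R256.Int.BinGeo
import Claimed.Agent.R256.Int.RadTan

/-!
# Row 256, Sec. 5, block BIN, file 3: ASSEMBLY      (architect helper148; prefix `it_n_`)

 `it_n_swG`, `it_n_swL`   exchangeability of the records `0, 1` (`it_k_swap`)
 `it_n_H1`    `H((L_1)_{2p} | (L_0, H, J, K)_{2p}, F_p, 𝒟) ≥ m p L - errors`      (angular fibre of the record `0`)
 `it_n_H2`    `H((G_0)_{2p} | F_p, 𝒟) ≤ I(F_{2p} ; O_l | C_*, F_p) + errors`      (display)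
 `it_n_core`  the three inequalities for one datum with explicit errors
 EXITS `it_n_cost_bin`, `it_n_e_bin` = `it_cost_bin`, `it_e_bin` of `Int/Contract.lean`, verbatim.
-/

set_option autoImplicit false

namespace Claimed.Agent.R256

open Claimed.Agent.R255
open Claimed.Agent.R255.FLaw (pair)
open scoped BigOperators
open Classical

/-- `G_1` and `G_0` have the same layer entropy -/
theorem it_n_swG (T : Tan) (a : ItPar) (pk : ItPk) (h : T.Adm0 a pk) (hq : T.quad = true) (hM : 2 ≤ pk.M) (p q : ℝ) :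
    T.hh pk.M p q (T.rG p 1) [] = T.hh pk.M p q (T.rG p 0) [] := by
  have hs := it_k_swap T a pk h p q 0 1 (by omega) (by omega) [itsL 0, itsG2 0, itsG3 0] [] (by
    intro u hu f Ξ Ξ' hΞ
    have h0 := hΞ 0 (by omega)
    simp only [List.append_nil, List.mem_cons, List.not_mem_nil, or_false] at hu
    rcases hu with rfl | rfl | rfl
    · simp only [itsL, h0]
    · simp only [itsG2, h0]
    · simp only [itsG3, h0])
  rw [it_s_fld_Gq T p 0 hq] at hs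
  rw [← it_s_fld_Gq T p 1 hq]
  exact hs.symm

/-- `L_0` and `L_1` have the same layer entropy given the centre -/
theorem it_n_swL (T : Tan) (a : ItPar) (pk : ItPk) (h : T.Adm0 a pk) (hM : 2 ≤ pk.M) (p q : ℝ) :
    T.hh pk.M p q [T.cL 0] (T.rCz p) = T.hh pk.M p q [T.cL 1] (T.rCz p) := by
  have hs := it_k_swap T a pk h p q 0 1 (by omega) (by omega) [itsL 0] [itsH, itsJ, itsK] (by
    intro u hu f Ξ Ξ' hΞ
    have h0 := hΞ 0 (by omega)
    simp only [List.cons_append, List.nil_append, List.mem_cons, List.not_mem_nil, or_false] at hu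
    rcases hu with rfl | rfl | rfl | rfl
    · simp only [itsL, h0]
    · rfl
    · rfl
    · rfl)
  exact hs

/-- THE ANGULAR FIBRE: `L_1` costs `m p` given `L_0` and the centre -/
theorem it_n_H1 (a : ItPar) (ha : a.Ok) : ∃ C : ℝ, 0 ≤ C ∧ ∀ (T : Tan) (pk : ItPk) (τ κ0 acc p u ε : ℝ), T.Adm a pk τ κ0 acc →
    T.quad = true → pk.Ok → 0 < acc → acc ≤ 1 → 0 < p → p ∈ pk.G → 2 * p ∈ pk.G → 0 ≤ u → ε ≤ 1 →
    T.P.pr (fun ω => ¬ T.nGood u ω) ≤ ε →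
    a.m * p * T.L - (u * T.L + ε * (p * T.L) + acc * (3 + 3 * p) * T.L + C) ≤ T.hh pk.M p (2 * p) [T.cL 1] (T.cL 0 :: T.rCz p) := by
  obtain ⟨C1, hC1, H1a⟩ := it_n_H1a a ha
  obtain ⟨C2, hC2, H1b⟩ := it_n_H1b a ha
  obtain ⟨C3, hC3, H1c⟩ := it_n_H1c a ha
  obtain ⟨C4, hC4, H1e⟩ := it_n_H1e a ha
  refine ⟨C1 + C2 + C3 + C4, by positivity, ?_⟩
  intro T pk τ κ0 acc p u ε hT hq hpk hacc hacc1 hp hpG h2pG hu hε hpr
  have hM : 2 ≤ pk.M := hpk.1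
  have hK : 2 * p ≤ pk.K := (hpk.2.2.2.2.2.2 _ h2pG).2
  have hRQ : 2 * p ≤ pk.RQ := hK.trans hpk.2.2.1.le
  obtain ⟨Z, hZ⟩ : ∃ Z, Z = pair (T.base pk.M p) (T.Qn pk.RQ 0) := ⟨_, rfl⟩
  obtain ⟨Z', hZ'⟩ : ∃ Z', Z' = pair (T.Xn p) (pair (T.Dd pk.M) (T.Qn pk.RQ 0)) := ⟨_, rfl⟩
  have s1 : T.P.entC (T.rd p (2 * p) [T.cL 1]) (pair (T.rd p (2 * p) (T.cL 0 :: T.rCz p)) Z)
      ≤ T.hh pk.M p (2 * p) [T.cL 1] (T.cL 0 :: T.rCz p) := by
    unfold Tan.hh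
    refine ent_entC_anti T.P _ _ _ fun ω ω' _ _ h => ?_
    rw [hZ] at h
    simp only [FLaw.pair, Prod.mk.injEq] at h ⊢
    exact ⟨h.1, h.2.1⟩
  have s2 := it_n_ent_drop T.P (T.rd p (2 * p) [T.cL 1]) (T.rd p (2 * p) (T.cL 0 :: T.rCz p)) Z
  have s3 := H1a T pk p hT.t0 hq (by omega) hp hRQ
  rw [← hZ] at s3
  have s4 := it_n_ent_via T.P (T.Xn (2 * p)) (T.rd p (2 * p) [T.cL 1]) Z
  have s5 := H1b T pk p u ε hT.t0 hq hM hp hRQ hu hε hpr
  rw [← hZ] at s5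
  have s6 : T.P.entC (T.Xn (2 * p)) Z = T.P.entC (T.Xn (2 * p)) (pair (T.Fn p) Z') := by
    refine ent_entC_congr T.P _ _ _ _ (fun ω ω' _ _ => ?_) (fun _ _ _ _ _ => Iff.rfl)
    rw [hZ, hZ']
    simp only [FLaw.pair, Tan.base, Prod.mk.injEq]
    constructor
    · rintro ⟨⟨h1, h2⟩, h3⟩
      refine ⟨h1, ?_, h2, h3⟩
      simp only [Tan.Fn, itF, Prod.mk.injEq] at h1
      exact h1.1.1
    · rintro ⟨h1, _, h2, h3⟩
      exact ⟨⟨h1, h2⟩, h3⟩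
  have s7 := it_n_ent_drop T.P (T.Xn (2 * p)) (T.Fn p) Z'
  have s8 := H1c T pk p hT.t0 hq (by omega) hp (by linarith)
  rw [← hZ'] at s8
  have s9 := it_n_H1d T a pk acc p (2 * p) hT.t0 hT.ti (by omega) (by linarith) hK
  rw [← hZ'] at s9
  have s10 := H1e T pk acc p (2 * p) hT.t0 hT.ti hacc hacc1 hp.le (by linarith) hpG h2pG
  have e1 : a.m * (2 * p - p) * T.L = a.m * p * T.L := by ring
  have e2 : acc * (2 + p + 2 * p) * T.L + acc * T.L = acc * (3 + 3 * p) * T.L := by ring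
  linarith

/-- THE DISPLAY: one output pays `G_0` on the binary layer -/
theorem it_n_H2 (a : ItPar) (ha : a.Ok) (hc : 1 < a.c) : ∃ C : ℝ, 0 ≤ C ∧ ∀ (T : Tan) (pk : ItPk) (τ κ0 acc p l : ℝ), T.Adm a pk τ κ0 acc →
    T.quad = true → pk.Ok → 0 < acc → 0 < p → l ∈ pk.Lam → p ≤ (a.c - 1) * l → 2 * p ≤ a.c * l →
    T.hh pk.M p (2 * p) (T.rG p 0) [] ≤ T.inf l p (2 * p) + C * (acc * T.L + 1) := by
  obtain ⟨C1, hC1, H2a⟩ := it_n_H2a a ha hc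
  obtain ⟨C2, hC2, H2b⟩ := it_n_H2b a ha hc
  obtain ⟨C3, hC3, H2c⟩ := it_n_H2c a ha
  refine ⟨C1 + C2 + C3, by positivity, ?_⟩
  intro T pk τ κ0 acc p l hT hq hpk hacc hp hl h1 h2
  have hM : 2 ≤ pk.M := hpk.1
  have hL : 0 < T.L := it_cb_L_pos T hT.t0.δ0 hT.t0.δ1
  obtain ⟨W, hW⟩ : ∃ W, W = T.rd p (2 * p) (T.rG p 0) := ⟨_, rfl⟩
  have t1 := it_n_mi_aux T.P (T.Fn (2 * p)) (T.O l) (pair T.Cs (T.Fn p)) (T.nAux p)
  have t2 := it_n_mi_low T.P (T.Fn (2 * p)) (T.O l) (pair (T.nAux p) (pair T.Cs (T.Fn p))) W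
  have t3 : T.P.entC W (T.base pk.M p) ≤ T.P.entC W (pair (T.nAux p) (pair T.Cs (T.Fn p))) := by
    refine ent_entC_anti T.P _ _ _ fun ω ω' _ _ h => ?_
    simp only [FLaw.pair, Tan.base, Tan.Dd, Prod.mk.injEq] at h ⊢
    obtain ⟨h1, h2, h3⟩ := h
    refine ⟨?_, h2, h1⟩
    have h4 : T.mrk 0 ω = T.mrk 0 ω' := congrFun h3 ⟨0, by omega⟩
    simp only [Tan.nAux, h4]
  have t4 := it_n_hh_nil T pk.M p (2 * p) (T.rG p 0)
  rw [← hW] at t4
  have t5 := H2a T pk τ κ0 acc p l hT hq hacc hp hl h1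
  have t6 := H2b T pk τ κ0 acc p l hT hq hpk hacc hp hl h1 h2
  rw [← hW] at t6
  have t7 := H2c T pk p hT.t0 hq (by omega) hp
  rw [← hW] at t7
  have t8 : T.inf l p (2 * p) = T.P.miC (T.Fn (2 * p)) (T.O l) (pair T.Cs (T.Fn p)) := rfl
  have t9 : C3 ≤ C3 * (acc * T.L + 1) := by
    have : 0 ≤ C3 * (acc * T.L) := by positivity
    linarith
  have e : (C1 + C2 + C3) * (acc * T.L + 1) = C1 * (acc * T.L + 1) + C2 * (acc * T.L + 1) + C3 * (acc * T.L + 1) := by ring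
  linarith

/-- the error of the block at one datum -/
noncomputable def Tan.nErr (T : Tan) (acc p u ε : ℝ) : ℝ := u * T.L + ε * (p * T.L) + acc * (1 + p) * T.L + 1

theorem it_n_top_eqns_cite : True := by
  have := @Tan.nErr.eq_1
  trivial

/-- exact bookkeeping of the layer entropies of `F`, `V5`, the centre -/
theorem it_n_book (T : Tan) (M : ℕ) (p q : ℝ) :
    T.hh M p q (itRF T.Ω) [] + T.hh M p q (T.nV5 p) (itRF T.Ω) = T.hh M p q (T.nV5 p) [] + T.hh M p q (itRF T.Ω) (T.nV5 p) ∧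
    T.hh M p q (T.nV5 p) [] = T.hh M p q (T.rCz p) [] + T.hh M p q [T.cL 0] (T.rCz p) + T.hh M p q [T.cL 1] (T.cL 0 :: T.rCz p) := by
  have k3 := it_k_chain T M p q (itRF T.Ω) (T.nV5 p) []
  have k4 := it_k_chain T M p q (T.nV5 p) (itRF T.Ω) []
  have k5 := it_k_perm T M p q (itRF T.Ω ++ T.nV5 p) (T.nV5 p ++ itRF T.Ω) [] [] List.perm_append_comm (List.Perm.refl _)
  rw [List.append_nil] at k3 k4
  have k8 := it_k_chain T M p q [T.cL 1, T.cL 0] (T.rCz p) []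
  rw [List.append_nil] at k8
  have k8' := it_k_perm T M p q (T.nV5 p) ([T.cL 1, T.cL 0] ++ T.rCz p) [] [] (List.Perm.swap _ _ _) (List.Perm.refl _)
  have k9 := it_k_chain T M p q [T.cL 1] [T.cL 0] (T.rCz p)
  have k9' : T.hh M p q ([T.cL 1] ++ [T.cL 0]) (T.rCz p) = T.hh M p q [T.cL 1, T.cL 0] (T.rCz p) := rfl
  have k9'' : T.hh M p q [T.cL 1] ([T.cL 0] ++ T.rCz p) = T.hh M p q [T.cL 1] (T.cL 0 :: T.rCz p) := rfl
  constructor
  · linarith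
  · linarith

theorem it_n_aux_bd (C E c1 c2 c3 y1 y3 : ℝ) (hE : 1 ≤ E) (h1 : 0 ≤ c1) (h2 : 0 ≤ c2) (h3 : 0 ≤ c3) (hy1 : y1 ≤ E) (hy3 : y3 ≤ E)
    (hC : c1 + c2 + 2 * c3 ≤ C) : c1 * y1 + 2 * (c3 * y3) + c2 ≤ C * E := by
  have a1 : c1 * y1 ≤ c1 * E := mul_le_mul_of_nonneg_left hy1 h1
  have a2 : c3 * y3 ≤ c3 * E := mul_le_mul_of_nonneg_left hy3 h3
  have a3 : c2 * 1 ≤ c2 * E := mul_le_mul_of_nonneg_left hE h2
  have a4 : (c1 + c2 + 2 * c3) * E ≤ C * E := mul_le_mul_of_nonneg_right hC (by linarith)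
  have a5 : (c1 + c2 + 2 * c3) * E = c1 * E + c2 * E + 2 * (c3 * E) := by ring
  linarith

/-- THE THREE INEQUALITIES for one datum, explicit errors -/
theorem it_n_core (a : ItPar) (ha : a.Ok) (hc : 1 < a.c) : ∃ C : ℝ, 0 ≤ C ∧ ∀ (T : Tan) (pk : ItPk) (τ κ0 acc p u ε : ℝ),
    T.Adm a pk τ κ0 acc → T.quad = true → pk.Ok → 0 < acc → acc ≤ 1 → 0 < p → p ∈ pk.G → 2 * p ∈ pk.G → 0 ≤ u → 0 ≤ ε → ε ≤ 1 →
    T.P.pr (fun ω => ¬ T.nGood u ω) ≤ ε →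
    (T.bm pk.M p + 2 * a.m * p * T.L ≤ T.hA pk.M (2 * p) - T.hW pk.M p (2 * p) + C * T.nErr acc p u ε) ∧
    (T.bm pk.M p ≤ p * T.L + C * T.nErr acc p u ε) ∧
    (∀ l ∈ pk.Lam, p ≤ (a.c - 1) * l → 2 * p ≤ a.c * l →
      T.hF pk.M p (2 * p) - T.bm pk.M p ≤ 2 * T.inf l p (2 * p) + C * T.nErr acc p u ε) := by
  obtain ⟨CT1, hCT1, T1⟩ := it_n_T1 a ha
  obtain ⟨CT2, hCT2, T2⟩ := it_n_T2 a ha
  obtain ⟨CT3, hCT3, T3⟩ := it_n_T3 a ha
  obtain ⟨CA1, hCA1, LA1⟩ := it_n_LA1 a ha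
  obtain ⟨CA2, hCA2, LA2⟩ := it_n_LA2 a ha
  obtain ⟨CA3, hCA3, LA3⟩ := it_n_LA3 a ha
  obtain ⟨CH1, hCH1, H1⟩ := it_n_H1 a ha
  obtain ⟨CH2, hCH2, H2⟩ := it_n_H2 a ha hc
  obtain ⟨C, hCdef⟩ : ∃ C : ℝ, C = 6 + CT1 + CT2 + CT3 + CA1 + CA2 + CA3 + 2 * CH1 + 2 * CH2 := ⟨_, rfl⟩
  have hC0 : 0 ≤ C := by rw [hCdef]; positivity
  refine ⟨C, hC0, ?_⟩
  intro T pk τ κ0 acc p u ε hT hq hpk hacc hacc1 hp hpG h2pG hu hε0 hε hpr
  have hM : 2 ≤ pk.M := hpk.1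
  have h0 := hT.t0.δ0
  have h1 := hT.t0.δ1
  have hL : 0 < T.L := it_cb_L_pos T h0 h1
  obtain ⟨x1, hx1⟩ : ∃ x, x = u * T.L := ⟨_, rfl⟩
  obtain ⟨x2, hx2⟩ : ∃ x, x = ε * (p * T.L) := ⟨_, rfl⟩
  obtain ⟨x3, hx3⟩ : ∃ x, x = acc * (1 + p) * T.L := ⟨_, rfl⟩
  have hx1' : 0 ≤ x1 := by rw [hx1]; positivity
  have hx2' : 0 ≤ x2 := by rw [hx2]; positivity
  have hx3' : 0 ≤ x3 := by rw [hx3]; positivity
  have hE : T.nErr acc p u ε = x1 + x2 + x3 + 1 := by rw [hx1, hx2, hx3]; rfl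
  obtain ⟨E, hEdef⟩ : ∃ E, E = T.nErr acc p u ε := ⟨_, rfl⟩
  rw [← hEdef] at hE ⊢
  have hE1 : 1 ≤ E := by linarith
  -- a bound `c0 (x1 + x2 + x3) + K ≤ C E`
  have hbd : ∀ K : ℝ, 0 ≤ K → 6 + K ≤ C → 6 * (x1 + x2 + x3) + K ≤ C * E := by
    intro K hK hKC
    have := it_n_aux_bd C E 6 K 0 (x1 + x2 + x3) 0 hE1 (by norm_num) hK le_rfl (by linarith) (by linarith) (by linarith)
    linarith
  obtain ⟨b1, b2⟩ := it_n_book T pk.M p (2 * p)
  have k1 := it_k_tele T h0 h1 pk.M p (2 * p) (by linarith)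
  have k2 := it_k_F T h0 h1 pk.M p (2 * p) (by linarith)
  have kT1 := T1 T pk p hT.t0 hp
  have kT2 := T2 T pk p hT.t0 hp
  have kT3 := T3 T pk p hT.t0 hp
  have kA1 := LA1 T pk p (2 * p) u ε hT.t0 hM hp (by linarith) hu hε hpr
  have kA2 := LA2 T pk p (2 * p) u ε hT.t0 hq hM hp (by linarith) hu hε hpr
  have kA3 := LA3 T pk p (2 * p) hT.t0 hM hp (by linarith)
  have kH1 := H1 T pk τ κ0 acc p u ε hT hq hpk hacc hacc1 hp hpG h2pG hu hε hpr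
  have e2p : 2 * p - p = p := by ring
  rw [e2p, ← hx1, ← hx2] at kA1 kA2
  have e3 : acc * (3 + 3 * p) * T.L = 3 * x3 := by rw [hx3]; ring
  rw [← hx1, ← hx2, e3] at kH1
  have kn := it_k_nonneg T pk.M p (2 * p) (T.nV5 p) (itRF T.Ω)
  refine ⟨?_, ?_, ?_⟩
  · -- e(p) ≥ b_miss + 2m
    have k10 := it_n_swL T a pk hT.t0 hM p (2 * p)
    have k11 := it_k_anti T pk.M p (2 * p) [T.cL 1] (T.rCz p) [T.cL 0]
    have k12 := it_k_perm T pk.M p (2 * p) [T.cL 1] [T.cL 1] (T.rCz p ++ [T.cL 0]) (T.cL 0 :: T.rCz p) (List.Perm.refl _)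
      (List.perm_append_singleton _ _)
    have hb := hbd (CT1 + CT3 + CA3 + 2 * CH1) (by positivity) (by rw [hCdef]; linarith)
    have e4 : 2 * a.m * p * T.L = 2 * (a.m * p * T.L) := by ring
    linarith
  · have a1 := it_n_aux_bd C E CA1 CT1 0 (x1 + x2 + 1) 0 hE1 hCA1 hCT1 le_rfl (by linarith) (by linarith)
      (by rw [hCdef]; linarith)
    linarith
  · intro l hl hl1 hl2
    have kH2 := H2 T pk τ κ0 acc p l hT hq hpk hacc hp hl hl1 hl2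
    have k13 := it_k_subadd T pk.M p (2 * p) (T.rG p 0) (T.rG p 1) []
    have k14 := it_n_swG T a pk hT.t0 hq hM p (2 * p)
    have a0 : acc * T.L ≤ x3 := by
      rw [hx3]
      have h' : acc * T.L * 1 ≤ acc * T.L * (1 + p) := mul_le_mul_of_nonneg_left (by linarith) (by positivity)
      have h'' : acc * T.L * (1 + p) = acc * (1 + p) * T.L := by ring
      linarith
    have a1 := it_n_aux_bd C E CA2 CT2 CH2 (x1 + x2 + 1) (acc * T.L + 1) hE1 hCA2 hCT2 hCH2 (by linarith) (by linarith)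
      (by rw [hCdef]; linarith)
    linarith

/-- numerics: choice of the separation exponent `u`, of the tolerance `ε` and of the accuracy -/
theorem it_n_num (e0 C η l : ℝ) (he0 : 0 < e0) (hC : 0 ≤ C) (hη : 0 < η) (hl : 0 < l) :
    ∃ u ε acc0 : ℝ, 0 < u ∧ 0 ≤ ε ∧ ε ≤ 1 ∧ 0 < acc0 ∧ acc0 ≤ 1 ∧ ∀ (T : Tan) (acc : ℝ), 0 < T.δ → T.δ < 1 → T.δ < acc → acc ≤ acc0 →
      T.δ ^ (e0 * u - acc) ≤ ε ∧ C * T.nErr acc l u ε ≤ η * l * T.L := by
  obtain ⟨D, hD⟩ : ∃ D : ℝ, D = 4 * (C + 1) := ⟨_, rfl⟩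
  have hD0 : 0 < D := by rw [hD]; linarith
  have hCD : C * 4 ≤ D := by rw [hD]; linarith
  obtain ⟨u, hu⟩ : ∃ u : ℝ, u = η * l / D := ⟨_, rfl⟩
  obtain ⟨ε, hε⟩ : ∃ ε : ℝ, ε = min 1 (η / D) := ⟨_, rfl⟩
  have hu0 : 0 < u := by rw [hu]; positivity
  have hε0 : 0 < ε := by rw [hε]; exact lt_min one_pos (by positivity)
  have hε1 : ε ≤ 1 := by rw [hε]; exact min_le_left _ _
  have hεD : ε ≤ η / D := by rw [hε]; exact min_le_right _ _
  obtain ⟨w, hw⟩ : ∃ w : ℝ, w = e0 * u / 2 := ⟨_, rfl⟩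
  have hw0 : 0 < w := by rw [hw]; positivity
  obtain ⟨acc0, hacc0⟩ : ∃ x : ℝ, x = min (min 1 (η * l / (D * (1 + l)))) (min (Real.exp (-(C / (η * l / 4)))) (min w (ε ^ (1 / w)))) :=
    ⟨_, rfl⟩
  have g1 : acc0 ≤ 1 := by rw [hacc0]; exact (min_le_left _ _).trans (min_le_left _ _)
  have g2 : acc0 ≤ η * l / (D * (1 + l)) := by rw [hacc0]; exact (min_le_left _ _).trans (min_le_right _ _)
  have g3 : acc0 ≤ Real.exp (-(C / (η * l / 4))) := by rw [hacc0]; exact (min_le_right _ _).trans (min_le_left _ _)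
  have g4 : acc0 ≤ w := by rw [hacc0]; exact (min_le_right _ _).trans ((min_le_right _ _).trans (min_le_left _ _))
  have g5 : acc0 ≤ ε ^ (1 / w) := by rw [hacc0]; exact (min_le_right _ _).trans ((min_le_right _ _).trans (min_le_right _ _))
  have g0 : 0 < acc0 := by
    rw [hacc0]
    exact lt_min (lt_min one_pos (by positivity)) (lt_min (Real.exp_pos _) (lt_min hw0 (Real.rpow_pos_of_pos hε0 _)))
  refine ⟨u, ε, acc0, hu0, hε0.le, hε1, g0, g1, ?_⟩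
  intro T acc h0 h1 hδ hacc
  have hL : 0 < T.L := it_cb_L_pos T h0 h1
  have hacc0' : 0 < acc := h0.trans hδ
  constructor
  · have e1 : w ≤ e0 * u - acc := by
      have : e0 * u = 2 * w := by rw [hw]; ring
      linarith
    calc T.δ ^ (e0 * u - acc) ≤ T.δ ^ w := Real.rpow_le_rpow_of_exponent_ge h0 h1.le e1
      _ ≤ (ε ^ (1 / w)) ^ w := Real.rpow_le_rpow h0.le (hδ.le.trans (hacc.trans g5)) hw0.le
      _ = ε := by
        rw [← Real.rpow_mul hε0.le, one_div, inv_mul_cancel₀ hw0.ne', Real.rpow_one]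
  · have c1 : C * (u * T.L) ≤ η * l * T.L / 4 := by
      have : C * (u * T.L) = (C * 4 / D) * (η * l * T.L / 4) := by rw [hu]; field_simp
      rw [this]
      have h' : C * 4 / D ≤ 1 := (div_le_one hD0).2 hCD
      have h'' : 0 ≤ η * l * T.L / 4 := by positivity
      nlinarith
    have c2 : C * (ε * (l * T.L)) ≤ η * l * T.L / 4 := by
      have a1 : C * (ε * (l * T.L)) ≤ C * (η / D * (l * T.L)) :=
        mul_le_mul_of_nonneg_left (mul_le_mul_of_nonneg_right hεD (by positivity)) hC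
      have : C * (η / D * (l * T.L)) = (C * 4 / D) * (η * l * T.L / 4) := by field_simp
      rw [this] at a1
      have h' : C * 4 / D ≤ 1 := (div_le_one hD0).2 hCD
      have h'' : 0 ≤ η * l * T.L / 4 := by positivity
      nlinarith
    have c3 : C * (acc * (1 + l) * T.L) ≤ η * l * T.L / 4 := by
      have a1 : C * (acc * (1 + l) * T.L) ≤ C * (η * l / (D * (1 + l)) * (1 + l) * T.L) :=
        mul_le_mul_of_nonneg_left (mul_le_mul_of_nonneg_right (mul_le_mul_of_nonneg_right (hacc.trans g2) (by linarith)) hL.le) hC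
      have : C * (η * l / (D * (1 + l)) * (1 + l) * T.L) = (C * 4 / D) * (η * l * T.L / 4) := by
        have : (1 + l) ≠ 0 := by positivity
        field_simp
      rw [this] at a1
      have h' : C * 4 / D ≤ 1 := (div_le_one hD0).2 hCD
      have h'' : 0 ≤ η * l * T.L / 4 := by positivity
      nlinarith
    have c4 : C ≤ η * l / 4 * T.L := it_cb_const_le T acc C (η * l / 4) (by positivity) h0 hδ (hacc.trans g3)
    have e : C * T.nErr acc l u ε = C * (u * T.L) + C * (ε * (l * T.L)) + C * (acc * (1 + l) * T.L) + C := by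
      unfold Tan.nErr
      ring
    rw [e]
    linarith

/-- the three inequalities in the quantifier pattern -/
theorem it_n_pack (a : ItPar) (ha : a.Ok) (hc : 1 < a.c) (η l : ℝ) (hη : 0 < η) (hl : 0 < l) :
    ∃ (pk0 : ItPk) (acc0 : ℝ), pk0.Pre ∧ 0 < acc0 ∧ ∀ (pk : ItPk) (acc τ κ0 : ℝ) (T : Tan), pk.Ok → pk0.le pk → 0 < acc → acc ≤ acc0 →
      T.quad = true → T.Adm a pk τ κ0 acc → T.Avoid a pk acc →
      (T.bm pk.M l + 2 * a.m * l * T.L ≤ T.hA pk.M (2 * l) - T.hW pk.M l (2 * l) + η * l * T.L) ∧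
      (T.bm pk.M l ≤ l * T.L + η * l * T.L) ∧
      (∀ l' ∈ pk.Lam, l ≤ (a.c - 1) * l' → 2 * l ≤ a.c * l' →
        T.hF pk.M l (2 * l) - T.bm pk.M l ≤ 2 * T.inf l' l (2 * l) + η * l * T.L) := by
  obtain ⟨C, hC, core⟩ := it_n_core a ha hc
  obtain ⟨u, ε, acc0, hu, hε0, hε1, hacc0, hacc01, num⟩ := it_n_num a.e0 C η l ha.2.2.2.2.2.2.2.1 hC hη hl
  refine ⟨⟨2, 2 * l, 2 * l, 1, {u, l, 2 * l}, ∅⟩, acc0, ⟨one_pos, ?_⟩, hacc0, ?_⟩
  · intro q hq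
    simp only [Finset.mem_insert, Finset.mem_singleton] at hq
    rcases hq with rfl | rfl | rfl <;> linarith
  intro pk acc τ κ0 T hpk hle hacc hacc' hq hT hav
  have hG : ({u, l, 2 * l} : Finset ℝ) ⊆ pk.G := hle.2.2.2.2
  have hu' : u ∈ pk.G := hG (by simp)
  have hl' : l ∈ pk.G := hG (by simp)
  have h2l' : 2 * l ∈ pk.G := hG (by simp)
  obtain ⟨n1, n2⟩ := num T acc hT.t0.δ0 hT.t0.δ1 hT.small hacc'
  have hCI := it_r_ci T a pk hT.t0 0 (by have := hpk.1; omega)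
  have hpr := (it_n_avoid T a pk acc u hpk.1 hCI hav hu').trans n1
  obtain ⟨r1, r2, r3⟩ := core T pk τ κ0 acc l u ε hT hq hpk hacc (hacc'.trans hacc01) hl hl' h2l' hu.le hε0 hε1 hpr
  refine ⟨by linarith, by linarith, fun l' hl1 hl2 hl3 => ?_⟩
  have := r3 l' hl1 hl2 hl3
  linarith

/-- EXIT 1 = `it_cost_bin` of `Int/Contract.lean`, verbatim. -/
theorem it_n_cost_bin (a : ItPar) (ha : a.Ok) (hm : 0 < a.m) (hc : 3 < a.c) :
    ItDepth true true false a (fun T pk p η => ∀ l ∈ pk.Lam, l ≤ p → p ≤ (a.c - 1) * l → 2 * p ≤ a.c * l →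
      T.hF pk.M p (2 * p) - T.bm pk.M p - η * p * T.L ≤ 2 * T.inf l p (2 * p)) := by
  intro η hη
  refine ⟨1, one_pos, fun κ0 _ l hl => ?_⟩
  obtain ⟨pk0, acc0, h1, h2, h3⟩ := it_n_pack a ha (by linarith) η l hη hl
  refine ⟨pk0, acc0, h1, h2, fun pk acc T hpk hle hacc hacc' hq hT hav _ => ?_⟩
  obtain ⟨_, _, r3⟩ := h3 pk acc 1 κ0 T hpk hle hacc hacc' hq hT (hav rfl)
  intro l' hl1 _ hl2 hl3
  have := r3 l' hl1 hl2 hl3
  linarith

/-- EXIT 2 = `it_e_bin` of `Int/Contract.lean`, verbatim. -/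
theorem it_n_e_bin (a : ItPar) (ha : a.Ok) (hm : 0 < a.m) (hc : 3 < a.c) :
    ItDepth true true false a (fun T pk l η =>
      T.bm pk.M l + (2 * a.m - η) * l * T.L ≤ T.hA pk.M (2 * l) - T.hW pk.M l (2 * l) ∧ T.bm pk.M l ≤ (1 + η) * l * T.L) := by
  intro η hη
  refine ⟨1, one_pos, fun κ0 _ l hl => ?_⟩
  obtain ⟨pk0, acc0, h1, h2, h3⟩ := it_n_pack a ha (by linarith) η l hη hl
  refine ⟨pk0, acc0, h1, h2, fun pk acc T hpk hle hacc hacc' hq hT hav _ => ?_⟩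
  obtain ⟨r1, r2, _⟩ := h3 pk acc 1 κ0 T hpk hle hacc hacc' hq hT (hav rfl)
  constructor
  · have e : (2 * a.m - η) * l * T.L = 2 * a.m * l * T.L - η * l * T.L := by ring
    linarith
  · have e : (1 + η) * l * T.L = l * T.L + η * l * T.L := by ring
    linarith

end Claimed.Agent.R256
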