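import Claimed.Agent.R256.Int.Kit

/-!
# Row 256, Sec. 5: COMBINATORS for the quantifier patterns `ItLayerAt` / `ItLayer` / `ItDepth`      (helper6; prefix `it_cb_`; no sorry)

For ALL rate blocks (RQ1, RQ2, RL1, RL2, RL3, WEDGE, BIN).   A rate inequality is proved as follows:
 1. `intro η hη; show ItLayerAt ..` (`ItLayer` is `∀ η > 0, ItLayerAt` by `Iff.rfl`, `it_layer_iff`);
 2. take the tests of `Int/Meta.lean` at the tolerances you need (each is an `ItLayerAt` fact after `h η' hη'`), raise the flags with `it_cb_flags`, join them with `it_cb_and`;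
 3. finish with `it_cb_imp` : a POINTWISE implication for one datum `T`, in which you may choose a package requirement `pk1`, an accuracy `acc1` (both may depend on `p q`) and a layer ratio `κ'`,
    and you may use `pk.Ok`, `pk1.le pk`, `T.Adm a pk τ κ0 acc` (any `τ κ0`), `T.Avoid`, `T.Cross`.
* `it_cb_adm_mono` : `Adm` is monotone in `τ`.      * `ItPk.sup`, `it_cb_sup_*` : common refinement of two package requirements.
* `it_cb_L_pos`, `it_cb_L_ge` : `L > 0`, `L ≥ log (1/acc)`;   `it_cb_const_le` : a constant error `c` is `≤ η (q - p) L` as soon as `acc ≤ exp (-c / (η (q - p)))`.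
-/

set_option autoImplicit false

namespace Claimed.Agent.R256

open Claimed.Agent.R255
open Claimed.Agent.R255.FLaw (pair)
open scoped BigOperators
open Classical

/-- common refinement of two package requirements -/
noncomputable def ItPk.sup (x y : ItPk) : ItPk := ⟨max x.M y.M, max x.K y.K, max x.RQ y.RQ, min x.χ y.χ, x.G ∪ y.G, x.Lam⟩

theorem it_cb_eqns_cite : True := by
  have := @ItPk.sup.eq_1
  trivial

theorem it_cb_sup_pre {x y : ItPk} (hx : x.Pre) (hy : y.Pre) : (x.sup y).Pre := by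
  refine ⟨lt_min hx.1 hy.1, fun q hq => ?_⟩
  rcases Finset.mem_union.1 hq with h | h
  · exact hx.2 q h
  · exact hy.2 q h

theorem it_cb_sup_left {x y pk : ItPk} (h : (x.sup y).le pk) : x.le pk := by
  obtain ⟨h1, h2, h3, h4, h5⟩ := h
  exact ⟨(le_max_left _ _).trans h1, (le_max_left _ _).trans h2, (le_max_left _ _).trans h3, h4.trans (min_le_left _ _),
    Finset.union_subset_left h5⟩

theorem it_cb_sup_right {x y pk : ItPk} (h : (x.sup y).le pk) : y.le pk := by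
  obtain ⟨h1, h2, h3, h4, h5⟩ := h
  exact ⟨(le_max_right _ _).trans h1, (le_max_right _ _).trans h2, (le_max_right _ _).trans h3, h4.trans (min_le_right _ _),
    Finset.union_subset_right h5⟩

/-- the trivial package requirement with a prescribed separation exponent and a prescribed number of records -/
def itPk0 (M : ℕ) (χ : ℝ) : ItPk := ⟨M, 0, 0, χ, ∅, ∅⟩

theorem it_cb_eqns_cite2 : True := by
  have := @itPk0.eq_1
  trivial

theorem it_cb_pk0_pre (M : ℕ) (χ : ℝ) (hχ : 0 < χ) : (itPk0 M χ).Pre := ⟨hχ, fun q hq => by simp [itPk0] at hq⟩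

theorem it_cb_pk0_M {M : ℕ} {χ : ℝ} {pk : ItPk} (h : (itPk0 M χ).le pk) : M ≤ pk.M := h.1

theorem it_cb_pk0_chi {M : ℕ} {χ : ℝ} {pk : ItPk} (h : (itPk0 M χ).le pk) : pk.χ ≤ χ := h.2.2.2.1

theorem it_cb_L_pos (T : Tan) (h0 : 0 < T.δ) (h1 : T.δ < 1) : 0 < T.L := by
  unfold Tan.L lg
  exact Real.log_pos (by rw [one_div]; exact (one_lt_inv₀ h0).2 h1)

/-- `L ≥ log (1/acc)` -/
theorem it_cb_L_ge (T : Tan) (acc : ℝ) (h0 : 0 < T.δ) (h : T.δ < acc) : Real.log (1 / acc) ≤ T.L := by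
  unfold Tan.L lg
  exact Real.log_le_log (by have := h0.trans h; positivity) (one_div_le_one_div_of_le h0 h.le)

/-- a constant error is absorbed by `η (q - p) L` at sufficient accuracy -/
theorem it_cb_const_le (T : Tan) (acc c e : ℝ) (he : 0 < e) (h0 : 0 < T.δ) (h : T.δ < acc) (hacc : acc ≤ Real.exp (-(c / e))) :
    c ≤ e * T.L := by
  have h1 : c / e ≤ T.L := by
    refine le_trans ?_ (it_cb_L_ge T acc h0 h)
    rw [one_div, Real.log_inv, le_neg]
    have hacc0 : 0 < acc := h0.trans h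
    calc Real.log acc ≤ Real.log (Real.exp (-(c / e))) := Real.log_le_log hacc0 hacc
      _ = -(c / e) := Real.log_exp _
  rw [div_le_iff₀ he] at h1
  linarith

/-- `Adm` is monotone in the relative layer tolerance -/
theorem it_cb_adm_mono (T : Tan) (a : ItPar) (pk : ItPk) (τ τ' κ0 acc : ℝ) (hτ : τ ≤ τ') (h : T.Adm a pk τ κ0 acc) :
    T.Adm a pk τ' κ0 acc := by
  have hL : 0 < T.L := it_cb_L_pos T h.t0.δ0 h.t0.δ1
  refine ⟨h.small, h.t0, h.ti, ⟨h.tm.time, ?_, ?_, ?_⟩, h.tg⟩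
  · intro hc p hp q hq hp0 hpq hk
    refine le_trans (ent_pr_mono _ fun ω _ hω => lt_of_lt_of_le hω ?_) (h.tm.joint hc p hp q hq hp0 hpq hk)
    refine mul_le_mul_of_nonneg_right ?_ hL.le
    have : (a.d - τ') * (q - p) ≤ (a.d - τ) * (q - p) := mul_le_mul_of_nonneg_right (by linarith) (by linarith)
    linarith
  · intro hc p hp q hq hp0 hpq hk
    refine le_trans (ent_pr_mono _ fun ω _ hω => lt_of_le_of_lt ?_ hω) (h.tm.mixr hc p hp q hq hp0 hpq hk)
    refine mul_le_mul_of_nonneg_right ?_ hL.le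
    have : τ * (q - p) ≤ τ' * (q - p) := mul_le_mul_of_nonneg_right hτ (by linarith)
    linarith
  · intro hc p hp q hq hp0 hpq hk
    refine le_trans (ent_pr_mono _ fun ω _ hω => lt_of_lt_of_le hω ?_) (h.tm.mixt hc p hp q hq hp0 hpq hk)
    refine mul_le_mul_of_nonneg_right ?_ hL.le
    have : (max (a.d - a.c * a.ν) 0 - τ') * (q - p) ≤ (max (a.d - a.c * a.ν) 0 - τ) * (q - p) :=
      mul_le_mul_of_nonneg_right (by linarith) (by linarith)
    linarith

/-- more separation hypotheses may be granted -/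
theorem it_cb_flags {quad av cr av' cr' : Bool} {a : ItPar} {Φ : Tan → ItPk → ℝ → ℝ → Prop}
    (hav : av = true → av' = true) (hcr : cr = true → cr' = true) (h : ItLayerAt quad av cr a Φ) : ItLayerAt quad av' cr' a Φ := by
  obtain ⟨τ, hτ, H⟩ := h
  refine ⟨τ, hτ, fun κ0 hκ0 => ?_⟩
  obtain ⟨κ1, hκ1, H⟩ := H κ0 hκ0
  refine ⟨κ1, hκ1, fun p q hp hpq hq => ?_⟩
  obtain ⟨pk0, acc0, hpre, hacc0, H⟩ := H p q hp hpq hq
  exact ⟨pk0, acc0, hpre, hacc0, fun pk acc T h1 h2 h3 h4 h5 h6 h7 h8 =>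
    H pk acc T h1 h2 h3 h4 h5 h6 (fun e => h7 (hav e)) (fun e => h8 (hcr e))⟩

/-- conjunction -/
theorem it_cb_and {quad av cr : Bool} {a : ItPar} {Φ1 Φ2 : Tan → ItPk → ℝ → ℝ → Prop}
    (h1 : ItLayerAt quad av cr a Φ1) (h2 : ItLayerAt quad av cr a Φ2) :
    ItLayerAt quad av cr a (fun T pk p q => Φ1 T pk p q ∧ Φ2 T pk p q) := by
  obtain ⟨τ1, hτ1, H1⟩ := h1
  obtain ⟨τ2, hτ2, H2⟩ := h2
  refine ⟨min τ1 τ2, lt_min hτ1 hτ2, fun κ0 hκ0 => ?_⟩
  obtain ⟨κ1, hκ1, H1⟩ := H1 κ0 hκ0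
  obtain ⟨κ2, hκ2, H2⟩ := H2 κ0 hκ0
  refine ⟨min κ1 κ2, lt_min hκ1 hκ2, fun p q hp hpq hq => ?_⟩
  have hq1 : q ≤ (1 + κ1) * p := hq.trans (mul_le_mul_of_nonneg_right (by linarith [min_le_left κ1 κ2]) hp.le)
  have hq2 : q ≤ (1 + κ2) * p := hq.trans (mul_le_mul_of_nonneg_right (by linarith [min_le_right κ1 κ2]) hp.le)
  obtain ⟨pk1, acc1, hpre1, hacc1, H1⟩ := H1 p q hp hpq hq1
  obtain ⟨pk2, acc2, hpre2, hacc2, H2⟩ := H2 p q hp hpq hq2
  refine ⟨pk1.sup pk2, min acc1 acc2, it_cb_sup_pre hpre1 hpre2, lt_min hacc1 hacc2, fun pk acc T g1 g2 g3 g4 g5 g6 g7 g8 => ⟨?_, ?_⟩⟩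
  · exact H1 pk acc T g1 (it_cb_sup_left g2) g3 (g4.trans (min_le_left _ _)) g5 (it_cb_adm_mono T a pk _ _ κ0 acc (min_le_left _ _) g6) g7 g8
  · exact H2 pk acc T g1 (it_cb_sup_right g2) g3 (g4.trans (min_le_right _ _)) g5 (it_cb_adm_mono T a pk _ _ κ0 acc (min_le_right _ _) g6) g7 g8

/-- pointwise implication, with a new package requirement, a new accuracy and a new layer ratio -/
theorem it_cb_imp {quad av cr : Bool} {a : ItPar} {Φ1 Φ2 : Tan → ItPk → ℝ → ℝ → Prop} (h1 : ItLayerAt quad av cr a Φ1)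
    (κ' : ℝ) (hκ' : 0 < κ')
    (himp : ∀ p q : ℝ, 0 < p → p < q → q ≤ (1 + κ') * p → ∃ (pk1 : ItPk) (acc1 : ℝ), pk1.Pre ∧ 0 < acc1 ∧
      ∀ (pk : ItPk) (acc τ κ0 : ℝ) (T : Tan), pk.Ok → pk1.le pk → 0 < acc → acc ≤ acc1 → T.quad = quad → T.Adm a pk τ κ0 acc →
        (av = true → T.Avoid a pk acc) → (cr = true → T.Cross pk acc) → Φ1 T pk p q → Φ2 T pk p q) :
    ItLayerAt quad av cr a Φ2 := by
  obtain ⟨τ1, hτ1, H1⟩ := h1
  refine ⟨τ1, hτ1, fun κ0 hκ0 => ?_⟩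
  obtain ⟨κ1, hκ1, H1⟩ := H1 κ0 hκ0
  refine ⟨min κ1 κ', lt_min hκ1 hκ', fun p q hp hpq hq => ?_⟩
  have hq1 : q ≤ (1 + κ1) * p := hq.trans (mul_le_mul_of_nonneg_right (by linarith [min_le_left κ1 κ']) hp.le)
  have hq2 : q ≤ (1 + κ') * p := hq.trans (mul_le_mul_of_nonneg_right (by linarith [min_le_right κ1 κ']) hp.le)
  obtain ⟨pk1, acc1, hpre1, hacc1, H1⟩ := H1 p q hp hpq hq1
  obtain ⟨pk2, acc2, hpre2, hacc2, H2⟩ := himp p q hp hpq hq2
  refine ⟨pk1.sup pk2, min acc1 acc2, it_cb_sup_pre hpre1 hpre2, lt_min hacc1 hacc2, fun pk acc T g1 g2 g3 g4 g5 g6 g7 g8 => ?_⟩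
  exact H2 pk acc τ1 κ0 T g1 (it_cb_sup_right g2) g3 (g4.trans (min_le_right _ _)) g5 g6 g7 g8
    (H1 pk acc T g1 (it_cb_sup_left g2) g3 (g4.trans (min_le_left _ _)) g5 g6 g7 g8)

/-- the trivial fact -/
theorem it_cb_true (quad av cr : Bool) (a : ItPar) : ItLayerAt quad av cr a (fun _ _ _ _ => True) :=
  ⟨1, one_pos, fun _ _ => ⟨1, one_pos, fun _ _ _ _ _ => ⟨itPk0 0 1, 1, it_cb_pk0_pre 0 1 one_pos, one_pos,
    fun _ _ _ _ _ _ _ _ _ _ _ => trivial⟩⟩⟩

end Claimed.Agent.R256
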