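import Claimed.Agent.R256.Int.RadTan
import Claimed.Agent.R256.Int.Comb
import Claimed.Agent.R256.Inc.Lik

/-!
# Row 256, Sec. 5, block BOOST, file T: the time marks are hereditary slopes (`it_slope_time` of `Int/Meta.lean`, verbatim).      (architect helper149; prefix `it_b_`)

`AdmM.time` at the depths `t k / n` of the package, drop the predicted part of `r` (LP), transfer the record `0 -> j` (`it_r_ident`), adjoin the other records (`it_r_ci`, `it_r_ci_sur`).
-/

set_option autoImplicit false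

namespace Claimed.Agent.R256

open Claimed.Agent.R255
open Claimed.Agent.R255.FLaw (pair)
open scoped BigOperators
open Classical

/-- one pair of depths -/
theorem it_b_time_step (T : Tan) (a : ItPar) (pk : ItPk) (τ κ0 acc : ℝ) (hT : T.Adm a pk τ κ0 acc) (j : ℕ) (hj : j < pk.M)
    (u u' : ℝ) (hu : u ∈ pk.G) (hu' : u' ∈ pk.G) (huu : u < u') (x : ℝ) :
    T.P.pr (fun ω => T.P.surC (fun ω' => tcell T.δ u' (T.mrk j ω').th)
        (pair (fun ω' => tcell T.δ u (T.mrk j ω').th) (pair T.Zs (T.XiE pk.M j))) ω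
      < (a.d * (u' - u) - acc) * T.L - x) ≤ acc + Real.exp (-x) := by
  have h0 : 0 < pk.M := lt_of_le_of_lt (Nat.zero_le _) hj
  have ht := hT.tm.time u hu u' hu' huu
  -- step 1 : drop the predicted part of `r`
  have s1 : T.P.pr (fun ω => T.P.surC (fun ω' => tcell T.δ u' (T.mrk 0 ω').th)
      (pair T.Zs (fun ω' => tcell T.δ u (T.mrk 0 ω').th)) ω < (a.d * (u' - u) - acc) * T.L - x) ≤ acc + Real.exp (-x) := by
    have lp := ic_lp T.P (fun ω' => tcell T.δ u' (T.mrk 0 ω').th) (pair T.Zs (fun ω' => tcell T.δ u (T.mrk 0 ω').th))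
      (T.rn 0 (T.rdep a u)) x
    refine le_trans (le_trans (ent_pr_mono T.P fun ω hω hs => ?_) (ent_pr_or_le T.P _ _)) (add_le_add ht lp)
    by_cases hc : T.P.surC (fun ω' => tcell T.δ u' (T.mrk 0 ω').th) (pair T.Zs (fun ω' => tcell T.δ u (T.mrk 0 ω').th)) ω
        < T.P.surC (fun ω' => tcell T.δ u' (T.mrk 0 ω').th)
          (pair (T.rn 0 (T.rdep a u)) (pair T.Zs (fun ω' => tcell T.δ u (T.mrk 0 ω').th))) ω - x
    · exact Or.inr hc
    · left
      have e : T.P.surC (T.thn 0 u') (pair T.Zs (pair (T.thn 0 u) (T.rn 0 (T.rdep a u)))) ω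
          = T.P.surC (fun ω' => tcell T.δ u' (T.mrk 0 ω').th)
          (pair (T.rn 0 (T.rdep a u)) (pair T.Zs (fun ω' => tcell T.δ u (T.mrk 0 ω').th))) ω := by
        refine ent_surC_congr T.P _ _ _ _ ω (fun ω' _ => ?_) (fun _ _ _ => Iff.rfl)
        simp only [FLaw.pair, Prod.mk.injEq, Tan.thn]
        tauto
      rw [e]
      push Not at hc
      linarith
  -- step 2 : transfer to the record `j`
  have s2 := (it_r_ident T.P T.Zs (T.mrk 0) (T.mrk j) (fun z v => hT.t0.ident z v 0 h0 j hj)).2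
    (fun μ => tcell T.δ u' μ.th) (fun μ => tcell T.δ u μ.th) ((a.d * (u' - u) - acc) * T.L - x)
  rw [s2] at s1
  -- step 3 : adjoin the other records
  refine le_trans (le_of_eq (ent_pr_congr T.P fun ω hω => ?_)) s1
  have c := it_r_ci_sur T.P (T.mrk j) (T.XiE pk.M j) T.Zs (fun _ => ()) (it_r_ci T a pk hT.t0 j hj) (fun _ _ _ => rfl)
    (fun μ _ => tcell T.δ u' μ.th) (fun μ _ => tcell T.δ u μ.th) hω
  have e : T.P.surC (fun ω' => tcell T.δ u' (T.mrk j ω').th)
      (pair (fun ω' => tcell T.δ u (T.mrk j ω').th) (pair T.Zs (fun _ => ()))) ω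
      = T.P.surC (fun ω' => tcell T.δ u' (T.mrk j ω').th) (pair T.Zs (fun ω' => tcell T.δ u (T.mrk j ω').th)) ω := by
    refine ent_surC_congr T.P _ _ _ _ ω (fun ω' _ => ?_) (fun _ _ _ => Iff.rfl)
    simp only [FLaw.pair, Prod.mk.injEq]
    tauto
  rw [c, e]

/-- EXIT = `it_slope_time` of `Int/Meta.lean`, verbatim. -/
theorem it_b_slope_time (quad : Bool) (a : ItPar) (ha : a.Ok) (n : ℕ) (hn : 0 < n) :
    ItLayer quad false false a (fun T pk p q η => ∀ j < pk.M, T.Slope pk.M j p q n (fun _ => True) (fun ω => (T.mrk j ω).th) a.d η) := by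
  intro η hη
  refine ⟨1, one_pos, fun κ0 _ => ⟨1, one_pos, fun p q hp hpq _ => ?_⟩⟩
  have ht : 0 < q - p := sub_pos.2 hpq
  have hnr : (0 : ℝ) < n := by exact_mod_cast hn
  obtain ⟨x, hx⟩ : ∃ x, x = Real.log (2 / η) := ⟨_, rfl⟩
  have hex : Real.exp (-x) = η / 2 := by
    rw [hx, Real.exp_neg, Real.exp_log (by positivity)]
    field_simp
  have he : 0 < η * (q - p) / 2 := by positivity
  refine ⟨⟨0, 0, 0, 1, (Finset.range (n + 1)).image (fun k : ℕ => (q - p) * k / n), ∅⟩,
    min (η / 2) (min (η * (q - p) / 2) (Real.exp (-(x / (η * (q - p) / 2))))), ⟨one_pos, ?_⟩, ?_, ?_⟩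
  · intro u hu
    obtain ⟨k, _, rfl⟩ := Finset.mem_image.1 hu
    positivity
  · exact lt_min (by positivity) (lt_min he (Real.exp_pos _))
  intro pk acc T _ hle hacc hacc0 _ hT _ _ j hj k k' hkk hk'
  have a1 : acc ≤ η / 2 := hacc0.trans (min_le_left _ _)
  have a2 : acc ≤ η * (q - p) / 2 := hacc0.trans ((min_le_right _ _).trans (min_le_left _ _))
  have a3 : acc ≤ Real.exp (-(x / (η * (q - p) / 2))) := hacc0.trans ((min_le_right _ _).trans (min_le_right _ _))
  have hxL := it_cb_const_le T acc x _ he hT.t0.δ0 hT.small a3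
  have hL : 0 < T.L := it_cb_L_pos T hT.t0.δ0 hT.t0.δ1
  have hG : ∀ i : ℕ, i ≤ n → (q - p) * i / n ∈ pk.G := fun i hi =>
    hle.2.2.2.2 (Finset.mem_image.2 ⟨i, Finset.mem_range.2 (Nat.lt_succ_of_le hi), rfl⟩)
  have hlt : (q - p) * k / n < (q - p) * k' / n := by
    have : (k : ℝ) < k' := by exact_mod_cast hkk
    exact div_lt_div_of_pos_right (mul_lt_mul_of_pos_left this ht) hnr
  have st := it_b_time_step T a pk 1 κ0 acc hT j hj _ _ (hG k (hkk.le.trans hk')) (hG k' hk') hlt x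
  refine le_trans (ent_pr_mono T.P fun ω _ hs => ?_) (st.trans (by rw [hex]; linarith))
  refine lt_of_lt_of_le hs.2 ?_
  have e1 : (q - p) * k' / n - (q - p) * k / n = (q - p) * (k' - k) / n := by ring
  rw [e1]
  have : acc * T.L ≤ η * (q - p) / 2 * T.L := mul_le_mul_of_nonneg_right a2 hL.le
  nlinarith

end Claimed.Agent.R256
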