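import Claimed.Agent.R256.Int.BoostB
import Claimed.Agent.R256.Int.BoostT

/-!
# Row 256, Sec. 5, block BOOST: the EXIT `it_b_boost` (= `it_boost` of `Int/Meta.lean` + the measurability of `al`, `be`).      (architect helper149; prefix `it_b_`)

`it_b_abs` (BoostA, from `fp_ev`) + the dictionary `it_b_hyp` (BoostB).  The other exit `it_b_slope_time` is in BoostT.
-/

set_option autoImplicit false

namespace Claimed.Agent.R256

open Claimed.Agent.R255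
open Claimed.Agent.R255.FLaw (pair)
open scoped BigOperators
open Classical

theorem it_b_log_c {δ e L : ℝ} (h0 : 0 < δ) (h1 : δ < 1) (he : 0 ≤ e) (hL : L = lg δ) :
    Real.log (1 / δ ^ e + 2) ≤ e * L + Real.log 3 := by
  have hσ : 0 < δ ^ e := Real.rpow_pos_of_pos h0 _
  have hσ1 : δ ^ e ≤ 1 := Real.rpow_le_one h0.le h1.le he
  have h3 : 1 / δ ^ e + 2 ≤ 3 * (1 / δ ^ e) := by
    have : 1 ≤ 1 / δ ^ e := by rw [le_div_iff₀ hσ]; linarith
    linarith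
  refine (Real.log_le_log (by positivity) h3).trans ?_
  rw [Real.log_mul (by norm_num) (by positivity), one_div, Real.log_inv, Real.log_rpow h0, hL]
  unfold lg
  rw [one_div, Real.log_inv]
  linarith

/-- EXIT: PROJECTION AMPLIFICATION (int:boost) -/
theorem it_b_boost (quad : Bool) (a : ItPar) (ha : a.Ok) (A0 Mr γ : ℝ) (hM : 0 < Mr) (hM1 : Mr ≤ 1) (hγ : 0 < γ) (hγ1 : γ ≤ 1)
    (η : ℝ) (hη : 0 < η) : ∃ (n : ℕ) (η1 : ℝ), 0 < n ∧ 0 < η1 ∧
    ItLayerAt quad false false a (fun T pk p q => ∀ j < pk.M, ∀ (u1 u2 w : ItSym) (V : List ItSym) (al be : ItPh → (ℕ → ItMk) → ℝ)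
        (E : T.Ω → Prop),
      u1.Reg pk.M a.B0 A0 → u2.Reg pk.M a.B0 A0 → w.Reg pk.M a.B0 A0 → (∀ v ∈ V, ItSym.Reg v pk.M a.B0 A0 ∧ ItSym.Free v j) → V.length ≤ 6 →
      u1.Free j → u2.Free j →
      (∀ ω, E ω → |be (T.f0 p ω) (fun i => T.mrk i ω)| ≤ A0 * |al (T.f0 p ω) (fun i => T.mrk i ω)|) →
      (∀ f Ξ Ξ', (∀ i < pk.M, Ξ i = Ξ' i) → al f Ξ = al f Ξ' ∧ be f Ξ = be f Ξ') →
      (∀ f Ξ x, itDot (w f Ξ) x = al f Ξ * itDot (u2 f Ξ) x - be f Ξ * itDot (u1 f Ξ) x) →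
      T.P.pr (fun ω => E ω ∧ |al (T.f0 p ω) (fun i => T.mrk i ω)| < T.δ ^ (η1 * (q - p))) ≤ η1 →
      (∀ k, 1 ≤ k → k ≤ n → T.LS pk.M p (itS p q n k) q [T.fld p u1] (T.fld p w :: V.map (T.fld p)) Mr η1) →
      T.Slope pk.M j p q n E (fun ω => be (T.f0 p ω) (fun i => T.mrk i ω) / al (T.f0 p ω) (fun i => T.mrk i ω)) γ η1 →
      T.P.pr (fun ω => E ω ∧
        T.P.surC (T.rd p q [T.fld p w]) (pair (T.rd p q (V.map (T.fld p))) (T.base pk.M p)) ω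
          < (min 1 (γ + Mr) - η) * (q - p) * T.L) ≤ η) := by
  obtain ⟨N, R, η1a, m1, hN, hR, hη1a, habs⟩ := it_b_abs Mr γ (η / 2) (6 * |A0| + 1) hM hM1 hγ hγ1 (by positivity)
    (by have := abs_nonneg A0; linarith)
  have hn : 0 < N * R := Nat.mul_pos hN hR
  obtain ⟨ηb, hηb⟩ : ∃ ηb, ηb = min (η1a / 2) (η / 2) := ⟨_, rfl⟩
  have hηb0 : 0 < ηb := by rw [hηb]; exact lt_min (by positivity) (by positivity)
  have hηb1 : ηb ≤ η1a / 2 := by rw [hηb]; exact min_le_left _ _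
  have hηb2 : ηb ≤ η / 2 := by rw [hηb]; exact min_le_right _ _
  refine ⟨N * R, ηb, hn, hηb0, 1, one_pos, fun κ0 _ => ⟨1, one_pos, fun p q hp hpq _ => ?_⟩⟩
  have ht : 0 < q - p := sub_pos.2 hpq
  have hnr : (0 : ℝ) < ((N * R : ℕ) : ℝ) := by exact_mod_cast hn
  have he : 0 < η1a * (q - p) / 2 := by positivity
  have hl2 : 0 < Real.log 2 := Real.log_pos one_lt_two
  refine ⟨⟨0, q, 0, 1, ∅, ∅⟩,
    min (η1a * (q - p) / 2) (min (Real.exp (-((m1 * ((N * R : ℕ) : ℝ) * Real.log 2) / (q - p))))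
      (min (Real.exp (-((8 * Real.log (6 * |A0| + 2)) / (η1a * (q - p) / 2)))) (Real.exp (-(Real.log 3 / (η1a * (q - p) / 2)))))),
    ⟨one_pos, fun _ h => absurd h (Finset.notMem_empty _)⟩,
    lt_min he (lt_min (Real.exp_pos _) (lt_min (Real.exp_pos _) (Real.exp_pos _))), ?_⟩
  intro pk acc T _ hle hacc hacc0 _ hT _ _ j hj u1 u2 w V al be E hu1 hu2 _ hV hVl f1 f2 hE hdep hw hsep hLS hSl
  have a1 : acc ≤ η1a * (q - p) / 2 := hacc0.trans (min_le_left _ _)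
  have a2 := hacc0.trans ((min_le_right _ _).trans (min_le_left _ _))
  have a3 := hacc0.trans ((min_le_right _ _).trans ((min_le_right _ _).trans (min_le_left _ _)))
  have a4 := hacc0.trans ((min_le_right _ _).trans ((min_le_right _ _).trans (min_le_right _ _)))
  have h0 := hT.t0.δ0
  have h1 := hT.t0.δ1
  have hL : 0 < T.L := it_cb_L_pos T h0 h1
  have b2 := it_cb_const_le T acc _ _ ht h0 hT.small a2
  have b3 := it_cb_const_le T acc _ _ he h0 hT.small a3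
  have b4 := it_cb_const_le T acc _ _ he h0 hT.small a4
  have hqK : q ≤ pk.K := hle.2.1
  obtain ⟨θ, hθ⟩ : ∃ θ, θ = (q - p) * T.L / ((N * R : ℕ) : ℝ) := ⟨_, rfl⟩
  have hθ0 : 0 ≤ θ := by rw [hθ]; positivity
  obtain ⟨m0, hm0d⟩ : ∃ m0 : ℕ, m0 = ⌊θ / Real.log 2⌋₊ := ⟨_, rfl⟩
  have hm0 : m0 * Real.log 2 ≤ θ ∧ θ ≤ (m0 + 1) * Real.log 2 := by
    have f1 := Nat.floor_le (div_nonneg hθ0 hl2.le)
    have f2 := (Nat.lt_floor_add_one (θ / Real.log 2)).le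
    rw [← hm0d] at f1 f2
    rw [le_div_iff₀ hl2] at f1
    rw [div_le_iff₀ hl2] at f2
    exact ⟨f1, f2⟩
  have hm1 : m1 ≤ m0 := by
    rw [hm0d]
    refine Nat.le_floor ?_
    rw [le_div_iff₀ hl2, hθ, le_div_iff₀ hnr]
    linarith
  have hinf : acc * T.L + 8 * Real.log (6 * |A0| + 2) ≤ η1a * ((q - p) * T.L) := by
    have := mul_le_mul_of_nonneg_right a1 hL.le
    linarith
  have hlc : Real.log (1 / T.δ ^ (ηb * (q - p)) + 2) ≤ η1a * ((q - p) * T.L) := by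
    refine (it_b_log_c (L := T.L) h0 h1 (by positivity) rfl).trans ?_
    have : ηb * (q - p) * T.L ≤ η1a / 2 * (q - p) * T.L := by gcongr
    linarith
  have H := it_b_hyp T a pk 1 κ0 acc hT p q A0 Mr γ η1a ηb θ hp hpq hqK N R m0 hN hR (by linarith) hθ hm0 hinf hlc j hj
    u1 u2 w V al be E hu1 hu2 hV hVl f1 f2 hE hdep hw hLS hSl
  have hfin := habs m0 hm1 T.Ω _ _ _ _ _ T.P _ _ _ _ _ _ _ _ _ _ θ _ H
  have hNRθ : (N : ℝ) * R * θ = (q - p) * T.L := by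
    rw [hθ]; push_cast; field_simp
  rw [hNRθ] at hfin
  refine le_trans (le_trans (ent_pr_mono T.P fun ω _ hs => ?_) (ent_pr_or_le T.P _ _)) ((add_le_add hsep hfin).trans (by linarith))
  by_cases hc : |al (T.f0 p ω) (fun i => T.mrk i ω)| < T.δ ^ (ηb * (q - p))
  · exact Or.inl ⟨hs.1, hc⟩
  · refine Or.inr ⟨⟨hs.1, not_lt.1 hc⟩, lt_of_lt_of_le hs.2 ?_⟩
    rw [mul_assoc]
    exact mul_le_mul_of_nonneg_right (by linarith) (by positivity)

end Claimed.Agent.R256
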