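import Claimed.Agent.R256.Fp.Ev

/-!
# Row 256, Sec. 5, block BOOST (int:boost := FP), file A: the ABSTRACT layer form of `fp_ev`.      (architect helper149; prefix `it_b_`)

No tangent datum here: one finite law `P`, an event `E`, a planar point `pt`, a slope `g`, names `Wq` (the fine name of the projection), `Y` (the final conditioning), `(Tg, D) ~ Y`, `Zx` (the fine side).
The layer is cut into `N R` mesh steps of `θ` natural units each; `m0` = bits of one mesh step of FP, `m0 log 2 ≤ θ ≤ (m0+1) log 2`.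
The consumer's cells sit at the levels `a k` (point), `b k` (slope) with `k m0 ≤ a k, b k ≤ k m0 + k + 1`: every FP cell is a COARSENING of the consumer's cell.
* `it_b_step` : transfer of a lower score: finer name -> coarser name (list `c1`), adjoin a name with few values (list `c2`), then forget conditioning (LP).
* `it_b_mesh` : `fp_mesh` on an event.
* `ItbHyp`, `it_b_abs` : the abstract boost.
-/

set_option autoImplicit false

namespace Claimed.Agent.R256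

open Claimed.Agent.R255 Claimed.Agent.R255.FLaw
open Classical

/-- transfer of a lower score -/
theorem it_b_step {Ω : Type} [Fintype Ω] {α α' β κ υ : Type} (P : FLaw Ω) (E : Ω → Prop) (X : Ω → α) (X' : Ω → α')
    (W : Ω → β) (C : Ω → κ) (Y' : Ω → υ) {c1 c2 : ℝ} (hc1 : 0 < c1) (hc2 : 0 < c2)
    (h1 : P.NVal E X (pair X' W) c1) (h2 : P.NVal E C W c2)
    (h3 : ∀ ω ω', P.p ω ≠ 0 → P.p ω' ≠ 0 → C ω = C ω' → W ω = W ω' → Y' ω = Y' ω') (s τ : ℝ) :
    P.pr (fun ω => E ω ∧ P.surC X' Y' ω < s - Real.log c1 - Real.log c2 - 3 * τ)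
      ≤ P.pr (fun ω => E ω ∧ P.surC X W ω < s) + 3 * Real.exp (-τ) := by
  have hsub : ∀ ω, P.p ω ≠ 0 → (E ω ∧ P.surC X' Y' ω < s - Real.log c1 - Real.log c2 - 3 * τ) →
      (((E ω ∧ P.surC X W ω < s) ∨ (E ω ∧ P.surC X' W ω + Real.log c1 + τ < P.surC X W ω)) ∨
        (E ω ∧ Real.log c2 + τ < P.surC C W ω)) ∨
        P.surC X' Y' ω < P.surC X' (pair (pair C W) Y') ω - τ := by
    rintro ω hω ⟨hE, hbad⟩
    by_contra hcon
    push Not at hcon
    obtain ⟨⟨⟨a1, a2⟩, a3⟩, a4⟩ := hcon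
    have b1 := a1 hE
    have b2 := a2 hE
    have b3 := a3 hE
    have e : P.surC X' (pair (pair C W) Y') ω = P.surC X' (pair C W) ω := by
      refine ent_surC_congr P _ _ _ _ ω (fun ω' hω' => ?_) (fun _ _ _ => Iff.rfl)
      simp only [FLaw.pair, Prod.mk.injEq]
      exact ⟨fun h => h.1, fun h => ⟨h, h3 ω' ω hω' hω h.1 h.2⟩⟩
    have b5 := ent_surC_swap P X' C W hω
    have b6 := ent_surC_nonneg P C (pair X' W) hω
    rw [e] at a4
    linarith
  refine (ent_pr_mono P hsub).trans ?_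
  refine (ent_pr_or_le P _ _).trans ?_
  have t1 := ic_list P E X X' W hc1 h1 τ
  have t2 := ic_tail P E C W hc2 h2 τ
  have t3 := ic_lp P X' Y' (pair C W) τ
  have u1 := ent_pr_or_le P (fun ω => ((E ω ∧ P.surC X W ω < s) ∨ (E ω ∧ P.surC X' W ω + Real.log c1 + τ < P.surC X W ω)))
    (fun ω => E ω ∧ Real.log c2 + τ < P.surC C W ω)
  have u2 := ent_pr_or_le P (fun ω => E ω ∧ P.surC X W ω < s)
    (fun ω => E ω ∧ P.surC X' W ω + Real.log c1 + τ < P.surC X W ω)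
  linarith

/-- from a mesh to all levels, on an event -/
theorem it_b_mesh {Ω : Type} [Fintype Ω] {α δ : Type} (P : FLaw Ω) (E : Ω → Prop) (X : ℕ → Ω → α) (D : Ω → δ) {e χ : ℝ}
    {R m : ℕ} (he : 0 ≤ e) (hR : 0 < R) (hX : ∀ j ω ω', X (j + 1) ω = X (j + 1) ω' → X j ω = X j ω')
    (h : ∀ i ≤ R, P.pr (fun ω => E ω ∧ P.surC (X (i * m)) D ω < (e * (i * m) - χ * (R * m)) * Real.log 2) ≤ χ) :
    P.pr (fun ω => E ω ∧ ¬ IcGood P X D e (χ + e / R) (R * m) ω) ≤ (R + 1) * χ := by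
  have hl2 : 0 < Real.log 2 := Real.log_pos one_lt_two
  have hR0 : (0 : ℝ) < R := by exact_mod_cast hR
  have hnest : ∀ k n, k ≤ n → ∀ ω ω', X n ω = X n ω' → X k ω = X k ω' := by
    intro k n hkn
    induction n, hkn using Nat.le_induction with
    | base => exact fun _ _ h => h
    | succ n _ ih => exact fun ω ω' h => ih ω ω' (hX n ω ω' h)
  have h1 : P.pr (fun ω => E ω ∧ ¬ IcGood P X D e (χ + e / R) (R * m) ω)
      ≤ P.pr (fun ω => ∃ i ∈ Finset.range (R + 1),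
          E ω ∧ P.surC (X (i * m)) D ω < (e * (i * m) - χ * (R * m)) * Real.log 2) := by
    refine ent_pr_mono P fun ω hω hb => ?_
    obtain ⟨hE, hbad⟩ := hb
    by_contra hcon
    push Not at hcon
    refine hbad fun k hk => ?_
    have hkb : k / m * m ≤ k := Nat.div_mul_le_self k m
    have hkb' : k ≤ k / m * m + m := by
      rcases Nat.eq_zero_or_pos m with hb | hb
      · subst hb; simpa using hk
      · have h2 := Nat.div_add_mod k m
        have h3 := Nat.mod_lt k hb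
        rw [mul_comm] at h2
        omega
    have hjN : k / m ≤ R := by
      rcases Nat.eq_zero_or_pos m with hb | hb
      · subst hb; simp
      · exact Nat.div_le_of_le_mul (by rw [mul_comm]; exact hk)
    have h4 := hcon (k / m) (Finset.mem_range.2 (Nat.lt_succ_of_le hjN)) hE
    have h5 : P.surC (X (k / m * m)) D ω ≤ P.surC (X k) D ω := by
      rw [ent_surC_eq_sub P _ _ hω, ent_surC_eq_sub P _ _ hω]
      have h6 : P.fib (pair (X k) D) ω ≤ P.fib (pair (X (k / m * m)) D) ω := by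
        refine ent_fib_mono P _ _ ω fun ω' _ h' => ?_
        simp only [FLaw.pair, Prod.mk.injEq] at h' ⊢
        exact ⟨hnest _ _ hkb _ _ h'.1, h'.2⟩
      have h7 := Real.log_le_log (ent_fib_pos P (pair (X k) D) hω) h6
      linarith
    refine le_trans ?_ (h4.trans h5)
    refine mul_le_mul_of_nonneg_right ?_ hl2.le
    have h6 : (k : ℝ) ≤ ((k / m : ℕ) : ℝ) * m + m := by exact_mod_cast hkb'
    have h7 : e * (k : ℝ) ≤ e * (((k / m : ℕ) : ℝ) * m + m) := mul_le_mul_of_nonneg_left h6 he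
    have h8 : (χ + e / R) * ((R * m : ℕ) : ℝ) = χ * (R * m) + e * m := by
      push_cast
      field_simp
    rw [h8]
    linarith
  refine h1.trans ((ent_pr_exists_le P _ _).trans ?_)
  refine (Finset.sum_le_sum fun i hi => h i (Nat.lt_succ_iff.1 (Finset.mem_range.1 hi))).trans ?_
  simp

/-- a dyadic cell of level `l ≤ k + j` has at most `2^j` values given the cell of level `k ≤ l` -/
theorem it_b_cells {Ω : Type} [Fintype Ω] {β : Type} (P : FLaw Ω) (E : Ω → Prop) (x : Ω → ℝ) (W : Ω → β) {k l j : ℕ}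
    (hkl : k ≤ l) (hl : l ≤ k + j) :
    P.NVal E (fun ω => icCell l (x ω)) (pair (fun ω => icCell k (x ω)) W) ((2 : ℝ) ^ j) := by
  intro ω₀
  obtain ⟨i, rfl⟩ : ∃ i, l = k + i := ⟨l - k, by omega⟩
  have hij : i ≤ j := by omega
  have hp : (0 : ℤ) < 2 ^ i := by positivity
  refine ⟨Finset.Ico (icCell k (x ω₀) * 2 ^ i) (icCell k (x ω₀) * 2 ^ i + 2 ^ i), ?_, fun ω _ _ h => ?_⟩
  · rw [Int.card_Ico]
    have : (icCell k (x ω₀) * 2 ^ i + 2 ^ i - icCell k (x ω₀) * 2 ^ i).toNat = 2 ^ i := by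
      rw [add_sub_cancel_left]
      have : ((2 : ℤ) ^ i) = ((2 ^ i : ℕ) : ℤ) := by push_cast; rfl
      rw [this, Int.toNat_natCast]
    rw [this]
    push_cast
    exact pow_le_pow_right₀ (by norm_num) hij
  · simp only [FLaw.pair, Prod.mk.injEq] at h
    have h1 := ic_aux_cell_div k i (x ω)
    rw [← h.1, h1, Finset.mem_Ico]
    constructor
    · exact Int.ediv_mul_le _ hp.ne'
    · have := Int.lt_ediv_add_one_mul_self (icCell (k + i) (x ω)) hp
      linarith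

/-- **hypotheses of the abstract boost** -/
structure ItbHyp {Ω : Type} [Fintype Ω] {α₁ α₂ β' δ' ζ' : Type} (P : FLaw Ω) (E : Ω → Prop) (pt : Ω → ℝ × ℝ) (g : Ω → ℝ)
    (Wq : Ω → α₁) (Y : Ω → α₂) (Tg : Ω → β') (D : Ω → δ') (Zx : Ω → ζ') (a b : ℕ → ℕ)
    (A Mr γ η1 θ c : ℝ) (N R m0 : ℕ) : Prop where
  /-- bounded chart on the event -/
  bd : ∀ ω, P.p ω ≠ 0 → E ω → |(pt ω).1| ≤ A ∧ |(pt ω).2| ≤ A ∧ |g ω| ≤ A
  /-- the slope is a function of `(Tg, D)` -/
  tag : ∀ ω ω', P.p ω ≠ 0 → P.p ω' ≠ 0 → E ω → E ω' → Tg ω = Tg ω' → D ω = D ω' → g ω = g ω'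
  /-- `Y ~ (Tg, D)` -/
  cond : ∀ ω ω', P.p ω ≠ 0 → P.p ω' ≠ 0 → (Y ω = Y ω' ↔ Tg ω = Tg ω' ∧ D ω = D ω')
  /-- the fine side determines the point and `D` -/
  side : ∀ ω ω', P.p ω ≠ 0 → P.p ω' ≠ 0 → Zx ω = Zx ω' → pt ω = pt ω' ∧ D ω = D ω'
  la : ∀ k ≤ N * R, k * m0 ≤ a k ∧ a k ≤ k * m0 + (k + 1)
  lb : ∀ k ≤ N * R, k * m0 ≤ b k ∧ b k ≤ k * m0 + (k + 1)
  th : m0 * Real.log 2 ≤ θ ∧ θ ≤ (m0 + 1) * Real.log 2
  /-- residual of the first coordinate at the prefixes of the FIRST window, the fine projection held -/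
  res : ∀ i : ℕ, 1 ≤ i → i ≤ R →
    P.pr (fun ω => E ω ∧ P.surC (icX pt (a i)) (pair Wq Y) ω < (Mr - η1) * (i * θ)) ≤ η1
  /-- hereditary slopes on the mesh, given the fine side -/
  slo : ∀ k k' : ℕ, k < k' → k' ≤ N * R →
    P.pr (fun ω => E ω ∧ P.surC (icS g (b k')) (pair (icS g (b k)) Zx) ω
      < γ * (((k' : ℝ) - k) * θ) - η1 * (N * R * θ)) ≤ η1
  /-- information budget -/
  inf : P.miC (icQ pt (N * (R * m0))) Tg D ≤ η1 * (N * R * θ)
  /-- the fine projection lists the intercept cell -/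
  lst : P.NVal E (icU pt g (N * (R * m0))) (pair Wq Y) c
  c1 : 1 ≤ c
  lc : Real.log c ≤ η1 * (N * R * θ)

/-- the abstract boost with explicit numerical hypotheses; `hfp` = the instance of `fp_ev` -/
theorem it_b_core {Ω : Type} [Fintype Ω] {α₁ α₂ β' δ' ζ' : Type} (P : FLaw Ω) (E : Ω → Prop) (pt : Ω → ℝ × ℝ) (g : Ω → ℝ)
    (Wq : Ω → α₁) (Y : Ω → α₂) (Tg : Ω → β') (D : Ω → δ') (Zx : Ω → ζ') (a b : ℕ → ℕ)
    (A Mr γ η1 θ c : ℝ) (N R m0 : ℕ) (H : ItbHyp P E pt g Wq Y Tg D Zx a b A Mr γ η1 θ c N R m0)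
    (η ξ χ χ1 τ τ' : ℝ) (hN : 1 ≤ N) (hR : 1 ≤ R) (hMr : 0 < Mr) (hγ : 0 < γ) (hη1 : 0 ≤ η1) (hη1M : η1 ≤ Mr) (hχ1 : 0 ≤ χ1)
    (n1 : χ1 + Mr / R ≤ χ) (n1' : χ1 + γ / R ≤ χ) (n2 : ((R : ℝ) + 1) * χ1 ≤ χ) (n3 : η1 + 3 * Real.exp (-τ) ≤ χ1)
    (n4 : η1 * (R * m0 * Real.log 2) + ((N : ℝ) * R + 1) * Real.log 2 + η1 * (N * R * θ) + 3 * τ ≤ χ1 * (R * m0) * Real.log 2)
    (n5 : η1 * (N * R * θ) ≤ χ * (R * m0 : ℕ) * Real.log 2)
    (n6 : (min 1 (γ + Mr) - η) * (N * R * θ) ≤ (min 1 (Mr + γ) - ξ) * (N * (R * m0 : ℕ)) * Real.log 2 - η1 * (N * R * θ) - τ')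
    (n7 : ξ + Real.exp (-τ') ≤ η)
    (hfp : FpHypE P E pt g D Tg (icQ pt (N * (R * m0))) A Mr γ χ N (R * m0) →
      P.pr (fun ω => E ω ∧ P.surC (icU pt g (N * (R * m0))) (pair Tg D) ω
        < (min 1 (Mr + γ) - ξ) * (N * (R * m0 : ℕ)) * Real.log 2) ≤ ξ) :
    P.pr (fun ω => E ω ∧ P.surC Wq Y ω < (min 1 (γ + Mr) - η) * (N * R * θ)) ≤ η := by
  have hL : 0 < Real.log 2 := Real.log_pos one_lt_two
  have hNr : (1 : ℝ) ≤ N := by exact_mod_cast hN
  have hRr : (1 : ℝ) ≤ R := by exact_mod_cast hR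
  have hm0 : (0 : ℝ) ≤ m0 := Nat.cast_nonneg _
  have hc0 : 0 < c := lt_of_lt_of_le one_pos H.c1
  have hθ0 : 0 ≤ θ := (mul_nonneg hm0 hL.le).trans H.th.1
  -- trivial mesh point
  have hzero : ∀ {α δ : Type} (X : Ω → α) (Z : Ω → δ) (v : ℝ), v ≤ 0 → P.pr (fun ω => E ω ∧ P.surC X Z ω < v) ≤ χ1 := by
    intro α δ X Z v hv
    rw [ent_pr_eq_zero P fun ω hω h => absurd (ent_surC_nonneg P X Z hω) (not_le.2 (h.2.trans_le hv))]
    exact hχ1
  -- (F1)
  have hF1 : P.pr (fun ω => E ω ∧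
      ¬ IcGood P (icX pt) (pair (pair (icU pt g (N * (R * m0))) Tg) D) Mr χ (R * m0) ω) ≤ χ := by
    have hm := it_b_mesh P E (icX pt) (pair (pair (icU pt g (N * (R * m0))) Tg) D) (e := Mr) (χ := χ1) (R := R) (m := m0)
      hMr.le hR (fun j ω ω' h => ic_cell_nest (Nat.le_succ j) h) (fun i hi => ?_)
    · refine le_trans (ent_pr_mono P fun ω _ h => ⟨h.1, fun hg => h.2 (ic_aux_good_mono P _ _ _ n1 _ hg)⟩) (hm.trans n2)
    · rcases Nat.eq_zero_or_pos i with rfl | hi0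
      · refine hzero _ _ _ ?_
        have : 0 ≤ χ1 * (R * m0) := by positivity
        simp only [Nat.cast_zero, zero_mul, mul_zero, zero_sub]
        nlinarith
      · have hiN : i ≤ N * R := hi.trans (Nat.le_mul_of_pos_left R hN)
        have st := it_b_step P E (icX pt (a i)) (icX pt (i * m0)) (pair Wq Y) (icU pt g (N * (R * m0)))
          (pair (pair (icU pt g (N * (R * m0))) Tg) D) (c1 := (2 : ℝ) ^ (i + 1)) (c2 := c) (by positivity) hc0
          (it_b_cells P E (fun ω => (pt ω).1) (pair Wq Y) (H.la i hiN).1 (H.la i hiN).2) H.lst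
          (fun ω ω' hω hω' hC hW => by
            simp only [FLaw.pair, Prod.mk.injEq] at hW ⊢
            obtain ⟨h1, h2⟩ := (H.cond ω ω' hω hω').1 hW.2
            exact ⟨⟨hC, h1⟩, h2⟩) ((Mr - η1) * (i * θ)) τ
        have hnum : (Mr * (i * m0) - χ1 * (R * m0)) * Real.log 2
            ≤ (Mr - η1) * (i * θ) - Real.log ((2 : ℝ) ^ (i + 1)) - Real.log c - 3 * τ := by
          rw [Real.log_pow]
          have hir : (i : ℝ) ≤ R := by exact_mod_cast hi
          have hi0r : (0 : ℝ) ≤ i := Nat.cast_nonneg _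
          have e1 : (Mr - η1) * (i * (m0 * Real.log 2)) ≤ (Mr - η1) * (i * θ) :=
            mul_le_mul_of_nonneg_left (mul_le_mul_of_nonneg_left H.th.1 hi0r) (by linarith)
          have e2 : η1 * (i * (m0 * Real.log 2)) ≤ η1 * (R * (m0 * Real.log 2)) :=
            mul_le_mul_of_nonneg_left (mul_le_mul_of_nonneg_right hir (by positivity)) hη1
          have e3 : (((i + 1 : ℕ) : ℝ)) * Real.log 2 ≤ ((N : ℝ) * R + 1) * Real.log 2 := by
            refine mul_le_mul_of_nonneg_right ?_ hL.le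
            push_cast
            nlinarith
          have e4 := H.lc
          nlinarith
        refine le_trans (ent_pr_mono P fun ω _ h => ⟨h.1, h.2.trans_le hnum⟩) (st.trans ?_)
        have := H.res i hi0 hi
        linarith
  -- (F2)
  have hF2 : ∀ k < N, P.pr (fun ω => E ω ∧ ¬ IcGood P (fun j => icS g (k * (R * m0) + j))
      (pair (pair (icS g (k * (R * m0))) (icQ pt (N * (R * m0)))) D) γ χ (R * m0) ω) ≤ χ := by
    intro k hk
    have hm := it_b_mesh P E (fun j => icS g (k * (R * m0) + j))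
      (pair (pair (icS g (k * (R * m0))) (icQ pt (N * (R * m0)))) D) (e := γ) (χ := χ1) (R := R) (m := m0)
      hγ.le hR (fun j ω ω' h => ic_cell_nest (Nat.le_succ (k * (R * m0) + j)) h) (fun i hi => ?_)
    · refine le_trans (ent_pr_mono P fun ω _ h => ⟨h.1, fun hg => h.2 (ic_aux_good_mono P _ _ _ n1' _ hg)⟩) (hm.trans n2)
    · rcases Nat.eq_zero_or_pos i with rfl | hi0
      · refine hzero _ _ _ ?_
        have : 0 ≤ χ1 * (R * m0) := by positivity
        simp only [Nat.cast_zero, zero_mul, mul_zero, zero_sub]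
        nlinarith
      · have hkR : k * R + i ≤ N * R := by
          have : (k + 1) * R ≤ N * R := Nat.mul_le_mul_right R hk
          rw [Nat.succ_mul] at this
          omega
        have hkR0 : k * R ≤ N * R := by omega
        have elv : (k * R + i) * m0 = k * (R * m0) + i * m0 := by ring
        have elv0 : k * R * m0 = k * (R * m0) := by ring
        have hb1 := H.lb (k * R + i) hkR
        have hb0 := H.lb (k * R) hkR0
        rw [elv] at hb1
        rw [elv0] at hb0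
        have st := it_b_step P E (icS g (b (k * R + i))) (icS g (k * (R * m0) + i * m0)) (pair (icS g (b (k * R))) Zx)
          (fun _ => ()) (pair (pair (icS g (k * (R * m0))) (icQ pt (N * (R * m0)))) D)
          (c1 := (2 : ℝ) ^ (k * R + i + 1)) (c2 := 1) (by positivity) one_pos
          (it_b_cells P E g (pair (icS g (b (k * R))) Zx) hb1.1 hb1.2)
          (fun _ => ⟨{()}, by simp, fun _ _ _ _ => by simp⟩)
          (fun ω ω' hω hω' _ hW => by
            simp only [FLaw.pair, Prod.mk.injEq] at hW ⊢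
            obtain ⟨h1, h2⟩ := H.side ω ω' hω hω' hW.2
            refine ⟨⟨ic_cell_nest hb0.1 hW.1, ?_⟩, h2⟩
            unfold icQ
            rw [h1]) (γ * ((((k * R + i : ℕ) : ℝ) - ((k * R : ℕ) : ℝ)) * θ) - η1 * (N * R * θ)) τ
        have hnum : (γ * (i * m0) - χ1 * (R * m0)) * Real.log 2
            ≤ γ * ((((k * R + i : ℕ) : ℝ) - ((k * R : ℕ) : ℝ)) * θ) - η1 * (N * R * θ)
              - Real.log ((2 : ℝ) ^ (k * R + i + 1)) - Real.log 1 - 3 * τ := by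
          rw [Real.log_pow, Real.log_one]
          have hi0r : (0 : ℝ) ≤ i := Nat.cast_nonneg _
          have e0 : (((k * R + i : ℕ) : ℝ) - ((k * R : ℕ) : ℝ)) = i := by push_cast; ring
          rw [e0]
          have e1 : γ * (i * (m0 * Real.log 2)) ≤ γ * (i * θ) :=
            mul_le_mul_of_nonneg_left (mul_le_mul_of_nonneg_left H.th.1 hi0r) hγ.le
          have e3 : (((k * R + i + 1 : ℕ) : ℝ)) * Real.log 2 ≤ ((N : ℝ) * R + 1) * Real.log 2 := by
            refine mul_le_mul_of_nonneg_right ?_ hL.le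
            have : ((k * R + i : ℕ) : ℝ) ≤ ((N * R : ℕ) : ℝ) := by exact_mod_cast hkR
            push_cast at this ⊢
            linarith
          have e5 : 0 ≤ η1 * (R * m0 * Real.log 2) := by positivity
          nlinarith
        refine le_trans (ent_pr_mono P fun ω _ h => ⟨h.1, h.2.trans_le hnum⟩) (st.trans ?_)
        have := H.slo (k * R) (k * R + i) (by omega) hkR
        linarith
  have hyp : FpHypE P E pt g D Tg (icQ pt (N * (R * m0))) A Mr γ χ N (R * m0) := by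
    refine ⟨H.bd, fun ω ω' h h' e e' a1 a2 => ?_, fun ω ω' _ _ _ _ h _ => h, hF1, hF2, H.inf.trans n5⟩
    unfold icS
    rw [H.tag ω ω' h h' e e' a1 a2]
  have hmain := hfp hyp
  have hl := ic_list P E (icU pt g (N * (R * m0))) Wq Y hc0 H.lst τ'
  have hsub : ∀ ω, P.p ω ≠ 0 → (E ω ∧ P.surC Wq Y ω < (min 1 (γ + Mr) - η) * (N * R * θ)) →
      (E ω ∧ P.surC (icU pt g (N * (R * m0))) (pair Tg D) ω < (min 1 (Mr + γ) - ξ) * (N * (R * m0 : ℕ)) * Real.log 2) ∨
      (E ω ∧ P.surC Wq Y ω + Real.log c + τ' < P.surC (icU pt g (N * (R * m0))) Y ω) := by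
    rintro ω hω ⟨hE, hbad⟩
    by_contra hcon
    push Not at hcon
    obtain ⟨a1, a2⟩ := hcon
    have b1 := a1 hE
    have b2 := a2 hE
    have e : P.surC (icU pt g (N * (R * m0))) (pair Tg D) ω = P.surC (icU pt g (N * (R * m0))) Y ω := by
      refine ent_surC_congr P _ _ _ _ ω (fun ω' hω' => ?_) (fun _ _ _ => Iff.rfl)
      simp only [FLaw.pair, Prod.mk.injEq]
      exact (H.cond ω' ω hω' hω).symm
    rw [e] at b1
    have := H.lc
    linarith
  refine (ent_pr_mono P hsub).trans ((ent_pr_or_le P _ _).trans ?_)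
  linarith

theorem it_b_exp_le {τ : ℝ} (hτ : 0 < τ) : Real.exp (-τ) ≤ 1 / τ := by
  rw [Real.exp_neg, ← one_div]
  exact one_div_le_one_div_of_le hτ (by linarith [Real.add_one_le_exp τ])

/-- numerics of the abstract boost: the length `T = N R θ` against `B = R m0 log 2` -/
theorem it_b_num_T {N R m0 L θ : ℝ} (hL : 0 < L) (hN : 1 ≤ N) (hR : 1 ≤ R) (hm : 1 ≤ m0) (t1 : m0 * L ≤ θ)
    (t2 : θ ≤ (m0 + 1) * L) :
    N * (R * m0 * L) ≤ N * R * θ ∧ N * R * θ ≤ N * (R * m0 * L) + N * R * L ∧ N * R * θ ≤ 2 * N * (R * m0 * L) ∧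
      R * m0 * L ≤ N * R * θ ∧ m0 * L ≤ N * R * θ := by
  have hNR : 0 ≤ N * R := by positivity
  have a1 : N * R * (m0 * L) ≤ N * R * θ := mul_le_mul_of_nonneg_left t1 hNR
  have a2 : N * R * θ ≤ N * R * ((m0 + 1) * L) := mul_le_mul_of_nonneg_left t2 hNR
  have a3 : N * R * L * 1 ≤ N * R * L * m0 := mul_le_mul_of_nonneg_left hm (by positivity)
  have a4 : 1 * (R * m0 * L) ≤ N * (R * m0 * L) := mul_le_mul_of_nonneg_right hN (by positivity)
  have a5 : 1 * (m0 * L) ≤ R * (m0 * L) := mul_le_mul_of_nonneg_right hR (by positivity)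
  refine ⟨by linarith, by linarith, by linarith, by linarith, by linarith⟩

theorem it_b_num_3 {χ1 B η1 : ℝ} (hχ1 : 0 < χ1) (hB : 0 < B) (h1 : η1 ≤ χ1 / 4) (k2 : 72 ≤ χ1 ^ 2 * B) :
    η1 + 3 * Real.exp (-(χ1 * B / 12)) ≤ χ1 := by
  have hτ : 0 < χ1 * B / 12 := by positivity
  have h2 := it_b_exp_le hτ
  have h3 : 1 / (χ1 * B / 12) ≤ χ1 / 6 := by
    rw [div_le_iff₀ hτ]
    nlinarith
  linarith

theorem it_b_num_7 {η T : ℝ} (hη : 0 < η) (hT : 0 < T) (k4 : 16 ≤ η ^ 2 * T) :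
    η / 4 + Real.exp (-(η * T / 4)) ≤ η := by
  have hτ : 0 < η * T / 4 := by positivity
  have h2 := it_b_exp_le hτ
  have h3 : 1 / (η * T / 4) ≤ η / 4 := by
    rw [div_le_iff₀ hτ]
    nlinarith
  linarith

theorem it_b_num_6 {thr η η1 T NB c : ℝ} (hη : 0 < η) (hthr : thr ≤ 1) (h1 : η1 ≤ η / 4) (hT : 0 ≤ T) (a1 : NB ≤ T)
    (a2 : T ≤ NB + c) (q3 : c ≤ η * T / 4) :
    (thr - η) * T ≤ (thr - η / 4) * NB - η1 * T - η * T / 4 := by
  have b1 : η1 * T ≤ η / 4 * T := mul_le_mul_of_nonneg_right h1 hT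
  have b2 : (thr - η / 4) * (T - NB) ≤ 1 * (T - NB) := mul_le_mul_of_nonneg_right (by linarith) (by linarith)
  nlinarith

/-- **the abstract boost** -/
theorem it_b_abs (Mr γ η A : ℝ) (hMr : 0 < Mr) (hMr1 : Mr ≤ 1) (hγ : 0 < γ) (hγ1 : γ ≤ 1) (hη : 0 < η) (hA : 1 ≤ A) :
    ∃ (N R : ℕ) (η1 : ℝ) (m1 : ℕ), 1 ≤ N ∧ 1 ≤ R ∧ 0 < η1 ∧ ∀ m0 : ℕ, m1 ≤ m0 →
      ∀ (Ω α₁ α₂ β' δ' ζ' : Type) [Fintype Ω] (P : FLaw Ω) (E : Ω → Prop) (pt : Ω → ℝ × ℝ) (g : Ω → ℝ)
        (Wq : Ω → α₁) (Y : Ω → α₂) (Tg : Ω → β') (D : Ω → δ') (Zx : Ω → ζ') (a b : ℕ → ℕ) (θ c : ℝ),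
        ItbHyp P E pt g Wq Y Tg D Zx a b A Mr γ η1 θ c N R m0 →
        P.pr (fun ω => E ω ∧ P.surC Wq Y ω < (min 1 (γ + Mr) - η) * (N * R * θ)) ≤ η := by
  have hL : 0 < Real.log 2 := Real.log_pos one_lt_two
  obtain ⟨N₀, H0⟩ := fp_ev Mr γ (η / 4) A η hMr hγ (by positivity) hA hη
  obtain ⟨N, hNdef⟩ : ∃ N : ℕ, N = max N₀ 1 := ⟨_, rfl⟩
  have hN0 : N₀ ≤ N := by rw [hNdef]; exact le_max_left _ _
  have hN1 : 1 ≤ N := by rw [hNdef]; exact le_max_right _ _
  obtain ⟨χ, hχ, n₁, H1⟩ := H0 N hN0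
  obtain ⟨R₀, hR₀⟩ := exists_nat_ge (2 / χ)
  obtain ⟨R, hRdef⟩ : ∃ R : ℕ, R = R₀ + 1 := ⟨_, rfl⟩
  have hR1 : 1 ≤ R := by omega
  have hNr : (1 : ℝ) ≤ N := by exact_mod_cast hN1
  have hRr : (1 : ℝ) ≤ R := by exact_mod_cast hR1
  have hRχ : 2 / χ ≤ R := hR₀.trans (by rw [hRdef]; push_cast; linarith)
  have hRχ' : 1 / (R : ℝ) ≤ χ / 2 := by
    rw [div_le_iff₀ hχ] at hRχ
    rw [div_le_iff₀ (by linarith)]
    linarith
  obtain ⟨χ1, hχ1def⟩ : ∃ χ1 : ℝ, χ1 = χ / (2 * ((R : ℝ) + 1)) := ⟨_, rfl⟩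
  have hχ1 : 0 < χ1 := by rw [hχ1def]; positivity
  have hχ1R : ((R : ℝ) + 1) * χ1 = χ / 2 := by rw [hχ1def]; field_simp
  have hχ1le : χ1 ≤ χ / 4 := by
    have : 2 * χ1 ≤ ((R : ℝ) + 1) * χ1 := mul_le_mul_of_nonneg_right (by linarith) hχ1.le
    linarith
  obtain ⟨η1, hη1def⟩ : ∃ η1 : ℝ, η1 = min (min (χ1 / (4 * (1 + 2 * (N : ℝ)))) (η / 4)) Mr := ⟨_, rfl⟩
  have hη1 : 0 < η1 := by rw [hη1def]; exact lt_min (lt_min (by positivity) (by positivity)) hMr
  have hη1a : η1 ≤ χ1 / (4 * (1 + 2 * (N : ℝ))) := by rw [hη1def]; exact (min_le_left _ _).trans (min_le_left _ _)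
  have hη1b : η1 ≤ η / 4 := by rw [hη1def]; exact (min_le_left _ _).trans (min_le_right _ _)
  have hη1c : η1 ≤ Mr := by rw [hη1def]; exact min_le_right _ _
  have hη1a' : η1 * (1 + 2 * (N : ℝ)) ≤ χ1 / 4 := by
    rw [le_div_iff₀ (by positivity)] at hη1a
    linarith
  have hη1d : η1 ≤ χ1 / 4 := by
    have : η1 * 1 ≤ η1 * (1 + 2 * (N : ℝ)) := mul_le_mul_of_nonneg_left (by linarith) hη1.le
    linarith
  obtain ⟨k1, hk1⟩ := exists_nat_ge (4 * ((N : ℝ) * R + 1) / (χ1 * R))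
  obtain ⟨k2, hk2⟩ := exists_nat_ge (72 / (χ1 ^ 2 * R * Real.log 2))
  obtain ⟨k3, hk3⟩ := exists_nat_ge (4 / η)
  obtain ⟨k4, hk4⟩ := exists_nat_ge (16 / (η ^ 2 * Real.log 2))
  refine ⟨N, R, η1, max (max n₁ 1) (max (max k1 k2) (max k3 k4)), hN1, hR1, hη1,
    fun m0 hm Ω α₁ α₂ β' δ' ζ' _ P E pt g Wq Y Tg D Zx a b θ c H => ?_⟩
  have hmn : n₁ ≤ m0 := ((le_max_left _ _).trans (le_max_left _ _)).trans hm
  have hm1 : 1 ≤ m0 := ((le_max_right _ _).trans (le_max_left _ _)).trans hm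
  have hmk1 : (k1 : ℝ) ≤ m0 := by
    exact_mod_cast ((le_max_left _ _).trans ((le_max_left _ _).trans (le_max_right _ _))).trans hm
  have hmk2 : (k2 : ℝ) ≤ m0 := by
    exact_mod_cast ((le_max_right _ _).trans ((le_max_left _ _).trans (le_max_right _ _))).trans hm
  have hmk3 : (k3 : ℝ) ≤ m0 := by
    exact_mod_cast ((le_max_left _ _).trans ((le_max_right _ _).trans (le_max_right _ _))).trans hm
  have hmk4 : (k4 : ℝ) ≤ m0 := by
    exact_mod_cast ((le_max_right _ _).trans ((le_max_right _ _).trans (le_max_right _ _))).trans hm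
  have hm1r : (1 : ℝ) ≤ m0 := by exact_mod_cast hm1
  by_cases hE : η ≤ P.pr E
  swap
  · push Not at hE
    exact (ent_pr_mono P fun ω _ h => h.1).trans hE.le
  obtain ⟨T1, T2, T3, T4, T5⟩ := it_b_num_T hL hNr hRr hm1r H.th.1 H.th.2
  obtain ⟨B, hB⟩ : ∃ B : ℝ, B = R * m0 * Real.log 2 := ⟨_, rfl⟩
  obtain ⟨T, hT⟩ : ∃ T : ℝ, T = N * R * θ := ⟨_, rfl⟩
  rw [← hB, ← hT] at T1 T2 T3 T4
  rw [← hT] at T5
  have hB0 : 0 < B := by rw [hB]; positivity
  have hT0 : 0 < T := hB0.trans_le T4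
  have q1 : ((N : ℝ) * R + 1) * Real.log 2 ≤ χ1 * B / 4 := by
    have h1 := hk1.trans hmk1
    rw [div_le_iff₀ (by positivity)] at h1
    have h2 := mul_le_mul_of_nonneg_right h1 hL.le
    rw [hB]
    linarith
  have q2 : 72 ≤ χ1 ^ 2 * B := by
    have h1 := hk2.trans hmk2
    rw [div_le_iff₀ (by positivity)] at h1
    rw [hB]
    linarith
  have q3 : (N : ℝ) * R * Real.log 2 ≤ η * T / 4 := by
    have h1 := hk3.trans hmk3
    rw [div_le_iff₀ hη] at h1
    have h2 : (N : ℝ) * R * Real.log 2 * 4 ≤ N * R * Real.log 2 * (m0 * η) :=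
      mul_le_mul_of_nonneg_left h1 (by positivity)
    have h3 : η * (N * B) ≤ η * T := mul_le_mul_of_nonneg_left T1 hη.le
    rw [hB] at h3
    linarith
  have q4 : 16 ≤ η ^ 2 * T := by
    have h1 := hk4.trans hmk4
    rw [div_le_iff₀ (by positivity)] at h1
    have h3 : η ^ 2 * (m0 * Real.log 2) ≤ η ^ 2 * T := mul_le_mul_of_nonneg_left T5 (by positivity)
    linarith
  have hη1T : η1 * B + η1 * T ≤ χ1 * B / 4 := by
    have h1 : η1 * T ≤ η1 * (2 * N * B) := mul_le_mul_of_nonneg_left T3 hη1.le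
    have h2 : η1 * (1 + 2 * (N : ℝ)) * B ≤ χ1 / 4 * B := mul_le_mul_of_nonneg_right hη1a' hB0.le
    linarith
  have hcast : ((R * m0 : ℕ) : ℝ) = R * m0 := by push_cast; ring
  have hdiv : ∀ e : ℝ, e ≤ 1 → χ1 + e / R ≤ χ := by
    intro e he
    have : e / R ≤ 1 / R := div_le_div_of_nonneg_right he (by linarith)
    linarith
  have key := it_b_core P E pt g Wq Y Tg D Zx a b A Mr γ η1 θ c N R m0 H η (η / 4) χ χ1 (χ1 * B / 12) (η * T / 4)
    hN1 hR1 hMr hγ hη1.le hη1c hχ1.le (hdiv Mr hMr1) (hdiv γ hγ1) (by linarith) (it_b_num_3 hχ1 hB0 hη1d q2)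
    (by
      rw [← hT, ← hB]
      have : χ1 * (R * m0) * Real.log 2 = χ1 * B := by rw [hB]; ring
      rw [this]
      linarith)
    (by
      rw [← hT, hcast]
      have : χ * (R * m0) * Real.log 2 = χ * B := by rw [hB]; ring
      rw [this]
      have h1 : χ1 * B ≤ χ / 4 * B := mul_le_mul_of_nonneg_right hχ1le hB0.le
      have h2 : 0 ≤ η1 * B := by positivity
      have h3 : 0 ≤ χ * B := by positivity
      linarith)
    (by
      rw [← hT, hcast, add_comm γ Mr]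
      have : (min 1 (Mr + γ) - η / 4) * (N * (R * m0)) * Real.log 2 = (min 1 (Mr + γ) - η / 4) * (N * B) := by
        rw [hB]; ring
      rw [this]
      exact it_b_num_6 hη (min_le_left _ _) hη1b hT0.le T1 T2 q3)
    (it_b_num_7 hη hT0 q4)
    (fun hyp => H1 (R * m0) (hmn.trans (Nat.le_mul_of_pos_left m0 hR1)) Ω δ' β' _ P E pt g D Tg _ hE hyp)
  exact key

end Claimed.Agent.R256
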