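import Claimed.Agent.R256.Int.BoostA
import Claimed.Agent.R256.Int.RadTan
import Claimed.Agent.R256.Int.Sym

/-!
# Row 256, Sec. 5, block BOOST, file B: the TANGENT DICTIONARY for `it_b_abs`.      (architect helper149; prefix `it_b_`)

Layer `p < q`, `t = q - p`, mesh `n = N R`, `θ = t L / n`, `m0 = ⌊θ / log 2⌋`, `lp = tlev δ p`.
* `T.sv p U`       value of the reading with the symbol `U`;  `T.bpt p u1 u2 = 2^lp (sv u1, sv u2)` the rescaled planar source (bounded by `6 A0`).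
* levels           `a k = tlev δ (itS p q n k) - lp`, `b k = tlev δ (t k / n)`.
* names            `Wq = rd p q [w]`, `Y = (rd p q V, base M p)`, `Tg = mrk j`, `D = ((rd p q V, F_p), (Ξ∖j, C_*))`, `Zx = (Zs, Ξ∖j)`.
-/

set_option autoImplicit false

namespace Claimed.Agent.R256

open Claimed.Agent.R255
open Claimed.Agent.R255.FLaw (pair)
open scoped BigOperators
open Classical

/-- value of the reading with the symbol `U` on the layer with parent depth `p` -/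
noncomputable def Tan.sv (T : Tan) (p : ℝ) (U : ItSym) : T.Ω → ℝ := fun ω => itVal (T.fld p U ω) (T.F ω) (T.f0 p ω)

/-- the rescaled planar source -/
noncomputable def Tan.bpt (T : Tan) (p : ℝ) (u1 u2 : ItSym) : T.Ω → ℝ × ℝ :=
  fun ω => (T.sv p u1 ω * 2 ^ tlev T.δ p, T.sv p u2 ω * 2 ^ tlev T.δ p)

theorem it_b_defs_eqns_cite : True := by
  have := @Tan.sv.eq_1; have := @Tan.bpt.eq_1
  trivial

variable (T : Tan)

theorem it_b_f0_of_Fn {p : ℝ} {ω ω' : T.Ω} (h : T.Fn p ω = T.Fn p ω') : T.f0 p ω = T.f0 p ω' := by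
  simp only [Tan.Fn, itF, Prod.mk.injEq] at h
  obtain ⟨⟨h1, h2, h3⟩, h4, h5, h6⟩ := h
  simp only [Tan.f0, itR, trep, h1, h2, h3, h4, h5, h6]

theorem it_b_msh_le_one (δ p : ℝ) : msh δ p ≤ 1 := by
  unfold msh
  rw [div_le_one (by positivity)]
  exact one_le_pow₀ one_le_two

theorem it_b_box (a : ItPar) (pk : ItPk) (h : T.Adm0 a pk) (p : ℝ) {ω : T.Ω} (hω : T.P.p ω ≠ 0) :
    (T.f0 p ω).nrm ≤ a.B0 + 1 ∧ itBoxM pk.M (a.B0 + 1) (fun i => T.mrk i ω) := by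
  constructor
  · obtain ⟨b1, b2, b3, b4, b5, b6⟩ := (it_s_nrm_le _ _).1 (h.bdF ω hω)
    have key : ∀ x : ℝ, |x| ≤ a.B0 → |trep T.δ p x| ≤ a.B0 + 1 := by
      intro x hx
      have d := (it_k_aux_rep_dist T.δ p x).trans (it_b_msh_le_one T.δ p)
      rw [abs_le] at d hx ⊢
      constructor <;> linarith [d.1, d.2, hx.1, hx.2]
    exact (it_s_nrm_le _ _).2 ⟨key _ b1, key _ b2, key _ b3, key _ b4, key _ b5, key _ b6⟩
  · intro i hi
    obtain ⟨c1, c2, c3⟩ := h.bdM ω hω i hi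
    exact ⟨by linarith, by linarith, by linarith⟩

theorem it_b_fld_bd (a : ItPar) (pk : ItPk) (h : T.Adm0 a pk) (p A0 : ℝ) (U : ItSym) (hU : U.Reg pk.M a.B0 A0)
    {ω : T.Ω} (hω : T.P.p ω ≠ 0) : (T.fld p U ω).nrm ≤ A0 :=
  hU.bd _ _ (it_b_box T a pk h p hω).1 (it_b_box T a pk h p hω).2

theorem it_b_XiE {M j : ℕ} {ω ω' : T.Ω} (h : T.XiE M j ω = T.XiE M j ω') : ∀ i < M, i ≠ j → T.mrk i ω = T.mrk i ω' := by
  intro i hi hij
  have := congrFun h ⟨i, hi⟩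
  simpa [Tan.XiE, hij] using this

theorem it_b_Xi_iff {M j : ℕ} (hj : j < M) (ω ω' : T.Ω) :
    T.Xi M ω = T.Xi M ω' ↔ T.mrk j ω = T.mrk j ω' ∧ T.XiE M j ω = T.XiE M j ω' := by
  constructor
  · intro h
    have h' : ∀ i : Fin M, T.mrk i ω = T.mrk i ω' := fun i => congrFun h i
    refine ⟨h' ⟨j, hj⟩, funext fun i => ?_⟩
    simp only [Tan.XiE, h' i]
  · rintro ⟨h1, h2⟩
    funext i
    by_cases hij : (i : ℕ) = j
    · simp only [Tan.Xi, hij, h1]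
    · exact it_b_XiE T h2 i i.2 hij

theorem it_b_Xi {M : ℕ} {ω ω' : T.Ω} (h : T.Xi M ω = T.Xi M ω') : ∀ i < M, T.mrk i ω = T.mrk i ω' :=
  fun i hi => congrFun h ⟨i, hi⟩

theorem it_b_fld_dep {M : ℕ} {B0 A0 p : ℝ} (U : ItSym) (hU : U.Reg M B0 A0) {ω ω' : T.Ω} (h0 : T.f0 p ω = T.f0 p ω')
    (h : ∀ i < M, T.mrk i ω = T.mrk i ω') : T.fld p U ω = T.fld p U ω' := by
  unfold Tan.fld
  rw [h0]
  exact hU.dep _ _ _ h

theorem it_b_fld_free {M j : ℕ} {B0 A0 p : ℝ} (U : ItSym) (hU : U.Reg M B0 A0) (hF : U.Free j) {ω ω' : T.Ω}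
    (h0 : T.f0 p ω = T.f0 p ω') (h : T.XiE M j ω = T.XiE M j ω') : T.fld p U ω = T.fld p U ω' := by
  unfold Tan.fld
  rw [h0]
  have e1 : U (T.f0 p ω') (fun i => T.mrk i ω) = U (T.f0 p ω') (fun i => if i = j then T.mrk j ω' else T.mrk i ω) :=
    hF _ _ _ fun i hi => by simp [hi]
  rw [e1]
  refine hU.dep _ _ _ fun i hi => ?_
  by_cases hij : i = j
  · simp [hij]
  · simp only [hij, if_false]
    exact it_b_XiE T h i hi hij

/-- cells of depth `s ≥ p` are cells of the rescaled value -/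
theorem it_b_cell {δ : ℝ} (h0 : 0 < δ) (h1 : δ < 1) {p s : ℝ} (hps : p ≤ s) (x : ℝ) :
    tcell δ s x = icCell (tlev δ s - tlev δ p) (x * 2 ^ tlev δ p) := by
  have hl := ig_lev_mono δ p s h0 h1 hps
  unfold tcell icCell
  rw [mul_assoc, ← pow_add, Nat.add_sub_cancel' hl]

theorem it_b_sv_bd (a : ItPar) (pk : ItPk) (h : T.Adm0 a pk) (p A0 : ℝ) (U : ItSym) (hU : U.Reg pk.M a.B0 A0)
    {ω : T.Ω} (hω : T.P.p ω ≠ 0) : |T.sv p U ω * 2 ^ tlev T.δ p| ≤ 6 * |A0| := by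
  have hb := it_k_aux_val_bd T.δ p |A0| (abs_nonneg _) (T.fld p U ω) (T.F ω) ((it_b_fld_bd T a pk h p A0 U hU hω).trans (le_abs_self _))
  have e : msh T.δ p * 2 ^ tlev T.δ p = 1 := by
    unfold msh
    field_simp
  have hp : (0 : ℝ) < 2 ^ tlev T.δ p := by positivity
  rw [abs_mul, abs_of_pos hp]
  calc |T.sv p U ω| * 2 ^ tlev T.δ p ≤ (6 * |A0| * msh T.δ p) * 2 ^ tlev T.δ p := mul_le_mul_of_nonneg_right hb hp.le
    _ = 6 * |A0| := by rw [mul_assoc, e, mul_one]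

/-- two points of the same fine phase cell, with the same covector -/
theorem it_b_close (a : ItPar) (pk : ItPk) (h : T.Adm0 a pk) (p K A0 : ℝ) (hpK : p ≤ K) (j : ℕ) (U : ItSym)
    (hU : U.Reg pk.M a.B0 A0) (hF : U.Free j) {ω ω' : T.Ω} (hω : T.P.p ω ≠ 0) (hK : T.Fn K ω = T.Fn K ω')
    (hX : T.XiE pk.M j ω = T.XiE pk.M j ω') : |T.sv p U ω - T.sv p U ω'| ≤ 6 * |A0| * msh T.δ K := by
  have hp := it_k_aux_Fn_nest T h.δ0 h.δ1 hpK hK
  have h0 := it_b_f0_of_Fn T hp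
  have hf := it_b_fld_free T U hU hF h0 hX
  have hb := (it_b_fld_bd T a pk h p A0 U hU hω).trans (le_abs_self _)
  obtain ⟨n1, n2, n3, n4, n5, n6⟩ := it_k_aux_nrm_le (T.fld p U ω)
  simp only [Tan.Fn, itF, Prod.mk.injEq] at hK
  obtain ⟨⟨k1, k2, k3⟩, k4, k5, k6⟩ := hK
  have hA := abs_nonneg A0
  have t1 := it_k_aux_term (n1.trans hb) hA (it_k_aux_cell_dist k1)
  have t2 := it_k_aux_term (n2.trans hb) hA (it_k_aux_cell_dist k2)
  have t3 := it_k_aux_term (n3.trans hb) hA (it_k_aux_cell_dist k3)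
  have t4 := it_k_aux_term (n4.trans hb) hA (it_k_aux_cell_dist k4)
  have t5 := it_k_aux_term (n5.trans hb) hA (it_k_aux_cell_dist k5)
  have t6 := it_k_aux_term (n6.trans hb) hA (it_k_aux_cell_dist k6)
  have e : T.sv p U ω - T.sv p U ω' = (T.fld p U ω).X * ((T.F ω).X - (T.F ω').X) + (T.fld p U ω).B * ((T.F ω).B - (T.F ω').B)
      + (T.fld p U ω).P * ((T.F ω).P - (T.F ω').P) + (T.fld p U ω).Y * ((T.F ω).Y - (T.F ω').Y)
      + (T.fld p U ω).N * ((T.F ω).N - (T.F ω').N) + (T.fld p U ω).D * ((T.F ω).D - (T.F ω').D) := by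
    unfold Tan.sv itVal
    rw [← hf, ← h0]
    ring
  rw [e]
  rw [abs_le] at t1 t2 t3 t4 t5 t6
  exact abs_le.2 ⟨by linarith [t1.1, t2.1, t3.1, t4.1, t5.1, t6.1], by linarith [t1.2, t2.2, t3.2, t4.2, t5.2, t6.2]⟩

/-- levels of the mesh -/
theorem it_b_levels {δ : ℝ} (h0 : 0 < δ) (h1 : δ < 1) {p t θ : ℝ} (hp : 0 ≤ p) (ht : 0 < t) {n m0 : ℕ} (hn : 0 < n)
    (hθ : θ = t * lg δ / n) (hm : m0 * Real.log 2 ≤ θ ∧ θ ≤ (m0 + 1) * Real.log 2) (k : ℕ) :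
    (k * m0 ≤ tlev δ (p + t * k / n) - tlev δ p ∧ tlev δ (p + t * k / n) - tlev δ p ≤ k * m0 + (k + 1)) ∧
    (k * m0 ≤ tlev δ (t * k / n) ∧ tlev δ (t * k / n) ≤ k * m0 + (k + 1)) := by
  have hl : 0 < Real.log 2 := Real.log_pos one_lt_two
  have hnr : (0 : ℝ) < n := by exact_mod_cast hn
  have hk : (0 : ℝ) ≤ k := Nat.cast_nonneg _
  have hu : 0 ≤ t * k / n := by positivity
  have eu : t * k / n * lg δ = k * θ := by rw [hθ]; field_simp
  have lo : (k : ℝ) * m0 * Real.log 2 ≤ k * θ := by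
    rw [mul_assoc]; exact mul_le_mul_of_nonneg_left hm.1 hk
  have hi : (k : ℝ) * θ ≤ (k * m0 + k) * Real.log 2 := by
    have := mul_le_mul_of_nonneg_left hm.2 hk
    linarith
  obtain ⟨b1, b2⟩ := it_r_lev δ (t * k / n) h0 h1 hu
  obtain ⟨s1, s2⟩ := it_r_lev δ (p + t * k / n) h0 h1 (by positivity)
  obtain ⟨p1, p2⟩ := it_r_lev δ p h0 h1 hp
  rw [eu] at b1 b2
  rw [add_mul, eu] at s1 s2
  have hmono := ig_lev_mono δ p (p + t * k / n) h0 h1 (by linarith)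
  obtain ⟨A, hA⟩ : ∃ A, A = tlev δ (p + t * k / n) - tlev δ p := ⟨_, rfl⟩
  have hAr : (A : ℝ) = (tlev δ (p + t * k / n) : ℝ) - tlev δ p := by rw [hA, Nat.cast_sub hmono]
  rw [← hA]
  refine ⟨⟨?_, ?_⟩, ?_, ?_⟩
  · have : ((k * m0 : ℕ) : ℝ) < (A : ℝ) + 1 := by
      push_cast
      refine lt_of_mul_lt_mul_right ?_ hl.le
      rw [hAr]
      nlinarith
    have h2 : k * m0 < A + 1 := by exact_mod_cast this
    omega
  · have : (A : ℝ) < ((k * m0 + (k + 1) : ℕ) : ℝ) := by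
      push_cast
      refine lt_of_mul_lt_mul_right ?_ hl.le
      rw [hAr]
      nlinarith
    have h2 : A < k * m0 + (k + 1) := by exact_mod_cast this
    omega
  · have : ((k * m0 : ℕ) : ℝ) ≤ (tlev δ (t * k / n) : ℝ) := by
      push_cast
      refine le_of_mul_le_mul_right ?_ hl
      linarith
    exact_mod_cast this
  · have : (tlev δ (t * k / n) : ℝ) < ((k * m0 + (k + 1) : ℕ) : ℝ) := by
      push_cast
      refine lt_of_mul_lt_mul_right ?_ hl.le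
      nlinarith
    have h2 : tlev δ (t * k / n) < k * m0 + (k + 1) := by exact_mod_cast this
    omega

/-- the fine phase name and the other records read every cell of level `e ≤ tlev δ K` of a reading free of `j` -/
theorem it_b_nval_lev (a : ItPar) (pk : ItPk) (h : T.Adm0 a pk) (p K A0 : ℝ) (hpK : p ≤ K) (j : ℕ) (U : ItSym)
    (hU : U.Reg pk.M a.B0 A0) (hF : U.Free j) (e : ℕ) (he : e ≤ tlev T.δ K) :
    T.P.NVal (fun _ => True) (fun ω => ⌊T.sv p U ω * 2 ^ e⌋) (pair (T.Fn K) (pair (T.XiE pk.M j) T.Cs)) (6 * |A0| + 2) := by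
  have hm := ig_msh_pos T.δ K
  have hc := ltk_nval_close T.P (fun _ => True) (pair (T.Fn K) (pair (T.XiE pk.M j) T.Cs)) (T.sv p U) e
    (R := 6 * |A0| * msh T.δ K) (by positivity) (fun ω ω' hω _ _ _ hA => by
      simp only [FLaw.pair, Prod.mk.injEq] at hA
      exact it_b_close T a pk h p K A0 hpK j U hU hF hω hA.1 hA.2.1)
  refine ltk_nval_mono T.P hc (fun _ h => h) (fun _ _ h => h) ⟨id, fun _ => rfl⟩ ?_
  have e1 : msh T.δ K * 2 ^ e ≤ 1 := by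
    unfold msh
    rw [one_div, inv_mul_le_iff₀ (by positivity), mul_one]
    exact pow_le_pow_right₀ one_le_two he
  have : 6 * |A0| * msh T.δ K * 2 ^ e = 6 * |A0| * (msh T.δ K * 2 ^ e) := by ring
  rw [this]
  have := mul_le_mul_of_nonneg_left e1 (by positivity : (0 : ℝ) ≤ 6 * |A0|)
  linarith

theorem it_b_nval_list (a : ItPar) (pk : ItPk) (h : T.Adm0 a pk) (p q K A0 : ℝ) (hpK : p ≤ K) (hqK : q ≤ K) (j : ℕ) (V : List ItSym)
    (hV : ∀ v ∈ V, ItSym.Reg v pk.M a.B0 A0 ∧ ItSym.Free v j) :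
    T.P.NVal (fun _ => True) (T.rd p q (V.map (T.fld p))) (pair (T.Fn K) (pair (T.XiE pk.M j) T.Cs))
      ((6 * |A0| + 2) ^ V.length) := by
  have hpos : (0 : ℝ) ≤ 6 * |A0| + 2 := by positivity
  induction V with
  | nil =>
    intro ω₀
    exact ⟨{[]}, by simp, fun ω _ _ _ => by simp [Tan.rd]⟩
  | cons v V' ih =>
    have h1 := ih fun v hv => hV v (List.mem_cons_of_mem _ hv)
    have h2 := it_b_nval_lev T a pk h p K A0 hpK j v (hV v List.mem_cons_self).1 (hV v List.mem_cons_self).2 (tlev T.δ q)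
      (ig_lev_mono T.δ q K h.δ0 h.δ1 hqK)
    have h3 := ltk_nval_mono T.P (A' := pair (T.rd p q (V'.map (T.fld p))) (pair (T.Fn K) (pair (T.XiE pk.M j) T.Cs)))
      h2 (fun _ h => h) (fun ω ω' h => (Prod.ext_iff.1 h).2) ⟨id, fun _ => rfl⟩ le_rfl
    have h4 := ltk_nval_comp T.P (fun _ => True) _ _ _ hpos h1 h3
    refine ltk_nval_mono T.P h4 (fun _ h => h) (fun _ _ h => h) ⟨fun x => x.1 :: x.2, fun ω => ?_⟩ ?_
    · simp [Tan.rd, FLaw.pair, Tan.sv, tcell]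
    · rw [List.length_cons, pow_succ]

/-- INFORMATION BUDGET of the boost -/
theorem it_b_inf (a : ItPar) (pk : ItPk) (acc : ℝ) (h : T.Adm0 a pk) (hI : T.AdmI a pk acc) (p q A0 : ℝ) (hpq : p ≤ q)
    (hqK : q ≤ pk.K) (j : ℕ) (hj : j < pk.M) (u1 u2 : ItSym) (V : List ItSym) (hu1 : u1.Reg pk.M a.B0 A0)
    (hu2 : u2.Reg pk.M a.B0 A0) (f1 : u1.Free j) (f2 : u2.Free j)
    (hV : ∀ v ∈ V, ItSym.Reg v pk.M a.B0 A0 ∧ ItSym.Free v j) (hVl : V.length ≤ 6) (l : ℕ)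
    (hl : l ≤ tlev T.δ q - tlev T.δ p) :
    T.P.miC (icQ (T.bpt p u1 u2) l) (T.mrk j)
      (pair (pair (T.rd p q (V.map (T.fld p))) (T.Fn p)) (pair (T.XiE pk.M j) T.Cs))
      ≤ acc * T.L + 8 * Real.log (6 * |A0| + 2) := by
  obtain ⟨c, hc⟩ : ∃ c, c = 6 * |A0| + 2 := ⟨_, rfl⟩
  have hc2 : 2 ≤ c := by rw [hc]; have := abs_nonneg A0; linarith
  have hc0 : 0 ≤ c := by linarith
  rw [← hc]
  have hpK : p ≤ pk.K := hpq.trans hqK
  obtain ⟨D0, hD0⟩ : ∃ D0, D0 = pair (T.XiE pk.M j) T.Cs := ⟨_, rfl⟩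
  obtain ⟨A, hA⟩ : ∃ A, A = pair (T.rd p q (V.map (T.fld p))) (T.Fn p) := ⟨_, rfl⟩
  obtain ⟨X, hX⟩ : ∃ X, X = icQ (T.bpt p u1 u2) l := ⟨_, rfl⟩
  rw [← hD0, ← hA, ← hX]
  -- levels
  have hlev : tlev T.δ p + l ≤ tlev T.δ pk.K := by
    have m1 := ig_lev_mono T.δ p q h.δ0 h.δ1 hpq
    have m2 := ig_lev_mono T.δ q pk.K h.δ0 h.δ1 hqK
    omega
  -- the list
  have n1 := it_b_nval_list T a pk h p q pk.K A0 hpK hqK j V hV
  have n2 := it_b_nval_lev T a pk h p pk.K A0 hpK j u1 hu1 f1 _ hlev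
  have n3 := it_b_nval_lev T a pk h p pk.K A0 hpK j u2 hu2 f2 _ hlev
  have n4 : T.P.NVal (fun _ => True) (T.Fn p) (pair (T.Fn pk.K) (pair (T.XiE pk.M j) T.Cs)) 1 := by
    intro ω₀
    refine ⟨{T.Fn p ω₀}, by simp, fun ω _ _ hh => ?_⟩
    simp only [FLaw.pair, Prod.mk.injEq] at hh
    exact Finset.mem_singleton.2 (it_k_aux_Fn_nest T h.δ0 h.δ1 hpK hh.1)
  rw [← hc, ← hD0] at n1 n2 n3
  rw [← hD0] at n4
  have c1 := ltk_nval_comp T.P (fun _ => True) _ _ _ hc0 n1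
    (ltk_nval_mono T.P n2 (fun _ h => h) (fun ω ω' h => (Prod.ext_iff.1 h).2) ⟨id, fun _ => rfl⟩ le_rfl)
  have c2 := ltk_nval_comp T.P (fun _ => True) _ _ _ hc0 c1
    (ltk_nval_mono T.P n3 (fun _ h => h) (fun ω ω' h => (Prod.ext_iff.1 h).2) ⟨id, fun _ => rfl⟩ le_rfl)
  have c3 := ltk_nval_comp T.P (fun _ => True) _ _ _ zero_le_one c2
    (ltk_nval_mono T.P n4 (fun _ h => h) (fun ω ω' h => (Prod.ext_iff.1 h).2) ⟨id, fun _ => rfl⟩ le_rfl)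
  have c4 : T.P.NVal (fun _ => True) (pair X A) (pair (T.Fn pk.K) D0) (c ^ 8) := by
    refine ltk_nval_mono T.P c3 (fun _ h => h) (fun _ _ h => h)
      ⟨fun x => ((x.2.2.1, x.2.1), (x.2.2.2, x.1)), fun ω => ?_⟩ ?_
    · rw [hX, hA]
      simp only [FLaw.pair, icQ, icCell, Tan.bpt, mul_assoc, ← pow_add, id]
    · have : c ^ V.length ≤ c ^ 6 := pow_le_pow_right₀ (by linarith) hVl
      calc c ^ V.length * c * c * 1 ≤ c ^ 6 * c * c * 1 := by gcongr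
        _ = c ^ 8 := by ring
  have e1 : T.P.entC (pair X A) (pair (T.Fn pk.K) D0) ≤ 8 * Real.log c := by
    have := ent_entC_le_log_nval T.P _ _ c4
    rwa [Real.log_pow] at this
  -- chain rules
  have k1 := ent_miC_chain T.P (T.mrk j) X A D0
  have k1' := ent_miC_nonneg T.P (T.mrk j) A D0
  have k2 : T.P.miC (T.mrk j) (pair X A) D0 ≤ T.P.miC (T.mrk j) (pair (pair X A) (T.Fn pk.K)) D0 :=
    ent_miC_mono T.P _ _ _ _ fun ω ω' _ _ hh _ => (Prod.ext_iff.1 hh).1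
  have k3 := ent_miC_chain T.P (T.mrk j) (pair X A) (T.Fn pk.K) D0
  have k4 := ent_miC_le_right T.P (T.mrk j) (pair X A) (pair (T.Fn pk.K) D0)
  have k5 := ent_miC_chain T.P (T.Fn pk.K) (T.mrk j) (T.XiE pk.M j) T.Cs
  have k5' := ent_miC_nonneg T.P (T.Fn pk.K) (T.XiE pk.M j) T.Cs
  have k6 : T.P.miC (T.Fn pk.K) (pair (T.mrk j) (T.XiE pk.M j)) T.Cs = T.P.miC (T.Fn pk.K) (T.Xi pk.M) T.Cs := by
    refine it_k_aux_miC_congr T.P _ _ _ _ _ _ (fun _ _ => Iff.rfl) (fun ω ω' => ?_) (fun _ _ => Iff.rfl)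
    rw [it_b_Xi_iff T hj]
    simp only [FLaw.pair, Prod.mk.injEq]
  have k7 := hI.vb
  rw [ent_miC_comm T.P X (T.mrk j)]
  rw [ent_miC_comm T.P (T.mrk j) (T.Fn pk.K) D0] at k3
  rw [← hD0] at k5
  linarith

theorem it_b_sv_w (p : ℝ) (u1 u2 w : ItSym) (al be : ItPh → (ℕ → ItMk) → ℝ)
    (hw : ∀ f Ξ x, itDot (w f Ξ) x = al f Ξ * itDot (u2 f Ξ) x - be f Ξ * itDot (u1 f Ξ) x) (ω : T.Ω) :
    T.sv p w ω = al (T.f0 p ω) (fun i => T.mrk i ω) * T.sv p u2 ω - be (T.f0 p ω) (fun i => T.mrk i ω) * T.sv p u1 ω := by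
  unfold Tan.sv
  rw [it_k_aux_val_dot, it_k_aux_val_dot, it_k_aux_val_dot]
  exact hw _ _ _

/-- the intercept is the value of the projection divided by `al` -/
theorem it_b_icW (p : ℝ) (u1 u2 w : ItSym) (al be : ItPh → (ℕ → ItMk) → ℝ)
    (hw : ∀ f Ξ x, itDot (w f Ξ) x = al f Ξ * itDot (u2 f Ξ) x - be f Ξ * itDot (u1 f Ξ) x) (ω : T.Ω)
    (h0 : al (T.f0 p ω) (fun i => T.mrk i ω) ≠ 0) :
    icW (T.bpt p u1 u2) (fun ω => be (T.f0 p ω) (fun i => T.mrk i ω) / al (T.f0 p ω) (fun i => T.mrk i ω)) ω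
      = T.sv p w ω * 2 ^ tlev T.δ p / al (T.f0 p ω) (fun i => T.mrk i ω) := by
  rw [it_b_sv_w T p u1 u2 w al be hw ω]
  simp only [icW, Tan.bpt]
  field_simp

/-- THE FINE PROJECTION LISTS THE INTERCEPT CELL -/
theorem it_b_lst (pk : ItPk) (h0 : 0 < T.δ) (h1 : T.δ < 1) (p q σ : ℝ) (hpq : p ≤ q) (hσ : 0 < σ) (u1 u2 w : ItSym)
    (V : List (T.Ω → ItPh)) (al be : ItPh → (ℕ → ItMk) → ℝ)
    (hdep : ∀ f Ξ Ξ', (∀ i < pk.M, Ξ i = Ξ' i) → al f Ξ = al f Ξ' ∧ be f Ξ = be f Ξ')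
    (hw : ∀ f Ξ x, itDot (w f Ξ) x = al f Ξ * itDot (u2 f Ξ) x - be f Ξ * itDot (u1 f Ξ) x)
    (E : T.Ω → Prop) (hE : ∀ ω, E ω → σ ≤ |al (T.f0 p ω) (fun i => T.mrk i ω)|) (l : ℕ)
    (hl : l ≤ tlev T.δ q - tlev T.δ p) :
    T.P.NVal E (icU (T.bpt p u1 u2) (fun ω => be (T.f0 p ω) (fun i => T.mrk i ω) / al (T.f0 p ω) (fun i => T.mrk i ω)) l)
      (pair (T.rd p q [T.fld p w]) (pair (T.rd p q V) (T.base pk.M p))) (1 / σ + 2) := by
  have hm := ig_msh_pos T.δ q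
  have hc := ltk_nval_close T.P E (pair (T.rd p q [T.fld p w]) (pair (T.rd p q V) (T.base pk.M p)))
    (icW (T.bpt p u1 u2) (fun ω => be (T.f0 p ω) (fun i => T.mrk i ω) / al (T.f0 p ω) (fun i => T.mrk i ω))) l
    (R := msh T.δ q * 2 ^ tlev T.δ p / σ) (by positivity) (fun ω ω' _ _ hEω hEω' hA => by
      simp only [FLaw.pair, Prod.mk.injEq, Tan.base, Tan.Dd] at hA
      obtain ⟨hW, _, hF, _, hX⟩ := hA
      have f0e := it_b_f0_of_Fn T hF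
      have hal : al (T.f0 p ω) (fun i => T.mrk i ω) = al (T.f0 p ω') (fun i => T.mrk i ω') := by
        rw [f0e]; exact (hdep _ _ _ (it_b_Xi T hX)).1
      have s1 := hE ω hEω
      have a0 : al (T.f0 p ω) (fun i => T.mrk i ω) ≠ 0 := fun e => by rw [e, abs_zero] at s1; linarith
      rw [it_b_icW T p u1 u2 w al be hw ω a0, it_b_icW T p u1 u2 w al be hw ω' (hal ▸ a0), ← hal, ← sub_div, ← sub_mul,
        abs_div, abs_mul, abs_of_pos (by positivity : (0 : ℝ) < 2 ^ tlev T.δ p)]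
      have hcell : tcell T.δ q (T.sv p w ω) = tcell T.δ q (T.sv p w ω') := by
        simpa [Tan.rd, Tan.sv] using hW
      have d := it_k_aux_cell_dist hcell
      have apos : 0 < |al (T.f0 p ω) (fun i => T.mrk i ω)| := lt_of_lt_of_le hσ s1
      calc |T.sv p w ω - T.sv p w ω'| * 2 ^ tlev T.δ p / |al (T.f0 p ω) (fun i => T.mrk i ω)|
          ≤ msh T.δ q * 2 ^ tlev T.δ p / |al (T.f0 p ω) (fun i => T.mrk i ω)| := by gcongr
        _ ≤ msh T.δ q * 2 ^ tlev T.δ p / σ := by gcongr)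
  refine ltk_nval_mono T.P hc (fun _ h => h) (fun _ _ h => h) ⟨id, fun _ => rfl⟩ ?_
  have hmono := ig_lev_mono T.δ p q h0 h1 hpq
  have e1 : msh T.δ q * 2 ^ tlev T.δ p * 2 ^ l ≤ 1 := by
    unfold msh
    rw [mul_assoc, ← pow_add, one_div, inv_mul_le_iff₀ (by positivity), mul_one]
    exact pow_le_pow_right₀ one_le_two (by omega)
  have : msh T.δ q * 2 ^ tlev T.δ p / σ * 2 ^ l = (msh T.δ q * 2 ^ tlev T.δ p * 2 ^ l) / σ := by ring
  rw [this]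
  have : (msh T.δ q * 2 ^ tlev T.δ p * 2 ^ l) / σ ≤ 1 / σ := by gcongr
  linarith

theorem it_b_nval_supp {Ω α β : Type} [Fintype Ω] (P P' : FLaw Ω) (h : ∀ ω, P'.p ω ≠ 0 → P.p ω ≠ 0) {E : Ω → Prop} {B : Ω → β}
    {A : Ω → α} {N : ℝ} (hn : P.NVal E B A N) : P'.NVal E B A N := by
  intro ω₀
  obtain ⟨S, hS, hm⟩ := hn ω₀
  exact ⟨S, hS, fun ω hω => hm ω (h ω hω)⟩

/-- THE DICTIONARY, general form: ANY law `P'` carried by the support of `T.P` (e.g. `T.P.cnd E`), ANY event `E` on which `|be| ≤ A0 |al|`, `σ ≤ |al|`;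
the three quantitative fields `res`, `slo`, `inf` are hypotheses. -/
theorem it_b_hyp_gen (a : ItPar) (pk : ItPk) (h : T.Adm0 a pk) (P' : FLaw T.Ω) (hP' : ∀ ω, P'.p ω ≠ 0 → T.P.p ω ≠ 0)
    (p q A0 Mr γ η1 σ θ : ℝ) (hp : 0 < p) (hpq : p < q) (N R m0 : ℕ) (hN : 1 ≤ N) (hR : 1 ≤ R)
    (hθ : θ = (q - p) * T.L / ((N * R : ℕ) : ℝ)) (hm0 : m0 * Real.log 2 ≤ θ ∧ θ ≤ (m0 + 1) * Real.log 2)
    (hσ : 0 < σ) (hlc : Real.log (1 / σ + 2) ≤ η1 * ((q - p) * T.L))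
    (j : ℕ) (hj : j < pk.M) (u1 u2 w : ItSym) (V : List ItSym) (al be : ItPh → (ℕ → ItMk) → ℝ) (E : T.Ω → Prop)
    (hu1 : u1.Reg pk.M a.B0 A0) (hu2 : u2.Reg pk.M a.B0 A0)
    (hV : ∀ v ∈ V, ItSym.Reg v pk.M a.B0 A0 ∧ ItSym.Free v j) (f1 : u1.Free j) (f2 : u2.Free j)
    (hE : ∀ ω, E ω → |be (T.f0 p ω) (fun i => T.mrk i ω)| ≤ A0 * |al (T.f0 p ω) (fun i => T.mrk i ω)| ∧
      σ ≤ |al (T.f0 p ω) (fun i => T.mrk i ω)|)
    (hdep : ∀ f Ξ Ξ', (∀ i < pk.M, Ξ i = Ξ' i) → al f Ξ = al f Ξ' ∧ be f Ξ = be f Ξ')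
    (hw : ∀ f Ξ x, itDot (w f Ξ) x = al f Ξ * itDot (u2 f Ξ) x - be f Ξ * itDot (u1 f Ξ) x)
    (res : ∀ i : ℕ, 1 ≤ i → i ≤ R →
      P'.pr (fun ω => E ω ∧ P'.surC (icX (T.bpt p u1 u2) (tlev T.δ (itS p q (N * R) i) - tlev T.δ p))
        (pair (T.rd p q [T.fld p w]) (pair (T.rd p q (V.map (T.fld p))) (T.base pk.M p))) ω < (Mr - η1) * (i * θ)) ≤ η1)
    (slo : ∀ k k' : ℕ, k < k' → k' ≤ N * R →
      P'.pr (fun ω => E ω ∧ P'.surC
          (icS (fun ω => be (T.f0 p ω) (fun i => T.mrk i ω) / al (T.f0 p ω) (fun i => T.mrk i ω))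
            (tlev T.δ ((q - p) * k' / ((N * R : ℕ) : ℝ))))
          (pair (icS (fun ω => be (T.f0 p ω) (fun i => T.mrk i ω) / al (T.f0 p ω) (fun i => T.mrk i ω))
            (tlev T.δ ((q - p) * k / ((N * R : ℕ) : ℝ)))) (pair T.Zs (T.XiE pk.M j))) ω
        < γ * (((k' : ℝ) - k) * θ) - η1 * (N * R * θ)) ≤ η1)
    (inf : P'.miC (icQ (T.bpt p u1 u2) (N * (R * m0))) (T.mrk j)
      (pair (pair (T.rd p q (V.map (T.fld p))) (T.Fn p)) (pair (T.XiE pk.M j) T.Cs)) ≤ η1 * (N * R * θ)) :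
    ItbHyp P' E (T.bpt p u1 u2) (fun ω => be (T.f0 p ω) (fun i => T.mrk i ω) / al (T.f0 p ω) (fun i => T.mrk i ω))
      (T.rd p q [T.fld p w]) (pair (T.rd p q (V.map (T.fld p))) (T.base pk.M p)) (T.mrk j)
      (pair (pair (T.rd p q (V.map (T.fld p))) (T.Fn p)) (pair (T.XiE pk.M j) T.Cs)) (pair T.Zs (T.XiE pk.M j))
      (fun k => tlev T.δ (itS p q (N * R) k) - tlev T.δ p) (fun k => tlev T.δ ((q - p) * k / ((N * R : ℕ) : ℝ)))
      (6 * |A0| + 1) Mr γ η1 θ (1 / σ + 2) N R m0 := by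
  have h0 := h.δ0
  have h1 := h.δ1
  have ht : 0 < q - p := sub_pos.2 hpq
  have hn : 0 < N * R := Nat.mul_pos hN hR
  have hnr : (0 : ℝ) < ((N * R : ℕ) : ℝ) := by exact_mod_cast hn
  have hlev := fun k => it_b_levels h0 h1 hp.le ht hn (θ := θ) (m0 := m0) hθ hm0 k
  have hNRθ : (N : ℝ) * R * θ = (q - p) * T.L := by
    rw [hθ]; push_cast; field_simp
  have hqq : itS p q (N * R) (N * R) = q := by
    unfold itS; field_simp; ring
  have hl : N * (R * m0) ≤ tlev T.δ q - tlev T.δ p := by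
    have := (hlev (N * R)).1.1
    have e : p + (q - p) * ((N * R : ℕ) : ℝ) / ((N * R : ℕ) : ℝ) = q := hqq
    rw [e] at this
    rwa [Nat.mul_assoc] at this
  refine
    { bd := ?_, tag := ?_, cond := ?_, side := ?_, la := ?_, lb := ?_, th := hm0, res := res, slo := slo, inf := inf,
      lst := ?_, c1 := ?_, lc := ?_ }
  · -- bd
    intro ω hω hEω
    have b1 := it_b_sv_bd T a pk h p A0 u1 hu1 (hP' ω hω)
    have b2 := it_b_sv_bd T a pk h p A0 u2 hu2 (hP' ω hω)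
    refine ⟨by simp only [Tan.bpt]; linarith, by simp only [Tan.bpt]; linarith, ?_⟩
    have apos : 0 < |al (T.f0 p ω) (fun i => T.mrk i ω)| := lt_of_lt_of_le hσ (hE ω hEω).2
    rw [abs_div, div_le_iff₀ apos]
    have e1 := (hE ω hEω).1
    have e2 : A0 * |al (T.f0 p ω) (fun i => T.mrk i ω)| ≤ |A0| * |al (T.f0 p ω) (fun i => T.mrk i ω)| :=
      mul_le_mul_of_nonneg_right (le_abs_self _) apos.le
    have e3 := abs_nonneg A0
    nlinarith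
  · -- tag
    intro ω ω' _ _ _ _ hTg hD
    simp only [FLaw.pair, Prod.mk.injEq] at hD
    obtain ⟨⟨_, hF⟩, hX, _⟩ := hD
    have f0e := it_b_f0_of_Fn T hF
    have hm := it_b_Xi T ((it_b_Xi_iff T hj ω ω').2 ⟨hTg, hX⟩)
    have := hdep (T.f0 p ω') _ _ hm
    simp only [f0e, this.1, this.2]
  · -- cond
    intro ω ω' _ _
    simp only [FLaw.pair, Prod.mk.injEq, Tan.base, Tan.Dd, it_b_Xi_iff T hj ω ω']
    tauto
  · -- side
    intro ω ω' _ _ hZ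
    simp only [FLaw.pair, Prod.mk.injEq] at hZ
    obtain ⟨hZs, hX⟩ := hZ
    have hF := h.side_F ω ω' hZs
    have hC := h.side_C ω ω' hZs
    have f0e : T.f0 p ω = T.f0 p ω' := by simp only [Tan.f0, hF]
    have hFn : T.Fn p ω = T.Fn p ω' := by simp only [Tan.Fn, hF]
    have sve : ∀ U : ItSym, U.Reg pk.M a.B0 A0 → U.Free j → T.sv p U ω = T.sv p U ω' := by
      intro U hU hUf
      simp only [Tan.sv, it_b_fld_free T U hU hUf f0e hX, hF, f0e]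
    refine ⟨by simp only [Tan.bpt, sve u1 hu1 f1, sve u2 hu2 f2], ?_⟩
    simp only [FLaw.pair, Prod.mk.injEq]
    refine ⟨⟨?_, hFn⟩, hX, hC⟩
    rw [it_k_aux_rd_iff]
    intro u hu
    obtain ⟨v, hv, rfl⟩ := List.mem_map.1 hu
    have := sve v (hV v hv).1 (hV v hv).2
    simp only [Tan.sv] at this
    rw [this]
  · intro k _
    exact (hlev k).1
  · intro k _
    exact (hlev k).2
  · -- lst
    exact it_b_nval_supp T.P P' hP'
      (it_b_lst T pk h0 h1 p q _ hpq.le hσ u1 u2 w _ al be hdep hw _ (fun ω hω => (hE ω hω).2) _ hl)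
  · have : 0 < 1 / σ := by positivity
    linarith
  · rw [hNRθ]; exact hlc

/-- THE DICTIONARY: the hypotheses of `it_boost` give the hypotheses of the abstract boost -/
theorem it_b_hyp (a : ItPar) (pk : ItPk) (τ κ0 acc : ℝ) (hT : T.Adm a pk τ κ0 acc) (p q A0 Mr γ η1 ηb θ : ℝ) (hp : 0 < p)
    (hpq : p < q) (hqK : q ≤ pk.K) (N R m0 : ℕ) (hN : 1 ≤ N) (hR : 1 ≤ R) (hηb : ηb ≤ η1)
    (hθ : θ = (q - p) * T.L / ((N * R : ℕ) : ℝ)) (hm0 : m0 * Real.log 2 ≤ θ ∧ θ ≤ (m0 + 1) * Real.log 2)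
    (hinf : acc * T.L + 8 * Real.log (6 * |A0| + 2) ≤ η1 * ((q - p) * T.L))
    (hlc : Real.log (1 / T.δ ^ (ηb * (q - p)) + 2) ≤ η1 * ((q - p) * T.L))
    (j : ℕ) (hj : j < pk.M) (u1 u2 w : ItSym) (V : List ItSym) (al be : ItPh → (ℕ → ItMk) → ℝ) (E : T.Ω → Prop)
    (hu1 : u1.Reg pk.M a.B0 A0) (hu2 : u2.Reg pk.M a.B0 A0)
    (hV : ∀ v ∈ V, ItSym.Reg v pk.M a.B0 A0 ∧ ItSym.Free v j) (hVl : V.length ≤ 6)
    (f1 : u1.Free j) (f2 : u2.Free j)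
    (hE : ∀ ω, E ω → |be (T.f0 p ω) (fun i => T.mrk i ω)| ≤ A0 * |al (T.f0 p ω) (fun i => T.mrk i ω)|)
    (hdep : ∀ f Ξ Ξ', (∀ i < pk.M, Ξ i = Ξ' i) → al f Ξ = al f Ξ' ∧ be f Ξ = be f Ξ')
    (hw : ∀ f Ξ x, itDot (w f Ξ) x = al f Ξ * itDot (u2 f Ξ) x - be f Ξ * itDot (u1 f Ξ) x)
    (hLS : ∀ k, 1 ≤ k → k ≤ N * R →
      T.LS pk.M p (itS p q (N * R) k) q [T.fld p u1] (T.fld p w :: V.map (T.fld p)) Mr ηb)
    (hSl : T.Slope pk.M j p q (N * R) E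
        (fun ω => be (T.f0 p ω) (fun i => T.mrk i ω) / al (T.f0 p ω) (fun i => T.mrk i ω)) γ ηb) :
    ItbHyp T.P (fun ω => E ω ∧ T.δ ^ (ηb * (q - p)) ≤ |al (T.f0 p ω) (fun i => T.mrk i ω)|)
      (T.bpt p u1 u2) (fun ω => be (T.f0 p ω) (fun i => T.mrk i ω) / al (T.f0 p ω) (fun i => T.mrk i ω))
      (T.rd p q [T.fld p w]) (pair (T.rd p q (V.map (T.fld p))) (T.base pk.M p)) (T.mrk j)
      (pair (pair (T.rd p q (V.map (T.fld p))) (T.Fn p)) (pair (T.XiE pk.M j) T.Cs)) (pair T.Zs (T.XiE pk.M j))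
      (fun k => tlev T.δ (itS p q (N * R) k) - tlev T.δ p) (fun k => tlev T.δ ((q - p) * k / ((N * R : ℕ) : ℝ)))
      (6 * |A0| + 1) Mr γ η1 θ (1 / T.δ ^ (ηb * (q - p)) + 2) N R m0 := by
  have h0 := hT.t0.δ0
  have h1 := hT.t0.δ1
  have ht : 0 < q - p := sub_pos.2 hpq
  have hn : 0 < N * R := Nat.mul_pos hN hR
  have hnr : (0 : ℝ) < ((N * R : ℕ) : ℝ) := by exact_mod_cast hn
  have hL : 0 < T.L := it_cb_L_pos T h0 h1
  have hσ : 0 < T.δ ^ (ηb * (q - p)) := Real.rpow_pos_of_pos h0 _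
  have hlev := fun k => it_b_levels h0 h1 hp.le ht hn (θ := θ) (m0 := m0) hθ hm0 k
  have hNRθ : (N : ℝ) * R * θ = (q - p) * T.L := by
    rw [hθ]; push_cast; field_simp
  have hθ0 : 0 ≤ θ := by rw [hθ]; positivity
  have hqq : itS p q (N * R) (N * R) = q := by
    unfold itS; field_simp; ring
  have hl : N * (R * m0) ≤ tlev T.δ q - tlev T.δ p := by
    have := (hlev (N * R)).1.1
    have e : p + (q - p) * ((N * R : ℕ) : ℝ) / ((N * R : ℕ) : ℝ) = q := hqq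
    rw [e] at this
    rwa [Nat.mul_assoc] at this
  refine it_b_hyp_gen T a pk hT.t0 T.P (fun _ h => h) p q A0 Mr γ η1 _ θ hp hpq N R m0 hN hR hθ hm0 hσ hlc j hj u1 u2 w V al be _
    hu1 hu2 hV f1 f2 (fun ω hω => ⟨hE ω hω.1, hω.2⟩) hdep hw ?_ ?_ ?_
  · -- res
    intro i hi1 hiR
    have hin : i ≤ N * R := hiR.trans (Nat.le_mul_of_pos_left R hN)
    have hls := hLS i hi1 hin
    unfold Tan.LS at hls
    refine le_trans (ent_pr_mono T.P fun ω hω hs => ?_) (hls.trans hηb)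
    have hsp : p ≤ itS p q (N * R) i := by
      unfold itS
      have : 0 ≤ (q - p) * (i : ℝ) / ((N * R : ℕ) : ℝ) := by positivity
      linarith
    have e : T.P.surC (T.rd p (itS p q (N * R) i) [T.fld p u1])
        (pair (T.rd p q (T.fld p w :: V.map (T.fld p))) (T.base pk.M p)) ω
        = T.P.surC (icX (T.bpt p u1 u2) (tlev T.δ (itS p q (N * R) i) - tlev T.δ p))
          (pair (T.rd p q [T.fld p w]) (pair (T.rd p q (V.map (T.fld p))) (T.base pk.M p))) ω := by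
      refine ent_surC_congr T.P _ _ _ _ ω (fun ω' _ => ?_) (fun ω' _ _ => ?_)
      · have := it_k_aux_rd_append T p q [T.fld p w] (V.map (T.fld p)) ω' ω
        simp only [List.singleton_append] at this
        simp only [FLaw.pair, Prod.mk.injEq, this]
        tauto
      · simp only [Tan.rd, List.map_cons, List.map_nil, List.cons.injEq, and_true, icX, Tan.bpt, Tan.sv,
          it_b_cell h0 h1 hsp]
    rw [e]
    refine lt_of_lt_of_le hs.2 ?_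
    have e2 : (itS p q (N * R) i - p) * T.L = i * θ := by
      rw [hθ]; unfold itS; field_simp; ring
    rw [mul_assoc, e2]
    have : 0 ≤ (i : ℝ) * θ := by positivity
    exact mul_le_mul_of_nonneg_right (by linarith) this
  · -- slo
    intro k k' hkk hk'
    have hs := hSl k k' hkk hk'
    refine le_trans (ent_pr_mono T.P fun ω hω hs' => ⟨hs'.1.1, lt_of_lt_of_le hs'.2 ?_⟩) (hs.trans hηb)
    rw [hNRθ]
    have e2 : (q - p) * ((k' : ℝ) - k) / ((N * R : ℕ) : ℝ) * T.L = ((k' : ℝ) - k) * θ := by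
      rw [hθ]; field_simp
    have e3 : (γ * ((q - p) * ((k' : ℝ) - k) / ((N * R : ℕ) : ℝ)) - ηb * (q - p)) * T.L
        = γ * (((k' : ℝ) - k) * θ) - ηb * ((q - p) * T.L) := by
      rw [← e2]; ring
    rw [e3]
    have : ηb * ((q - p) * T.L) ≤ η1 * ((q - p) * T.L) := mul_le_mul_of_nonneg_right hηb (by positivity)
    linarith
  · -- inf
    rw [hNRθ]
    exact (it_b_inf T a pk acc hT.t0 hT.ti p q A0 hpq.le hqK j hj u1 u2 V hu1 hu2 f1 f2 hV hVl _ hl).trans hinf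

end Claimed.Agent.R256
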