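-- KEEP
import Claimed.Agent.R256.Int.Defs

/-!
# Row 256, Sec. 5: contact readings, layer entropies, lower scores      (chief helper196; prefix `it_`)

A LAYER is a pair of depths `p < q` (`t = q - p`, always `t ≤ κ p` with a small ratio).  All coefficients of a reading on the layer are frozen at the PARENT: `f0 = itR δ p F`
(a function of `F_p`), marks enter with their stored values (functions of `𝒟`).  So a scalar reading is a covector field `u : Ω → ItPh` that is a function of `(F_p, 𝒟)`, its value is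
`itVal u = ⟨u, F - f0⟩` and its name of depth `s` is `tcell δ s (itVal u)`  (05 l.92-128; "linear readings of increments").   A tuple of readings is a `List` of covector fields.
* `T.rd p s U`      names of depth `s` of the tuple `U` on the layer with parent `p`
* `T.base M p`      the conditioning `(F_p, 𝒟)`
* `T.hh M p q U V`  `= H(U_q | V_q, F_p, 𝒟)`  (natural units; the rate `|U | V|` of the text is `hh / ((q - p) L)`);   `T.hF M p q = H(F_q | F_p, 𝒟)` (rate `α`)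
* `T.LS M p s q U V ρ η`  LOWER SCORE: `pr { sur(U_s | V_q, F_p, 𝒟) < (ρ - η)(s - p) L } ≤ η`   (prefix depth `s ≤ q`, held readings at the child depth `q`)
* `T.US ...`        upper score.
NO random rates, NO almost every layer, NO linear layers: every rate inequality of Sec. 5 is proved on EVERY short layer (int:boost = FP of R256/Fp, which needs no regularity of the source).
Readings (05 (int:contact), (int:readings)):  `cH cJ cK` contact forms, `cW i`, `cx i`, `cL i`, `rPi i = (W_i, H, x_i)`, `rG i`, `rCz = (H, J, K)`, `rF` all six coordinates.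
-/

set_option autoImplicit false

namespace Claimed.Agent.R256

open Claimed.Agent.R255
open Claimed.Agent.R255.FLaw (pair)
open scoped BigOperators
open Classical

/-- value of the covector `u` on the increment `f - f0` -/
def itVal (u f f0 : ItPh) : ℝ :=
  u.X * (f.X - f0.X) + u.B * (f.B - f0.B) + u.P * (f.P - f0.P) + u.Y * (f.Y - f0.Y) + u.N * (f.N - f0.N) + u.D * (f.D - f0.D)

/-- pairing of a covector with a tangent vector -/
def itDot (u v : ItPh) : ℝ := u.X * v.X + u.B * v.B + u.P * v.P + u.Y * v.Y + u.N * v.N + u.D * v.D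

/-! ### covectors; components in the order `(dX, dB, dP, dY, dN, dD)` -/

def itcX : ItPh := ⟨1, 0, 0, 0, 0, 0⟩
def itcB : ItPh := ⟨0, 1, 0, 0, 0, 0⟩
def itcP : ItPh := ⟨0, 0, 1, 0, 0, 0⟩
def itcY : ItPh := ⟨0, 0, 0, 1, 0, 0⟩
def itcN : ItPh := ⟨0, 0, 0, 0, 1, 0⟩
def itcD : ItPh := ⟨0, 0, 0, 0, 0, 1⟩
/-- `H = dY - 2X dB` -/
def itcH (f0 : ItPh) : ItPh := ⟨0, -2 * f0.X, 0, 1, 0, 0⟩
/-- `J = dN - P dX` -/
def itcJ (f0 : ItPh) : ItPh := ⟨-f0.P, 0, 0, 0, 1, 0⟩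
/-- `K = dD - P dB` -/
def itcK (f0 : ItPh) : ItPh := ⟨0, -f0.P, 0, 0, 0, 1⟩
/-- `W_i = dB + θ_i dX` -/
def itcW (μ : ItMk) : ItPh := ⟨μ.th, 1, 0, 0, 0, 0⟩
/-- quadratic `x_i = K + θ_i J - r_i H` -/
def itcxq (f0 : ItPh) (μ : ItMk) : ItPh := ⟨-μ.th * f0.P, -f0.P + 2 * μ.r * f0.X, 0, -μ.r, μ.th, 1⟩
/-- linear `x_i = dD + θ_i dN - r_i W_i` -/
def itcxl (μ : ItMk) : ItPh := ⟨-μ.r * μ.th, -μ.r, 0, 0, μ.th, 1⟩
/-- `β_i = r_i - θ_i 𝔨_i` -/
def ItMk.be (μ : ItMk) : ℝ := μ.r - μ.th * μ.k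
/-- `L_i = dP - 2β_i dX + 2𝔨_i dB` -/
def itcL (μ : ItMk) : ItPh := ⟨-2 * μ.be, 2 * μ.k, 1, 0, 0, 0⟩
/-- `J - 𝔨_i H` -/
def itcG2 (f0 : ItPh) (μ : ItMk) : ItPh := ⟨-f0.P, 2 * μ.k * f0.X, 0, -μ.k, 1, 0⟩
/-- `K - β_i H` -/
def itcG3 (f0 : ItPh) (μ : ItMk) : ItPh := ⟨0, -f0.P + 2 * μ.be * f0.X, 0, -μ.be, 0, 1⟩
/-- linear `dN - r_i dX` -/
def itcGa (μ : ItMk) : ItPh := ⟨-μ.r, 0, 0, 0, 1, 0⟩
/-- linear `dD - r_i dB` -/
def itcGb (μ : ItMk) : ItPh := ⟨0, -μ.r, 0, 0, 0, 1⟩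

/-- the angular fibre direction `ℓ_i` as a tangent vector at `f0` (05 (int:angular-mode)); quadratic: `dB = -θ, dP = 2r, dY = -2θX, dN = P, dD = -θP` -/
def itvEll (quad : Bool) (f0 : ItPh) (μ : ItMk) : ItPh :=
  if quad then ⟨1, -μ.th, 2 * μ.r, -2 * μ.th * f0.X, f0.P, -μ.th * f0.P⟩
  else ⟨1, -μ.th, 0, -2 * μ.th * f0.X, μ.r, -μ.th * μ.r⟩

namespace Tan

variable (T : Tan)

/-- the frozen parent phase -/
noncomputable def f0 (p : ℝ) : T.Ω → ItPh := fun ω => itR T.δ p (T.F ω)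

noncomputable def cH (p : ℝ) : T.Ω → ItPh := fun ω => itcH (T.f0 p ω)
noncomputable def cJ (p : ℝ) : T.Ω → ItPh := fun ω => itcJ (T.f0 p ω)
noncomputable def cK (p : ℝ) : T.Ω → ItPh := fun ω => itcK (T.f0 p ω)
def cW (i : ℕ) : T.Ω → ItPh := fun ω => itcW (T.mrk i ω)
noncomputable def cx (p : ℝ) (i : ℕ) : T.Ω → ItPh := fun ω => if T.quad then itcxq (T.f0 p ω) (T.mrk i ω) else itcxl (T.mrk i ω)
def cL (i : ℕ) : T.Ω → ItPh := fun ω => itcL (T.mrk i ω)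

/-- the centre `C_z = (H, J, K)` -/
noncomputable def rCz (p : ℝ) : List (T.Ω → ItPh) := [T.cH p, T.cJ p, T.cK p]

/-- `π_i = (W_i, H, x_i)` -/
noncomputable def rPi (p : ℝ) (i : ℕ) : List (T.Ω → ItPh) := [T.cW i, T.cH p, T.cx p i]

/-- `G_i` -/
noncomputable def rG (p : ℝ) (i : ℕ) : List (T.Ω → ItPh) :=
  if T.quad then [T.cL i, fun ω => itcG2 (T.f0 p ω) (T.mrk i ω), fun ω => itcG3 (T.f0 p ω) (T.mrk i ω)]
  else [fun ω => itcGa (T.mrk i ω), fun ω => itcGb (T.mrk i ω)]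

/-- names of depth `s` of a tuple of readings on the layer with parent depth `p` -/
noncomputable def rd (p s : ℝ) (U : List (T.Ω → ItPh)) : T.Ω → List ℤ :=
  fun ω => U.map fun u => tcell T.δ s (itVal (u ω) (T.F ω) (T.f0 p ω))

/-- the conditioning `(F_p, 𝒟)` -/
noncomputable def base (M : ℕ) (p : ℝ) : T.Ω → ((ℤ × ℤ × ℤ) × (ℤ × ℤ × ℤ)) × (T.γ × (Fin M → ItMk)) :=
  fun ω => (T.Fn p ω, T.Dd M ω)

/-- `H(U_q | V_q, F_p, 𝒟)` -/
noncomputable def hh (M : ℕ) (p q : ℝ) (U V : List (T.Ω → ItPh)) : ℝ :=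
  T.P.entC (T.rd p q U) (pair (T.rd p q V) (T.base M p))

/-- `H(F_q | F_p, 𝒟)` -/
noncomputable def hF (M : ℕ) (p q : ℝ) : ℝ := T.P.entC (T.Fn q) (T.base M p)

/-- `A(q) = H(F_q | 𝒟)` -/
noncomputable def hA (M : ℕ) (q : ℝ) : ℝ := T.P.entC (T.Fn q) (T.Dd M)

/-- `H(F_{p,z} | 𝒟)` -/
noncomputable def hW (M : ℕ) (p z : ℝ) : ℝ := T.P.entC (T.Hn p z) (T.Dd M)

/-- lower score `ρ` of `U` at the prefix depth `s`, the readings `V` held at depth `q` -/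
def LS (M : ℕ) (p s q : ℝ) (U V : List (T.Ω → ItPh)) (ρ η : ℝ) : Prop :=
  T.P.pr (fun ω => T.P.surC (T.rd p s U) (pair (T.rd p q V) (T.base M p)) ω < (ρ - η) * (s - p) * T.L) ≤ η

/-- upper score -/
def US (M : ℕ) (p s q : ℝ) (U V : List (T.Ω → ItPh)) (ρ η : ℝ) : Prop :=
  T.P.pr (fun ω => (ρ + η) * (s - p) * T.L < T.P.surC (T.rd p s U) (pair (T.rd p q V) (T.base M p)) ω) ≤ η

end Tan

/-- `pk0 ≼ pk` : the package `pk` is at least as rich as `pk0` (`Lam` is NOT compared: the units never add a `λ`) -/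
def ItPk.le (pk0 pk : ItPk) : Prop :=
  pk0.M ≤ pk.M ∧ pk0.K ≤ pk.K ∧ pk0.RQ ≤ pk.RQ ∧ pk.χ ≤ pk0.χ ∧ pk0.G ⊆ pk.G

/-- a package requirement that can be met -/
def ItPk.Pre (pk0 : ItPk) : Prop := 0 < pk0.χ ∧ ∀ q ∈ pk0.G, 0 ≤ q

/-- PATTERN of a layer statement: `Φ T pk p q η` holds on every short layer, at sufficient accuracy and for every sufficiently rich package. -/
def ItLayer (quad av cr : Bool) (a : ItPar) (Φ : Tan → ItPk → ℝ → ℝ → ℝ → Prop) : Prop :=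
  ∀ η : ℝ, 0 < η → ∃ τ : ℝ, 0 < τ ∧ ∀ κ0 : ℝ, 0 < κ0 → ∃ κ1 : ℝ, 0 < κ1 ∧ ∀ p q : ℝ, 0 < p → p < q → q ≤ (1 + κ1) * p →
    ∃ (pk0 : ItPk) (acc0 : ℝ), pk0.Pre ∧ 0 < acc0 ∧ ∀ (pk : ItPk) (acc : ℝ) (T : Tan), pk.Ok → pk0.le pk → 0 < acc → acc ≤ acc0 →
      T.quad = quad → T.Adm a pk τ κ0 acc → (av = true → T.Avoid a pk acc) → (cr = true → T.Cross pk acc) → Φ T pk p q η

/-- PATTERN of a statement at one depth `l` (width defect, binary layers, time bits). -/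
def ItDepth (quad av cr : Bool) (a : ItPar) (Φ : Tan → ItPk → ℝ → ℝ → Prop) : Prop :=
  ∀ η : ℝ, 0 < η → ∃ τ : ℝ, 0 < τ ∧ ∀ κ0 : ℝ, 0 < κ0 → ∀ l : ℝ, 0 < l →
    ∃ (pk0 : ItPk) (acc0 : ℝ), pk0.Pre ∧ 0 < acc0 ∧ ∀ (pk : ItPk) (acc : ℝ) (T : Tan), pk.Ok → pk0.le pk → 0 < acc → acc ≤ acc0 →
      T.quad = quad → T.Adm a pk τ κ0 acc → (av = true → T.Avoid a pk acc) → (cr = true → T.Cross pk acc) → Φ T pk l η

/-- `k_0 = 1 - d` -/
def ItPar.k0 (a : ItPar) : ℝ := 1 - a.d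
/-- `l_* = min(1, d + m)` -/
noncomputable def ItPar.ls (a : ItPar) : ℝ := min 1 (a.d + a.m)
/-- `n_* = min(1, d + ν)` -/
noncomputable def ItPar.ns (a : ItPar) : ℝ := min 1 (a.d + a.ν)
/-- `a_* = (d - cν)_+` -/
noncomputable def ItPar.as (a : ItPar) : ℝ := max (a.d - a.c * a.ν) 0

theorem it_read_eqns_cite : True := by
  have := @itVal.eq_1; have := @itDot.eq_1; have := @itcX.eq_1; have := @itcB.eq_1; have := @itcP.eq_1; have := @itcY.eq_1
  have := @itcN.eq_1; have := @itcD.eq_1; have := @itcH.eq_1; have := @itcJ.eq_1; have := @itcK.eq_1; have := @itcW.eq_1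
  have := @itcxq.eq_1; have := @itcxl.eq_1; have := @ItMk.be.eq_1; have := @itcL.eq_1; have := @itcG2.eq_1; have := @itcG3.eq_1
  have := @itcGa.eq_1; have := @itcGb.eq_1; have := @itvEll.eq_1; have := @Tan.f0.eq_1; have := @Tan.cH.eq_1; have := @Tan.cJ.eq_1
  have := @Tan.cK.eq_1; have := @Tan.cW.eq_1; have := @Tan.cx.eq_1; have := @Tan.cL.eq_1; have := @Tan.rCz.eq_1
  have := @Tan.rPi.eq_1; have := @Tan.rG.eq_1; have := @Tan.rd.eq_1; have := @Tan.base.eq_1; have := @Tan.hh.eq_1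
  have := @Tan.hF.eq_1; have := @Tan.hA.eq_1; have := @Tan.hW.eq_1; have := @Tan.LS.eq_1; have := @Tan.US.eq_1
  have := @ItPk.le.eq_1; have := @ItPk.Pre.eq_1; have := @ItLayer.eq_1; have := @ItDepth.eq_1; have := @ItPar.k0.eq_1; have := @ItPar.ls.eq_1
  have := @ItPar.ns.eq_1; have := @ItPar.as.eq_1
  trivial

end Claimed.Agent.R256
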