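import Claimed.Agent.R256.Int.HwWalk

/-!
# Row 256, Sec. 5, block H-WALK, file E: the endpoint      (architect helper157; prefix `it_hw_`)

`N = 2r`.  On the support of the walk, with `e = msh δ RQ` (`hW.keepQ`, `it_k_aux_cell_dist`, `lay_leg_lin`; the marks are those of `o 0` by `it_hw_keep0`):
 `B_{k+1} - B_k = -θ_k (X_{k+1} - X_k) ± e`,  `Y_{k+1} - Y_k = -θ_k (X_{k+1}² - X_k²) ± e`,  `N_{k+1} - N_k = r_k (X_{k+1} - X_k) ± e`,  `D_{k+1} - D_k = -θ_k (N_{k+1} - N_k) ± e`      (`it_hw_legs`).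
* `it_hw_par2`  two samples with the same `hwDD`: all coordinates of the endpoint phases are within `4 N (B0+1)² msh δ p`   (`it_hw_sumL` four times; the angles are within `msh δ p`; `P = 0`).
* `it_hw_par`   hence the endpoint conditioning `(rd p q [], base M p)(o N)` takes at most `(4 N (B0+1)² + 2)^4` values over `hwDD`   (`ltk_nval_close`, `ltk_nval_comp`; `𝒟` by `it_hw_keep0`, `side_C`).
* `it_hw_read2` two samples with the same `hwDD`, the same endpoint parent and the same `H`-name of depth `q ≤ 2p`: `|S_r - S_r'| ≤ (5 + 22 N (B0+1)²) / 2^n`: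
     `hv = (Y_N - Ȳ) - 2 X̄ (B_N - B̄)`;   `(Y_N - 2E B_N) - (Y_N' - 2E B_N') = (hv - hv') - 2 (E - X̄)(B_N - B_N')`, `|E - X̄|, |B_N - B_N'| ≤ msh δ p`, `msh δ p ² ≤ δ^(2p) ≤ δ^q ≤ 2 msh δ q`;
     `it_hw_sumH` with `E = X̃_N`;  replace `X_k` by `X̃_k` (`it_hw_phi_lip`, error `4 (B0+1) msh δ K` each);  `it_hw_abel`: the even terms and the two boundary terms agree.
* `it_hw_read`  hence `itHwC .. r n` takes at most `7 + 22 N (B0+1)²` values over `(H-name, endpoint conditioning, hwDD)`.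
* `it_hw_end`   ASYMPTOTIC FORM: a lower score of `S_r` given `hwDD` gives the lower score of the `H`-reading  (`it_hw_tr2`, `it_hw_pb_pr`, `it_hw_pb_sur`).
LEAVES: L-256-INT-HW-LEGS (`it_hw_legs`), -PAR (`it_hw_par2`, `it_hw_par`), -READ2, -READ, -END.
-/

set_option autoImplicit false

namespace Claimed.Agent.R256

open Claimed.Agent.R255
open Claimed.Agent.R255.FLaw (pair)
open scoped BigOperators
open Classical

section endp

variable {T : Tan} {Θ : Type} [Fintype Θ] {W : FLaw Θ} {o : ℕ → Θ → T.Ω} {a : ItPar} {pk : ItPk} {r : ℕ} {Φ : ℝ}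

/-- the marks along the walk are those of the start -/
theorem it_hw_legs_mrk {M N : ℕ} {K RQ : ℝ} (hW : T.HwOk W o M N K RQ Φ) {h : Θ} (hh : W.p h ≠ 0) {k : ℕ} (hk : k ≤ N) {i : ℕ} (hi : i < M) :
    T.mrk i (o k h) = T.mrk i (o 0 h) := by
  have h1 := it_hw_keep0 hW hh hk
  unfold Tan.Dd at h1
  have h2 := congrFun (Prod.mk.inj h1).2 ⟨i, hi⟩
  exact h2

/-- LEAF LEGS. (leg), linear, along the walk; the marks are read at the start -/
theorem it_hw_legs (hW : T.HwOk W o pk.M (2 * r) pk.K pk.RQ Φ) (hq : T.quad = false) (hr : 2 * r ≤ pk.M) (h : Θ) (hh : W.p h ≠ 0) (k : ℕ) (hk : k < 2 * r) :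
    |((T.F (o (k + 1) h)).B - (T.F (o k h)).B) + (T.mrk k (o 0 h)).th * ((T.F (o (k + 1) h)).X - (T.F (o k h)).X)| ≤ msh T.δ pk.RQ ∧
    |((T.F (o (k + 1) h)).Y - (T.F (o k h)).Y) + (T.mrk k (o 0 h)).th * ((T.F (o (k + 1) h)).X ^ 2 - (T.F (o k h)).X ^ 2)| ≤ msh T.δ pk.RQ ∧
    |((T.F (o (k + 1) h)).N - (T.F (o k h)).N) + (-(T.mrk k (o 0 h)).r) * ((T.F (o (k + 1) h)).X - (T.F (o k h)).X)| ≤ msh T.δ pk.RQ ∧
    |((T.F (o (k + 1) h)).D - (T.F (o k h)).D) + (T.mrk k (o 0 h)).th * ((T.F (o (k + 1) h)).N - (T.F (o k h)).N)| ≤ msh T.δ pk.RQ := by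
  have hQ := hW.keepQ h hh k hk
  have m1 : T.mrk k (o (k + 1) h) = T.mrk k (o 0 h) := it_hw_legs_mrk hW hh (by omega) (by omega)
  have m0 : T.mrk k (o k h) = T.mrk k (o 0 h) := it_hw_legs_mrk hW hh (by omega) (by omega)
  unfold Tan.Qn itQ at hQ
  rw [m1, m0, hq] at hQ
  simp only [Bool.false_eq_true, if_false, Prod.mk.injEq, true_and] at hQ
  obtain ⟨⟨q1, q2, q3⟩, q4⟩ := hQ
  have d1 := it_k_aux_cell_dist q1
  have d2 := it_k_aux_cell_dist q2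
  have d3 := it_k_aux_cell_dist q3
  have d4 := it_k_aux_cell_dist q4
  refine ⟨?_, ?_, ?_, ?_⟩
  · refine le_trans (le_of_eq ?_) d1
    congr 1
    ring
  · refine le_trans (le_of_eq ?_) d2
    congr 1
    ring
  · refine le_trans (le_of_eq ?_) d4
    congr 1
    ring
  · refine le_trans (le_of_eq ?_) d3
    congr 1
    ring

/-- two walks with the same coefficients and close angles -/
theorem it_hw_par_two (N : ℕ) (V V' X X' c : ℕ → ℝ) (e b m : ℝ)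
    (h : ∀ k < N, |(V (k + 1) - V k) + c k * (X (k + 1) - X k)| ≤ e) (h' : ∀ k < N, |(V' (k + 1) - V' k) + c k * (X' (k + 1) - X' k)| ≤ e)
    (h0 : V 0 = V' 0) (hc : ∀ k < N, |c k| ≤ b) (hX : ∀ k ≤ N, |X k - X' k| ≤ m) :
    |V N - V' N| ≤ N * (2 * e + 2 * b * m) := by
  have s1 := it_hw_sumL N V X c e h
  have s2 := it_hw_sumL N V' X' c e h'
  have s3 : |∑ k ∈ Finset.range N, c k * (X (k + 1) - X k) - ∑ k ∈ Finset.range N, c k * (X' (k + 1) - X' k)| ≤ N * (2 * b * m) := by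
    rw [← Finset.sum_sub_distrib]
    refine (Finset.abs_sum_le_sum_abs _ _).trans ?_
    refine (Finset.sum_le_sum (g := fun _ => 2 * b * m) fun k hk => ?_).trans ?_
    · have hk' := Finset.mem_range.1 hk
      have e1 : c k * (X (k + 1) - X k) - c k * (X' (k + 1) - X' k) = c k * ((X (k + 1) - X' (k + 1)) - (X k - X' k)) := by ring
      rw [e1, abs_mul]
      have a1 := hX (k + 1) (by omega)
      have a2 := hX k (by omega)
      have a3 : |(X (k + 1) - X' (k + 1)) - (X k - X' k)| ≤ 2 * m := (abs_sub _ _).trans (by linarith)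
      have hb : 0 ≤ b := (abs_nonneg _).trans (hc k hk')
      calc |c k| * |(X (k + 1) - X' (k + 1)) - (X k - X' k)| ≤ b * (2 * m) := mul_le_mul (hc k hk') a3 (abs_nonneg _) hb
        _ = 2 * b * m := by ring
    · rw [Finset.sum_const, Finset.card_range, nsmul_eq_mul]
  obtain ⟨a1, a2⟩ := abs_le.1 s1
  obtain ⟨b1, b2⟩ := abs_le.1 s2
  obtain ⟨c1, c2⟩ := abs_le.1 s3
  rw [abs_le]
  constructor <;> nlinarith

omit [Fintype Θ] in
/-- consequences of the equality of the auxiliary data -/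
theorem it_hw_par_data {M N : ℕ} {K p : ℝ} (h0 : T.Adm0 a pk) (hpK : p ≤ K) {h h' : Θ}
    (e : T.hwDD o M K p N h = T.hwDD o M K p N h') :
    T.F (o 0 h) = T.F (o 0 h') ∧ T.Cs (o 0 h) = T.Cs (o 0 h') ∧ (∀ i < M, T.mrk i (o 0 h) = T.mrk i (o 0 h')) ∧
      ∀ k ≤ N, |(T.F (o k h)).X - (T.F (o k h')).X| ≤ msh T.δ p := by
  unfold Tan.hwDD at e
  obtain ⟨e1, e2⟩ := Prod.mk.inj e
  obtain ⟨e3, e4⟩ := Prod.mk.inj e1
  have hF := h0.side_F _ _ e3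
  refine ⟨hF, h0.side_C _ _ e3, fun i hi => congrFun e4 ⟨i, hi⟩, fun k hk => ?_⟩
  rcases Nat.eq_zero_or_pos k with rfl | hk0
  · rw [hF, sub_self, abs_zero]
    exact (ig_msh_pos _ _).le
  · obtain ⟨j, rfl⟩ : ∃ j, k = j + 1 := ⟨k - 1, by omega⟩
    have e5 := congrFun e2 ⟨j, by omega⟩
    unfold Tan.hwAng at e5
    simp only at e5
    by_cases hj : (j + 1) % 2 = 0
    · rw [if_pos hj, if_pos hj] at e5
      exact (it_k_aux_cell_dist e5).trans (ig_msh_anti _ _ _ h0.δ0 h0.δ1 hpK)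
    · rw [if_neg hj, if_neg hj] at e5
      exact it_k_aux_cell_dist e5

/-- LEAF PAR. two samples with the same auxiliary data: the endpoint phases are close -/
theorem it_hw_par2 (hW : T.HwOk W o pk.M (2 * r) pk.K pk.RQ Φ) (hq : T.quad = false) (ha : a.Ok) (hpk : pk.Ok) (h0 : T.Adm0 a pk) (hr : 2 * r ≤ pk.M)
    {p : ℝ} (hp : 0 ≤ p) (hpK : p ≤ pk.K) (h h' : Θ) (hh : W.p h ≠ 0) (hh' : W.p h' ≠ 0)
    (e : T.hwDD o pk.M pk.K p (2 * r) h = T.hwDD o pk.M pk.K p (2 * r) h') :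
    ((T.F (o (2 * r) h)).sub (T.F (o (2 * r) h'))).nrm ≤ 4 * (2 * r : ℕ) * (a.B0 + 1) ^ 2 * msh T.δ p := by
  obtain ⟨hF0, -, hmk, hX⟩ := it_hw_par_data h0 hpK e
  have hB0 : 1 ≤ a.B0 := ha.2.2.2.2.2.2.2.2
  set μ := msh T.δ p with hμ
  have hμ0 : 0 < μ := ig_msh_pos _ _
  have he : msh T.δ pk.RQ ≤ μ := ig_msh_anti _ _ _ h0.δ0 h0.δ1 (hpK.trans hpk.2.2.1.le)
  set N := 2 * r with hN
  have L := fun k hk => it_hw_legs hW hq hr h hh k hk
  have L' := fun k hk => it_hw_legs hW hq hr h' hh' k hk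
  have hs0 : T.P.p (o 0 h) ≠ 0 := it_hw_supp hW (Nat.zero_le _) hh
  have hbm : ∀ k < N, |(T.mrk k (o 0 h)).th| ≤ a.B0 ∧ |(T.mrk k (o 0 h)).r| ≤ a.B0 := fun k hk =>
    ⟨(h0.bdM _ hs0 k (by omega)).1, (h0.bdM _ hs0 k (by omega)).2.1⟩
  have hbX : ∀ k ≤ N, |(T.F (o k h)).X| ≤ a.B0 := fun k hk => (it_k_aux_nrm_le _).1.trans (h0.bdF _ (it_hw_supp hW hk hh))
  have hbX' : ∀ k ≤ N, |(T.F (o k h')).X| ≤ a.B0 := fun k hk => (it_k_aux_nrm_le _).1.trans (h0.bdF _ (it_hw_supp hW hk hh'))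
  have hNr : (0 : ℝ) ≤ (N : ℝ) := Nat.cast_nonneg N
  -- the four coordinates
  have cB : |(T.F (o N h)).B - (T.F (o N h')).B| ≤ N * (2 * μ + 2 * a.B0 * μ) :=
    it_hw_par_two N (fun k => (T.F (o k h)).B) (fun k => (T.F (o k h')).B) (fun k => (T.F (o k h)).X) (fun k => (T.F (o k h')).X)
      (fun k => (T.mrk k (o 0 h)).th) μ a.B0 μ (fun k hk => (L k hk).1.trans he)
      (fun k hk => by
        have := (L' k hk).1.trans he
        rwa [← hmk k (by omega)] at this) (by simp only [hF0]) (fun k hk => (hbm k hk).1) hX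
  have cN : |(T.F (o N h)).N - (T.F (o N h')).N| ≤ N * (2 * μ + 2 * a.B0 * μ) :=
    it_hw_par_two N (fun k => (T.F (o k h)).N) (fun k => (T.F (o k h')).N) (fun k => (T.F (o k h)).X) (fun k => (T.F (o k h')).X)
      (fun k => -(T.mrk k (o 0 h)).r) μ a.B0 μ (fun k hk => (L k hk).2.2.1.trans he)
      (fun k hk => by
        have := (L' k hk).2.2.1.trans he
        rwa [← hmk k (by omega)] at this) (by simp only [hF0]) (fun k hk => by rw [abs_neg]; exact (hbm k hk).2) hX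
  have cY : |(T.F (o N h)).Y - (T.F (o N h')).Y| ≤ N * (2 * μ + 2 * a.B0 * (2 * a.B0 * μ)) :=
    it_hw_par_two N (fun k => (T.F (o k h)).Y) (fun k => (T.F (o k h')).Y) (fun k => (T.F (o k h)).X ^ 2) (fun k => (T.F (o k h')).X ^ 2)
      (fun k => (T.mrk k (o 0 h)).th) μ a.B0 (2 * a.B0 * μ) (fun k hk => (L k hk).2.1.trans he)
      (fun k hk => by
        have := (L' k hk).2.1.trans he
        rwa [← hmk k (by omega)] at this) (by simp only [hF0]) (fun k hk => (hbm k hk).1)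
      (fun k hk => by
        have e1 : (T.F (o k h)).X ^ 2 - (T.F (o k h')).X ^ 2 = ((T.F (o k h)).X + (T.F (o k h')).X) * ((T.F (o k h)).X - (T.F (o k h')).X) := by ring
        rw [e1, abs_mul]
        have a1 : |(T.F (o k h)).X + (T.F (o k h')).X| ≤ 2 * a.B0 := (abs_add_le _ _).trans (by linarith [hbX k hk, hbX' k hk])
        exact mul_le_mul a1 (hX k hk) (abs_nonneg _) (by linarith))
  have cD : |(T.F (o N h)).D - (T.F (o N h')).D| ≤ N * (2 * ((1 + a.B0) * μ) + 2 * (a.B0 * a.B0) * μ) := by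
    have key : ∀ g : Θ, W.p g ≠ 0 → (∀ i < pk.M, T.mrk i (o 0 h) = T.mrk i (o 0 g)) → ∀ k < N,
        |((T.F (o (k + 1) g)).D - (T.F (o k g)).D) + ((T.mrk k (o 0 h)).th * (T.mrk k (o 0 h)).r) * ((T.F (o (k + 1) g)).X - (T.F (o k g)).X)| ≤ (1 + a.B0) * μ := by
      intro g hg hm k hk
      obtain ⟨-, -, l3, l4⟩ := it_hw_legs hW hq hr g hg k hk
      rw [← hm k (by omega)] at l3 l4
      have e1 : ((T.F (o (k + 1) g)).D - (T.F (o k g)).D) + ((T.mrk k (o 0 h)).th * (T.mrk k (o 0 h)).r) * ((T.F (o (k + 1) g)).X - (T.F (o k g)).X)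
          = (((T.F (o (k + 1) g)).D - (T.F (o k g)).D) + (T.mrk k (o 0 h)).th * ((T.F (o (k + 1) g)).N - (T.F (o k g)).N))
            - (T.mrk k (o 0 h)).th * (((T.F (o (k + 1) g)).N - (T.F (o k g)).N) + (-(T.mrk k (o 0 h)).r) * ((T.F (o (k + 1) g)).X - (T.F (o k g)).X)) := by ring
      rw [e1]
      refine (abs_sub _ _).trans ?_
      rw [abs_mul]
      have a1 : |(T.mrk k (o 0 h)).th| * |((T.F (o (k + 1) g)).N - (T.F (o k g)).N) + (-(T.mrk k (o 0 h)).r) * ((T.F (o (k + 1) g)).X - (T.F (o k g)).X)| ≤ a.B0 * μ :=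
        mul_le_mul (hbm k hk).1 (l3.trans he) (abs_nonneg _) (by linarith)
      linarith [l4.trans he]
    exact it_hw_par_two N (fun k => (T.F (o k h)).D) (fun k => (T.F (o k h')).D) (fun k => (T.F (o k h)).X) (fun k => (T.F (o k h')).X)
      (fun k => (T.mrk k (o 0 h)).th * (T.mrk k (o 0 h)).r) ((1 + a.B0) * μ) (a.B0 * a.B0) μ (key h hh fun _ _ => rfl) (key h' hh' hmk)
      (by simp only [hF0]) (fun k hk => by
        rw [abs_mul]
        exact mul_le_mul (hbm k hk).1 (hbm k hk).2 (abs_nonneg _) (by linarith)) hX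
  have cX : |(T.F (o N h)).X - (T.F (o N h')).X| ≤ 4 * (N : ℝ) * (a.B0 + 1) ^ 2 * μ := by
    rcases Nat.eq_zero_or_pos N with hN0 | hN0
    · rw [hN0, hF0]
      simp
    · have h1 : (1 : ℝ) ≤ N := by exact_mod_cast hN0
      refine (hX N le_rfl).trans ?_
      have : 1 ≤ 4 * (N : ℝ) * (a.B0 + 1) ^ 2 := by nlinarith
      nlinarith
  have cP : |(T.F (o N h)).P - (T.F (o N h')).P| ≤ 4 * (N : ℝ) * (a.B0 + 1) ^ 2 * μ := by
    rw [h0.lin0 hq, h0.lin0 hq, sub_self, abs_zero]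
    positivity
  have hNμ : 0 ≤ (N : ℝ) * μ := by positivity
  unfold ItPh.nrm ItPh.sub
  simp only
  refine max_le (max_le (max_le cX ?_) (max_le cP ?_)) (max_le ?_ ?_)
  · refine cB.trans ?_
    nlinarith
  · refine cY.trans ?_
    nlinarith
  · refine cN.trans ?_
    nlinarith
  · refine cD.trans ?_
    nlinarith

theorem it_hw_par_prod {Ω α β γ : Type} [Fintype Ω] (P : FLaw Ω) (G : Ω → Prop) (A : Ω → α) (B : Ω → β) (C : Ω → γ) {N M : ℝ}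
    (h1 : P.NVal G B A N) (h2 : P.NVal G C A M) : P.NVal G (fun ω => (B ω, C ω)) A (N * M) := by
  intro ω₀
  obtain ⟨S₁, c1, m1⟩ := h1 ω₀
  obtain ⟨S₂, c2, m2⟩ := h2 ω₀
  refine ⟨S₁ ×ˢ S₂, ?_, fun ω hp hG hA => Finset.mem_product.2 ⟨m1 ω hp hG hA, m2 ω hp hG hA⟩⟩
  rw [Finset.card_product]
  push_cast
  exact mul_le_mul c1 c2 (Nat.cast_nonneg _) ((Nat.cast_nonneg _).trans c1)

theorem it_hw_par_one {Ω α β : Type} [Fintype Ω] (P : FLaw Ω) (G : Ω → Prop) (A : Ω → α) (B : Ω → β)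
    (h : ∀ ω ω', P.p ω ≠ 0 → P.p ω' ≠ 0 → G ω → G ω' → A ω = A ω' → B ω = B ω') : P.NVal G B A 1 := by
  intro ω₀
  by_cases hex : ∃ ω, P.p ω ≠ 0 ∧ G ω ∧ A ω = A ω₀
  · obtain ⟨ω₁, p1, g1, a1⟩ := hex
    refine ⟨{B ω₁}, by simp, fun ω hp hG hA => ?_⟩
    rw [Finset.mem_singleton]
    exact h ω ω₁ hp p1 hG g1 (hA.trans a1.symm)
  · exact ⟨∅, by simp, fun ω hp hG hA => absurd ⟨ω, hp, hG, hA⟩ hex⟩

theorem it_hw_par_cell {Ω α : Type} [Fintype Ω] (P : FLaw Ω) (G : Ω → Prop) (A : Ω → α) (v : Ω → ℝ) (δ p : ℝ) {C : ℝ} (hC : 0 ≤ C)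
    (h : ∀ ω ω', P.p ω ≠ 0 → P.p ω' ≠ 0 → G ω → G ω' → A ω = A ω' → |v ω - v ω'| ≤ C * msh δ p) :
    P.NVal G (fun ω => tcell δ p (v ω)) A (C + 2) := by
  have h1 := ltk_nval_close P G A v (tlev δ p) (R := C * msh δ p) (mul_nonneg hC (ig_msh_pos _ _).le) h
  have e : C * msh δ p * 2 ^ (tlev δ p) + 2 = C + 2 := by
    unfold msh
    field_simp
  rw [e] at h1
  exact h1

/-- LEAF PAR. the auxiliary data predict the endpoint parent to a bounded list -/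
theorem it_hw_par (hW : T.HwOk W o pk.M (2 * r) pk.K pk.RQ Φ) (hq : T.quad = false) (ha : a.Ok) (hpk : pk.Ok) (h0 : T.Adm0 a pk) (hr : 2 * r ≤ pk.M)
    {p q : ℝ} (hp : 0 ≤ p) (hpK : p ≤ pk.K) :
    W.NVal (fun _ => True) (fun h => pair (T.rd p q []) (T.base pk.M p) (o (2 * r) h)) (T.hwDD o pk.M pk.K p (2 * r))
      ((4 * (2 * r : ℕ) * (a.B0 + 1) ^ 2 + 2) ^ 6) := by
  set C := 4 * ((2 * r : ℕ) : ℝ) * (a.B0 + 1) ^ 2 with hC
  have hC0 : 0 ≤ C := by positivity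
  have key : ∀ h h', W.p h ≠ 0 → W.p h' ≠ 0 → T.hwDD o pk.M pk.K p (2 * r) h = T.hwDD o pk.M pk.K p (2 * r) h' →
      ((T.F (o (2 * r) h)).sub (T.F (o (2 * r) h'))).nrm ≤ C * msh T.δ p :=
    fun h h' hh hh' e => it_hw_par2 hW hq ha hpk h0 hr hp hpK h h' hh hh' e
  have nX := it_hw_par_cell W (fun _ => True) (T.hwDD o pk.M pk.K p (2 * r)) (fun h => (T.F (o (2 * r) h)).X) T.δ p hC0
    fun h h' hh hh' _ _ e => (it_k_aux_nrm_le _).1.trans (key h h' hh hh' e)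
  have nB := it_hw_par_cell W (fun _ => True) (T.hwDD o pk.M pk.K p (2 * r)) (fun h => (T.F (o (2 * r) h)).B) T.δ p hC0
    fun h h' hh hh' _ _ e => (it_k_aux_nrm_le _).2.1.trans (key h h' hh hh' e)
  have nP := it_hw_par_cell W (fun _ => True) (T.hwDD o pk.M pk.K p (2 * r)) (fun h => (T.F (o (2 * r) h)).P) T.δ p hC0
    fun h h' hh hh' _ _ e => (it_k_aux_nrm_le _).2.2.1.trans (key h h' hh hh' e)
  have nY := it_hw_par_cell W (fun _ => True) (T.hwDD o pk.M pk.K p (2 * r)) (fun h => (T.F (o (2 * r) h)).Y) T.δ p hC0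
    fun h h' hh hh' _ _ e => (it_k_aux_nrm_le _).2.2.2.1.trans (key h h' hh hh' e)
  have nN := it_hw_par_cell W (fun _ => True) (T.hwDD o pk.M pk.K p (2 * r)) (fun h => (T.F (o (2 * r) h)).N) T.δ p hC0
    fun h h' hh hh' _ _ e => (it_k_aux_nrm_le _).2.2.2.2.1.trans (key h h' hh hh' e)
  have nD := it_hw_par_cell W (fun _ => True) (T.hwDD o pk.M pk.K p (2 * r)) (fun h => (T.F (o (2 * r) h)).D) T.δ p hC0
    fun h h' hh hh' _ _ e => (it_k_aux_nrm_le _).2.2.2.2.2.trans (key h h' hh hh' e)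
  have n0 : W.NVal (fun _ => True) (fun _ => ([] : List ℤ)) (T.hwDD o pk.M pk.K p (2 * r)) 1 :=
    it_hw_par_one W _ _ _ fun _ _ _ _ _ _ _ => rfl
  have nDd : W.NVal (fun _ => True) (fun h => T.Dd pk.M (o (2 * r) h)) (T.hwDD o pk.M pk.K p (2 * r)) 1 := by
    refine it_hw_par_one W _ _ _ fun h h' hh hh' _ _ e => ?_
    obtain ⟨-, hCs, hmk, -⟩ := it_hw_par_data h0 hpK e
    rw [it_hw_keep0 hW hh le_rfl, it_hw_keep0 hW hh' le_rfl]
    unfold Tan.Dd Tan.Xi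
    rw [hCs]
    congr 1
    funext i
    exact hmk i i.2
  have hall := it_hw_par_prod W _ _ _ _ n0 (it_hw_par_prod W _ _ _ _ (it_hw_par_prod W _ _ _ _ (it_hw_par_prod W _ _ _ _ nX (it_hw_par_prod W _ _ _ _ nB nP))
    (it_hw_par_prod W _ _ _ _ nY (it_hw_par_prod W _ _ _ _ nN nD))) nDd)
  have e : 1 * ((C + 2) * ((C + 2) * (C + 2)) * ((C + 2) * ((C + 2) * (C + 2))) * 1) = (C + 2) ^ 6 := by ring
  rw [e] at hall
  exact hall

/-- replacing the angles by their fine representatives in the sum of the legs -/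
theorem it_hw_read2_rep (N : ℕ) (θ X Xt : ℕ → ℝ) (E b m : ℝ) (hθ : ∀ k < N, |θ k| ≤ b) (hE : |E| ≤ b)
    (hX : ∀ k ≤ N, |X k| ≤ b) (hXt : ∀ k ≤ N, |Xt k| ≤ b) (hd : ∀ k ≤ N, |X k - Xt k| ≤ m) :
    |∑ k ∈ Finset.range N, θ k * (itHwPhi E (X (k + 1)) - itHwPhi E (X k)) - ∑ k ∈ Finset.range N, θ k * (itHwPhi E (Xt (k + 1)) - itHwPhi E (Xt k))|
      ≤ N * (b * (8 * b * m)) := by
  have hb : 0 ≤ b := (abs_nonneg _).trans hE
  rw [← Finset.sum_sub_distrib]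
  refine (Finset.abs_sum_le_sum_abs _ _).trans ?_
  refine (Finset.sum_le_sum (g := fun _ => b * (8 * b * m)) fun k hk => ?_).trans ?_
  · have hk' := Finset.mem_range.1 hk
    have e1 : θ k * (itHwPhi E (X (k + 1)) - itHwPhi E (X k)) - θ k * (itHwPhi E (Xt (k + 1)) - itHwPhi E (Xt k))
        = θ k * ((itHwPhi E (X (k + 1)) - itHwPhi E (Xt (k + 1))) - (itHwPhi E (X k) - itHwPhi E (Xt k))) := by ring
    rw [e1, abs_mul]
    have key : ∀ j ≤ N, |itHwPhi E (X j) - itHwPhi E (Xt j)| ≤ 4 * b * m := fun j hj =>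
      (it_hw_phi_lip E (X j) (Xt j) b hE (hX j hj) (hXt j hj)).trans (mul_le_mul_of_nonneg_left (hd j hj) (by positivity))
    have a3 : |(itHwPhi E (X (k + 1)) - itHwPhi E (Xt (k + 1))) - (itHwPhi E (X k) - itHwPhi E (Xt k))| ≤ 8 * b * m :=
      (abs_sub _ _).trans (by linarith [key (k + 1) (by omega), key k (by omega)])
    exact mul_le_mul (hθ k hk') a3 (abs_nonneg _) hb
  · rw [Finset.sum_const, Finset.card_range, nsmul_eq_mul]

/-- the real-variable core of the two-sample inequality -/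
theorem it_hw_read2_core (r : ℕ) (hr : 0 < r) (θ X X' Xt Xt' B B' Y Y' : ℕ → ℝ) (E e b m : ℝ)
    (hB : ∀ k < 2 * r, |(B (k + 1) - B k) + θ k * (X (k + 1) - X k)| ≤ e)
    (hY : ∀ k < 2 * r, |(Y (k + 1) - Y k) + θ k * (X (k + 1) ^ 2 - X k ^ 2)| ≤ e)
    (hB' : ∀ k < 2 * r, |(B' (k + 1) - B' k) + θ k * (X' (k + 1) - X' k)| ≤ e)
    (hY' : ∀ k < 2 * r, |(Y' (k + 1) - Y' k) + θ k * (X' (k + 1) ^ 2 - X' k ^ 2)| ≤ e)
    (hθ : ∀ k < 2 * r, |θ k| ≤ b) (hE : |E| ≤ b)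
    (hX : ∀ k ≤ 2 * r, |X k| ≤ b) (hXt : ∀ k ≤ 2 * r, |Xt k| ≤ b) (hd : ∀ k ≤ 2 * r, |X k - Xt k| ≤ m)
    (hX' : ∀ k ≤ 2 * r, |X' k| ≤ b) (hXt' : ∀ k ≤ 2 * r, |Xt' k| ≤ b) (hd' : ∀ k ≤ 2 * r, |X' k - Xt' k| ≤ m)
    (hB0 : B 0 = B' 0) (hY0 : Y 0 = Y' 0) (hev : ∀ k ≤ 2 * r, k % 2 = 0 → Xt k = Xt' k) :
    |∑ i ∈ Finset.range r, (θ (2 * i + 1) - θ (2 * i)) * (itHwPhi E (Xt (2 * i + 1)) - itHwPhi E (Xt' (2 * i + 1)))
        - ((Y (2 * r) - 2 * E * B (2 * r)) - (Y' (2 * r) - 2 * E * B' (2 * r)))|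
      ≤ 2 * ((2 * r : ℕ) * (e * (1 + 2 * |E|)) + (2 * r : ℕ) * (b * (8 * b * m))) := by
  have H := it_hw_sumH (2 * r) X B Y θ E e hB hY
  have H' := it_hw_sumH (2 * r) X' B' Y' θ E e hB' hY'
  have R := it_hw_read2_rep (2 * r) θ X Xt E b m hθ hE hX hXt hd
  have R' := it_hw_read2_rep (2 * r) θ X' Xt' E b m hθ hE hX' hXt' hd'
  have A := it_hw_abel r hr θ (fun k => itHwPhi E (Xt k))
  have A' := it_hw_abel r hr θ (fun k => itHwPhi E (Xt' k))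
  have c1 : Xt (2 * r) = Xt' (2 * r) := hev _ le_rfl (by omega)
  have c2 : Xt 0 = Xt' 0 := hev 0 (by omega) rfl
  have c3 : ∑ i ∈ Finset.range (r - 1), (θ (2 * i + 2) - θ (2 * i + 1)) * itHwPhi E (Xt (2 * i + 2))
      = ∑ i ∈ Finset.range (r - 1), (θ (2 * i + 2) - θ (2 * i + 1)) * itHwPhi E (Xt' (2 * i + 2)) := by
    refine Finset.sum_congr rfl fun i hi => ?_
    have := Finset.mem_range.1 hi
    rw [hev (2 * i + 2) (by omega) (by omega)]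
  have c4 : ∑ i ∈ Finset.range r, (θ (2 * i + 1) - θ (2 * i)) * (itHwPhi E (Xt (2 * i + 1)) - itHwPhi E (Xt' (2 * i + 1)))
      = ∑ i ∈ Finset.range r, (θ (2 * i + 1) - θ (2 * i)) * itHwPhi E (Xt (2 * i + 1))
        - ∑ i ∈ Finset.range r, (θ (2 * i + 1) - θ (2 * i)) * itHwPhi E (Xt' (2 * i + 1)) := by
    rw [← Finset.sum_sub_distrib]
    refine Finset.sum_congr rfl fun i _ => ?_
    ring
  rw [c1, c2, c3] at A
  rw [c4]
  obtain ⟨h1, h2⟩ := abs_le.1 H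
  obtain ⟨h1', h2'⟩ := abs_le.1 H'
  obtain ⟨r1, r2⟩ := abs_le.1 R
  obtain ⟨r1', r2'⟩ := abs_le.1 R'
  rw [hB0, hY0] at h1 h2
  rw [abs_le]
  constructor <;> linarith







theorem it_hw_read2_sq {δ p q : ℝ} (h0 : 0 < δ) (h1 : δ < 1) (hq : 0 ≤ q) (hq2 : q ≤ 2 * p) : msh δ p * msh δ p ≤ 2 * msh δ q := by
  have a1 := ig_msh_le δ p h0
  have a2 := (ig_msh_pos δ p).le
  calc msh δ p * msh δ p ≤ δ ^ p * δ ^ p := mul_le_mul a1 a1 a2 (a2.trans a1)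
    _ = δ ^ (2 * p) := by rw [← Real.rpow_add h0]; congr 1; ring
    _ ≤ δ ^ q := Real.rpow_le_rpow_of_exponent_ge h0 h1.le hq2
    _ ≤ 2 * msh δ q := ig_le_msh δ q h0 h1 hq

theorem it_hw_read2_num {Nr b : ℝ} (hN : 2 ≤ Nr) (hb : 2 ≤ b) : 9 + 2 * (Nr * (1 + 2 * b) + Nr * (8 * b ^ 2)) ≤ 5 + 22 * Nr * b ^ 2 := by
  have h1 : 14 ≤ 6 * b ^ 2 - 4 * b - 2 := by nlinarith
  have h2 : 2 * 14 ≤ Nr * (6 * b ^ 2 - 4 * b - 2) := mul_le_mul hN h1 (by norm_num) (by linarith)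
  nlinarith

omit [Fintype Θ] in
/-- the adjoined angular names: fine representatives at the even positions, parents at the odd positions -/
theorem it_hw_read2_ang {M N : ℕ} {K p : ℝ} (h0 : T.Adm0 a pk) {h h' : Θ} (e : T.hwDD o M K p N h = T.hwDD o M K p N h') :
    (∀ k ≤ N, k % 2 = 0 → T.hwX o K k h = T.hwX o K k h') ∧ ∀ k ≤ N, k % 2 = 1 → T.hwX o p k h = T.hwX o p k h' := by
  unfold Tan.hwDD at e
  obtain ⟨e1, e2⟩ := Prod.mk.inj e
  have hF := h0.side_F _ _ (Prod.mk.inj e1).1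
  constructor
  · intro k hk hk2
    rcases Nat.eq_zero_or_pos k with rfl | hk0
    · unfold Tan.hwX
      rw [hF]
    · obtain ⟨j, rfl⟩ : ∃ j, k = j + 1 := ⟨k - 1, by omega⟩
      have e5 := congrFun e2 ⟨j, by omega⟩
      unfold Tan.hwAng at e5
      simp only at e5
      rw [if_pos hk2, if_pos hk2] at e5
      unfold Tan.Xn at e5
      unfold Tan.hwX trep
      rw [e5]
  · intro k hk hk2
    obtain ⟨j, rfl⟩ : ∃ j, k = j + 1 := ⟨k - 1, by omega⟩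
    have e5 := congrFun e2 ⟨j, by omega⟩
    unfold Tan.hwAng at e5
    simp only at e5
    rw [if_neg (by omega), if_neg (by omega)] at e5
    unfold Tan.Xn at e5
    unfold Tan.hwX trep
    rw [e5]

/-- the value of the reading `H` -/
theorem it_hw_read2_val (T : Tan) (p : ℝ) (ω : T.Ω) : itVal (T.cH p ω) (T.F ω) (T.f0 p ω)
    = ((T.F ω).Y - trep T.δ p (T.F ω).Y) - 2 * trep T.δ p (T.F ω).X * ((T.F ω).B - trep T.δ p (T.F ω).B) := by
  unfold itVal Tan.cH itcH Tan.f0 itR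
  dsimp only
  ring

/-- LEAF READ2. two samples with the same auxiliary data, endpoint parent and `H`-name: the sums are close -/
theorem it_hw_read2 (hW : T.HwOk W o pk.M (2 * r) pk.K pk.RQ Φ) (hq : T.quad = false) (ha : a.Ok) (hpk : pk.Ok) (h0 : T.Adm0 a pk) (hr : 2 * r ≤ pk.M) (hr0 : 0 < r)
    {p q : ℝ} (hp : 0 ≤ p) (hpq : p ≤ q) (hq2 : q ≤ 2 * p) (hqK : q ≤ pk.K) (h h' : Θ) (hh : W.p h ≠ 0) (hh' : W.p h' ≠ 0)
    (e : T.hwDD o pk.M pk.K p (2 * r) h = T.hwDD o pk.M pk.K p (2 * r) h')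
    (e1 : T.Fn p (o (2 * r) h) = T.Fn p (o (2 * r) h'))
    (e2 : T.rd p q [T.cH p] (o (2 * r) h) = T.rd p q [T.cH p] (o (2 * r) h')) :
    |itHwS (T.hwx o pk.K p r) (T.hwt o r) r h - itHwS (T.hwx o pk.K p r) (T.hwt o r) r h'|
      ≤ (5 + 22 * (2 * r : ℕ) * (a.B0 + 1) ^ 2) / 2 ^ (T.hwn p q) := by
  have hpK : p ≤ pk.K := hpq.trans hqK
  obtain ⟨hF0, -, hmk, -⟩ := it_hw_par_data h0 hpK e
  obtain ⟨hev, hod⟩ := it_hw_read2_ang h0 e
  have hB0 : 1 ≤ a.B0 := ha.2.2.2.2.2.2.2.2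
  have hδ0 := h0.δ0
  have hδ1 := h0.δ1
  have hK0 : 0 ≤ pk.K := hpk.2.1.le
  obtain ⟨b, hb⟩ : ∃ b, b = a.B0 + 1 := ⟨_, rfl⟩
  have hb2 : 2 ≤ b := by linarith
  obtain ⟨μq, hμq⟩ : ∃ μ, μ = msh T.δ q := ⟨_, rfl⟩
  obtain ⟨μp, hμp⟩ : ∃ μ, μ = msh T.δ p := ⟨_, rfl⟩
  have hμq0 : 0 < μq := hμq ▸ ig_msh_pos _ _
  have hμp0 : 0 < μp := hμp ▸ ig_msh_pos _ _
  have hKq : msh T.δ pk.K ≤ μq := hμq ▸ ig_msh_anti _ _ _ hδ0 hδ1 hqK
  have hKp : msh T.δ pk.K ≤ μp := hμp ▸ ig_msh_anti _ _ _ hδ0 hδ1 hpK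
  have hRq : msh T.δ pk.RQ ≤ μq := (ig_msh_anti _ _ _ hδ0 hδ1 hpk.2.2.1.le).trans hKq
  have hsq : μp * μp ≤ 2 * μq := by
    rw [hμp, hμq]
    exact it_hw_read2_sq hδ0 hδ1 (hp.trans hpq) hq2
  have hs0 : T.P.p (o 0 h) ≠ 0 := it_hw_supp hW (Nat.zero_le _) hh
  obtain ⟨E, hE⟩ : ∃ E, E = T.hwX o pk.K (2 * r) h := ⟨_, rfl⟩
  have hE' : E = T.hwX o pk.K (2 * r) h' := hE.trans (hev _ le_rfl (by omega))
  have bX : ∀ g : Θ, W.p g ≠ 0 → ∀ k ≤ 2 * r, |(T.F (o k g)).X| ≤ b := fun g hg k hk =>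
    ((it_k_aux_nrm_le _).1.trans (h0.bdF _ (it_hw_supp hW hk hg))).trans (by linarith)
  have bXt : ∀ g : Θ, W.p g ≠ 0 → ∀ k ≤ 2 * r, |T.hwX o pk.K k g| ≤ b := fun g hg k hk => by
    unfold Tan.hwX
    refine (it_sk_trep_abs T.δ pk.K _ hδ0 hδ1 hK0).trans ?_
    have := (it_k_aux_nrm_le _).1.trans (h0.bdF _ (it_hw_supp hW hk hg))
    linarith
  have bE : |E| ≤ b := hE ▸ bXt h hh _ le_rfl
  have core := it_hw_read2_core r hr0 (fun k => (T.mrk k (o 0 h)).th) (fun k => (T.F (o k h)).X) (fun k => (T.F (o k h')).X)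
    (fun k => T.hwX o pk.K k h) (fun k => T.hwX o pk.K k h') (fun k => (T.F (o k h)).B) (fun k => (T.F (o k h')).B)
    (fun k => (T.F (o k h)).Y) (fun k => (T.F (o k h')).Y) E (msh T.δ pk.RQ) b (msh T.δ pk.K)
    (fun k hk => (it_hw_legs hW hq hr h hh k hk).1) (fun k hk => (it_hw_legs hW hq hr h hh k hk).2.1)
    (fun k hk => by
      have := (it_hw_legs hW hq hr h' hh' k hk).1
      rwa [← hmk k (by omega)] at this)
    (fun k hk => by
      have := (it_hw_legs hW hq hr h' hh' k hk).2.1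
      rwa [← hmk k (by omega)] at this)
    (fun k hk => (h0.bdM _ hs0 k (by omega)).1.trans (by linarith)) bE (bX h hh) (bXt h hh) (fun k _ => it_k_aux_rep_dist _ _ _)
    (bX h' hh') (bXt h' hh') (fun k _ => it_k_aux_rep_dist _ _ _) (by simp only [hF0]) (by simp only [hF0]) hev
  obtain ⟨Sd, hSd⟩ : ∃ s, s = ∑ i ∈ Finset.range r, ((T.mrk (2 * i + 1) (o 0 h)).th - (T.mrk (2 * i) (o 0 h)).th)
      * (itHwPhi E (T.hwX o pk.K (2 * i + 1) h) - itHwPhi E (T.hwX o pk.K (2 * i + 1) h')) := ⟨_, rfl⟩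
  rw [← hSd] at core
  -- the difference of the sums
  have hS : itHwS (T.hwx o pk.K p r) (T.hwt o r) r h - itHwS (T.hwx o pk.K p r) (T.hwt o r) r h' = 2 ^ (tlev T.δ p) / r * Sd := by
    unfold itHwS
    rw [hSd, neg_sub_neg, ← Finset.sum_sub_distrib, Finset.mul_sum]
    refine Finset.sum_congr rfl fun i hi => ?_
    have hi' := Finset.mem_range.1 hi
    unfold Tan.hwt Tan.hwx
    rw [← hE, ← hE', ← hmk (2 * i) (by omega), ← hmk (2 * i + 1) (by omega), ← hod (2 * i + 1) (by omega) (by omega)]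
    ring
  -- the endpoint
  unfold Tan.Fn itF at e1
  simp only [Prod.mk.injEq] at e1
  obtain ⟨⟨fX, fB, -⟩, fY, -, -⟩ := e1
  have tX : trep T.δ p (T.F (o (2 * r) h')).X = trep T.δ p (T.F (o (2 * r) h)).X := by unfold trep; rw [fX]
  have tB : trep T.δ p (T.F (o (2 * r) h')).B = trep T.δ p (T.F (o (2 * r) h)).B := by unfold trep; rw [fB]
  have tY : trep T.δ p (T.F (o (2 * r) h')).Y = trep T.δ p (T.F (o (2 * r) h)).Y := by unfold trep; rw [fY]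
  simp only [Tan.rd, List.map_cons, List.map_nil, List.cons.injEq, and_true] at e2
  have d2 := it_k_aux_cell_dist e2
  rw [it_hw_read2_val, it_hw_read2_val, tX, tB, tY, ← hμq] at d2
  have dB := it_k_aux_cell_dist fB
  rw [← hμp] at dB
  have dE : |E - trep T.δ p (T.F (o (2 * r) h)).X| ≤ 2 * μp := by
    have a1 := it_k_aux_rep_dist T.δ pk.K (T.F (o (2 * r) h)).X
    have a2 := it_k_aux_rep_dist T.δ p (T.F (o (2 * r) h)).X
    rw [← hμp] at a2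
    have e3 : E - trep T.δ p (T.F (o (2 * r) h)).X = ((T.F (o (2 * r) h)).X - trep T.δ p (T.F (o (2 * r) h)).X) - ((T.F (o (2 * r) h)).X - E) := by ring
    rw [e3]
    refine (abs_sub _ _).trans ?_
    rw [hE]
    unfold Tan.hwX
    linarith
  have hend : |((T.F (o (2 * r) h)).Y - 2 * E * (T.F (o (2 * r) h)).B) - ((T.F (o (2 * r) h')).Y - 2 * E * (T.F (o (2 * r) h')).B)| ≤ 9 * μq := by
    have e3 : ((T.F (o (2 * r) h)).Y - 2 * E * (T.F (o (2 * r) h)).B) - ((T.F (o (2 * r) h')).Y - 2 * E * (T.F (o (2 * r) h')).B)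
        = (((T.F (o (2 * r) h)).Y - trep T.δ p (T.F (o (2 * r) h)).Y - 2 * trep T.δ p (T.F (o (2 * r) h)).X * ((T.F (o (2 * r) h)).B - trep T.δ p (T.F (o (2 * r) h)).B))
            - ((T.F (o (2 * r) h')).Y - trep T.δ p (T.F (o (2 * r) h)).Y - 2 * trep T.δ p (T.F (o (2 * r) h)).X * ((T.F (o (2 * r) h')).B - trep T.δ p (T.F (o (2 * r) h)).B)))
          - 2 * ((E - trep T.δ p (T.F (o (2 * r) h)).X) * ((T.F (o (2 * r) h)).B - (T.F (o (2 * r) h')).B)) := by ring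
    rw [e3]
    refine (abs_sub _ _).trans ?_
    rw [abs_mul, abs_mul, abs_two]
    have a1 : |E - trep T.δ p (T.F (o (2 * r) h)).X| * |(T.F (o (2 * r) h)).B - (T.F (o (2 * r) h')).B| ≤ 2 * μp * μp :=
      mul_le_mul dE dB (abs_nonneg _) (by positivity)
    nlinarith
  -- total
  have hN : (2 : ℝ) ≤ ((2 * r : ℕ) : ℝ) := by
    have : (1 : ℝ) ≤ r := by exact_mod_cast hr0
    push_cast
    linarith
  obtain ⟨Nr, hNr⟩ : ∃ x : ℝ, x = ((2 * r : ℕ) : ℝ) := ⟨_, rfl⟩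
  rw [← hNr] at core hN ⊢
  have hSb : |Sd| ≤ μq * (5 + 22 * Nr * b ^ 2) := by
    have c1 : |Sd| ≤ 9 * μq + 2 * (Nr * (msh T.δ pk.RQ * (1 + 2 * |E|)) + Nr * (b * (8 * b * msh T.δ pk.K))) := by
      obtain ⟨x1, x2⟩ := abs_le.1 core
      obtain ⟨y1, y2⟩ := abs_le.1 hend
      rw [abs_le]
      constructor <;> linarith
    have c2 : msh T.δ pk.RQ * (1 + 2 * |E|) ≤ μq * (1 + 2 * b) :=
      mul_le_mul hRq (by linarith) (by positivity) hμq0.le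
    have c3 : b * (8 * b * msh T.δ pk.K) ≤ b * (8 * b * μq) := by gcongr
    have c4 : Nr * (msh T.δ pk.RQ * (1 + 2 * |E|)) ≤ Nr * (μq * (1 + 2 * b)) := mul_le_mul_of_nonneg_left c2 (by linarith)
    have c5 : Nr * (b * (8 * b * msh T.δ pk.K)) ≤ Nr * (b * (8 * b * μq)) := mul_le_mul_of_nonneg_left c3 (by linarith)
    have c6 : 9 + 2 * (Nr * (1 + 2 * b) + Nr * (8 * b ^ 2)) ≤ 5 + 22 * Nr * b ^ 2 := it_hw_read2_num hN hb2
    calc |Sd| ≤ 9 * μq + 2 * (Nr * (μq * (1 + 2 * b)) + Nr * (b * (8 * b * μq))) := by linarith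
      _ = μq * (9 + 2 * (Nr * (1 + 2 * b) + Nr * (8 * b ^ 2))) := by ring
      _ ≤ _ := mul_le_mul_of_nonneg_left c6 hμq0.le
  rw [hS, abs_mul, ← hb]
  have hr1 : (1 : ℝ) ≤ r := by exact_mod_cast hr0
  have c7 : |(2 : ℝ) ^ (tlev T.δ p) / r| ≤ 2 ^ (tlev T.δ p) := by
    rw [abs_of_nonneg (by positivity)]
    exact div_le_self (by positivity) hr1
  have c8 : (2 : ℝ) ^ (tlev T.δ p) * μq = 1 / 2 ^ (T.hwn p q) := by
    have := ig_msh_ratio T.δ p q hδ0 hδ1 hpq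
    unfold Tan.hwn
    rw [hμq]
    unfold msh at this ⊢
    have h2 : (0 : ℝ) < 2 ^ (tlev T.δ q - tlev T.δ p) := by positivity
    have h3 : (0 : ℝ) < 2 ^ (tlev T.δ p) := by positivity
    have h4 : (0 : ℝ) < 2 ^ (tlev T.δ q) := by positivity
    field_simp at this ⊢
    linarith
  calc |(2 : ℝ) ^ (tlev T.δ p) / r| * |Sd| ≤ 2 ^ (tlev T.δ p) * (μq * (5 + 22 * Nr * b ^ 2)) := mul_le_mul c7 hSb (abs_nonneg _) (by positivity)
    _ = (2 ^ (tlev T.δ p) * μq) * (5 + 22 * Nr * b ^ 2) := by ring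
    _ = _ := by rw [c8]; ring

/-- LEAF READ. the `H`-name lists the cell of the sum  (`ltk_nval_close` with `it_hw_read2`) -/
theorem it_hw_read (hW : T.HwOk W o pk.M (2 * r) pk.K pk.RQ Φ) (hq : T.quad = false) (ha : a.Ok) (hpk : pk.Ok) (h0 : T.Adm0 a pk) (hr : 2 * r ≤ pk.M) (hr0 : 0 < r)
    {p q : ℝ} (hp : 0 ≤ p) (hpq : p ≤ q) (hq2 : q ≤ 2 * p) (hqK : q ≤ pk.K) :
    W.NVal (fun _ => True) (itHwC (T.hwx o pk.K p r) (T.hwt o r) r (T.hwn p q))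
      (pair (fun h => T.rd p q [T.cH p] (o (2 * r) h))
        (pair (fun h => pair (T.rd p q []) (T.base pk.M p) (o (2 * r) h)) (T.hwDD o pk.M pk.K p (2 * r))))
      (7 + 22 * (2 * r : ℕ) * (a.B0 + 1) ^ 2) := by
  have h1 := ltk_nval_close W (fun _ => True)
    (pair (fun h => T.rd p q [T.cH p] (o (2 * r) h))
        (pair (fun h => pair (T.rd p q []) (T.base pk.M p) (o (2 * r) h)) (T.hwDD o pk.M pk.K p (2 * r))))
    (itHwS (T.hwx o pk.K p r) (T.hwt o r) r) (T.hwn p q) (R := (5 + 22 * (2 * r : ℕ) * (a.B0 + 1) ^ 2) / 2 ^ (T.hwn p q)) (by positivity)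
    (fun h h' hh hh' _ _ eA => by
      simp only [FLaw.pair, Prod.mk.injEq] at eA
      obtain ⟨e2, ⟨-, eb⟩, e⟩ := eA
      unfold Tan.base at eb
      exact it_hw_read2 hW hq ha hpk h0 hr hr0 hp hpq hq2 hqK h h' hh hh' e (Prod.mk.inj eb).1 e2)
  have e : (5 + 22 * ((2 * r : ℕ) : ℝ) * (a.B0 + 1) ^ 2) / 2 ^ (T.hwn p q) * 2 ^ (T.hwn p q) + 2 = 7 + 22 * ((2 * r : ℕ) : ℝ) * (a.B0 + 1) ^ 2 := by
    field_simp
    ring
  rw [e] at h1
  exact h1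

end endp

/-- the number of bits of the layer -/
theorem it_hw_bits (T : Tan) (h0 : 0 < T.δ) (h1 : T.δ < 1) {p q : ℝ} (hp : 0 ≤ p) (hpq : p ≤ q) :
    (q - p) * T.L - Real.log 2 ≤ (T.hwn p q) * Real.log 2 ∧ (T.hwn p q) * Real.log 2 ≤ (q - p) * T.L + Real.log 2 := by
  have hl2 : 0 < Real.log 2 := Real.log_pos one_lt_two
  have hℓ := ig_logb_pos T.δ h0 h1
  have eL : Real.logb 2 (1 / T.δ) * Real.log 2 = T.L := by
    unfold Tan.L lg Real.logb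
    field_simp
  have hle := ig_lev_mono T.δ p q h0 h1 hpq
  have ec : ((T.hwn p q : ℕ) : ℝ) = (tlev T.δ q : ℝ) - (tlev T.δ p : ℝ) := by
    unfold Tan.hwn
    rw [Nat.cast_sub hle]
  have q1 : q * Real.logb 2 (1 / T.δ) ≤ (tlev T.δ q : ℝ) := Nat.le_ceil _
  have p1 : p * Real.logb 2 (1 / T.δ) ≤ (tlev T.δ p : ℝ) := Nat.le_ceil _
  have q2 : (tlev T.δ q : ℝ) < q * Real.logb 2 (1 / T.δ) + 1 := Nat.ceil_lt_add_one (mul_nonneg (hp.trans hpq) hℓ.le)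
  have p2 : (tlev T.δ p : ℝ) < p * Real.logb 2 (1 / T.δ) + 1 := Nat.ceil_lt_add_one (mul_nonneg hp hℓ.le)
  rw [ec, ← eL]
  constructor <;> nlinarith

/-- the numerics of the endpoint -/
theorem it_hw_end_num {ls η g n l2 c t lN : ℝ} (hη : 0 < η) (hls0 : 0 ≤ ls) (hls1 : ls ≤ 1) (hl2 : 0 < l2)
    (b1 : g - l2 ≤ n) (b2 : n ≤ g + l2) (hc : c = (1 + η) * l2 + lN) (k1 : c ≤ 5 * η / 16 * g) (ht : t = η / 16 * g) :
    (ls - η) * g ≤ (ls - η / 2) * n - lN - 3 * t := by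
  have h1 : (ls - η / 2) * g - (1 + η) * l2 ≤ (ls - η / 2) * n := by
    rcases le_total 0 (ls - η / 2) with h | h
    · have : (ls - η / 2) * (g - l2) ≤ (ls - η / 2) * n := mul_le_mul_of_nonneg_left b1 h
      nlinarith
    · have : (ls - η / 2) * (g + l2) ≤ (ls - η / 2) * n := mul_le_mul_of_nonpos_left b2 h
      nlinarith
  rw [ht]
  nlinarith

/-- auxiliary to END, NUM (helper32): the number of bits of a layer -/
theorem it_hw_end_n (T : Tan) (h0 : 0 < T.δ) (h1 : T.δ < 1) {p q : ℝ} (hp : 0 ≤ p) (hpq : p ≤ q) :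
    (q - p) * T.L - Real.log 2 ≤ (T.hwn p q : ℝ) * Real.log 2 ∧ (T.hwn p q : ℝ) * Real.log 2 ≤ (q - p) * T.L + Real.log 2 := by
  have hl2 : 0 < Real.log 2 := Real.log_pos one_lt_two
  have hL : 0 < T.L := it_cb_L_pos T h0 h1
  obtain ⟨ℓ, hℓ⟩ : ∃ ℓ : ℝ, ℓ = Real.logb 2 (1 / T.δ) := ⟨_, rfl⟩
  have e : ℓ * Real.log 2 = T.L := by
    rw [hℓ]
    unfold Real.logb Tan.L lg
    field_simp
  have hℓ0 : 0 < ℓ := by
    by_contra hno
    have : ℓ * Real.log 2 ≤ 0 := mul_nonpos_of_nonpos_of_nonneg (not_lt.1 hno) hl2.le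
    linarith
  have hmono : tlev T.δ p ≤ tlev T.δ q := by
    unfold tlev
    rw [← hℓ]
    exact Nat.ceil_mono (mul_le_mul_of_nonneg_right hpq hℓ0.le)
  have a1 : q * ℓ ≤ (tlev T.δ q : ℝ) := by
    unfold tlev
    rw [← hℓ]
    exact Nat.le_ceil _
  have a2 : (tlev T.δ q : ℝ) < q * ℓ + 1 := by
    unfold tlev
    rw [← hℓ]
    exact Nat.ceil_lt_add_one (mul_nonneg (hp.trans hpq) hℓ0.le)
  have b1 : p * ℓ ≤ (tlev T.δ p : ℝ) := by
    unfold tlev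
    rw [← hℓ]
    exact Nat.le_ceil _
  have b2 : (tlev T.δ p : ℝ) < p * ℓ + 1 := by
    unfold tlev
    rw [← hℓ]
    exact Nat.ceil_lt_add_one (mul_nonneg hp hℓ0.le)
  have hc : (T.hwn p q : ℝ) = (tlev T.δ q : ℝ) - (tlev T.δ p : ℝ) := by
    unfold Tan.hwn
    rw [Nat.cast_sub hmono]
  rw [hc, ← e]
  constructor
  · have : (q - p) * ℓ - 1 ≤ (tlev T.δ q : ℝ) - (tlev T.δ p : ℝ) := by linarith
    calc (q - p) * (ℓ * Real.log 2) - Real.log 2 = ((q - p) * ℓ - 1) * Real.log 2 := by ring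
      _ ≤ _ := mul_le_mul_of_nonneg_right this hl2.le
  · have : (tlev T.δ q : ℝ) - (tlev T.δ p : ℝ) ≤ (q - p) * ℓ + 1 := by linarith
    calc ((tlev T.δ q : ℝ) - (tlev T.δ p : ℝ)) * Real.log 2 ≤ ((q - p) * ℓ + 1) * Real.log 2 := mul_le_mul_of_nonneg_right this hl2.le
      _ = _ := by ring

/-- LEAF END. **from the sum to the reading.**   Package `G ∋ p, q`, `M = 2r`.   `it_hw_tr2` with `T = H`-name at `o (2r)`, `Y` = endpoint conditioning, `U = itHwC .. r n`, `D = hwDD`, `t = η (q-p) L / 16`;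
`(q-p) L - log 2 ≤ n log 2 ≤ (q-p) L + log 2`;  `log N₁ + log N₂ + log 2 · 2 ≤ η (q-p) L / 8` and `3 e^-t ≤ η/2` for `L ≥ log (1/acc)` large;  pull back at the position `2r`. -/
theorem it_hw_end (a : ItPar) (ha : a.Ok) (η : ℝ) (hη : 0 < η) (r : ℕ) (hr : 0 < r) (p q : ℝ) (hp : 0 < p) (hpq : p < q) (hq2 : q ≤ 2 * p) :
    ∃ (pk1 : ItPk) (acc1 : ℝ), pk1.Pre ∧ 0 < acc1 ∧ ∀ (pk : ItPk) (acc : ℝ) (T : Tan) (Θ : Type) [Fintype Θ] (W : FLaw Θ) (o : ℕ → Θ → T.Ω),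
      ItHwSet a pk1 pk acc1 acc T r W o →
      W.pr (fun h => W.surC (itHwC (T.hwx o pk.K p r) (T.hwt o r) r (T.hwn p q)) (T.hwDD o pk.M pk.K p (2 * r)) h
        < (min 1 (a.m + a.d) - η / 2) * (T.hwn p q) * Real.log 2) ≤ η / 2 →
      T.LS pk.M p q q [T.cH p] [] a.ls η := by
  have hl2 : 0 < Real.log 2 := Real.log_pos one_lt_two
  have hg : 0 < q - p := by linarith
  obtain ⟨hc0, hd0, hd1, hm0, hm1, hν0, hν1, -, hB0⟩ := id ha
  obtain ⟨N₁, hN₁⟩ : ∃ x : ℝ, x = (4 * ((2 * r : ℕ) : ℝ) * (a.B0 + 1) ^ 2 + 2) ^ 6 := ⟨_, rfl⟩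
  obtain ⟨N₂, hN₂⟩ : ∃ x : ℝ, x = 7 + 22 * ((2 * r : ℕ) : ℝ) * (a.B0 + 1) ^ 2 := ⟨_, rfl⟩
  have hN₁0 : 0 < N₁ := by rw [hN₁]; positivity
  have hN₂0 : 0 < N₂ := by rw [hN₂]; positivity
  obtain ⟨c, hc⟩ : ∃ c : ℝ, c = (1 + η) * Real.log 2 + (Real.log N₁ + Real.log N₂) := ⟨_, rfl⟩
  refine ⟨⟨0, 0, 0, 1, {q}, ∅⟩, min (Real.exp (-(c / (5 * η / 16 * (q - p))))) (Real.exp (-(Real.log (6 / η) / (η / 16 * (q - p))))),
    ⟨one_pos, fun x hx => by rw [Finset.mem_singleton.1 hx]; linarith⟩, lt_min (Real.exp_pos _) (Real.exp_pos _), ?_⟩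
  intro pk acc T Θ _ W o hset hsc
  obtain ⟨τ, κ0, hAdm⟩ := hset.adm
  have h0 := hAdm.t0
  have hqG : q ∈ pk.G := hset.le.2.2.2.2 (Finset.mem_singleton_self q)
  have hqK : q ≤ pk.K := (hset.ok.2.2.2.2.2.2 q hqG).2
  have hW := hset.walk
  obtain ⟨b1, b2⟩ := it_hw_bits T h0.δ0 h0.δ1 hp.le hpq.le
  have k1 : c ≤ 5 * η / 16 * (q - p) * T.L :=
    it_cb_const_le T acc c _ (by positivity) h0.δ0 hAdm.small (hset.accle.trans (min_le_left _ _))
  have k2 : Real.log (6 / η) ≤ η / 16 * (q - p) * T.L :=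
    it_cb_const_le T acc _ _ (by positivity) h0.δ0 hAdm.small (hset.accle.trans (min_le_right _ _))
  obtain ⟨t, ht⟩ : ∃ t : ℝ, t = η / 16 * ((q - p) * T.L) := ⟨_, rfl⟩
  have k3 : 3 * Real.exp (-t) ≤ η / 2 := by
    have : Real.exp (-t) ≤ Real.exp (-Real.log (6 / η)) := Real.exp_le_exp.2 (by rw [ht]; linarith)
    rw [Real.exp_neg (Real.log (6 / η)), Real.exp_log (by positivity)] at this
    have e : (6 / η)⁻¹ = η / 6 := by field_simp
    rw [e] at this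
    linarith
  have hls0 : 0 ≤ a.ls := le_min zero_le_one (by linarith)
  have hls1 : a.ls ≤ 1 := min_le_left _ _
  have hnum := it_hw_end_num (ls := a.ls) (g := (q - p) * T.L) (n := (T.hwn p q) * Real.log 2) (lN := Real.log N₁ + Real.log N₂) hη hls0 hls1 hl2 b1 b2 hc
    (by linarith) ht
  have tr := it_hw_tr2 W (fun _ => True) (fun h => T.rd p q [T.cH p] (o (2 * r) h)) (itHwC (T.hwx o pk.K p r) (T.hwt o r) r (T.hwn p q))
    (fun h => pair (T.rd p q []) (T.base pk.M p) (o (2 * r) h)) (T.hwDD o pk.M pk.K p (2 * r)) hN₁0 hN₂0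
    (hN₁ ▸ it_hw_par hW hset.quad ha hset.ok h0 hset.legs hp.le (hpq.le.trans hqK))
    (hN₂ ▸ it_hw_read hW hset.quad ha hset.ok h0 hset.legs hr hp.le hpq.le hq2 hqK) t
  unfold Tan.LS
  rw [← it_hw_pb_pr hW (le_refl (2 * r))]
  simp only [← it_hw_pb_sur hW (le_refl (2 * r))]
  have hmono : W.pr (fun h => W.surC (fun h' => T.rd p q [T.cH p] (o (2 * r) h')) (fun h' => pair (T.rd p q []) (T.base pk.M p) (o (2 * r) h')) h < (a.ls - η) * (q - p) * T.L)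
      ≤ W.pr (fun h => W.surC (itHwC (T.hwx o pk.K p r) (T.hwt o r) r (T.hwn p q)) (T.hwDD o pk.M pk.K p (2 * r)) h
            < (min 1 (a.m + a.d) - η / 2) * (T.hwn p q) * Real.log 2 ∨
          (True ∧ W.surC (fun h' => T.rd p q [T.cH p] (o (2 * r) h')) (fun h' => pair (T.rd p q []) (T.base pk.M p) (o (2 * r) h')) h
            < W.surC (itHwC (T.hwx o pk.K p r) (T.hwt o r) r (T.hwn p q)) (T.hwDD o pk.M pk.K p (2 * r)) h - Real.log N₁ - Real.log N₂ - 3 * t)) := by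
    refine ent_pr_mono W fun h _ hlt => ?_
    by_contra hno
    push Not at hno
    obtain ⟨n1, n2⟩ := hno
    have n2' := n2 trivial
    have e : min 1 (a.m + a.d) = a.ls := by unfold ItPar.ls; rw [add_comm]
    rw [e] at n1
    nlinarith
  refine hmono.trans ((ent_pr_or_le W _ _).trans ?_)
  linarith

end Claimed.Agent.R256
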