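import Claimed.Agent.R256.Int.HwSc
import Claimed.Agent.R256.Int.HwEnd

/-!
# Row 256, Sec. 5, block H-WALK, file F: EXIT  (Lemma int:many-leg, (H-walk) `|H| ≥ l_*`)      (architect helper157; prefix `it_hw_`)

`it_hw`      : lower score form  `T.LS pk.M p q q [T.cH p] [] a.ls η`  on every layer `p < q ≤ 2p`.
`it_hw_main` : entropy form = the stub `it_l_H` of `Int/Rates.lean`, verbatim (consumer: `it_l2_mix2` of helper154).
Order of the constants:  `A = a.hwA` (depends on `B0` only)  →  `(χ, r, η1, n1)` from `it_hw_abs`  →  layer `(p,q)`  →  packages and accuracies of `it_hw_gx`, `it_hw_gt`, `it_hw_end`, `it_hw_num`  →  datum `T`  →  walk (`it_hw_walk`).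
-/

set_option autoImplicit false

namespace Claimed.Agent.R256

open Claimed.Agent.R255
open Claimed.Agent.R255.FLaw (pair)
open scoped BigOperators
open Classical

/-- LEAF NUM. the layer has many bits and the budget of (fib) is small against them.   `(q-p) L / log 2 - 1 ≤ hwn p q`  (`tlev δ s = ⌈s L / log 2⌉₊`), `L ≥ log (1/acc)` (`it_cb_L_ge`). -/
theorem it_hw_num (a : ItPar) (η1 : ℝ) (hη1 : 0 < η1) (n1 r : ℕ) (p q : ℝ) (hp : 0 < p) (hpq : p < q) :
    ∃ acc1 : ℝ, 0 < acc1 ∧ ∀ (pk : ItPk) (acc τ κ0 : ℝ) (T : Tan), 0 < acc → acc ≤ acc1 → T.Adm a pk τ κ0 acc →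
      n1 ≤ T.hwn p q ∧ 2 * r * (acc * T.L) ≤ η1 * (T.hwn p q) * Real.log 2 := by
  have hl2 : 0 < Real.log 2 := Real.log_pos one_lt_two
  have hg : 0 < q - p := by linarith
  refine ⟨min (η1 * (q - p) / (4 * r + 4)) (Real.exp (-((((n1 : ℝ) + 2) * Real.log 2) / (q - p)))), lt_min (by positivity) (Real.exp_pos _), ?_⟩
  intro pk acc τ κ0 T hacc hacc1 hAdm
  have h0 := hAdm.t0.δ0
  have h1 := hAdm.t0.δ1
  have hL := it_cb_L_pos T h0 h1
  obtain ⟨b1, -⟩ := it_hw_bits T h0 h1 hp.le hpq.le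
  have c1 : ((n1 : ℝ) + 2) * Real.log 2 ≤ (q - p) * T.L :=
    it_cb_const_le T acc _ (q - p) hg h0 hAdm.small (hacc1.trans (min_le_right _ _))
  have c2 : acc * (4 * r + 4) ≤ η1 * (q - p) := by
    have := hacc1.trans (min_le_left _ _)
    rwa [le_div_iff₀ (by positivity)] at this
  constructor
  · have : (n1 : ℝ) * Real.log 2 ≤ (T.hwn p q : ℝ) * Real.log 2 := by nlinarith
    exact_mod_cast le_of_mul_le_mul_right this hl2
  · have hn : (0 : ℝ) ≤ n1 := Nat.cast_nonneg n1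
    have hr : (0 : ℝ) ≤ r := Nat.cast_nonneg r
    have c3 : 2 * Real.log 2 ≤ (q - p) * T.L := by nlinarith
    have c4 : η1 * ((q - p) * T.L / 2) ≤ η1 * ((T.hwn p q : ℝ) * Real.log 2) := mul_le_mul_of_nonneg_left (by linarith) hη1.le
    have c5 : acc * (4 * r + 4) * T.L ≤ η1 * (q - p) * T.L := mul_le_mul_of_nonneg_right c2 hL.le
    have c6 : 0 ≤ acc * T.L := by positivity
    nlinarith

/-- **(H-walk), lower score form** -/
theorem it_hw (a : ItPar) (ha : a.Ok) (hm : 0 < a.m) :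
    ItLayer false false false a (fun T pk p q η => T.LS pk.M p q q [T.cH p] [] a.ls η) := by
  intro η hη
  show ItLayerAt false false false a _
  obtain ⟨hc0, hd0, hd1, hm0, hm1, hν0, hν1, -, hB0⟩ := id ha
  have hA : 1 ≤ a.hwA := by
    unfold ItPar.hwA
    nlinarith
  obtain ⟨χ, r, hχ, hr, η1, n1, hη1, Habs⟩ := it_hw_abs a.m a.d (η / 2) a.hwA hm hd0 (half_pos hη) hA
  refine it_cb_imp (it_cb_true false false false a) 1 one_pos ?_
  intro p q hp hpq hq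
  have hq2 : q ≤ 2 * p := by linarith
  obtain ⟨pkx, accx, hprex, haccx, Hx⟩ := it_hw_gx a ha hm χ η1 hχ hη1 r hr p q hp hpq
  obtain ⟨pkt, acct, hpret, hacct, Ht⟩ := it_hw_gt a ha χ η1 hχ hη1 r hr p q hp hpq
  obtain ⟨pke, acce, hpree, hacce, He⟩ := it_hw_end a ha η hη r hr p q hp hpq hq2
  obtain ⟨accn, haccn, Hn⟩ := it_hw_num a η1 hη1 n1 r p q hp hpq
  refine ⟨((pkx.sup pkt).sup (pke.sup (⟨2 * r, 0, 0, 1, {p}, ∅⟩ : ItPk))), min (min accx acct) (min acce accn),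
    it_cb_sup_pre (it_cb_sup_pre hprex hpret) (it_cb_sup_pre hpree ⟨one_pos, fun x hx => by
      rw [Finset.mem_singleton.1 hx]; exact hp.le⟩), lt_min (lt_min haccx hacct) (lt_min hacce haccn), ?_⟩
  rintro pk acc τ κ0 T hpk hle hacc hacc1 hquad hAdm - - -
  have hle4 : (⟨2 * r, 0, 0, 1, {p}, ∅⟩ : ItPk).le pk := it_cb_sup_right (it_cb_sup_right hle)
  have hM : 2 * r ≤ pk.M := hle4.1
  have hpG : p ∈ pk.G := hle4.2.2.2.2 (Finset.mem_singleton_self p)
  have hpK : p ≤ pk.K := (hpk.2.2.2.2.2.2 p hpG).2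
  obtain ⟨hn1, hΦ⟩ := Hn pk acc τ κ0 T hacc (hacc1.trans ((min_le_right _ _).trans (min_le_right _ _))) hAdm
  obtain ⟨Θ, inst, W, o, hW0⟩ := it_hw_walk T pk.M (2 * r) pk.K pk.RQ
  have hsum : ∑ k ∈ Finset.range (2 * r), T.P.miC (T.Xn pk.K) (pair (T.Qn pk.RQ k) (T.Xi pk.M)) T.Cs ≤ 2 * r * (acc * T.L) := by
    refine (Finset.sum_le_sum fun k hk => hAdm.ti.fib k (lt_of_lt_of_le (Finset.mem_range.1 hk) hM)).trans ?_
    rw [Finset.sum_const, Finset.card_range, nsmul_eq_mul]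
    push_cast
    exact le_refl _
  have hW := it_hw_ok_mono hW0 hsum
  have hset : ItHwSet a ((pkx.sup pkt).sup (pke.sup (⟨2 * r, 0, 0, 1, {p}, ∅⟩ : ItPk))) pk (min (min accx acct) (min acce accn)) acc T r W o :=
    ⟨hpk, hle, hacc, hacc1, hquad, ⟨τ, κ0, hAdm⟩, hM, hW⟩
  have hsx := it_hw_set_left (it_hw_set_left hset)
  have hst := it_hw_set_right (it_hw_set_left hset)
  have hse := it_hw_set_left (it_hw_set_right hset)
  refine He pk acc T Θ W o hse ?_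
  refine Habs (T.hwn p q) hn1 Θ _ _ _ W (T.hwx o pk.K p r) (T.hwt o r) (T.hwDD o pk.M pk.K p (2 * r))
    (T.hwD o pk.M pk.K p (2 * r)) (T.hwTg o) ?_
  refine ⟨fun j hj h hh => it_hw_bd hW ha hAdm.t0 hM hp.le hpK hj h hh, fun j _ h h' _ _ e => it_hw_tag T o r j h h' e,
    fun j hj h h' _ _ => it_hw_full T o pk.M pk.K p r j hj hM h h', Hx pk acc T Θ W o hsx, Ht pk acc T Θ W o hst,
    fun j hj => (it_hw_i_inf hW hAdm.t0 hM hp.le hpK hj _).trans hΦ, fun j hj => (it_hw_i_cor hW hAdm.t0 hM hp.le hpK hj _).trans hΦ⟩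

/-- **(H-walk)** `|H| ≥ l_*`, entropy form (= `it_l_H` of `Int/Rates.lean`) -/
theorem it_hw_main (a : ItPar) (ha : a.Ok) (hm : 0 < a.m) :
    ItLayer false false false a (fun T pk p q η => (a.ls - η) * (q - p) * T.L ≤ T.hh pk.M p q [T.cH p] []) := by
  intro η hη
  show ItLayerAt false false false a _
  obtain ⟨hc0, hd0, hd1, hm0, hm1, hν0, hν1, -, hB0⟩ := id ha
  have hls0 : 0 < a.ls := lt_min one_pos (by linarith)
  have hls1 : a.ls ≤ 1 := min_le_left _ _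
  obtain ⟨η', hη'⟩ : ∃ η' : ℝ, η' = min (η / 2) a.ls := ⟨_, rfl⟩
  have hη'0 : 0 < η' := by rw [hη']; exact lt_min (half_pos hη) hls0
  have hη'1 : η' ≤ η / 2 := by rw [hη']; exact min_le_left _ _
  have hη'2 : η' ≤ a.ls := by rw [hη']; exact min_le_right _ _
  refine it_cb_imp (it_hw a ha hm η' hη'0) 1 one_pos ?_
  intro p q hp hpq _
  refine ⟨itPk0 0 1, 1, it_cb_pk0_pre 0 1 one_pos, one_pos, ?_⟩
  rintro pk acc τ κ0 T - - - - - hAdm - - hLS
  have h0 := hAdm.t0.δ0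
  have h1 := hAdm.t0.δ1
  have hL := it_cb_L_pos T h0 h1
  have hE := it_k_E_of_LS T h0 h1 pk.M p q hpq.le _ _ _ _ hη'0.le hη'2 hLS
  refine le_trans ?_ hE
  have hX : 0 ≤ (q - p) * T.L := mul_nonneg (by linarith) hL.le
  have h2 : a.ls - η ≤ (a.ls - η') * (1 - η') := by nlinarith
  have := mul_le_mul_of_nonneg_right h2 hX
  nlinarith

end Claimed.Agent.R256
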