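import Claimed.Agent.R256.Fp.Ev
import Claimed.Agent.R256.LT.Kit
import Claimed.Agent.R256.Lay.Walk

/-!
# Row 256, Sec. 5, block H-WALK (Lemma int:many-leg, 05 l.583-668), file A: the PAPER-FREE part      (architect helper157; prefix `it_hw_`)

No tangent datum here: one finite law `P`, real observations.
## 1. the iteration of the window lemma `ic_wl` over the legs
`x j`, `t j` (`j < r`) : new scalar and slope of the step `j`;  partial sums `itHwS x t j = - ∑_{i<j} t i * x i`  (so `S_{j+1} = S_j - t_j x_j` = intercept of the point `itHwQ x t j = (x_j, S_j)`, slope `t_j`).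
`DD` = the full auxiliary data, `D j` = the same data without the pair of records of the step `j`, `Tg j` = that pair;  `(Tg j, D j) ~ DD`.
`ItHwHyp` : chart bound `A`, `x_j` Frostman `β` and `t_j` Frostman `γ` given `D j` (tolerance `χ` = the constant of `ic_wl`), `I((x_j,S_j)_n ; Tg j | D j)`, `I(S_{j,n} ; x_{j,n} | DD) ≤ η1 n` bits.
`it_hw_abs` : after `r = r(β,γ,η,A)` steps  `sur(S_{r,n} | DD) ≥ (min 1 (β+γ) - η) n` bits off an event of mass `η`.
   ONE STEP (`it_hw_step`):  `sur(S_j | x_j, D j) ≥ sur(S_j | x_j, Tg j, D j) - τ` (`ic_lp`) `≥ sur(S_j | DD) - 2τ` (`ltk_info_tail` with `cor`);  `ic_wl` (support form `it_hw_wl_s`):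
   `sur(S_{j+1} | DD) ≥ min (sur(S_j | x_j, D j) + χ n, (thr - ξ) n) - ε n`.     So the score grows by `χ/2` per step until it reaches `thr - ξ - 2ε`.
   THE CHART BOUND `A` MUST NOT DEPEND ON `r` (`χ` depends on `A`, `r` on `χ`): the consumer divides the slopes by `r`.
## 2. information algebra:  `it_hw_subadd`, `it_hw_np_a`, `it_hw_np_b` (near-product laws), `it_hw_mi_blk` (two blocks, retained prefixes)
## 3. scores:  `it_hw_tr2` (transfer with a listed conditioning), `it_hw_mesh` (from a mesh of levels to all levels)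
## 4. real variables:  `it_hw_sumB`, `it_hw_sumY` (sum of the legs), `it_hw_abel` (summation by parts, odd / even terms)
LEAVES: L-256-INT-HW-WLS (`it_hw_wl_s`), -STEP (`it_hw_step`), -ABS (`it_hw_abs`), -NP (`it_hw_subadd`, `it_hw_np_a`, `it_hw_np_b`), -BLK (`it_hw_mi_blk`), -TR (`it_hw_tr2`, `it_hw_mesh`), -ALG (section 4).
-/

set_option autoImplicit false

namespace Claimed.Agent.R256

open Claimed.Agent.R255 Claimed.Agent.R255.FLaw
open scoped BigOperators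
open Classical

/-! ## 1. iteration of the window lemma -/

/-- partial sums -/
noncomputable def itHwS {Ω : Type} (x t : ℕ → Ω → ℝ) (j : ℕ) : Ω → ℝ := fun ω => - ∑ i ∈ Finset.range j, t i ω * x i ω

/-- the planar point of the step `j` -/
noncomputable def itHwQ {Ω : Type} (x t : ℕ → Ω → ℝ) (j : ℕ) : Ω → ℝ × ℝ := fun ω => (x j ω, itHwS x t j ω)

/-- cell of the partial sum -/
noncomputable def itHwC {Ω : Type} (x t : ℕ → Ω → ℝ) (j n : ℕ) : Ω → ℤ := fun ω => icCell n (itHwS x t j ω)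

theorem it_hw_abs_eqns_cite : True := by
  have := @itHwS.eq_1; have := @itHwQ.eq_1; have := @itHwC.eq_1
  trivial

/-- the intercept of the step `j` is the next partial sum -/
theorem it_hw_icU {Ω : Type} (x t : ℕ → Ω → ℝ) (j n : ℕ) : icU (itHwQ x t j) (t j) n = itHwC x t (j + 1) n := by
  funext ω
  unfold icU icW itHwQ itHwC itHwS
  rw [Finset.sum_range_succ]
  congr 1
  ring

/-- **hypotheses of the iteration** -/
structure ItHwHyp {Ω : Type} [Fintype Ω] {δ δ' β' : Type} (P : FLaw Ω) (r n : ℕ) (x t : ℕ → Ω → ℝ)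
    (DD : Ω → δ) (D : ℕ → Ω → δ') (Tg : ℕ → Ω → β') (A β γ χ η1 : ℝ) : Prop where
  /-- bounded chart, on the support -/
  bd : ∀ j < r, ∀ ω, P.p ω ≠ 0 → |x j ω| ≤ A ∧ |itHwS x t j ω| ≤ A ∧ |t j ω| ≤ A
  /-- the tag determines the slope -/
  tag : ∀ j < r, ∀ ω ω', P.p ω ≠ 0 → P.p ω' ≠ 0 → Tg j ω = Tg j ω' → t j ω = t j ω'
  /-- `(Tg j, D j) ~ DD` -/
  full : ∀ j < r, ∀ ω ω', P.p ω ≠ 0 → P.p ω' ≠ 0 → (DD ω = DD ω' ↔ Tg j ω = Tg j ω' ∧ D j ω = D j ω')
  /-- the new scalar is Frostman `β` -/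
  gx : ∀ j < r, P.pr (fun ω => ¬ IcGood P (icX (itHwQ x t j)) (D j) β χ n ω) ≤ η1
  /-- the slope is Frostman `γ` -/
  gt : ∀ j < r, P.pr (fun ω => ¬ IcGood P (icS (t j)) (D j) γ χ n ω) ≤ η1
  /-- the point is almost independent of the omitted pair -/
  inf : ∀ j < r, P.miC (icQ (itHwQ x t j) n) (Tg j) (D j) ≤ η1 * n * Real.log 2
  /-- the previous sum is almost independent of the new scalar -/
  cor : ∀ j < r, P.miC (itHwC x t j n) (icX (itHwQ x t j) n) DD ≤ η1 * n * Real.log 2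

/-- LEAF WLS. **window lemma, support form** (pattern: `fp_main_s` of `Fp/Ev.lean`: `fpZr`, `fpOpt`). -/
theorem it_hw_wl_s (β γ ξ A : ℝ) (hβ : 0 < β) (hγ : 0 < γ) (hξ : 0 < ξ) (hA : 1 ≤ A) :
    ∃ χ : ℝ, 0 < χ ∧ ∃ n₁ : ℕ, ∀ n : ℕ, n₁ ≤ n → ∀ ε : ℝ, 0 < ε →
      ∀ (Ω δ β' : Type) [Fintype Ω] (P : FLaw Ω) (q : Ω → ℝ × ℝ) (t : Ω → ℝ) (D : Ω → δ) (Tg : Ω → β'),
      (∀ ω, P.p ω ≠ 0 → |(q ω).1| ≤ A ∧ |(q ω).2| ≤ A ∧ |t ω| ≤ A) →
      (∀ ω ω', P.p ω ≠ 0 → P.p ω' ≠ 0 → Tg ω = Tg ω' → t ω = t ω') →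
      P.pr (fun ω => IcGood P (icX q) D β χ n ω ∧ IcGood P (icS t) D γ χ n ω ∧
          P.surC (icU q t n) (pair Tg D) ω <
            min (P.surC (icQ q n) (pair (icX q n) D) ω + χ * n * Real.log 2) ((min 1 (β + γ) - ξ) * n * Real.log 2)
              - ε * n * Real.log 2)
        ≤ (1 / ε + 2) * ((P.miC (icQ q n) Tg D + Real.log 2) / (χ * n * Real.log 2)) := by
  obtain ⟨χ, hχ, n₁, H⟩ := ic_wl β γ ξ A hβ hγ hξ hA
  refine ⟨χ, hχ, n₁, fun n hn ε hε Ω δ β' _ P q t D Tg hbd htag => ?_⟩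
  have hX : ∀ j ω, P.p ω ≠ 0 → icX (fpZr P q) j ω = icX q j ω := fun j ω h => by
    unfold icX; rw [fp_aux_zr P q h]
  have hQ : ∀ j ω, P.p ω ≠ 0 → icQ (fpZr P q) j ω = icQ q j ω := fun j ω h => by
    unfold icQ; rw [fp_aux_zr P q h]
  have hS : ∀ j ω, P.p ω ≠ 0 → icS (fpZr P t) j ω = icS t j ω := fun j ω h => by
    unfold icS; rw [fp_aux_zr P t h]
  have hU : ∀ j ω, P.p ω ≠ 0 → icU (fpZr P q) (fpZr P t) j ω = icU q t j ω := fun j ω h => by
    unfold icU icW; rw [fp_aux_zr P q h, fp_aux_zr P t h]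
  have hbd' : IcBd A (fpZr P q) (fpZr P t) := by
    intro ω
    by_cases h : P.p ω ≠ 0
    · rw [fp_aux_zr P q h, fp_aux_zr P t h]
      exact hbd ω h
    · rw [fp_aux_zr' P q h, fp_aux_zr' P t h]
      simp only [Prod.fst_zero, Prod.snd_zero, abs_zero]
      exact ⟨by linarith, by linarith, by linarith⟩
  have htag' : ∀ ω ω', fpOpt P Tg D ω = fpOpt P Tg D ω' → icS (fpZr P t) n ω = icS (fpZr P t) n ω' := by
    intro ω ω' he
    by_cases h : P.p ω ≠ 0 <;> by_cases h' : P.p ω' ≠ 0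
    · rw [hS _ _ h, hS _ _ h']
      obtain ⟨a, -⟩ := (fp_aux_opt_iff P Tg D h h').1 he
      unfold icS
      rw [htag ω ω' h h' a]
    · unfold fpOpt at he
      rw [if_pos h, if_neg h'] at he
      exact absurd he (by simp)
    · unfold fpOpt at he
      rw [if_neg h, if_pos h'] at he
      exact absurd he (by simp)
    · unfold icS
      rw [fp_aux_zr' P t h, fp_aux_zr' P t h']
  have hmain := H n hn ε hε Ω δ _ P (fpZr P q) (fpZr P t) D (fpOpt P Tg D) hbd' htag'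
  have hmi : P.miC (icQ (fpZr P q) n) (fpOpt P Tg D) D = P.miC (icQ q n) Tg D := by
    unfold FLaw.miC
    rw [ent_congr_ker P (pair (icQ (fpZr P q) n) D) (pair (icQ q n) D) (fun ω ω' h h' => by
        simp only [FLaw.pair, Prod.mk.injEq, hQ _ _ h, hQ _ _ h']),
      ent_congr_ker P (pair (fpOpt P Tg D) D) (pair Tg D) (fun ω ω' h h' => by
        simp only [FLaw.pair, Prod.mk.injEq, fp_aux_opt_iff P Tg D h h']; tauto),
      ent_congr_ker P (pair (pair (icQ (fpZr P q) n) (fpOpt P Tg D)) D) (pair (pair (icQ q n) Tg) D) (fun ω ω' h h' => by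
        simp only [FLaw.pair, Prod.mk.injEq, hQ _ _ h, hQ _ _ h', fp_aux_opt_iff P Tg D h h']; tauto)]
  rw [hmi] at hmain
  refine le_trans (le_of_eq (ent_pr_congr P fun ω hω => ?_)) hmain
  have g1 : IcGood P (icX q) D β χ n ω ↔ IcGood P (icX (fpZr P q)) D β χ n ω := by
    refine forall_congr' fun j => forall_congr' fun _ => ?_
    rw [ent_surC_congr P (icX q j) (icX (fpZr P q) j) D D ω (fun _ _ => Iff.rfl) (fun ω' hω' _ => by rw [hX _ _ hω, hX _ _ hω'])]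
  have g2 : IcGood P (icS t) D γ χ n ω ↔ IcGood P (icS (fpZr P t)) D γ χ n ω := by
    refine forall_congr' fun j => forall_congr' fun _ => ?_
    rw [ent_surC_congr P (icS t j) (icS (fpZr P t) j) D D ω (fun _ _ => Iff.rfl) (fun ω' hω' _ => by rw [hS _ _ hω, hS _ _ hω'])]
  have g3 : P.surC (icU q t n) (pair Tg D) ω = P.surC (icU (fpZr P q) (fpZr P t) n) (pair (fpOpt P Tg D) D) ω := by
    refine ent_surC_congr P _ _ _ _ ω (fun ω' hω' => ?_) (fun ω' hω' _ => by rw [hU _ _ hω, hU _ _ hω'])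
    simp only [FLaw.pair, Prod.mk.injEq, fp_aux_opt_iff P Tg D hω' hω]
    tauto
  have g4 : P.surC (icQ q n) (pair (icX q n) D) ω = P.surC (icQ (fpZr P q) n) (pair (icX (fpZr P q) n) D) ω := by
    refine ent_surC_congr P _ _ _ _ ω (fun ω' hω' => ?_) (fun ω' hω' _ => by rw [hQ _ _ hω, hQ _ _ hω'])
    simp only [FLaw.pair, Prod.mk.injEq, hX _ _ hω, hX _ _ hω']
  rw [g1, g2, g3, g4]

/-- LEAF STEP. **one step**, `wl` = the instance of `it_hw_wl_s` at `(χ, n, ε)`; `u = n log 2`. -/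
theorem it_hw_step {Ω : Type} [Fintype Ω] {δ δ' β' : Type} (P : FLaw Ω) (r n : ℕ) (x t : ℕ → Ω → ℝ)
    (DD : Ω → δ) (D : ℕ → Ω → δ') (Tg : ℕ → Ω → β') (A β γ χ η1 : ℝ) (H : ItHwHyp P r n x t DD D Tg A β γ χ η1)
    (j : ℕ) (hj : j < r) (ξ ε ρ π τ : ℝ) (hτ : 0 < τ) (hn : 0 < n) (hχ : 0 < χ) (hε : 0 < ε)
    (wl : P.pr (fun ω => IcGood P (icX (itHwQ x t j)) (D j) β χ n ω ∧ IcGood P (icS (t j)) (D j) γ χ n ω ∧
          P.surC (icU (itHwQ x t j) (t j) n) (pair (Tg j) (D j)) ω <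
            min (P.surC (icQ (itHwQ x t j) n) (pair (icX (itHwQ x t j) n) (D j)) ω + χ * n * Real.log 2)
              ((min 1 (β + γ) - ξ) * n * Real.log 2) - ε * n * Real.log 2)
        ≤ (1 / ε + 2) * ((P.miC (icQ (itHwQ x t j) n) (Tg j) (D j) + Real.log 2) / (χ * n * Real.log 2)))
    (hprev : P.pr (fun ω => P.surC (itHwC x t j n) DD ω < ρ * n * Real.log 2) ≤ π) :
    P.pr (fun ω => P.surC (itHwC x t (j + 1) n) DD ω
        < min ((ρ + χ) * n * Real.log 2 - 2 * τ) ((min 1 (β + γ) - ξ) * n * Real.log 2) - ε * n * Real.log 2)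
      ≤ π + 2 * η1 + (1 / ε + 2) * ((η1 * n * Real.log 2 + Real.log 2) / (χ * n * Real.log 2))
          + Real.exp (-τ) + (η1 * n * Real.log 2 + 1) / τ := by
  have hl2 : 0 < Real.log 2 := Real.log_pos (by norm_num)
  have hnR : (0 : ℝ) < n := Nat.cast_pos.2 hn
  obtain ⟨q, hq⟩ : ∃ q, q = itHwQ x t j := ⟨_, rfl⟩
  obtain ⟨Sj, hSj⟩ : ∃ Sj, Sj = itHwC x t j n := ⟨_, rfl⟩
  obtain ⟨Xj, hXj⟩ : ∃ Xj, Xj = icX q n := ⟨_, rfl⟩
  have hfull := H.full j hj
  -- the six bad events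
  have b1 := H.gx j hj
  have b2 := H.gt j hj
  have b3 : P.pr (fun ω => IcGood P (icX (itHwQ x t j)) (D j) β χ n ω ∧ IcGood P (icS (t j)) (D j) γ χ n ω ∧
          P.surC (icU (itHwQ x t j) (t j) n) (pair (Tg j) (D j)) ω <
            min (P.surC (icQ (itHwQ x t j) n) (pair (icX (itHwQ x t j) n) (D j)) ω + χ * n * Real.log 2)
              ((min 1 (β + γ) - ξ) * n * Real.log 2) - ε * n * Real.log 2)
        ≤ (1 / ε + 2) * ((η1 * n * Real.log 2 + Real.log 2) / (χ * n * Real.log 2)) := by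
    refine wl.trans (mul_le_mul_of_nonneg_left ?_ (by positivity))
    exact div_le_div_of_nonneg_right (by linarith [H.inf j hj]) (by positivity)
  have b5 := ic_lp P Sj (pair Xj (D j)) (Tg j) τ
  have b6 : P.pr (fun ω => P.surC Sj (pair Xj DD) ω + τ < P.surC Sj DD ω) ≤ (η1 * n * Real.log 2 + 1) / τ := by
    refine (ltk_info_tail P Sj DD Xj hτ).trans (div_le_div_of_nonneg_right ?_ hτ.le)
    have := H.cor j hj
    rw [← hq, ← hXj, ← hSj] at this
    linarith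
  -- the union bound
  have hU : P.pr (fun ω => P.surC (itHwC x t (j + 1) n) DD ω
        < min ((ρ + χ) * n * Real.log 2 - 2 * τ) ((min 1 (β + γ) - ξ) * n * Real.log 2) - ε * n * Real.log 2)
      ≤ P.pr (fun ω => ((((P.surC (itHwC x t j n) DD ω < ρ * n * Real.log 2 ∨ ¬ IcGood P (icX (itHwQ x t j)) (D j) β χ n ω) ∨
          ¬ IcGood P (icS (t j)) (D j) γ χ n ω) ∨
          (IcGood P (icX (itHwQ x t j)) (D j) β χ n ω ∧ IcGood P (icS (t j)) (D j) γ χ n ω ∧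
          P.surC (icU (itHwQ x t j) (t j) n) (pair (Tg j) (D j)) ω <
            min (P.surC (icQ (itHwQ x t j) n) (pair (icX (itHwQ x t j) n) (D j)) ω + χ * n * Real.log 2)
              ((min 1 (β + γ) - ξ) * n * Real.log 2) - ε * n * Real.log 2)) ∨
          P.surC Sj (pair Xj (D j)) ω < P.surC Sj (pair (Tg j) (pair Xj (D j))) ω - τ) ∨
          P.surC Sj (pair Xj DD) ω + τ < P.surC Sj DD ω) := by
    refine ent_pr_mono P fun ω hω hbad => ?_
    by_contra hcon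
    simp only [not_or, not_and, not_lt, not_not] at hcon
    obtain ⟨⟨⟨⟨⟨c4, c1⟩, c2⟩, c3⟩, c5⟩, c6⟩ := hcon
    have c3' := c3 c1 c2
    -- identifications
    have e1 : P.surC (itHwC x t (j + 1) n) DD ω = P.surC (icU (itHwQ x t j) (t j) n) (pair (Tg j) (D j)) ω := by
      rw [it_hw_icU]
      refine ent_surC_congr P _ _ _ _ ω (fun ω' hω' => ?_) (fun _ _ _ => Iff.rfl)
      simp only [FLaw.pair, Prod.mk.injEq]
      exact hfull ω' ω hω' hω
    have e2 : P.surC (icQ (itHwQ x t j) n) (pair (icX (itHwQ x t j) n) (D j)) ω = P.surC Sj (pair Xj (D j)) ω := by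
      rw [hXj, hq]
      refine ent_surC_congr P _ _ _ _ ω (fun _ _ => Iff.rfl) (fun ω' _ h => ?_)
      simp only [FLaw.pair, Prod.mk.injEq] at h
      have h1 : icCell n (itHwQ x t j ω').1 = icCell n (itHwQ x t j ω).1 := h.1
      rw [hSj]
      show (icCell n (itHwQ x t j ω').1, icCell n (itHwQ x t j ω').2) = (icCell n (itHwQ x t j ω).1, icCell n (itHwQ x t j ω).2) ↔
        icCell n (itHwS x t j ω') = icCell n (itHwS x t j ω)
      rw [Prod.mk.injEq]
      exact ⟨fun h2 => h2.2, fun h2 => ⟨h1, h2⟩⟩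
    have e3 : P.surC Sj (pair (Tg j) (pair Xj (D j))) ω = P.surC Sj (pair Xj DD) ω := by
      refine ent_surC_congr P _ _ _ _ ω (fun ω' hω' => ?_) (fun _ _ _ => Iff.rfl)
      simp only [FLaw.pair, Prod.mk.injEq]
      have := hfull ω' ω hω' hω
      constructor
      · rintro ⟨a, b, c⟩
        exact ⟨b, this.2 ⟨a, c⟩⟩
      · rintro ⟨a, b⟩
        exact ⟨(this.1 b).1, a, (this.1 b).2⟩
    rw [e1] at hbad
    rw [e2] at c3'
    rw [e3] at c5
    rw [← hSj] at c4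
    have h7 : (ρ + χ) * n * Real.log 2 - 2 * τ ≤ P.surC Sj (pair Xj (D j)) ω + χ * n * Real.log 2 := by
      have : (ρ + χ) * n * Real.log 2 = ρ * n * Real.log 2 + χ * n * Real.log 2 := by ring
      linarith
    have h8 := min_le_min_right ((min 1 (β + γ) - ξ) * n * Real.log 2) h7
    linarith
  refine hU.trans ?_
  have u1 := ent_pr_or_le P (fun ω => ((((P.surC (itHwC x t j n) DD ω < ρ * n * Real.log 2 ∨ ¬ IcGood P (icX (itHwQ x t j)) (D j) β χ n ω) ∨
          ¬ IcGood P (icS (t j)) (D j) γ χ n ω) ∨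
          (IcGood P (icX (itHwQ x t j)) (D j) β χ n ω ∧ IcGood P (icS (t j)) (D j) γ χ n ω ∧
          P.surC (icU (itHwQ x t j) (t j) n) (pair (Tg j) (D j)) ω <
            min (P.surC (icQ (itHwQ x t j) n) (pair (icX (itHwQ x t j) n) (D j)) ω + χ * n * Real.log 2)
              ((min 1 (β + γ) - ξ) * n * Real.log 2) - ε * n * Real.log 2)) ∨
          P.surC Sj (pair Xj (D j)) ω < P.surC Sj (pair (Tg j) (pair Xj (D j))) ω - τ))
          (fun ω => P.surC Sj (pair Xj DD) ω + τ < P.surC Sj DD ω)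
  have u2 := ent_pr_or_le P (fun ω => (((P.surC (itHwC x t j n) DD ω < ρ * n * Real.log 2 ∨ ¬ IcGood P (icX (itHwQ x t j)) (D j) β χ n ω) ∨
          ¬ IcGood P (icS (t j)) (D j) γ χ n ω) ∨
          (IcGood P (icX (itHwQ x t j)) (D j) β χ n ω ∧ IcGood P (icS (t j)) (D j) γ χ n ω ∧
          P.surC (icU (itHwQ x t j) (t j) n) (pair (Tg j) (D j)) ω <
            min (P.surC (icQ (itHwQ x t j) n) (pair (icX (itHwQ x t j) n) (D j)) ω + χ * n * Real.log 2)
              ((min 1 (β + γ) - ξ) * n * Real.log 2) - ε * n * Real.log 2)))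
          (fun ω => P.surC Sj (pair Xj (D j)) ω < P.surC Sj (pair (Tg j) (pair Xj (D j))) ω - τ)
  have u3 := ent_pr_or_le P (fun ω => ((P.surC (itHwC x t j n) DD ω < ρ * n * Real.log 2 ∨ ¬ IcGood P (icX (itHwQ x t j)) (D j) β χ n ω) ∨
          ¬ IcGood P (icS (t j)) (D j) γ χ n ω))
          (fun ω => (IcGood P (icX (itHwQ x t j)) (D j) β χ n ω ∧ IcGood P (icS (t j)) (D j) γ χ n ω ∧
          P.surC (icU (itHwQ x t j) (t j) n) (pair (Tg j) (D j)) ω <
            min (P.surC (icQ (itHwQ x t j) n) (pair (icX (itHwQ x t j) n) (D j)) ω + χ * n * Real.log 2)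
              ((min 1 (β + γ) - ξ) * n * Real.log 2) - ε * n * Real.log 2))
  have u4 := ent_pr_or_le P (fun ω => (P.surC (itHwC x t j n) DD ω < ρ * n * Real.log 2 ∨ ¬ IcGood P (icX (itHwQ x t j)) (D j) β χ n ω))
          (fun ω => ¬ IcGood P (icS (t j)) (D j) γ χ n ω)
  have u5 := ent_pr_or_le P (fun ω => P.surC (itHwC x t j n) DD ω < ρ * n * Real.log 2) (fun ω => ¬ IcGood P (icX (itHwQ x t j)) (D j) β χ n ω)
  linarith

/-- the increment of one step is small -/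
theorem it_hw_abs_inc {χ ε η η1 c1 c2 τ : ℝ} {r n : ℕ} (hχ : 0 < χ) (hε : 0 < ε) (hη : 0 < η) (hr : 0 < r) (hn : 0 < n)
    (hc1 : c1 = 2 + (1 / ε + 2) / χ + 2 / ε) (hc2 : c2 = (1 / ε + 2) / χ + 4 / (ε * Real.log 2))
    (hη1 : η1 = η / (2 * r * c1)) (hn2 : 2 * r * c2 / η ≤ (n : ℝ)) (hτ : τ = ε * ((n : ℝ) * Real.log 2) / 2) :
    (r : ℝ) * (2 * η1 + (1 / ε + 2) * ((η1 * n * Real.log 2 + Real.log 2) / (χ * n * Real.log 2))
      + Real.exp (-τ) + (η1 * n * Real.log 2 + 1) / τ) ≤ η := by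
  have hl2 : 0 < Real.log 2 := Real.log_pos (by norm_num)
  have hrR : (0 : ℝ) < r := Nat.cast_pos.2 hr
  have hnR : (0 : ℝ) < n := Nat.cast_pos.2 hn
  have hc1p : 0 < c1 := by rw [hc1]; positivity
  have hτ0 : 0 < τ := by rw [hτ]; positivity
  have e1 : (η1 * n * Real.log 2 + Real.log 2) / (χ * n * Real.log 2) = η1 / χ + 1 / (χ * n) := by
    field_simp
  have e2 : (η1 * n * Real.log 2 + 1) / τ = 2 * η1 / ε + 2 / (ε * Real.log 2) / n := by
    rw [hτ]
    field_simp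
  have e3 : Real.exp (-τ) ≤ 2 / (ε * Real.log 2) / n := by
    have h1 : τ ≤ Real.exp τ := by
      have := Real.add_one_le_exp τ
      linarith
    rw [Real.exp_neg]
    have h2 : (Real.exp τ)⁻¹ ≤ τ⁻¹ := inv_anti₀ hτ0 h1
    refine h2.trans (le_of_eq ?_)
    rw [hτ]
    field_simp
  have e4 : 2 * η1 + (1 / ε + 2) * (η1 / χ + 1 / (χ * n)) + Real.exp (-τ) + (2 * η1 / ε + 2 / (ε * Real.log 2) / n) ≤ η1 * c1 + c2 / n := by
    have : η1 * c1 + c2 / n
        = 2 * η1 + (1 / ε + 2) * (η1 / χ + 1 / (χ * n)) + 2 / (ε * Real.log 2) / n + (2 * η1 / ε + 2 / (ε * Real.log 2) / n) := by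
      rw [hc1, hc2]
      field_simp
      ring
    rw [this]
    linarith
  have e5 : (r : ℝ) * (η1 * c1) = η / 2 := by
    rw [hη1]
    field_simp
  have e6 : (r : ℝ) * (c2 / n) ≤ η / 2 := by
    rw [div_le_iff₀ hη] at hn2
    rw [← mul_div_assoc, div_le_iff₀ hnR]
    linarith
  rw [e1, e2]
  calc _ ≤ (r : ℝ) * (η1 * c1 + c2 / n) := mul_le_mul_of_nonneg_left e4 hrR.le
    _ = r * (η1 * c1) + r * (c2 / n) := by ring
    _ ≤ η := by linarith

/-- comparison of the thresholds of two consecutive steps -/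
theorem it_hw_abs_thr {χ ε ξ thr τ : ℝ} {j n : ℕ} (hε0 : 0 < ε) (hε : ε ≤ χ / 8) (hτ : τ = ε * ((n : ℝ) * Real.log 2) / 2) :
    min (((j + 1 : ℕ) : ℝ) * χ / 2) (thr - ξ - 2 * ε) * n * Real.log 2
      ≤ min ((min ((j : ℝ) * χ / 2) (thr - ξ - 2 * ε) + χ) * n * Real.log 2 - 2 * τ) ((thr - ξ) * n * Real.log 2) - ε * n * Real.log 2 := by
  have hl2 : 0 < Real.log 2 := Real.log_pos (by norm_num)
  obtain ⟨u, hu⟩ : ∃ u, u = (n : ℝ) * Real.log 2 := ⟨_, rfl⟩
  have hu0 : 0 ≤ u := by rw [hu]; positivity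
  obtain ⟨ρ, hρ⟩ : ∃ ρ, ρ = min ((j : ℝ) * χ / 2) (thr - ξ - 2 * ε) := ⟨_, rfl⟩
  obtain ⟨ρ', hρ'⟩ : ∃ ρ', ρ' = min (((j + 1 : ℕ) : ℝ) * χ / 2) (thr - ξ - 2 * ε) := ⟨_, rfl⟩
  rw [← hρ, ← hρ']
  have a1 : ρ' ≤ ρ + χ - 2 * ε := by
    rcases le_total ((j : ℝ) * χ / 2) (thr - ξ - 2 * ε) with hc | hc
    · rw [hρ, min_eq_left hc, hρ']
      refine (min_le_left _ _).trans ?_
      push_cast
      linarith
    · rw [hρ, min_eq_right hc, hρ']
      refine (min_le_right _ _).trans ?_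
      linarith
  have a2 : ρ' ≤ thr - ξ - ε := by
    rw [hρ']
    exact (min_le_right _ _).trans (by linarith)
  have b1 : ρ' * n * Real.log 2 = ρ' * u := by rw [hu]; ring
  have b2 : (ρ + χ) * n * Real.log 2 - 2 * τ = (ρ + χ - ε) * u := by rw [hτ, hu]; ring
  have b3 : (thr - ξ) * n * Real.log 2 = (thr - ξ) * u := by rw [hu]; ring
  have b4 : ε * n * Real.log 2 = ε * u := by rw [hu]; ring
  rw [b1, b2, b3, b4, le_sub_iff_add_le, le_min_iff]
  constructor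
  · have := mul_le_mul_of_nonneg_right a1 hu0
    nlinarith
  · have := mul_le_mul_of_nonneg_right a2 hu0
    nlinarith

/-- LEAF ABS. **the iteration.**   `ξ = η/4`, `(χ, n₁)` from `it_hw_wl_s`, `ε = min (χ/8) (η/8)`, `τ = ε n log 2 / 2`, `r = ⌈2/χ⌉ + 1`;
by induction on `j ≤ r`:  `pr (sur(S_j | DD) < ρ_j n log 2) ≤ j π₁`,  `ρ_j = min (j χ / 2) (thr - ξ - 2ε)`,  `π₁` = the increment of `it_hw_step`;  `η1`, `n1` make `r π₁ ≤ η`. -/
theorem it_hw_abs (β γ η A : ℝ) (hβ : 0 < β) (hγ : 0 < γ) (hη : 0 < η) (hA : 1 ≤ A) :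
    ∃ (χ : ℝ) (r : ℕ), 0 < χ ∧ 0 < r ∧ ∃ (η1 : ℝ) (n1 : ℕ), 0 < η1 ∧ ∀ n : ℕ, n1 ≤ n →
      ∀ (Ω δ δ' β' : Type) [Fintype Ω] (P : FLaw Ω) (x t : ℕ → Ω → ℝ) (DD : Ω → δ) (D : ℕ → Ω → δ') (Tg : ℕ → Ω → β'),
        ItHwHyp P r n x t DD D Tg A β γ χ η1 →
        P.pr (fun ω => P.surC (itHwC x t r n) DD ω < (min 1 (β + γ) - η) * n * Real.log 2) ≤ η := by
  obtain ⟨χ, hχ, n₁, hwl⟩ := it_hw_wl_s β γ (η / 4) A hβ hγ (by positivity) hA
  obtain ⟨ε, hεd⟩ : ∃ ε, ε = min (χ / 8) (η / 8) := ⟨_, rfl⟩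
  have hε : 0 < ε := by rw [hεd]; exact lt_min (by positivity) (by positivity)
  have hε1 : ε ≤ χ / 8 := by rw [hεd]; exact min_le_left _ _
  have hε2 : ε ≤ η / 8 := by rw [hεd]; exact min_le_right _ _
  obtain ⟨r, hrd⟩ : ∃ r : ℕ, r = ⌈2 / χ⌉₊ + 1 := ⟨_, rfl⟩
  have hr0 : 0 < r := by rw [hrd]; exact Nat.succ_pos _
  have hrR : (0 : ℝ) < r := Nat.cast_pos.2 hr0
  have hrχ : 1 ≤ (r : ℝ) * χ / 2 := by
    have h1 : 2 / χ ≤ (r : ℝ) := by
      rw [hrd]
      push_cast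
      exact (Nat.le_ceil _).trans (by linarith)
    rw [div_le_iff₀ hχ] at h1
    linarith
  have hl2 : 0 < Real.log 2 := Real.log_pos (by norm_num)
  obtain ⟨c1, hc1⟩ : ∃ c1, c1 = 2 + (1 / ε + 2) / χ + 2 / ε := ⟨_, rfl⟩
  obtain ⟨c2, hc2⟩ : ∃ c2, c2 = (1 / ε + 2) / χ + 4 / (ε * Real.log 2) := ⟨_, rfl⟩
  have hc1p : 0 < c1 := by rw [hc1]; positivity
  obtain ⟨η1, hη1d⟩ : ∃ η1, η1 = η / (2 * r * c1) := ⟨_, rfl⟩
  have hη1 : 0 < η1 := by rw [hη1d]; positivity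
  refine ⟨χ, r, hχ, hr0, η1, n₁ + ⌈2 * r * c2 / η⌉₊ + 1, hη1, ?_⟩
  intro n hn Ω δ δ' β' _ P x t DD D Tg H
  have hn1 : n₁ ≤ n := by omega
  have hn0 : 0 < n := by omega
  have hnR : (0 : ℝ) < n := Nat.cast_pos.2 hn0
  have hn2 : 2 * r * c2 / η ≤ (n : ℝ) := by
    have h1 : ⌈2 * r * c2 / η⌉₊ ≤ n := by omega
    exact (Nat.le_ceil _).trans (Nat.cast_le.2 h1)
  obtain ⟨τ, hτd⟩ : ∃ τ, τ = ε * ((n : ℝ) * Real.log 2) / 2 := ⟨_, rfl⟩
  have hτ : 0 < τ := by rw [hτd]; positivity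
  obtain ⟨thr, hthr⟩ : ∃ thr, thr = min 1 (β + γ) := ⟨_, rfl⟩
  have hthr1 : thr ≤ 1 := by rw [hthr]; exact min_le_left _ _
  obtain ⟨π₁, hπ⟩ : ∃ π₁, π₁ = 2 * η1 + (1 / ε + 2) * ((η1 * n * Real.log 2 + Real.log 2) / (χ * n * Real.log 2))
      + Real.exp (-τ) + (η1 * n * Real.log 2 + 1) / τ := ⟨_, rfl⟩
  have hπle : (r : ℝ) * π₁ ≤ η := by
    rw [hπ]
    exact it_hw_abs_inc hχ hε hη hr0 hn0 hc1 hc2 hη1d hn2 hτd
  -- the induction
  have key : ∀ j : ℕ, j ≤ r → P.pr (fun ω => P.surC (itHwC x t j n) DD ω < min ((j : ℝ) * χ / 2) (thr - η / 4 - 2 * ε) * n * Real.log 2)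
      ≤ j * π₁ := by
    intro j
    induction j with
    | zero =>
      intro _
      have hz : ((0 : ℕ) : ℝ) * π₁ = 0 := by simp
      rw [hz]
      refine le_of_eq (ent_pr_eq_zero P fun ω hω => ?_)
      rw [not_lt]
      have h1 := ent_surC_nonneg P (itHwC x t 0 n) DD hω
      have h2 : min (((0 : ℕ) : ℝ) * χ / 2) (thr - η / 4 - 2 * ε) ≤ 0 := (min_le_left _ _).trans (by simp)
      have h3 : min (((0 : ℕ) : ℝ) * χ / 2) (thr - η / 4 - 2 * ε) * n * Real.log 2 ≤ 0 := by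
        rw [mul_assoc]
        exact mul_nonpos_of_nonpos_of_nonneg h2 (by positivity)
      linarith
    | succ j ih =>
      intro hj
      have hjr : j < r := hj
      have hprev := ih hjr.le
      have wl := hwl n hn1 ε hε Ω δ' β' P (itHwQ x t j) (t j) (D j) (Tg j) (H.bd j hjr) (H.tag j hjr)
      have hs := it_hw_step P r n x t DD D Tg A β γ χ η1 H j hjr (η / 4) ε (min ((j : ℝ) * χ / 2) (thr - η / 4 - 2 * ε)) (j * π₁) τ hτ hn0 hχ hε
        wl hprev
      rw [← hthr] at hs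
      have hcast : ((j + 1 : ℕ) : ℝ) * π₁ = j * π₁ + π₁ := by push_cast; ring
      refine (ent_pr_mono P fun ω _ h => lt_of_lt_of_le h (it_hw_abs_thr hε hε1 hτd)).trans (hs.trans ?_)
      rw [hcast]
      linarith [hπ]
  have hfin := key r le_rfl
  refine (ent_pr_mono P fun ω _ h => lt_of_lt_of_le h ?_).trans (hfin.trans hπle)
  rw [← hthr]
  have h1 : min ((r : ℝ) * χ / 2) (thr - η / 4 - 2 * ε) = thr - η / 4 - 2 * ε := min_eq_right (by linarith)
  rw [h1, mul_assoc, mul_assoc]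
  exact mul_le_mul_of_nonneg_right (by linarith) (by positivity)

/-! ## 2. information algebra -/

/-- subadditivity over a `Finset` of indices (the other members are masked) -/
theorem it_hw_subadd_fin {Ω ι α κ : Type} [Fintype Ω] (P : FLaw Ω) (X : ι → Ω → α) (C : Ω → κ) (s : Finset ι) :
    P.entC (fun ω => fun i => if i ∈ s then some (X i ω) else none) C ≤ ∑ i ∈ s, P.entC (X i) C := by
  induction s using Finset.induction_on with
  | empty =>
    rw [Finset.sum_empty]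
    exact le_of_eq (ent_entC_eq_zero P _ C fun ω ω' _ _ _ => by simp)
  | insert a s ha ih =>
    rw [Finset.sum_insert ha]
    refine le_trans (ent_entC_mono P (pair (X a) (fun ω => fun i => if i ∈ s then some (X i ω) else none)) _ C ?_)
      ((ent_entC_pair_le_add P _ _ C).trans (add_le_add le_rfl ih))
    intro ω ω' _ _ h _
    simp only [FLaw.pair, Prod.mk.injEq] at h
    obtain ⟨h1, h2⟩ := h
    funext i
    by_cases hia : i = a
    · subst hia
      simp [h1]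
    · have := congrFun h2 i
      simp only [Finset.mem_insert, hia, false_or]
      exact this

/-- LEAF NP. subadditivity of the conditional entropy of a finite family (induction on a `Finset` of indices, `ent_entC_pair_le_add`) -/
theorem it_hw_subadd {Ω ι α κ : Type} [Fintype Ω] [Fintype ι] (P : FLaw Ω) (X : ι → Ω → α) (C : Ω → κ) :
    P.entC (fun ω => fun i => X i ω) C ≤ ∑ i, P.entC (X i) C := by
  refine le_trans (ent_entC_mono P (fun ω => fun i => if i ∈ (Finset.univ : Finset ι) then some (X i ω) else none) _ C ?_)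
    (it_hw_subadd_fin P X C Finset.univ)
  intro ω ω' _ _ h _
  funext i
  have := congrFun h i
  simpa using this

/-- LEAF NP. **near-product law, (b)**: the family against the start.  `I(𝐗;Z|C) = H(𝐗|C) - H(𝐗|Z,C)`, `(Z,C) ~ Z`, `it_hw_subadd`. -/
theorem it_hw_np_b {Ω ι α ζ κ : Type} [Fintype Ω] [Fintype ι] (P : FLaw Ω) (X : ι → Ω → α) (Z : Ω → ζ) (C : Ω → κ)
    (hC : ∀ ω ω', P.p ω ≠ 0 → P.p ω' ≠ 0 → Z ω = Z ω' → C ω = C ω') :
    P.miC (fun ω => fun i => X i ω) Z C ≤ ∑ i, P.entC (X i) C - P.entC (fun ω => fun i => X i ω) Z := by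
  rw [ent_miC_eq]
  have e : P.entC (fun ω => fun i => X i ω) (pair Z C) = P.entC (fun ω => fun i => X i ω) Z := by
    refine ent_entC_congr P _ _ _ _ (fun ω ω' h h' => ?_) (fun _ _ _ _ _ => Iff.rfl)
    simp only [FLaw.pair, Prod.mk.injEq]
    exact ⟨fun h1 => h1.1, fun h1 => ⟨h1, hC ω ω' h h' h1⟩⟩
  rw [e]
  exact sub_le_sub_right (it_hw_subadd P X C) _

/-- LEAF NP. **near-product law, (a)**: one member against the start and all the other members.
`H(𝐗|Z) = H(X_{≠k}|Z) + H(X_k|X_{≠k},Z) ≤ ∑_{i≠k} H(X_i|C) + H(X_k|X_{≠k},Z)`. -/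
theorem it_hw_np_a {Ω ι α ζ κ : Type} [Fintype Ω] [Fintype ι] (P : FLaw Ω) (X : ι → Ω → α) (Z : Ω → ζ) (C : Ω → κ)
    (hC : ∀ ω ω', P.p ω ≠ 0 → P.p ω' ≠ 0 → Z ω = Z ω' → C ω = C ω') (k : ι) :
    P.miC (X k) (pair Z (fun ω => fun i => if i = k then none else some (X i ω))) C
      ≤ ∑ i, P.entC (X i) C - P.entC (fun ω => fun i => X i ω) Z := by
  obtain ⟨R, hR⟩ : ∃ R : Ω → ι → Option α, R = fun ω => fun i => if i = k then none else some (X i ω) := ⟨_, rfl⟩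
  rw [← hR, ent_miC_eq]
  have e1 : P.entC (X k) (pair (pair Z R) C) = P.entC (X k) (pair R Z) := by
    refine ent_entC_congr P _ _ _ _ (fun ω ω' h h' => ?_) (fun _ _ _ _ _ => Iff.rfl)
    simp only [FLaw.pair, Prod.mk.injEq]
    exact ⟨fun h1 => ⟨h1.1.2, h1.1.1⟩, fun h1 => ⟨⟨h1.2, h1.1⟩, hC ω ω' h h' h1.2⟩⟩
  have e2 : P.entC (fun ω => fun i => X i ω) Z = P.entC (pair R (X k)) Z := by
    refine ent_entC_congr P _ _ _ _ (fun _ _ _ _ => Iff.rfl) (fun ω ω' _ _ _ => ?_)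
    simp only [FLaw.pair, Prod.mk.injEq]
    constructor
    · intro h1
      refine ⟨?_, congrFun h1 k⟩
      rw [hR]
      funext i
      simp only [congrFun h1 i]
    · rintro ⟨h1, h2⟩
      funext i
      by_cases hik : i = k
      · subst hik
        exact h2
      · have := congrFun h1 i
        rw [hR] at this
        simpa [hik] using this
  have e3 : P.entC R Z ≤ P.entC R C := ent_entC_anti P R Z C hC
  have e4 : P.entC R C ≤ ∑ i ∈ Finset.univ.erase k, P.entC (X i) C := by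
    have h1 := it_hw_subadd_fin P X C (Finset.univ.erase k)
    have h2 : (fun ω => fun i => if i ∈ Finset.univ.erase k then some (X i ω) else none) = R := by
      rw [hR]
      funext ω i
      by_cases hik : i = k <;> simp [hik]
    rwa [h2] at h1
  have e5 : ∑ i, P.entC (X i) C = P.entC (X k) C + ∑ i ∈ Finset.univ.erase k, P.entC (X i) C :=
    (Finset.add_sum_erase _ _ (Finset.mem_univ k)).symm
  rw [e1, e2, ent_entC_chain, e5]
  linarith

/-- LEAF BLK. **two blocks with retained prefixes.**  `YA` is read from the block `A`, `YB` from the block `B`; `U` is read from `(A, YB, C)`, `V` from `(B, YA, C)`.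
`I(A;B|C) ≥ I(A;B|C,YA) ≥ I(A;B|C,YA,YB) ≥ I(U;V|YA,YB,C)`   (`lay_mi_prefix` in kernel form twice, `ent_miC_mono` twice, `ent_miC_comm`). -/
theorem it_hw_mi_blk {Ω α β γ α' β' υ υ' : Type} [Fintype Ω] (P : FLaw Ω) (A : Ω → α) (B : Ω → β) (C : Ω → γ)
    (YA : Ω → υ) (YB : Ω → υ') (U : Ω → α') (V : Ω → β')
    (hYA : ∀ ω ω', P.p ω ≠ 0 → P.p ω' ≠ 0 → A ω = A ω' → YA ω = YA ω')
    (hYB : ∀ ω ω', P.p ω ≠ 0 → P.p ω' ≠ 0 → B ω = B ω' → YB ω = YB ω')
    (hU : ∀ ω ω', P.p ω ≠ 0 → P.p ω' ≠ 0 → A ω = A ω' → YB ω = YB ω' → C ω = C ω' → U ω = U ω')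
    (hV : ∀ ω ω', P.p ω ≠ 0 → P.p ω' ≠ 0 → B ω = B ω' → YA ω = YA ω' → C ω = C ω' → V ω = V ω') :
    P.miC U V (pair YA (pair YB C)) ≤ P.miC A B C := by
  -- retain the prefix of `B`
  have s1 : P.miC A B (pair YB C) ≤ P.miC A B C := by
    have h1 := ent_miC_chain P A B YB C
    have h2 : P.miC A (pair B YB) C ≤ P.miC A B C := ent_miC_mono P A B (pair B YB) C fun ω ω' h h' hb _ => by
      simp only [FLaw.pair, Prod.mk.injEq]
      exact ⟨hb, hYB ω ω' h h' hb⟩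
    have h3 := ent_miC_nonneg P A YB C
    linarith
  -- retain the prefix of `A`
  have s2 : P.miC B A (pair YA (pair YB C)) ≤ P.miC B A (pair YB C) := by
    have h1 := ent_miC_chain P B A YA (pair YB C)
    have h2 : P.miC B (pair A YA) (pair YB C) ≤ P.miC B A (pair YB C) := ent_miC_mono P B A (pair A YA) (pair YB C) fun ω ω' h h' ha _ => by
      simp only [FLaw.pair, Prod.mk.injEq]
      exact ⟨ha, hYA ω ω' h h' ha⟩
    have h3 := ent_miC_nonneg P B YA (pair YB C)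
    linarith
  -- data processing
  have s3 : P.miC B U (pair YA (pair YB C)) ≤ P.miC B A (pair YA (pair YB C)) := ent_miC_mono P B A U _ fun ω ω' h h' ha hz => by
    simp only [FLaw.pair, Prod.mk.injEq] at hz
    exact hU ω ω' h h' ha hz.2.1 hz.2.2
  have s4 : P.miC U V (pair YA (pair YB C)) ≤ P.miC U B (pair YA (pair YB C)) := ent_miC_mono P U B V _ fun ω ω' h h' hb hz => by
    simp only [FLaw.pair, Prod.mk.injEq] at hz
    exact hV ω ω' h h' hb hz.1 hz.2.2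
  rw [ent_miC_comm P U B] at s4
  rw [ent_miC_comm P B A (pair YB C)] at s2
  linarith

/-- the conditional information depends only on the partitions ON THE SUPPORT -/
theorem it_hw_miC_congr {Ω a a' b b' c c' : Type} [Fintype Ω] (P : FLaw Ω) (X : Ω → a) (X' : Ω → a') (Y : Ω → b) (Y' : Ω → b')
    (Z : Ω → c) (Z' : Ω → c') (hX : ∀ ω ω', P.p ω ≠ 0 → P.p ω' ≠ 0 → (X ω = X ω' ↔ X' ω = X' ω'))
    (hY : ∀ ω ω', P.p ω ≠ 0 → P.p ω' ≠ 0 → (Y ω = Y ω' ↔ Y' ω = Y' ω'))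
    (hZ : ∀ ω ω', P.p ω ≠ 0 → P.p ω' ≠ 0 → (Z ω = Z ω' ↔ Z' ω = Z' ω')) : P.miC X Y Z = P.miC X' Y' Z' := by
  unfold FLaw.miC
  rw [ent_congr_ker P (pair X Z) (pair X' Z') (fun ω ω' h h' => by simp only [FLaw.pair, Prod.mk.injEq, hX ω ω' h h', hZ ω ω' h h']),
    ent_congr_ker P (pair Y Z) (pair Y' Z') (fun ω ω' h h' => by simp only [FLaw.pair, Prod.mk.injEq, hY ω ω' h h', hZ ω ω' h h']),
    ent_congr_ker P (pair (pair X Y) Z) (pair (pair X' Y') Z')
      (fun ω ω' h h' => by simp only [FLaw.pair, Prod.mk.injEq, hX ω ω' h h', hY ω ω' h h', hZ ω ω' h h']),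
    ent_congr_ker P Z Z' (fun ω ω' h h' => hZ ω ω' h h')]

/-! ## 3. scores -/

/-- LEAF TR. **transfer of a lower score**: `Y` is listed by `D` (`N₁` values), `U` is listed by `(T, Y, D)` (`N₂` values).
`sur(T|Y) ≥ sur(T|D,Y) - t` (`ic_lp`), `sur(T|D,Y) ≥ sur(U|D,Y) - log N₂ - t` (`ic_list`), `sur(U|Y,D) = sur(U,Y|D) - sur(Y|D) ≥ sur(U|D) - log N₁ - t` (`ent_surC_swap`, `ic_tail`). -/
theorem it_hw_tr2 {Ω α β γ δ : Type} [Fintype Ω] (P : FLaw Ω) (G : Ω → Prop) (T : Ω → α) (U : Ω → β) (Y : Ω → γ) (D : Ω → δ) {N₁ N₂ : ℝ}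
    (h1 : 0 < N₁) (h2 : 0 < N₂) (hY : P.NVal G Y D N₁) (hU : P.NVal G U (pair T (pair Y D)) N₂) (t : ℝ) :
    P.pr (fun ω => G ω ∧ P.surC T Y ω < P.surC U D ω - Real.log N₁ - Real.log N₂ - 3 * t) ≤ 3 * Real.exp (-t) := by
  have b1 := ltk_lp P T Y D t
  have b2 := ltk_tail_on P G Y D h1 hY t
  have b3 := ltk_tail_on P G U (pair T (pair Y D)) h2 hU t
  have hsub : P.pr (fun ω => G ω ∧ P.surC T Y ω < P.surC U D ω - Real.log N₁ - Real.log N₂ - 3 * t) ≤
      P.pr (fun ω => (P.surC T Y ω + t < P.surC T (pair D Y) ω ∨ (G ω ∧ Real.log N₁ + t < P.surC Y D ω)) ∨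
        (G ω ∧ Real.log N₂ + t < P.surC U (pair T (pair Y D)) ω)) := by
    refine ent_pr_mono P fun ω hp hω => ?_
    obtain ⟨hG, hlt⟩ := hω
    by_contra hno
    push Not at hno
    obtain ⟨⟨n1, n2⟩, n3⟩ := hno
    have n2' := n2 hG
    have n3' := n3 hG
    have e1 : P.surC T (pair D Y) ω = P.surC T (pair Y D) ω := by
      refine ent_surC_congr P T T (pair D Y) (pair Y D) ω (fun ω' _ => ?_) fun _ _ _ => Iff.rfl
      simp only [FLaw.pair, Prod.mk.injEq]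
      tauto
    have s1 := ent_surC_swap P T U (pair Y D) hp
    have s2 := ent_surC_swap P U Y D hp
    have p1 := ent_surC_nonneg P T (pair U (pair Y D)) hp
    have p2 := ent_surC_nonneg P Y (pair U D) hp
    linarith
  have u1 := ent_pr_or_le P
    (fun ω => P.surC T Y ω + t < P.surC T (pair D Y) ω ∨ (G ω ∧ Real.log N₁ + t < P.surC Y D ω))
    (fun ω => G ω ∧ Real.log N₂ + t < P.surC U (pair T (pair Y D)) ω)
  have u2 := ent_pr_or_le P (fun ω => P.surC T Y ω + t < P.surC T (pair D Y) ω)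
    (fun ω => G ω ∧ Real.log N₁ + t < P.surC Y D ω)
  linarith

/-- LEAF TR. **from a mesh of levels to all levels** (pattern: `it_b_mesh` of `Int/BoostA.lean`).  `lv` = levels of the mesh, gaps `≤ g`, the last one `≥ n`. -/
theorem it_hw_mesh {Ω α δ : Type} [Fintype Ω] (P : FLaw Ω) (X : ℕ → Ω → α) (D : Ω → δ) {e c g χ κ : ℝ} {R n : ℕ} (lv : ℕ → ℕ)
    (he : 0 ≤ e) (hX : ∀ j ω ω', X (j + 1) ω = X (j + 1) ω' → X j ω = X j ω')
    (h0 : lv 0 = 0) (hR : n ≤ lv R) (hg : ∀ i < R, lv i ≤ lv (i + 1) ∧ ((lv (i + 1) : ℝ) - lv i) ≤ g)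
    (hc : c + e * g ≤ χ * n)
    (h : ∀ i ≤ R, P.pr (fun ω => P.surC (X (lv i)) D ω < (e * lv i - c) * Real.log 2) ≤ κ) :
    P.pr (fun ω => ¬ IcGood P X D e χ n ω) ≤ (R + 1) * κ := by
  have hl2 : 0 < Real.log 2 := Real.log_pos one_lt_two
  have hnest : ∀ k m, k ≤ m → ∀ ω ω', X m ω = X m ω' → X k ω = X k ω' := by
    intro k m hkm
    induction m, hkm using Nat.le_induction with
    | base => exact fun _ _ h => h
    | succ m _ ih => exact fun ω ω' h => ih ω ω' (hX m ω ω' h)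
  have h1 : P.pr (fun ω => ¬ IcGood P X D e χ n ω)
      ≤ P.pr (fun ω => ∃ i ∈ Finset.range (R + 1), P.surC (X (lv i)) D ω < (e * lv i - c) * Real.log 2) := by
    refine ent_pr_mono P fun ω hω hbad => ?_
    by_contra hcon
    push Not at hcon
    refine hbad fun k hk => ?_
    rcases Nat.eq_zero_or_pos R with hR0 | hRpos
    · subst hR0
      have hn0 : n = 0 := by omega
      have hk0 : k = 0 := by omega
      subst hn0 hk0
      simpa using ent_surC_nonneg P (X 0) D hω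
    have hg0 : 0 ≤ g := by
      obtain ⟨a1, a2⟩ := hg 0 hRpos
      have : (lv 0 : ℝ) ≤ lv (0 + 1) := by exact_mod_cast a1
      linarith
    obtain ⟨i, hi⟩ : ∃ i, i = Nat.findGreatest (fun i => lv i ≤ k) R := ⟨_, rfl⟩
    have hiR : i ≤ R := hi ▸ Nat.findGreatest_le R
    have hik : lv i ≤ k := by
      have := Nat.findGreatest_spec (P := fun i => lv i ≤ k) (Nat.zero_le R) (by rw [h0]; exact Nat.zero_le k)
      rw [← hi] at this
      exact this
    have hgap : (k : ℝ) - lv i ≤ g := by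
      rcases Nat.lt_or_ge i R with hlt | hge
      · have h3 : ¬ lv (i + 1) ≤ k := Nat.findGreatest_is_greatest (P := fun i => lv i ≤ k) (by rw [← hi]; exact Nat.lt_succ_self i) hlt
        have h4 : (k : ℝ) ≤ lv (i + 1) := by exact_mod_cast (not_le.1 h3).le
        have := (hg i hlt).2
        linarith
      · have hiR' : i = R := le_antisymm hiR hge
        have : k = lv i := by rw [hiR'] at hik ⊢; omega
        rw [this]
        simpa using hg0
    have h4 := hcon i (Finset.mem_range.2 (Nat.lt_succ_of_le hiR))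
    have h5 : P.surC (X (lv i)) D ω ≤ P.surC (X k) D ω := by
      rw [ent_surC_eq_sub P _ _ hω, ent_surC_eq_sub P _ _ hω]
      have h6 : P.fib (pair (X k) D) ω ≤ P.fib (pair (X (lv i)) D) ω := by
        refine ent_fib_mono P _ _ ω fun ω' _ h' => ?_
        simp only [FLaw.pair, Prod.mk.injEq] at h' ⊢
        exact ⟨hnest _ _ hik _ _ h'.1, h'.2⟩
      have h7 := Real.log_le_log (ent_fib_pos P (pair (X k) D) hω) h6
      linarith
    refine le_trans ?_ (h4.trans h5)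
    refine mul_le_mul_of_nonneg_right ?_ hl2.le
    have h7 : e * ((k : ℝ) - lv i) ≤ e * g := mul_le_mul_of_nonneg_left hgap he
    linarith
  refine h1.trans ((ent_pr_exists_le P _ _).trans ?_)
  refine (Finset.sum_le_sum fun i hi => h i (Nat.lt_succ_iff.1 (Finset.mem_range.1 hi))).trans ?_
  simp

/-! ## 4. real variables: the sum of the legs -/

/-- `φ_E(x) = x² - 2 E x` -/
def itHwPhi (E x : ℝ) : ℝ := x ^ 2 - 2 * E * x

theorem it_hw_phi_eqns_cite : True := by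
  have := @itHwPhi.eq_1
  trivial

/-- telescoping with errors -/
theorem it_hw_alg_tel (N : ℕ) (V g : ℕ → ℝ) (e : ℝ) (h : ∀ k < N, |(V (k + 1) - V k) + g k| ≤ e) :
    |V N - V 0 + ∑ k ∈ Finset.range N, g k| ≤ N * e := by
  induction N with
  | zero => simp
  | succ n ih =>
    have h1 := ih fun k hk => h k (Nat.lt_succ_of_lt hk)
    have h2 := h n (Nat.lt_succ_self n)
    rw [Finset.sum_range_succ]
    have e1 : V (n + 1) - V 0 + (∑ k ∈ Finset.range n, g k + g n) = (V n - V 0 + ∑ k ∈ Finset.range n, g k) + ((V (n + 1) - V n) + g n) := by ring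
    rw [e1]
    refine (abs_add_le _ _).trans ?_
    push_cast
    linarith

/-- LEAF ALG. sum of the `B`, `Y` legs, contact form frozen at `E` -/
theorem it_hw_sumH (N : ℕ) (X B Y θ : ℕ → ℝ) (E e : ℝ)
    (hB : ∀ k < N, |(B (k + 1) - B k) + θ k * (X (k + 1) - X k)| ≤ e)
    (hY : ∀ k < N, |(Y (k + 1) - Y k) + θ k * (X (k + 1) ^ 2 - X k ^ 2)| ≤ e) :
    |(Y N - 2 * E * B N) - (Y 0 - 2 * E * B 0) + ∑ k ∈ Finset.range N, θ k * (itHwPhi E (X (k + 1)) - itHwPhi E (X k))|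
      ≤ N * (e * (1 + 2 * |E|)) := by
  refine it_hw_alg_tel N (fun k => Y k - 2 * E * B k) (fun k => θ k * (itHwPhi E (X (k + 1)) - itHwPhi E (X k))) _ ?_
  intro k hk
  have h1 := hB k hk
  have h2 := hY k hk
  have e1 : (Y (k + 1) - 2 * E * B (k + 1)) - (Y k - 2 * E * B k) + θ k * (itHwPhi E (X (k + 1)) - itHwPhi E (X k))
      = ((Y (k + 1) - Y k) + θ k * (X (k + 1) ^ 2 - X k ^ 2)) + -(2 * E * ((B (k + 1) - B k) + θ k * (X (k + 1) - X k))) := by
    unfold itHwPhi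
    ring
  show |(Y (k + 1) - 2 * E * B (k + 1)) - (Y k - 2 * E * B k) + θ k * (itHwPhi E (X (k + 1)) - itHwPhi E (X k))| ≤ _
  rw [e1]
  refine (abs_add_le _ _).trans ?_
  rw [abs_neg, abs_mul, abs_mul, abs_two]
  have h3 : 2 * |E| * |(B (k + 1) - B k) + θ k * (X (k + 1) - X k)| ≤ 2 * |E| * e :=
    mul_le_mul_of_nonneg_left h1 (by positivity)
  linarith

/-- LEAF ALG. summation by parts, odd and even positions -/
theorem it_hw_abel (r : ℕ) (hr : 0 < r) (θ f : ℕ → ℝ) :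
    ∑ k ∈ Finset.range (2 * r), θ k * (f (k + 1) - f k)
      = θ (2 * r - 1) * f (2 * r) - θ 0 * f 0 - ∑ i ∈ Finset.range r, (θ (2 * i + 1) - θ (2 * i)) * f (2 * i + 1)
        - ∑ i ∈ Finset.range (r - 1), (θ (2 * i + 2) - θ (2 * i + 1)) * f (2 * i + 2) := by
  obtain ⟨m, rfl⟩ : ∃ m, r = m + 1 := ⟨r - 1, by omega⟩
  induction m with
  | zero =>
    simp [Finset.sum_range_succ]
    ring
  | succ n ih =>
    have ih' := ih (Nat.succ_pos n)
    have a1 : 2 * (n + 1 + 1) = 2 * (n + 1) + 1 + 1 := by ring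
    have a2 : 2 * (n + 1 + 1) - 1 = 2 * (n + 1) + 1 := by omega
    have a3 : n + 1 + 1 - 1 = (n + 1 - 1) + 1 := by omega
    have a4 : 2 * (n + 1) - 1 = 2 * n + 1 := by omega
    have a5 : n + 1 - 1 = n := by omega
    rw [a2, a3, a1, Finset.sum_range_succ, Finset.sum_range_succ, ih', Finset.sum_range_succ _ (n + 1), Finset.sum_range_succ _ (n + 1 - 1),
      a4, a5]
    have a6 : 2 * (n + 1) = 2 * n + 2 := by ring
    rw [a6]
    ring

/-- LEAF ALG. a sum of increments with coefficients bounded by `b` -/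
theorem it_hw_sumL (N : ℕ) (V X c : ℕ → ℝ) (e : ℝ) (h : ∀ k < N, |(V (k + 1) - V k) + c k * (X (k + 1) - X k)| ≤ e) :
    |V N - V 0 + ∑ k ∈ Finset.range N, c k * (X (k + 1) - X k)| ≤ N * e := by
  exact it_hw_alg_tel N V (fun k => c k * (X (k + 1) - X k)) e h

/-- `φ_E` is Lipschitz on a box -/
theorem it_hw_phi_lip (E x y b : ℝ) (hE : |E| ≤ b) (hx : |x| ≤ b) (hy : |y| ≤ b) : |itHwPhi E x - itHwPhi E y| ≤ 4 * b * |x - y| := by
  have e1 : itHwPhi E x - itHwPhi E y = (x - y) * (x + y - 2 * E) := by unfold itHwPhi; ring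
  rw [e1, abs_mul, mul_comm]
  refine mul_le_mul_of_nonneg_right ?_ (abs_nonneg _)
  obtain ⟨a1, a2⟩ := abs_le.1 hE
  obtain ⟨b1, b2⟩ := abs_le.1 hx
  obtain ⟨c1, c2⟩ := abs_le.1 hy
  exact abs_le.2 ⟨by linarith, by linarith⟩

/-- `φ_E` is expanding away from `E` : both points at distance `≥ s` from `E`, on the same side -/
theorem it_hw_phi_exp (E x y s : ℝ) (hs : 0 ≤ s) (h : (s ≤ x - E ∧ s ≤ y - E) ∨ (s ≤ E - x ∧ s ≤ E - y)) :
    2 * s * |x - y| ≤ |itHwPhi E x - itHwPhi E y| := by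
  have e1 : itHwPhi E x - itHwPhi E y = (x + y - 2 * E) * (x - y) := by unfold itHwPhi; ring
  rw [e1, abs_mul]
  refine mul_le_mul_of_nonneg_right ?_ (abs_nonneg _)
  rcases h with ⟨h1, h2⟩ | ⟨h1, h2⟩
  · exact le_trans (by linarith) (le_abs_self _)
  · exact le_trans (by linarith) (neg_le_abs _)

end Claimed.Agent.R256
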