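import Claimed.Agent.R256.Int.HwAbs
import Claimed.Agent.R256.Int.SymKit

/-!
# Row 256, Sec. 5, block H-WALK (Lemma int:many-leg, 05 l.583-668), file B: DEFINITIONS on a tangent datum      (architect helper157; prefix `it_hw_`, `Tan.hw*`)

## The walk
A WALK with `N` legs on a tangent datum `T` is a finite law `W : FLaw Θ` with POSITIONS `o k : Θ → T.Ω` (`k ≤ N`; each position is a whole sample of `T.P`):
`T.HwOk W o M N K RQ Φ` :  `stat` every position has the law `T.P`;  `keepD`, `keepQ` the leg `k` (from `o k` to `o (k+1)`) keeps `𝒟 = (C_*, Ξ)` and the fibre read `Q_k` of the record `k`;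
  `kl` (int:walk-kl):  `N H(X_K | C_*) - H_W(X_K(o 1), …, X_K(o N) | o 0) ≤ Φ`.
Existence: `it_hw_walk` (file `HwWalk.lean`) from `layWalk` of `Lay/Walk.lean` with `σ := T.Ω`, `ξ := Unit`, `R := T.P.map (ω ↦ (ω, ()))`, `G k y := (T.Dd M y.1, T.Qn RQ k y.1)`:
NO quotient type is needed (the whole sample is resampled, the marks are kept because `G` contains them).  `Φ = ∑_{k<N} I(X_K ; Q_k, Ξ | C_*) ≤ N acc L` by (fib).
## Observations of a walk with `N = 2r` legs, layer `(p, q)`, fine depth `K`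
`hwX K k` = fine representative `X̃_k` of the angle at the position `k`;   `hwXp p k` = parent representative `X̄_k`;   `E = X̃_{2r}`, `φ_E(x) = x² - 2Ex`;
`hwx K p r j = (φ_E(X̃_{2j+1}) - φ_E(X̄_{2j+1})) 2^(tlev δ p)`   the new scalar of the step `j < r`  (normalised increment in the parent cell);
`hwt r j = (θ_{2j} - θ_{2j+1}) / r`   its slope  (DIVIDED BY `r`: the chart bound must not depend on the number of legs);
`itHwS (hwx) (hwt) j = ∑_{i<j} (θ_{2i+1} - θ_{2i}) / r · x_i`.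
`hwAng K p N` = adjoined angular names at the positions `1..N` : fine at the even positions, parents at the odd positions;
`hwDD` = `(Z_0, Ξ, hwAng)`;   `hwD j` = the same with the records `2j, 2j+1` blanked;   `hwTg j` = these two records.
## Summation (05 l.595-603)
`Y_N - 2E B_N = Y_0 - 2E B_0 - ∑_{k<N} θ_k (φ_E(X_{k+1}) - φ_E(X_k)) + O(N e)`,  and by parts  `= known + ∑_{i<r} (θ_{2i+1} - θ_{2i}) φ_E(X_{2i+1})`   (`it_hw_sumH`, `it_hw_abel`).
-/

set_option autoImplicit false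

namespace Claimed.Agent.R256

open Claimed.Agent.R255
open Claimed.Agent.R255.FLaw (pair)
open scoped BigOperators
open Classical

/-- **a walk with `N` legs** -/
structure Tan.HwOk (T : Tan) {Θ : Type} [Fintype Θ] (W : FLaw Θ) (o : ℕ → Θ → T.Ω) (M N : ℕ) (K RQ Φ : ℝ) : Prop where
  stat : ∀ k ≤ N, W.map (o k) = T.P
  keepD : ∀ h, W.p h ≠ 0 → ∀ k < N, T.Dd M (o (k + 1) h) = T.Dd M (o k h)
  keepQ : ∀ h, W.p h ≠ 0 → ∀ k < N, T.Qn RQ k (o (k + 1) h) = T.Qn RQ k (o k h)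
  kl : (N : ℝ) * T.P.entC (T.Xn K) T.Cs - W.entC (fun h => fun k : Fin N => T.Xn K (o ((k : ℕ) + 1) h)) (o 0) ≤ Φ

section obs

variable (T : Tan) {Θ : Type} (o : ℕ → Θ → T.Ω)

/-- fine representative of the angle at the position `k` -/
noncomputable def Tan.hwX (K : ℝ) (k : ℕ) : Θ → ℝ := fun h => trep T.δ K (T.F (o k h)).X

/-- the family of the fine angular names at the positions `1..N` -/
noncomputable def Tan.hwXX (K : ℝ) (N : ℕ) : Θ → (Fin N → ℤ) := fun h k => T.Xn K (o ((k : ℕ) + 1) h)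

/-- the same family without the position `k + 1` -/
noncomputable def Tan.hwXE (K : ℝ) (N k : ℕ) : Θ → (Fin N → Option ℤ) :=
  fun h i => if (i : ℕ) = k then none else some (T.Xn K (o ((i : ℕ) + 1) h))

/-- the root name at the start -/
def Tan.hwC : Θ → T.γ := fun h => T.Cs (o 0 h)

/-- the new scalar of the step `j` -/
noncomputable def Tan.hwx (K p : ℝ) (r j : ℕ) : Θ → ℝ := fun h =>
  (itHwPhi (T.hwX o K (2 * r) h) (T.hwX o K (2 * j + 1) h) - itHwPhi (T.hwX o K (2 * r) h) (T.hwX o p (2 * j + 1) h)) * 2 ^ (tlev T.δ p)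

/-- the slope of the step `j` -/
noncomputable def Tan.hwt (r j : ℕ) : Θ → ℝ := fun h => ((T.mrk (2 * j) (o 0 h)).th - (T.mrk (2 * j + 1) (o 0 h)).th) / r

/-- adjoined angular names at the positions `1..N` : fine at the even positions, parents at the odd positions -/
noncomputable def Tan.hwAng (K p : ℝ) (N : ℕ) : Θ → (Fin N → ℤ) :=
  fun h k => if ((k : ℕ) + 1) % 2 = 0 then T.Xn K (o ((k : ℕ) + 1) h) else T.Xn p (o ((k : ℕ) + 1) h)

/-- the full auxiliary data -/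
noncomputable def Tan.hwDD (M : ℕ) (K p : ℝ) (N : ℕ) : Θ → (T.ζ × (Fin M → ItMk)) × (Fin N → ℤ) :=
  fun h => ((T.Zs (o 0 h), T.Xi M (o 0 h)), T.hwAng o K p N h)

/-- all marks except the records `2j`, `2j+1` -/
def Tan.hwXiE (M j : ℕ) : T.Ω → (Fin M → ItMk) :=
  fun ω i => if (i : ℕ) = 2 * j ∨ (i : ℕ) = 2 * j + 1 then ⟨0, 0, 0⟩ else T.mrk i ω

/-- the data of the step `j` -/
noncomputable def Tan.hwD (M : ℕ) (K p : ℝ) (N j : ℕ) : Θ → (T.ζ × (Fin M → ItMk)) × (Fin N → ℤ) :=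
  fun h => ((T.Zs (o 0 h), T.hwXiE M j (o 0 h)), T.hwAng o K p N h)

/-- the omitted pair of records -/
def Tan.hwTg (j : ℕ) : Θ → ItMk × ItMk := fun h => (T.mrk (2 * j) (o 0 h), T.mrk (2 * j + 1) (o 0 h))

/-- number of bits of the layer -/
noncomputable def Tan.hwn (p q : ℝ) : ℕ := tlev T.δ q - tlev T.δ p

end obs

/-- the chart bound -/
def ItPar.hwA (a : ItPar) : ℝ := 8 * (a.B0 + 1) ^ 2

/-- **standing hypotheses** of the block: package at least `pk1`, accuracy at most `acc1`, linear admissible datum, a walk with `2r` legs and the budget of (fib) -/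
structure ItHwSet (a : ItPar) (pk1 pk : ItPk) (acc1 acc : ℝ) (T : Tan) (r : ℕ) {Θ : Type} [Fintype Θ] (W : FLaw Θ) (o : ℕ → Θ → T.Ω) : Prop where
  ok : pk.Ok
  le : pk1.le pk
  acc0 : 0 < acc
  accle : acc ≤ acc1
  quad : T.quad = false
  adm : ∃ τ κ0 : ℝ, T.Adm a pk τ κ0 acc
  legs : 2 * r ≤ pk.M
  walk : T.HwOk W o pk.M (2 * r) pk.K pk.RQ (2 * r * (acc * T.L))

theorem it_hw_defs_eqns_cite : True := by
  have := @Tan.hwX.eq_1; have := @Tan.hwXX.eq_1; have := @Tan.hwXE.eq_1; have := @Tan.hwC.eq_1; have := @Tan.hwx.eq_1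
  have := @Tan.hwt.eq_1; have := @Tan.hwAng.eq_1; have := @Tan.hwDD.eq_1; have := @Tan.hwXiE.eq_1; have := @Tan.hwD.eq_1
  have := @Tan.hwTg.eq_1; have := @Tan.hwn.eq_1; have := @ItPar.hwA.eq_1
  trivial

theorem it_hw_set_left {a : ItPar} {pk1 pk2 pk : ItPk} {acc1 acc2 acc : ℝ} {T : Tan} {r : ℕ} {Θ : Type} [Fintype Θ] {W : FLaw Θ}
    {o : ℕ → Θ → T.Ω} (h : ItHwSet a (pk1.sup pk2) pk (min acc1 acc2) acc T r W o) : ItHwSet a pk1 pk acc1 acc T r W o :=
  ⟨h.ok, it_cb_sup_left h.le, h.acc0, h.accle.trans (min_le_left _ _), h.quad, h.adm, h.legs, h.walk⟩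

theorem it_hw_set_right {a : ItPar} {pk1 pk2 pk : ItPk} {acc1 acc2 acc : ℝ} {T : Tan} {r : ℕ} {Θ : Type} [Fintype Θ] {W : FLaw Θ}
    {o : ℕ → Θ → T.Ω} (h : ItHwSet a (pk1.sup pk2) pk (min acc1 acc2) acc T r W o) : ItHwSet a pk2 pk acc2 acc T r W o :=
  ⟨h.ok, it_cb_sup_right h.le, h.acc0, h.accle.trans (min_le_right _ _), h.quad, h.adm, h.legs, h.walk⟩

end Claimed.Agent.R256
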