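import Claimed.Agent.R256.Int.HwWalk
import Claimed.Agent.R256.Int.BoostT

/-!
# Row 256, Sec. 5, block H-WALK, file D: the two Frostman clauses of `ItHwHyp`      (architect helper157; prefix `it_hw_`)

EXPLICIT FORMS (one mesh depth, all errors explicit):
* `it_hw_sep`    `|X̃_{2j+1} - X̃_{2r}| ≥ 4 δ^u` off a small event   (`ltk_sep`: `U = X_u(o (2j+1))`, `V = X_K(o 2r)`, `Y = hwC`, 18 values, budget `it_hw_i_sep`, score `AdmI.ang` at `u`).
* `it_hw_x_lv`   the cell of `x_j` at the level `tlev δ s - tlev δ p` has score `≥ m (s - p) L - errors` given `hwD j`, on the separation event.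
     `sur_P(X_s | X_p, C_*) = sur_P(X_s|C_*) - sur_P(X_p|C_*) ≥ (m (s-p) - 2 acc) L` (`AdmI.ang` at `s`, `p`; nested names, `ent_surC_chain`);  pull back at the position `2j+1` (`it_hw_pb_sur`, `it_hw_keep0`);
     adjoin `hwD j` (`ltk_info_tail`, `it_hw_i_x`);  `(hwD j, X_p, hwC) ~ hwD j`;  `ltk_transfer` with `T` = cell of `x_j`, `U = X_s(o (2j+1))`, `Y = Y' = hwD j`, `N₁ = 1`, `N₂ = δ^(-u) + 2`
     (`it_hw_phi_exp`: two samples with the same `hwD j` lie in the same parent cell, on the same side of `E`, at distance `≥ 4 δ^u`: `8 δ^u |X̃ - X̃'| ≤ |φ_E X̃ - φ_E X̃'| ≤ 2^-(tlev δ s)`; `ltk_nval_close`).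
* `it_hw_t_lv`   the cell of `t_j` at the level `tlev δ σ` has score `≥ d σ L - errors` given `hwD j`.
     `it_b_time_step` (`Int/BoostT.lean`) at `u = 0`, `u' = σ`, record `2j`;  pull back at the position `0`;  adjoin `hwAng` (`ltk_info_tail`, `it_hw_i_t`);
     `ltk_transfer` with `T` = cell of `t_j`, `U` = cell of `θ_{2j}` at the depth `σ`, `Y = hwD j`, `Y' = (hwAng, Y0)`, `N₁ = 1`, `N₂ = r + 2`  (`θ_{2j} = r t_j + θ_{2j+1}`, `θ_{2j+1}` is read from `XiE M (2j)`).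
ASYMPTOTIC FORMS (`it_hw_gx`, `it_hw_gt`): for every tolerance there are a package and an accuracy: mesh `s_i = p + (q-p) i / R`, resp. `σ_i = (q-p) i / R`, `R ≥ 8/χ`, `it_hw_mesh`.
LEAVES: L-256-INT-HW-SEP, -XLV, -TLV, -GX, -GT.
-/

set_option autoImplicit false

namespace Claimed.Agent.R256

open Claimed.Agent.R255
open Claimed.Agent.R255.FLaw (pair)
open scoped BigOperators
open Classical

theorem it_hw_aux_cell_rep {δ : ℝ} (h0 : 0 < δ) (h1 : δ < 1) {u K : ℝ} (huK : u ≤ K) (x : ℝ) :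
    tcell δ u (trep δ K x) = tcell δ u x := by
  refine it_k_aux_cell_nest h0 h1 huK ?_
  unfold trep tcell
  rw [div_mul_cancel₀ _ (by positivity), Int.floor_intCast]

theorem it_hw_aux_ang_odd (T : Tan) {Θ : Type} (o : ℕ → Θ → T.Ω) (K p : ℝ) (r j : ℕ) (hj : j < r) {h h' : Θ}
    (e : T.hwAng o K p (2 * r) h = T.hwAng o K p (2 * r) h') : T.Xn p (o (2 * j + 1) h) = T.Xn p (o (2 * j + 1) h') := by
  have := congrFun e ⟨2 * j, by omega⟩
  have h2 : (2 * j + 1) % 2 ≠ 0 := by omega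
  simpa [Tan.hwAng, h2] using this

theorem it_hw_aux_ang_even (T : Tan) {Θ : Type} (o : ℕ → Θ → T.Ω) (K p : ℝ) (r j : ℕ) (hj : j < r) {h h' : Θ}
    (e : T.hwAng o K p (2 * r) h = T.hwAng o K p (2 * r) h') : T.Xn K (o (2 * j + 2) h) = T.Xn K (o (2 * j + 2) h') := by
  have := congrFun e ⟨2 * j + 1, by omega⟩
  have h2 : (2 * j + 1 + 1) % 2 = 0 := by omega
  simpa [Tan.hwAng, h2] using this

theorem it_hw_aux_XiE1 (T : Tan) {M j : ℕ} {ω ω' : T.Ω} (h : T.XiE M j ω = T.XiE M j ω') :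
    ∀ i < M, i ≠ j → T.mrk i ω = T.mrk i ω' := by
  intro i hi hij
  have := congrFun h ⟨i, hi⟩
  simpa [Tan.XiE, hij] using this

section explicit

variable {T : Tan} {Θ : Type} [Fintype Θ] {W : FLaw Θ} {o : ℕ → Θ → T.Ω} {a : ItPar} {pk : ItPk} {r : ℕ} {Φ τ κ0 acc : ℝ}

/-- a score given the root, read at the position `k`, the root read at the start -/
theorem it_hw_aux_pbC (hW : T.HwOk W o pk.M (2 * r) pk.K pk.RQ Φ) {k : ℕ} (hk : k ≤ 2 * r) {α : Type} (U : T.Ω → α) {h : Θ}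
    (hh : W.p h ≠ 0) : W.surC (fun h' => U (o k h')) (T.hwC o) h = T.P.surC U T.Cs (o k h) := by
  rw [← it_hw_pb_sur hW hk U T.Cs h]
  refine ent_surC_congr W _ _ _ _ h (fun h' hh' => ?_) (fun _ _ _ => Iff.rfl)
  have e1 := congrArg Prod.fst (it_hw_keep0 hW hh hk)
  have e2 := congrArg Prod.fst (it_hw_keep0 hW hh' hk)
  simp only [Tan.Dd] at e1 e2
  simp only [Tan.hwC, e1, e2]

/-- the same with one more name of the position `k` in the conditioning -/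
theorem it_hw_aux_pbC2 (hW : T.HwOk W o pk.M (2 * r) pk.K pk.RQ Φ) {k : ℕ} (hk : k ≤ 2 * r) {α β : Type} (U : T.Ω → α) (V : T.Ω → β)
    {h : Θ} (hh : W.p h ≠ 0) :
    W.surC (fun h' => U (o k h')) (pair (fun h' => V (o k h')) (T.hwC o)) h = T.P.surC U (pair V T.Cs) (o k h) := by
  rw [← it_hw_pb_sur hW hk U (pair V T.Cs) h]
  refine ent_surC_congr W _ _ _ _ h (fun h' hh' => ?_) (fun _ _ _ => Iff.rfl)
  have e1 := congrArg Prod.fst (it_hw_keep0 hW hh hk)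
  have e2 := congrArg Prod.fst (it_hw_keep0 hW hh' hk)
  simp only [Tan.Dd] at e1 e2
  simp only [Tan.hwC, FLaw.pair, e1, e2]

/-- LEAF SEP. **separation of the odd angles from the endpoint** -/
theorem it_hw_sep (hW : T.HwOk W o pk.M (2 * r) pk.K pk.RQ Φ) (hpk : pk.Ok) (hT : T.Adm a pk τ κ0 acc) {j : ℕ} (hj : j < r)
    {u : ℝ} (hu : u ∈ pk.G) (hu0 : 0 ≤ u) {t t' : ℝ} (ht' : 0 < t') (h : Real.log 18 + t + t' < (a.m * u - acc) * T.L) :
    W.pr (fun h => |T.hwX o pk.K (2 * j + 1) h - T.hwX o pk.K (2 * r) h| < 4 * T.δ ^ u) ≤ Real.exp (-t) + (Φ + 1) / t' + acc := by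
  have h0 := hT.t0.δ0
  have h1 := hT.t0.δ1
  have huK : u ≤ pk.K := (hpk.2.2.2.2.2.2 u hu).2
  have hk : 2 * j + 1 ≤ 2 * r := by omega
  refine ltk_sep W _ (fun h => T.Xn u (o (2 * j + 1) h)) (fun h => T.Xn pk.K (o (2 * r) h)) (T.hwC o) (n := 18)
    (s := (a.m * u - acc) * T.L) (by norm_num) ht' ?_ (it_hw_i_sep hW hT.t0 huK hj) ?_ h
  · -- 18 values
    have hm := ig_msh_pos T.δ u
    have hc := ltk_nval_close W (fun h => |T.hwX o pk.K (2 * j + 1) h - T.hwX o pk.K (2 * r) h| < 4 * T.δ ^ u)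
      (pair (fun h => T.Xn pk.K (o (2 * r) h)) (T.hwC o)) (T.hwX o pk.K (2 * j + 1)) (tlev T.δ u) (R := 16 * msh T.δ u)
      (by positivity) (fun ω ω' _ _ hE hE' hA => by
        simp only [FLaw.pair, Prod.mk.injEq, Tan.Xn] at hA
        have e : T.hwX o pk.K (2 * r) ω = T.hwX o pk.K (2 * r) ω' := by
          simp only [Tan.hwX, trep, hA.1]
        have hd := ig_le_msh T.δ u h0 h1 hu0
        rw [e] at hE
        rw [abs_lt] at hE hE'
        rw [abs_le]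
        constructor <;> linarith [hE.1, hE.2, hE'.1, hE'.2])
    refine ltk_nval_mono W hc (fun _ h => h) (fun _ _ h => h) ⟨id, fun ω => ?_⟩ ?_
    · simp only [id, Tan.Xn, Tan.hwX]
      exact (it_hw_aux_cell_rep h0 h1 huK _).symm
    · have e : msh T.δ u * 2 ^ tlev T.δ u = 1 := by
        unfold msh; field_simp
      rw [mul_assoc, e]; norm_num
  · -- the score
    have ha := hT.ti.ang u hu
    rw [← it_hw_pb_pr hW hk] at ha
    refine le_trans (ent_pr_mono W fun ω hω hs => ?_) ha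
    rw [it_hw_aux_pbC hW hk (T.Xn u) hω] at hs
    have : T.P.surC (T.Xn u) T.Cs (o (2 * j + 1) ω) - a.m * u * T.L < -(acc * T.L) := by linarith
    exact lt_of_lt_of_le (by linarith) (neg_le_abs _)

/-- the list of the fine angle from the cell of the new scalar -/
theorem it_hw_aux_x_list (h0 : 0 < T.δ) (h1 : T.δ < 1) {j : ℕ} (hj : j < r) {p s u : ℝ} (hps : p ≤ s) (hsK : s ≤ pk.K)
    (hup : u ≤ p) :
    W.NVal (fun h => 4 * T.δ ^ u ≤ |T.hwX o pk.K (2 * j + 1) h - T.hwX o pk.K (2 * r) h|)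
      (fun h => T.Xn s (o (2 * j + 1) h))
      (pair (fun h' => icCell (tlev T.δ s - tlev T.δ p) (T.hwx o pk.K p r j h')) (T.hwD o pk.M pk.K p (2 * r) j))
      (T.δ ^ (-u) + 2) := by
  have hm := ig_msh_pos T.δ s
  have hδu : 0 < T.δ ^ u := Real.rpow_pos_of_pos h0 _
  have hpK : p ≤ pk.K := hps.trans hsK
  have hc := ltk_nval_close W (fun h => 4 * T.δ ^ u ≤ |T.hwX o pk.K (2 * j + 1) h - T.hwX o pk.K (2 * r) h|)
    (pair (fun h' => icCell (tlev T.δ s - tlev T.δ p) (T.hwx o pk.K p r j h')) (T.hwD o pk.M pk.K p (2 * r) j))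
    (T.hwX o pk.K (2 * j + 1)) (tlev T.δ s) (R := msh T.δ s / (8 * T.δ ^ u)) (by positivity)
    (fun ω ω' _ _ hE hE' hA => by
      simp only [FLaw.pair, Prod.mk.injEq, Tan.hwD] at hA
      obtain ⟨hcell, _, hang⟩ := hA
      obtain ⟨r', rfl⟩ : ∃ r', r = r' + 1 := ⟨r - 1, by omega⟩
      have eE : T.hwX o pk.K (2 * (r' + 1)) ω = T.hwX o pk.K (2 * (r' + 1)) ω' := by
        have := it_hw_aux_ang_even T o pk.K p (r' + 1) r' (by omega) hang
        simp only [Tan.Xn] at this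
        simp only [Tan.hwX, trep, show 2 * (r' + 1) = 2 * r' + 2 by ring, this]
      have ePc := it_hw_aux_ang_odd T o pk.K p (r' + 1) j hj hang
      simp only [Tan.Xn] at ePc
      have eP : T.hwX o p (2 * j + 1) ω = T.hwX o p (2 * j + 1) ω' := by
        simp only [Tan.hwX, trep, ePc]
      -- the two fine representatives lie in the same parent cell
      have hpar : |T.hwX o pk.K (2 * j + 1) ω - T.hwX o pk.K (2 * j + 1) ω'| ≤ msh T.δ p := by
        refine it_k_aux_cell_dist (q := p) ?_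
        simp only [Tan.hwX]
        rw [it_hw_aux_cell_rep h0 h1 hpK, it_hw_aux_cell_rep h0 h1 hpK, ePc]
      have hmp : msh T.δ p ≤ T.δ ^ u :=
        (ig_msh_le T.δ p h0).trans (Real.rpow_le_rpow_of_exponent_ge h0 h1.le hup)
      -- the values of φ
      have hd := ic_cell_dist hcell
      have hlev := ig_lev_mono T.δ p s h0 h1 hps
      obtain ⟨E, hEd⟩ : ∃ E, E = T.hwX o pk.K (2 * (r' + 1)) ω' := ⟨_, rfl⟩
      obtain ⟨x, hx⟩ : ∃ x, x = T.hwX o pk.K (2 * j + 1) ω := ⟨_, rfl⟩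
      obtain ⟨y, hy⟩ : ∃ y, y = T.hwX o pk.K (2 * j + 1) ω' := ⟨_, rfl⟩
      have hφ : |itHwPhi E x - itHwPhi E y| ≤ msh T.δ s := by
        simp only [Tan.hwx, eE, eP, ← hEd, ← hx, ← hy] at hd
        rw [← sub_mul, abs_mul, abs_of_pos (by positivity : (0 : ℝ) < 2 ^ tlev T.δ p)] at hd
        have e2 : (itHwPhi E x - itHwPhi E (T.hwX o p (2 * j + 1) ω') - (itHwPhi E y - itHwPhi E (T.hwX o p (2 * j + 1) ω')))
            = itHwPhi E x - itHwPhi E y := by ring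
        rw [e2, ← le_div_iff₀ (by positivity)] at hd
        refine hd.trans (le_of_eq ?_)
        unfold msh
        rw [div_div, ← pow_add, Nat.sub_add_cancel hlev]
      rw [eE, ← hEd, ← hx] at hE
      rw [← hEd, ← hy] at hE'
      rw [← hx, ← hy] at hpar ⊢
      have hside : (4 * T.δ ^ u ≤ x - E ∧ 4 * T.δ ^ u ≤ y - E) ∨ (4 * T.δ ^ u ≤ E - x ∧ 4 * T.δ ^ u ≤ E - y) := by
        rw [abs_le] at hpar
        rcases le_abs'.1 hE with c1 | c1 <;> rcases le_abs'.1 hE' with c2 | c2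
        · right; constructor <;> linarith
        · exfalso; linarith [hpar.1, hpar.2]
        · exfalso; linarith [hpar.1, hpar.2]
        · left; constructor <;> linarith
      have hexp := it_hw_phi_exp E x y (4 * T.δ ^ u) (by positivity) hside
      rw [le_div_iff₀ (by positivity)]
      linarith)
  refine ltk_nval_mono W hc (fun _ h => h) (fun _ _ h => h) ⟨id, fun ω => ?_⟩ ?_
  · simp only [id, Tan.Xn, Tan.hwX]
    exact (it_hw_aux_cell_rep h0 h1 hsK _).symm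
  · have e : msh T.δ s * 2 ^ tlev T.δ s = 1 := by
      unfold msh; field_simp
    have e2 : msh T.δ s / (8 * T.δ ^ u) * 2 ^ tlev T.δ s = (msh T.δ s * 2 ^ tlev T.δ s) / (8 * T.δ ^ u) := by ring
    rw [e2, e, Real.rpow_neg h0.le]
    have : 1 / (8 * T.δ ^ u) ≤ (T.δ ^ u)⁻¹ := by
      rw [one_div, mul_inv]
      have := inv_pos.2 hδu
      nlinarith
    linarith

/-- LEAF XLV. **the new scalar at one mesh depth** -/
theorem it_hw_x_lv (hW : T.HwOk W o pk.M (2 * r) pk.K pk.RQ Φ) (hpk : pk.Ok) (hT : T.Adm a pk τ κ0 acc) {j : ℕ} (hj : j < r)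
    {p s u : ℝ} (hp : p ∈ pk.G) (hs : s ∈ pk.G) (hps : p ≤ s) (hu0 : 0 ≤ u) (hup : u ≤ p) {t : ℝ} (ht : 0 < t) (t' : ℝ) :
    W.pr (fun h => 4 * T.δ ^ u ≤ |T.hwX o pk.K (2 * j + 1) h - T.hwX o pk.K (2 * r) h| ∧
        W.surC (fun h' => icCell (tlev T.δ s - tlev T.δ p) (T.hwx o pk.K p r j h')) (T.hwD o pk.M pk.K p (2 * r) j) h
          < (a.m * (s - p) - 2 * acc) * T.L - t - Real.log (T.δ ^ (-u) + 2) - 3 * t')
      ≤ 2 * acc + (Φ + 1) / t + 3 * Real.exp (-t') := by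
  have h0 := hT.t0.δ0
  have h1 := hT.t0.δ1
  have hsK : s ≤ pk.K := (hpk.2.2.2.2.2.2 s hs).2
  have hpK : p ≤ pk.K := (hpk.2.2.2.2.2.2 p hp).2
  have hp0 : 0 ≤ p := (hpk.2.2.2.2.2.2 p hp).1
  have hk : 2 * j + 1 ≤ 2 * r := by omega
  have hN2 : 0 < T.δ ^ (-u) + 2 := by have := Real.rpow_pos_of_pos h0 (-u); linarith
  -- the four exceptional events
  have as := hT.ti.ang s hs
  have ap := hT.ti.ang p hp
  rw [← it_hw_pb_pr hW hk] at as ap
  have inf := ltk_info_tail W (fun h => T.Xn s (o (2 * j + 1) h)) (pair (fun h => T.Xn p (o (2 * j + 1) h)) (T.hwC o))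
    (T.hwD o pk.M pk.K p (2 * r) j) ht
  have hΦ := it_hw_i_x hW hT.t0 hp0 hpK hsK hj (s := s)
  have inf' := inf.trans (div_le_div_of_nonneg_right (add_le_add_left hΦ 1) ht.le)
  have tr := ltk_transfer W (fun h => 4 * T.δ ^ u ≤ |T.hwX o pk.K (2 * j + 1) h - T.hwX o pk.K (2 * r) h|)
    (fun h' => icCell (tlev T.δ s - tlev T.δ p) (T.hwx o pk.K p r j h')) (fun h => T.Xn s (o (2 * j + 1) h))
    (T.hwD o pk.M pk.K p (2 * r) j) (T.hwD o pk.M pk.K p (2 * r) j) one_pos hN2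
    (fun ω₀ => ⟨{T.hwD o pk.M pk.K p (2 * r) j ω₀}, by simp, fun ω _ _ e => Finset.mem_singleton.2 e⟩)
    (it_hw_aux_x_list h0 h1 hj hps hsK hup) t'
  have hsub : ∀ h, W.p h ≠ 0 → (4 * T.δ ^ u ≤ |T.hwX o pk.K (2 * j + 1) h - T.hwX o pk.K (2 * r) h| ∧
        W.surC (fun h' => icCell (tlev T.δ s - tlev T.δ p) (T.hwx o pk.K p r j h')) (T.hwD o pk.M pk.K p (2 * r) j) h
          < (a.m * (s - p) - 2 * acc) * T.L - t - Real.log (T.δ ^ (-u) + 2) - 3 * t') →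
      (((acc * T.L < |T.P.surC (T.Xn s) T.Cs (o (2 * j + 1) h) - a.m * s * T.L|) ∨
        (acc * T.L < |T.P.surC (T.Xn p) T.Cs (o (2 * j + 1) h) - a.m * p * T.L|)) ∨
        (W.surC (fun h => T.Xn s (o (2 * j + 1) h))
            (pair (T.hwD o pk.M pk.K p (2 * r) j) (pair (fun h => T.Xn p (o (2 * j + 1) h)) (T.hwC o))) h + t
          < W.surC (fun h => T.Xn s (o (2 * j + 1) h)) (pair (fun h => T.Xn p (o (2 * j + 1) h)) (T.hwC o)) h)) ∨
        (4 * T.δ ^ u ≤ |T.hwX o pk.K (2 * j + 1) h - T.hwX o pk.K (2 * r) h| ∧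
          W.surC (fun h' => icCell (tlev T.δ s - tlev T.δ p) (T.hwx o pk.K p r j h')) (T.hwD o pk.M pk.K p (2 * r) j) h
            < W.surC (fun h => T.Xn s (o (2 * j + 1) h)) (T.hwD o pk.M pk.K p (2 * r) j) h
              - Real.log 1 - Real.log (T.δ ^ (-u) + 2) - 3 * t') := by
    rintro h hh ⟨hG, hbad⟩
    by_contra hcon
    push Not at hcon
    obtain ⟨⟨⟨c1, c2⟩, c3⟩, c4⟩ := hcon
    have c4 := c4 hG
    rw [Real.log_one] at c4
    have hsupp := it_hw_supp hW hk hh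
    -- chain rule in `T.P`
    have ch := ent_surC_chain T.P (T.Xn p) (T.Xn s) T.Cs hsupp
    have cg : T.P.surC (pair (T.Xn p) (T.Xn s)) T.Cs (o (2 * j + 1) h) = T.P.surC (T.Xn s) T.Cs (o (2 * j + 1) h) := by
      refine ent_surC_congr T.P _ _ _ _ _ (fun _ _ => Iff.rfl) (fun ω' _ _ => ?_)
      simp only [FLaw.pair, Prod.mk.injEq, Tan.Xn]
      exact ⟨fun e => e.2, fun e => ⟨it_k_aux_cell_nest h0 h1 hps e, e⟩⟩
    have pb := it_hw_aux_pbC2 hW hk (T.Xn s) (T.Xn p) hh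
    -- the conditioning
    have cd : W.surC (fun h => T.Xn s (o (2 * j + 1) h))
        (pair (T.hwD o pk.M pk.K p (2 * r) j) (pair (fun h => T.Xn p (o (2 * j + 1) h)) (T.hwC o))) h
        = W.surC (fun h => T.Xn s (o (2 * j + 1) h)) (T.hwD o pk.M pk.K p (2 * r) j) h := by
      refine ent_surC_congr W _ _ _ _ h (fun h' _ => ?_) (fun _ _ _ => Iff.rfl)
      simp only [FLaw.pair, Prod.mk.injEq]
      refine ⟨fun e => e.1, fun e => ⟨e, ?_, ?_⟩⟩
      · simp only [Tan.hwD, Prod.mk.injEq] at e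
        exact it_hw_aux_ang_odd T o pk.K p r j hj e.2
      · simp only [Tan.hwD, Prod.mk.injEq] at e
        exact hT.t0.side_C _ _ e.1.1
    rw [abs_le] at c1 c2
    rw [cd, pb] at c3
    rw [cg] at ch
    have e3 : (a.m * (s - p) - 2 * acc) * T.L = (a.m * s * T.L - acc * T.L) - (a.m * p * T.L + acc * T.L) := by ring
    linarith [c1.1, c2.2]
  refine (ent_pr_mono W hsub).trans ?_
  refine (ent_pr_or_le W _ _).trans ?_
  refine (add_le_add ((ent_pr_or_le W _ _).trans (add_le_add ((ent_pr_or_le W _ _).trans (add_le_add as ap)) inf')) tr).trans ?_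
  linarith

/-- LEAF TLV. **the slope at one mesh depth** -/
theorem it_hw_t_lv (hW : T.HwOk W o pk.M (2 * r) pk.K pk.RQ Φ) (hpk : pk.Ok) (hT : T.Adm a pk τ κ0 acc) (hr : 2 * r ≤ pk.M) {j : ℕ} (hj : j < r)
    {p σ : ℝ} (hp : 0 ≤ p) (hpK : p ≤ pk.K) (h0G : (0 : ℝ) ∈ pk.G) (hσ : σ ∈ pk.G) (hσ0 : 0 < σ) {t : ℝ} (ht : 0 < t) (t' : ℝ) :
    W.pr (fun h => W.surC (icS (T.hwt o r j) (tlev T.δ σ)) (T.hwD o pk.M pk.K p (2 * r) j) h
          < (a.d * σ - acc) * T.L - t - Real.log (r + 2) - 4 * t')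
      ≤ acc + (Φ + 1) / t + 4 * Real.exp (-t') := by
  have hj2 : 2 * j < pk.M := by omega
  have hj3 : 2 * j + 1 < pk.M := by omega
  have hr0 : (0 : ℝ) < r := by exact_mod_cast (by omega : 0 < r)
  obtain ⟨U, hU⟩ : ∃ U : T.Ω → ℤ, U = fun ω' => tcell T.δ σ (T.mrk (2 * j) ω').th := ⟨_, rfl⟩
  obtain ⟨Y0, hY0⟩ : ∃ Y0 : T.Ω → ℤ × (T.ζ × (Fin pk.M → ItMk)),
      Y0 = pair (fun ω' => tcell T.δ 0 (T.mrk (2 * j) ω').th) (pair T.Zs (T.XiE pk.M (2 * j))) := ⟨_, rfl⟩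
  have st := it_b_time_step T a pk τ κ0 acc hT (2 * j) hj2 0 σ h0G hσ hσ0 t'
  rw [← hU, ← hY0, ← it_hw_pb_pr hW (Nat.zero_le _)] at st
  have inf := ltk_info_tail W (fun h => U (o 0 h)) (fun h => Y0 (o 0 h)) (T.hwAng o pk.K p (2 * r)) ht
  have hΦ := it_hw_i_t hW hT.t0 hp hpK U Y0 (fun ω ω' e => by
    rw [hY0] at e
    simp only [FLaw.pair, Prod.mk.injEq] at e
    exact hT.t0.side_C _ _ e.2.1)
  have inf' := inf.trans (div_le_div_of_nonneg_right (add_le_add_left hΦ 1) ht.le)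
  have hN2 : (0 : ℝ) < r + 2 := by linarith
  have tr := ltk_transfer W (fun _ => True) (icS (T.hwt o r j) (tlev T.δ σ)) (fun h => U (o 0 h))
    (T.hwD o pk.M pk.K p (2 * r) j) (pair (T.hwAng o pk.K p (2 * r)) (fun h => Y0 (o 0 h))) one_pos hN2
    (fun ω₀ => ⟨{T.hwD o pk.M pk.K p (2 * r) j ω₀}, by simp, fun ω _ _ e => by
      refine Finset.mem_singleton.2 ?_
      rw [hY0] at e
      simp only [FLaw.pair, Prod.mk.injEq] at e
      obtain ⟨e1, _, e2, e3⟩ := e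
      simp only [Tan.hwD, Prod.mk.injEq]
      refine ⟨⟨e2, funext fun i => ?_⟩, e1⟩
      simp only [Tan.hwXiE]
      by_cases hi : (i : ℕ) = 2 * j ∨ (i : ℕ) = 2 * j + 1
      · simp only [hi, if_true]
      · simp only [hi, if_false]
        push Not at hi
        exact it_hw_aux_XiE1 T e3 i i.2 hi.1⟩)
    (by
      have hm := ig_msh_pos T.δ σ
      have hc := ltk_nval_close W (fun _ => True)
        (pair (icS (T.hwt o r j) (tlev T.δ σ)) (pair (T.hwAng o pk.K p (2 * r)) (fun h => Y0 (o 0 h))))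
        (fun h => (T.mrk (2 * j) (o 0 h)).th) (tlev T.δ σ) (R := r * msh T.δ σ) (by positivity)
        (fun ω ω' _ _ _ _ hA => by
          rw [hY0] at hA
          simp only [FLaw.pair, Prod.mk.injEq, icS] at hA
          obtain ⟨hc, _, _, _, e3⟩ := hA
          have hd := ic_cell_dist hc
          have e4 := it_hw_aux_XiE1 T e3 (2 * j + 1) hj3 (by omega)
          simp only [Tan.hwt, e4] at hd
          rw [← sub_div, abs_div, abs_of_pos hr0, div_le_iff₀ hr0] at hd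
          have e5 : (T.mrk (2 * j) (o 0 ω)).th - (T.mrk (2 * j + 1) (o 0 ω')).th
              - ((T.mrk (2 * j) (o 0 ω')).th - (T.mrk (2 * j + 1) (o 0 ω')).th)
              = (T.mrk (2 * j) (o 0 ω)).th - (T.mrk (2 * j) (o 0 ω')).th := by ring
          rw [e5] at hd
          refine hd.trans (le_of_eq ?_)
          unfold msh; ring)
      refine ltk_nval_mono W hc (fun _ h => h) (fun _ _ h => h) ⟨id, fun ω => ?_⟩ ?_
      · rw [hU]; rfl
      · have e : msh T.δ σ * 2 ^ tlev T.δ σ = 1 := by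
          unfold msh; field_simp
        rw [mul_assoc, e, mul_one]) t'
  have hsub : ∀ h, W.p h ≠ 0 → (W.surC (icS (T.hwt o r j) (tlev T.δ σ)) (T.hwD o pk.M pk.K p (2 * r) j) h
          < (a.d * σ - acc) * T.L - t - Real.log (r + 2) - 4 * t') →
      ((T.P.surC U Y0 (o 0 h) < (a.d * (σ - 0) - acc) * T.L - t') ∨
        (W.surC (fun h => U (o 0 h)) (pair (T.hwAng o pk.K p (2 * r)) (fun h => Y0 (o 0 h))) h + t
          < W.surC (fun h => U (o 0 h)) (fun h => Y0 (o 0 h)) h)) ∨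
        (True ∧ W.surC (icS (T.hwt o r j) (tlev T.δ σ)) (T.hwD o pk.M pk.K p (2 * r) j) h
          < W.surC (fun h => U (o 0 h)) (pair (T.hwAng o pk.K p (2 * r)) (fun h => Y0 (o 0 h))) h
            - Real.log 1 - Real.log (r + 2) - 3 * t') := by
    intro h hh hbad
    by_contra hcon
    push Not at hcon
    obtain ⟨⟨c1, c2⟩, c3⟩ := hcon
    have c3 := c3 trivial
    rw [Real.log_one] at c3
    rw [it_hw_pb_sur hW (Nat.zero_le _) U Y0 h] at c2
    rw [sub_zero] at c1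
    linarith
  refine (ent_pr_mono W hsub).trans ?_
  refine (ent_pr_or_le W _ _).trans ?_
  refine (add_le_add ((ent_pr_or_le W _ _).trans (add_le_add st inf')) tr).trans ?_
  linarith

end explicit

theorem it_hw_aux_lev {δ : ℝ} (h0 : 0 < δ) (h1 : δ < 1) {p s : ℝ} (hp : 0 ≤ p) (hps : p ≤ s) :
    ((tlev δ s - tlev δ p : ℕ) : ℝ) * Real.log 2 < (s - p) * lg δ + Real.log 2 ∧
    (s - p) * lg δ - Real.log 2 < ((tlev δ s - tlev δ p : ℕ) : ℝ) * Real.log 2 := by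
  obtain ⟨a1, a2⟩ := it_r_lev δ s h0 h1 (hp.trans hps)
  obtain ⟨b1, b2⟩ := it_r_lev δ p h0 h1 hp
  rw [Nat.cast_sub (ig_lev_mono δ p s h0 h1 hps), sub_mul, sub_mul]
  constructor <;> linarith

theorem it_hw_aux_exp_le {x : ℝ} (hx : 0 < x) : Real.exp (-x) ≤ 1 / x := by
  rw [Real.exp_neg, ← one_div]
  exact one_div_le_one_div_of_le hx (by linarith [Real.add_one_le_exp x])

theorem it_hw_aux_log_c {δ e : ℝ} (h0 : 0 < δ) (h1 : δ < 1) (he : 0 ≤ e) :
    Real.log (δ ^ (-e) + 2) ≤ e * lg δ + Real.log 3 := by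
  have hσ : 0 < δ ^ (-e) := Real.rpow_pos_of_pos h0 _
  have hσ1 : 1 ≤ δ ^ (-e) := Real.one_le_rpow_of_pos_of_le_one_of_nonpos h0 h1.le (by linarith)
  refine (Real.log_le_log (by positivity) (by linarith : δ ^ (-e) + 2 ≤ 3 * δ ^ (-e))).trans ?_
  rw [Real.log_mul (by norm_num) hσ.ne', Real.log_rpow h0]
  unfold lg
  rw [one_div, Real.log_inv]
  linarith

/-- the exceptional probability at one mesh depth -/
theorem it_hw_aux_kap {b L acc ε : ℝ} {r : ℕ} (hb : 0 < b) (hL : 0 < L) (hε : 0 < ε) (h1 : 12 / ε ≤ b * L)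
    (h2 : acc ≤ ε / (2 * (4 * r / b + 3))) :
    4 * Real.exp (-(b * L)) + 2 * ((2 * r * (acc * L) + 1) / (b * L)) + 3 * acc ≤ ε := by
  have hbL : 0 < b * L := mul_pos hb hL
  have e1 := it_hw_aux_exp_le hbL
  have e2 : (2 * r * (acc * L) + 1) / (b * L) = 2 * r / b * acc + 1 / (b * L) := by field_simp
  have e3 : 1 / (b * L) ≤ ε / 12 := by
    rw [div_le_iff₀ hε] at h1
    rw [div_le_div_iff₀ hbL (by norm_num)]
    linarith
  have hk : 0 < 2 * (4 * (r : ℝ) / b + 3) := by positivity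
  rw [le_div_iff₀ hk] at h2
  have e4 : 4 * (r : ℝ) / b = 2 * (2 * r / b) := by ring
  rw [e2]
  rw [e4] at h2
  nlinarith

/-- one mesh depth, separation included -/
theorem it_hw_aux_gx_lv {T : Tan} {Θ : Type} [Fintype Θ] {W : FLaw Θ} {o : ℕ → Θ → T.Ω} {a : ItPar} {pk : ItPk} {r : ℕ}
    {Φ τ κ0 acc : ℝ} (hW : T.HwOk W o pk.M (2 * r) pk.K pk.RQ Φ) (hpk : pk.Ok) (hT : T.Adm a pk τ κ0 acc) {j : ℕ} (hj : j < r)
    {p s u b : ℝ} (hp : p ∈ pk.G) (hs : s ∈ pk.G) (hu : u ∈ pk.G) (hps : p ≤ s) (hu0 : 0 ≤ u) (hup : u ≤ p) (hb : 0 < b)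
    (c1 : acc ≤ b) (c1' : 4 * b ≤ a.m * u) (c2 : Real.log 18 + 1 ≤ b * T.L) :
    W.pr (fun h => W.surC (fun h' => icCell (tlev T.δ s - tlev T.δ p) (T.hwx o pk.K p r j h')) (T.hwD o pk.M pk.K p (2 * r) j) h
          < (a.m * (s - p) - 2 * acc) * T.L - b * T.L - Real.log (T.δ ^ (-u) + 2) - 3 * (b * T.L))
      ≤ 4 * Real.exp (-(b * T.L)) + 2 * ((Φ + 1) / (b * T.L)) + 3 * acc := by
  have hL : 0 < T.L := it_cb_L_pos T hT.t0.δ0 hT.t0.δ1
  have hbL : 0 < b * T.L := mul_pos hb hL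
  have sep := it_hw_sep hW hpk hT hj hu hu0 (t := b * T.L) (t' := b * T.L) hbL (by nlinarith)
  have xl := it_hw_x_lv hW hpk hT hj hp hs hps hu0 hup hbL (b * T.L)
  refine le_trans (le_trans (ent_pr_mono W fun h _ hbad => ?_) (ent_pr_or_le W _ _)) ((add_le_add sep xl).trans (by linarith))
  by_cases hc : |T.hwX o pk.K (2 * j + 1) h - T.hwX o pk.K (2 * r) h| < 4 * T.δ ^ u
  · exact Or.inl hc
  · exact Or.inr ⟨not_lt.1 hc, hbad⟩

/-- numerics of the mesh: threshold -/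
theorem it_hw_aux_thr {m lv d L l2 acc b u χ t0 lc : ℝ} (hm1 : m ≤ 1) (hm0 : 0 ≤ m) (hl2 : 0 < l2) (hL : 0 < L)
    (hlv : lv * l2 < d * L + l2) (hacc : acc ≤ b) (hb : b ≤ χ * t0 / 64) (hu : u ≤ χ * t0 / 32)
    (hlc : lc ≤ u * L + Real.log 3) (hl2' : l2 ≤ 1) (hC : 4 ≤ b * L) (h3 : Real.log 3 ≤ 2) :
    (m * lv - χ / 4 * (t0 * L / l2)) * l2 ≤ (m * d - 2 * acc) * L - b * L - lc - 3 * (b * L) := by
  have e1 : χ / 4 * (t0 * L / l2) * l2 = χ * t0 / 4 * L := by field_simp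
  have e2 : m * (lv * l2) ≤ m * (d * L + l2) := mul_le_mul_of_nonneg_left hlv.le hm0
  have e3 : m * l2 ≤ 1 := by nlinarith
  have e4 : acc * L ≤ b * L := mul_le_mul_of_nonneg_right hacc hL.le
  have e5 : b * L ≤ χ * t0 / 64 * L := mul_le_mul_of_nonneg_right hb hL.le
  have e6 : u * L ≤ χ * t0 / 32 * L := mul_le_mul_of_nonneg_right hu hL.le
  nlinarith

/-- numerics of the mesh: the loss -/
theorem it_hw_aux_loss {m χ t0 L l2 b Rr n : ℝ} (hm1 : m ≤ 1) (hχ : 0 < χ) (hl2 : 0 < l2) (hl2' : l2 ≤ 1) (hL : 0 < L)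
    (ht0 : 0 < t0) (hR : 8 / χ ≤ Rr) (hb : b ≤ χ * t0 / 64) (hC : 1 + χ ≤ b * L) (hn : t0 * L - l2 < n * l2) :
    χ / 4 * (t0 * L / l2) + m * (t0 * L / (Rr * l2) + 1) ≤ χ * n := by
  have hRr : 0 < Rr := lt_of_lt_of_le (by positivity) hR
  obtain ⟨N0, hN0⟩ : ∃ N0, N0 = t0 * L / l2 := ⟨_, rfl⟩
  have hN0p : 0 < N0 := by rw [hN0]; positivity
  have e1 : t0 * L / (Rr * l2) = N0 / Rr := by rw [hN0]; field_simp
  have e2 : N0 / Rr ≤ χ / 8 * N0 := by
    rw [div_le_iff₀ hRr]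
    rw [div_le_iff₀ hχ] at hR
    nlinarith
  have e3 : N0 - 1 < n := by
    have : N0 * l2 = t0 * L := by rw [hN0]; field_simp
    have h2 : (N0 - 1) * l2 < n * l2 := by linarith
    exact lt_of_mul_lt_mul_right h2 hl2.le
  have e4 : 64 * (1 + χ) ≤ χ * N0 := by
    have h5 : b * L ≤ χ * t0 / 64 * L := mul_le_mul_of_nonneg_right hb hL.le
    have h6 : t0 * L ≤ N0 := by
      rw [hN0, le_div_iff₀ hl2]
      have : 0 < t0 * L := by positivity
      nlinarith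
    nlinarith
  rw [← hN0, e1]
  have e5 : m * (N0 / Rr + 1) ≤ N0 / Rr + 1 := by
    have : 0 ≤ N0 / Rr + 1 := by positivity
    nlinarith
  nlinarith

theorem it_hw_aux_log2_le : Real.log 2 ≤ 1 := by
  have := Real.log_two_lt_d9
  linarith

theorem it_hw_aux_log3_le : Real.log 3 ≤ 2 := by
  have h : Real.log 3 ≤ Real.log 4 := Real.log_le_log (by norm_num) (by norm_num)
  have h4 : Real.log 4 = 2 * Real.log 2 := by
    rw [show (4 : ℝ) = 2 ^ 2 by norm_num, Real.log_pow]; norm_num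
  have := it_hw_aux_log2_le
  linarith

theorem it_hw_aux_log18_le : Real.log 18 ≤ 5 := by
  have h : Real.log 18 ≤ Real.log 32 := Real.log_le_log (by norm_num) (by norm_num)
  have h4 : Real.log 32 = 5 * Real.log 2 := by
    rw [show (32 : ℝ) = 2 ^ 5 by norm_num, Real.log_pow]; norm_num
  have := it_hw_aux_log2_le
  linarith

/-- LEAF GX. **the new scalars are Frostman `m`.**   `R = ⌈8/χ⌉₊ + 1`, `u = min p (χ (q-p) / 32)`, package `G ∋ p, u, p + (q-p) i / R` (`i ≤ R`), `M = 2r`;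
`t = t' = χ (q-p) L / 64` in `it_hw_x_lv`, `t = t' = m u L / 4` in `it_hw_sep`;  `it_hw_mesh` with `lv i = tlev δ s_i - tlev δ p`, `g = (q-p) L / (R log 2) + 1`;
`(q-p) L / log 2 - 1 ≤ hwn p q ≤ (q-p) L / log 2 + 1`;   `L ≥ log (1/acc)` (`it_cb_L_ge`) makes all constants small against `(q-p) L`. -/
theorem it_hw_gx (a : ItPar) (ha : a.Ok) (hm : 0 < a.m) (χ η1 : ℝ) (hχ : 0 < χ) (hη1 : 0 < η1) (r : ℕ) (hr : 0 < r) (p q : ℝ) (hp : 0 < p) (hpq : p < q) :
    ∃ (pk1 : ItPk) (acc1 : ℝ), pk1.Pre ∧ 0 < acc1 ∧ ∀ (pk : ItPk) (acc : ℝ) (T : Tan) (Θ : Type) [Fintype Θ] (W : FLaw Θ) (o : ℕ → Θ → T.Ω),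
      ItHwSet a pk1 pk acc1 acc T r W o → ∀ j < r,
        W.pr (fun h => ¬ IcGood W (icX (itHwQ (T.hwx o pk.K p r) (T.hwt o r) j)) (T.hwD o pk.M pk.K p (2 * r) j) a.m χ (T.hwn p q) h) ≤ η1 := by
  have hm1 : a.m ≤ 1 := ha.2.2.2.2.1
  obtain ⟨R, hRd⟩ : ∃ R : ℕ, R = ⌈8 / χ⌉₊ + 1 := ⟨_, rfl⟩
  have hR0 : 0 < R := by omega
  have hRr : (0 : ℝ) < R := by exact_mod_cast hR0
  have hRχ : 8 / χ ≤ (R : ℝ) := by
    rw [hRd]; push_cast
    have := Nat.le_ceil (8 / χ)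
    linarith
  have ht0 : 0 < q - p := sub_pos.2 hpq
  obtain ⟨u, hu⟩ : ∃ u, u = min p (χ * (q - p) / 32) := ⟨_, rfl⟩
  have hu0 : 0 < u := by rw [hu]; exact lt_min hp (by positivity)
  have hup : u ≤ p := by rw [hu]; exact min_le_left _ _
  have huχ : u ≤ χ * (q - p) / 32 := by rw [hu]; exact min_le_right _ _
  obtain ⟨b, hb⟩ : ∃ b, b = min (a.m * u / 4) (χ * (q - p) / 64) := ⟨_, rfl⟩
  have hb0 : 0 < b := by rw [hb]; exact lt_min (by positivity) (by positivity)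
  have hb1 : 4 * b ≤ a.m * u := by
    have : b ≤ a.m * u / 4 := by rw [hb]; exact min_le_left _ _
    linarith
  have hb2 : b ≤ χ * (q - p) / 64 := by rw [hb]; exact min_le_right _ _
  obtain ⟨ε, hε⟩ : ∃ ε, ε = η1 / (R + 1) := ⟨_, rfl⟩
  have hε0 : 0 < ε := by rw [hε]; positivity
  obtain ⟨C0, hC0⟩ : ∃ C0, C0 = 12 / ε + 6 + χ := ⟨_, rfl⟩
  have hε12 : 0 < 12 / ε := by positivity
  refine ⟨⟨0, 0, 0, 1, insert u ((Finset.range (R + 1)).image (fun i : ℕ => p + (q - p) * i / R)), ∅⟩,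
    min (Real.exp (-(C0 / b))) (min b (ε / (2 * (4 * r / b + 3)))), ⟨one_pos, ?_⟩,
    lt_min (Real.exp_pos _) (lt_min hb0 (by positivity)), ?_⟩
  · intro x hx
    rcases Finset.mem_insert.1 hx with rfl | hx
    · exact hu0.le
    · obtain ⟨i, _, rfl⟩ := Finset.mem_image.1 hx
      positivity
  intro pk acc T Θ _ W o H j hj
  obtain ⟨τ, κ0, hT⟩ := H.adm
  have hW := H.walk
  have hpk := H.ok
  have h0 := hT.t0.δ0
  have h1 := hT.t0.δ1
  have hL : 0 < T.L := it_cb_L_pos T h0 h1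
  have hl2 : 0 < Real.log 2 := Real.log_pos one_lt_two
  have a1 : acc ≤ Real.exp (-(C0 / b)) := H.accle.trans (min_le_left _ _)
  have a2 : acc ≤ b := H.accle.trans ((min_le_right _ _).trans (min_le_left _ _))
  have a3 : acc ≤ ε / (2 * (4 * r / b + 3)) := H.accle.trans ((min_le_right _ _).trans (min_le_right _ _))
  have hCL : C0 ≤ b * T.L := it_cb_const_le T acc C0 b hb0 h0 hT.small a1
  have hG : ∀ i : ℕ, i ≤ R → p + (q - p) * i / R ∈ pk.G := fun i hi =>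
    H.le.2.2.2.2 (Finset.mem_insert_of_mem (Finset.mem_image.2 ⟨i, Finset.mem_range.2 (Nat.lt_succ_of_le hi), rfl⟩))
  have huG : u ∈ pk.G := H.le.2.2.2.2 (Finset.mem_insert_self _ _)
  have hpG : p ∈ pk.G := by
    have := hG 0 (Nat.zero_le _)
    simpa using this
  have hsp : ∀ i : ℕ, p ≤ p + (q - p) * i / R := fun i => by
    have : 0 ≤ (q - p) * (i : ℝ) / R := by positivity
    linarith
  have hmesh := it_hw_mesh W (icX (itHwQ (T.hwx o pk.K p r) (T.hwt o r) j)) (T.hwD o pk.M pk.K p (2 * r) j)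
    (e := a.m) (c := χ / 4 * ((q - p) * T.L / Real.log 2)) (g := (q - p) * T.L / (R * Real.log 2) + 1) (χ := χ) (κ := ε)
    (R := R) (n := T.hwn p q) (fun i => tlev T.δ (p + (q - p) * i / R) - tlev T.δ p) hm.le
    (fun k ω ω' h => ic_cell_nest (Nat.le_succ k) h) (by simp) ?_ ?_ ?_ ?_
  · refine hmesh.trans (le_of_eq ?_)
    rw [hε]; field_simp
  · -- the last level
    have e : p + (q - p) * (R : ℝ) / R = q := by field_simp; ring
    simp only [e, Tan.hwn, le_refl]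
  · -- gaps
    intro i _
    have hmono : p + (q - p) * (i : ℝ) / R ≤ p + (q - p) * ((i + 1 : ℕ) : ℝ) / R := by
      push_cast
      have : (q - p) * (i : ℝ) / R ≤ (q - p) * ((i : ℝ) + 1) / R := by gcongr; linarith
      linarith
    have m1 := ig_lev_mono T.δ _ _ h0 h1 hmono
    have m0 := ig_lev_mono T.δ _ _ h0 h1 (hsp i)
    refine ⟨by omega, ?_⟩
    have lv := (it_hw_aux_lev h0 h1 (hp.le.trans (hsp i)) hmono).1
    rw [Nat.cast_sub (m0.trans m1), Nat.cast_sub m0]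
    rw [Nat.cast_sub m1] at lv
    have e : (p + (q - p) * ((i + 1 : ℕ) : ℝ) / R - (p + (q - p) * (i : ℝ) / R)) * lg T.δ = (q - p) * T.L / R := by
      push_cast; unfold Tan.L; field_simp; ring
    rw [e] at lv
    have e2 : ((q - p) * T.L / (R * Real.log 2) + 1) * Real.log 2 = (q - p) * T.L / R + Real.log 2 := by field_simp
    refine le_of_mul_le_mul_right ?_ hl2
    rw [e2]
    linarith
  · -- the loss
    refine it_hw_aux_loss hm1 hχ hl2 it_hw_aux_log2_le hL ht0 hRχ hb2 (by rw [hC0] at hCL; linarith) ?_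
    exact (it_hw_aux_lev h0 h1 hp.le hpq.le).2
  · -- one mesh depth
    intro i hi
    have st := it_hw_aux_gx_lv hW hpk hT hj hpG (hG i hi) huG (hsp i) hu0.le hup hb0 a2 hb1
      (by rw [hC0] at hCL; have := it_hw_aux_log18_le; linarith)
    have kap := it_hw_aux_kap (r := r) hb0 hL hε0 (by rw [hC0] at hCL; linarith) a3
    refine le_trans (ent_pr_mono W fun h _ hbad => lt_of_lt_of_le hbad ?_) (st.trans kap)
    refine it_hw_aux_thr hm1 hm.le hl2 hL (it_hw_aux_lev h0 h1 hp.le (hsp i)).1 a2 hb2 huχ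
      (it_hw_aux_log_c h0 h1 hu0.le) it_hw_aux_log2_le (by rw [hC0] at hCL; linarith) it_hw_aux_log3_le

/-- numerics of the mesh: threshold for the slopes -/
theorem it_hw_aux_thr_t {m lv d L l2 acc b χ t0 lr : ℝ} (hm1 : m ≤ 1) (hm0 : 0 ≤ m) (hl2 : 0 < l2) (hL : 0 < L)
    (hlv : lv * l2 < d * L + l2) (hacc : acc ≤ b) (hb : b ≤ χ * t0 / 64) (hl2' : l2 ≤ 1) (hC : 1 + lr ≤ b * L) (hbL : 0 ≤ b * L) :
    (m * lv - χ / 4 * (t0 * L / l2)) * l2 ≤ (m * d - acc) * L - b * L - lr - 4 * (b * L) := by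
  have e1 : χ / 4 * (t0 * L / l2) * l2 = χ * t0 / 4 * L := by field_simp
  have e2 : m * (lv * l2) ≤ m * (d * L + l2) := mul_le_mul_of_nonneg_left hlv.le hm0
  have e3 : m * l2 ≤ 1 := by nlinarith
  have e4 : acc * L ≤ b * L := mul_le_mul_of_nonneg_right hacc hL.le
  have e5 : b * L ≤ χ * t0 / 64 * L := mul_le_mul_of_nonneg_right hb hL.le
  have e6 : (m * lv - χ / 4 * (t0 * L / l2)) * l2 = m * (lv * l2) - χ * t0 / 4 * L := by rw [sub_mul, e1]; ring
  have e7 : m * (d * L + l2) = m * d * L + m * l2 := by ring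
  have e8 : (m * d - acc) * L = m * d * L - acc * L := by ring
  have e9 : χ * t0 / 4 * L = 16 * (χ * t0 / 64 * L) := by ring
  rw [e6, e8, e9]
  linarith

/-- LEAF GT. **the slopes are Frostman `d`.**   `R = ⌈8/χ⌉₊ + 1`, package `G ∋ 0, p, (q-p) i / R` (`i ≤ R`);  `t = t' = χ (q-p) L / 64` in `it_hw_t_lv`;
`it_hw_mesh` with `lv i = tlev δ ((q-p) i / R)`  (`lv 0 = 0` by `ig_lev_zero`; `hwn p q ≤ tlev δ (q-p)` by `ig_lev_add_le`). -/
theorem it_hw_gt (a : ItPar) (ha : a.Ok) (χ η1 : ℝ) (hχ : 0 < χ) (hη1 : 0 < η1) (r : ℕ) (hr : 0 < r) (p q : ℝ) (hp : 0 < p) (hpq : p < q) :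
    ∃ (pk1 : ItPk) (acc1 : ℝ), pk1.Pre ∧ 0 < acc1 ∧ ∀ (pk : ItPk) (acc : ℝ) (T : Tan) (Θ : Type) [Fintype Θ] (W : FLaw Θ) (o : ℕ → Θ → T.Ω),
      ItHwSet a pk1 pk acc1 acc T r W o → ∀ j < r,
        W.pr (fun h => ¬ IcGood W (icS (T.hwt o r j)) (T.hwD o pk.M pk.K p (2 * r) j) a.d χ (T.hwn p q) h) ≤ η1 := by
  have hd0 : 0 < a.d := ha.2.1
  have hd1 : a.d ≤ 1 := ha.2.2.1
  obtain ⟨R, hRd⟩ : ∃ R : ℕ, R = ⌈8 / χ⌉₊ + 1 := ⟨_, rfl⟩
  have hR0 : 0 < R := by omega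
  have hRr : (0 : ℝ) < R := by exact_mod_cast hR0
  have hRχ : 8 / χ ≤ (R : ℝ) := by
    rw [hRd]; push_cast
    have := Nat.le_ceil (8 / χ)
    linarith
  have ht0 : 0 < q - p := sub_pos.2 hpq
  obtain ⟨b, hb⟩ : ∃ b, b = χ * (q - p) / 64 := ⟨_, rfl⟩
  have hb0 : 0 < b := by rw [hb]; positivity
  obtain ⟨ε, hε⟩ : ∃ ε, ε = η1 / (R + 1) := ⟨_, rfl⟩
  have hε0 : 0 < ε := by rw [hε]; positivity
  have hlr : 0 ≤ Real.log ((r : ℝ) + 2) := Real.log_nonneg (by have : (0 : ℝ) ≤ r := Nat.cast_nonneg _; linarith)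
  obtain ⟨C0, hC0⟩ : ∃ C0, C0 = 12 / ε + 6 + χ + Real.log ((r : ℝ) + 2) := ⟨_, rfl⟩
  have hε12 : 0 < 12 / ε := by positivity
  refine ⟨⟨0, 0, 0, 1, insert p ((Finset.range (R + 1)).image (fun i : ℕ => (q - p) * i / R)), ∅⟩,
    min (Real.exp (-(C0 / b))) (min b (ε / (2 * (4 * r / b + 3)))), ⟨one_pos, ?_⟩,
    lt_min (Real.exp_pos _) (lt_min hb0 (by positivity)), ?_⟩
  · intro x hx
    rcases Finset.mem_insert.1 hx with rfl | hx
    · exact hp.le
    · obtain ⟨i, _, rfl⟩ := Finset.mem_image.1 hx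
      positivity
  intro pk acc T Θ _ W o H j hj
  obtain ⟨τ, κ0, hT⟩ := H.adm
  have hW := H.walk
  have hpk := H.ok
  have h0 := hT.t0.δ0
  have h1 := hT.t0.δ1
  have hL : 0 < T.L := it_cb_L_pos T h0 h1
  have hl2 : 0 < Real.log 2 := Real.log_pos one_lt_two
  have a1 : acc ≤ Real.exp (-(C0 / b)) := H.accle.trans (min_le_left _ _)
  have a2 : acc ≤ b := H.accle.trans ((min_le_right _ _).trans (min_le_left _ _))
  have a3 : acc ≤ ε / (2 * (4 * r / b + 3)) := H.accle.trans ((min_le_right _ _).trans (min_le_right _ _))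
  have hCL : C0 ≤ b * T.L := it_cb_const_le T acc C0 b hb0 h0 hT.small a1
  have hbL : 0 < b * T.L := mul_pos hb0 hL
  have hG : ∀ i : ℕ, i ≤ R → (q - p) * i / R ∈ pk.G := fun i hi =>
    H.le.2.2.2.2 (Finset.mem_insert_of_mem (Finset.mem_image.2 ⟨i, Finset.mem_range.2 (Nat.lt_succ_of_le hi), rfl⟩))
  have hpG : p ∈ pk.G := H.le.2.2.2.2 (Finset.mem_insert_self _ _)
  have hpK : p ≤ pk.K := (hpk.2.2.2.2.2.2 p hpG).2
  have h0G : (0 : ℝ) ∈ pk.G := by
    have := hG 0 (Nat.zero_le _)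
    simpa using this
  have hs0 : ∀ i : ℕ, 0 ≤ (q - p) * (i : ℝ) / R := fun i => by positivity
  have hmesh := it_hw_mesh W (icS (T.hwt o r j)) (T.hwD o pk.M pk.K p (2 * r) j)
    (e := a.d) (c := χ / 4 * ((q - p) * T.L / Real.log 2)) (g := (q - p) * T.L / (R * Real.log 2) + 1) (χ := χ) (κ := ε)
    (R := R) (n := T.hwn p q) (fun i => tlev T.δ ((q - p) * i / R)) hd0.le
    (fun k ω ω' h => ic_cell_nest (Nat.le_succ k) h) (by simp [ig_lev_zero]) ?_ ?_ ?_ ?_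
  · refine hmesh.trans (le_of_eq ?_)
    rw [hε]; field_simp
  · -- the last level
    have e : (q - p) * (R : ℝ) / R = q - p := by field_simp
    simp only [e, Tan.hwn]
    have := ig_lev_add_le T.δ p (q - p)
    rw [add_sub_cancel] at this
    omega
  · -- gaps
    intro i _
    have hmono : (q - p) * (i : ℝ) / R ≤ (q - p) * ((i + 1 : ℕ) : ℝ) / R := by
      push_cast
      gcongr; linarith
    have m1 := ig_lev_mono T.δ _ _ h0 h1 hmono
    refine ⟨m1, ?_⟩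
    have lv := (it_hw_aux_lev h0 h1 (hs0 i) hmono).1
    rw [Nat.cast_sub m1] at lv
    have e : ((q - p) * ((i + 1 : ℕ) : ℝ) / R - (q - p) * (i : ℝ) / R) * lg T.δ = (q - p) * T.L / R := by
      push_cast; unfold Tan.L; field_simp; ring
    rw [e] at lv
    have e2 : ((q - p) * T.L / (R * Real.log 2) + 1) * Real.log 2 = (q - p) * T.L / R + Real.log 2 := by field_simp
    refine le_of_mul_le_mul_right ?_ hl2
    rw [e2]
    linarith
  · -- the loss
    refine it_hw_aux_loss hd1 hχ hl2 it_hw_aux_log2_le hL ht0 hRχ hb.le (by rw [hC0] at hCL; linarith) ?_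
    exact (it_hw_aux_lev h0 h1 hp.le hpq.le).2
  · -- one mesh depth
    intro i hi
    rcases Nat.eq_zero_or_pos i with rfl | hi0
    · rw [ent_pr_eq_zero W fun h hh hbad => ?_]
      · exact hε0.le
      · have := ent_surC_nonneg W (icS (T.hwt o r j) (tlev T.δ ((q - p) * ((0 : ℕ) : ℝ) / R))) (T.hwD o pk.M pk.K p (2 * r) j) hh
        have e : tlev T.δ ((q - p) * ((0 : ℕ) : ℝ) / R) = 0 := by simp [ig_lev_zero]
        rw [e] at this hbad
        have hc : 0 ≤ χ / 4 * ((q - p) * T.L / Real.log 2) := by positivity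
        have : (a.d * ((0 : ℕ) : ℝ) - χ / 4 * ((q - p) * T.L / Real.log 2)) * Real.log 2 ≤ 0 := by
          simp only [Nat.cast_zero, mul_zero, zero_sub]
          nlinarith
        linarith
    have hσ0 : 0 < (q - p) * (i : ℝ) / R := by
      have : (0 : ℝ) < i := by exact_mod_cast hi0
      positivity
    have st := it_hw_t_lv hW hpk hT H.legs hj hp.le hpK h0G (hG i hi) hσ0 hbL (b * T.L)
    have kap := it_hw_aux_kap (r := r) hb0 hL hε0 (by rw [hC0] at hCL; linarith) a3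
    have hΦ0 : 0 ≤ (2 * (r : ℝ) * (acc * T.L) + 1) / (b * T.L) := by
      have := H.acc0
      positivity
    refine le_trans (ent_pr_mono W fun h _ hbad => lt_of_lt_of_le hbad ?_) (st.trans (le_trans ?_ kap))
    · have lv := (it_r_lev T.δ _ h0 h1 hσ0.le).2
      exact it_hw_aux_thr_t hd1 hd0.le hl2 hL lv a2 hb.le it_hw_aux_log2_le (by rw [hC0] at hCL; linarith) hbL.le
    · have := H.acc0
      linarith

end Claimed.Agent.R256
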