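import Claimed.Agent.R256.Int.HwDefs

/-!
# Row 256, Sec. 5, block H-WALK, file C: existence of the walk, pull-backs, structure, information budgets      (architect helper157; prefix `it_hw_`)

* `it_hw_walk`   existence, from `Lay/Walk.lean`.
* `it_hw_pb_pr`, `it_hw_pb_sur`   an event / a score of `T.P` read at one position of the walk.
* `it_hw_supp`, `it_hw_keep0`     every position is in the support of `T.P`; `𝒟` is constant along the walk.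
* `it_hw_phi_b`, `it_hw_phi_a`    (int:walk-kl) as two conditional informations  (`it_hw_np_b`, `it_hw_np_a`).
* `it_hw_i_inf`, `it_hw_i_cor`, `it_hw_i_x`, `it_hw_i_sep`, `it_hw_i_t`   the five budgets used by the block; each is `it_hw_mi_blk` + `it_hw_miC_congr`.
  BLOCKS.  type B:  `A = hwXX` (all fine names), `B = o 0`, `C = hwC`.      type A (position `k+1`):  `A = X_K(o (k+1))`, `B = (o 0, hwXE k)`, `C = hwC`.
* `it_hw_bd`, `it_hw_tag`, `it_hw_full`   the structural clauses of `ItHwHyp`.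
LEAVES: L-256-INT-HW-WALK (`it_hw_walk`), -PB (`it_hw_pb_*`, `it_hw_supp`, `it_hw_keep0`, `it_hw_phi_*`), -IB (`it_hw_i_inf`, `it_hw_i_t`), -IA (`it_hw_i_cor`, `it_hw_i_x`, `it_hw_i_sep`), -BD (`it_hw_bd`, `it_hw_tag`, `it_hw_full`).
-/

set_option autoImplicit false

namespace Claimed.Agent.R256

open Claimed.Agent.R255
open Claimed.Agent.R255.FLaw (pair)
open scoped BigOperators
open Classical

/-- LEAF WALK. **existence of the walk.**  `Θ = (Fin (N+1) → T.Ω) × Unit`, `W = layWalk (T.P.map (ω ↦ (ω,()))) (fun k y => (T.Dd M y.1, T.Qn RQ k y.1)) N`, `o k h = h.1 ⟨min k N, _⟩`.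
`stat` = `lay_walk_stat` + `lay_wk_map_map`;  `keep` = `lay_walk_keep`;  `kl` = `lay_walk_kl` with `C k y = T.Cs y.1`, `X = T.Xn K`, + `ent_map_entC`, `ent_map_miC`, `ent_miC_mono`. -/
theorem it_hw_walk (T : Tan) (M N : ℕ) (K RQ : ℝ) :
    ∃ (Θ : Type) (_ : Fintype Θ) (W : FLaw Θ) (o : ℕ → Θ → T.Ω),
      T.HwOk W o M N K RQ (∑ k ∈ Finset.range N, T.P.miC (T.Xn K) (pair (T.Qn RQ k) (T.Xi M)) T.Cs) := by
  obtain ⟨R, hR⟩ : ∃ R : FLaw (T.Ω × Unit), R = T.P.map (fun ω => (ω, ())) := ⟨_, rfl⟩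
  obtain ⟨G, hG0⟩ : ∃ G : ℕ → T.Ω × Unit → (T.γ × (Fin M → ItMk)) × ((ℤ × ℤ × ℤ) × (ℤ × ℤ)),
    G = fun k y => (T.Dd M y.1, T.Qn RQ k y.1) := ⟨_, rfl⟩
  have hG : ∀ k y y', G k y = G k y' → y.2 = y'.2 := fun _ _ _ _ => rfl
  obtain ⟨o, ho0⟩ : ∃ o : ℕ → (Fin (N + 1) → T.Ω) × Unit → T.Ω, o = fun k h => h.1 ⟨min k N, by omega⟩ := ⟨_, rfl⟩
  have ho : ∀ k (hk : k ≤ N) h, o k h = h.1 ⟨k, by omega⟩ := by
    intro k hk h
    rw [ho0]
    simp only [min_eq_left hk]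
  have hRf : R.map Prod.fst = T.P := by
    rw [hR, lay_wk_map_map]
    exact lay_wk_map_id _ _ fun _ => rfl
  refine ⟨(Fin (N + 1) → T.Ω) × Unit, inferInstance, layWalk R G N, o, ?_, ?_, ?_, ?_⟩
  · intro k hk
    have h1 := congrArg (fun Q : FLaw (T.Ω × Unit) => Q.map Prod.fst) (lay_walk_stat R G hG N ⟨k, by omega⟩)
    simp only [lay_wk_map_map, hRf] at h1
    rw [← h1]
    exact lay_wk_map_congr _ _ _ fun h => ho k hk h
  · intro h hh k hk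
    have h1 := lay_walk_keep R G hG N h hh ⟨k, hk⟩
    rw [hG0] at h1
    simp only [Prod.mk.injEq] at h1
    rw [ho (k + 1) hk h, ho k hk.le h]
    exact h1.1
  · intro h hh k hk
    have h1 := lay_walk_keep R G hG N h hh ⟨k, hk⟩
    rw [hG0] at h1
    simp only [Prod.mk.injEq] at h1
    rw [ho (k + 1) hk h, ho k hk.le h]
    exact h1.2
  · have h1 := lay_walk_kl R G hG (fun _ y => T.Cs y.1) (fun k => ⟨fun g => g.1.1, fun y => by rw [hG0]; rfl⟩) (T.Xn K) N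
    have e1 : R.entC (fun y => T.Xn K y.1) (fun y => T.Cs y.1) = T.P.entC (T.Xn K) T.Cs := by
      rw [hR, ent_map_entC]
    have e2 : ∀ k, R.miC (fun y => T.Xn K y.1) (G k) (fun y => T.Cs y.1) ≤ T.P.miC (T.Xn K) (pair (T.Qn RQ k) (T.Xi M)) T.Cs := by
      intro k
      rw [hR, ent_map_miC, hG0]
      refine ent_miC_mono T.P _ _ _ _ fun ω ω' _ _ hy hz => ?_
      simp only [pair, Prod.mk.injEq] at hy
      simp only [Tan.Dd, Prod.mk.injEq]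
      exact ⟨⟨hz, hy.2⟩, hy.1⟩
    have e3 : (layWalk R G N).entC (fun h => fun j : Fin N => T.Xn K (h.1 j.succ)) (fun h => (h.1 0, h.2))
        = (layWalk R G N).entC (fun h => fun k : Fin N => T.Xn K (o ((k : ℕ) + 1) h)) (o 0) := by
      refine ent_entC_congr _ _ _ _ _ (fun h h' _ _ => ?_) (fun h h' _ _ _ => ?_)
      · rw [ho 0 (Nat.zero_le _) h, ho 0 (Nat.zero_le _) h']
        simp only [Prod.mk.injEq]
        exact ⟨fun x => x.1, fun x => ⟨x, trivial⟩⟩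
      · have e : ∀ h : (Fin (N + 1) → T.Ω) × Unit, (fun k : Fin N => T.Xn K (o ((k : ℕ) + 1) h)) = fun j : Fin N => T.Xn K (h.1 j.succ) := by
          intro h
          funext k
          rw [ho _ k.2 h]
          rfl
        rw [e h, e h']
    simp only [e1, Finset.sum_const, Finset.card_range, nsmul_eq_mul] at h1
    rw [e3] at h1
    exact h1.trans (Finset.sum_le_sum fun k _ => e2 k)

theorem it_hw_ok_mono {T : Tan} {Θ : Type} [Fintype Θ] {W : FLaw Θ} {o : ℕ → Θ → T.Ω} {M N : ℕ} {K RQ Φ Φ' : ℝ}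
    (h : T.HwOk W o M N K RQ Φ) (hΦ : Φ ≤ Φ') : T.HwOk W o M N K RQ Φ' :=
  ⟨h.stat, h.keepD, h.keepQ, h.kl.trans hΦ⟩

section walk

variable {T : Tan} {Θ : Type} [Fintype Θ] {W : FLaw Θ} {o : ℕ → Θ → T.Ω} {M N : ℕ} {K RQ Φ : ℝ}

/-- an event of `T.P` read at the position `k` -/
theorem it_hw_pb_pr (hW : T.HwOk W o M N K RQ Φ) {k : ℕ} (hk : k ≤ N) (E : T.Ω → Prop) :
    W.pr (fun h => E (o k h)) = T.P.pr E := by
  rw [← hW.stat k hk, ent_map_pr]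

/-- a score of `T.P` read at the position `k` -/
theorem it_hw_pb_sur (hW : T.HwOk W o M N K RQ Φ) {k : ℕ} (hk : k ≤ N) {α β : Type} (U : T.Ω → α) (Y : T.Ω → β) (h : Θ) :
    W.surC (fun h' => U (o k h')) (fun h' => Y (o k h')) h = T.P.surC U Y (o k h) := by
  rw [← ent_map_surC W (o k) U Y h, hW.stat k hk]

/-- every position is in the support -/
theorem it_hw_supp (hW : T.HwOk W o M N K RQ Φ) {k : ℕ} (hk : k ≤ N) {h : Θ} (hh : W.p h ≠ 0) : T.P.p (o k h) ≠ 0 := by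
  have := ent_map_supp W (o k) hh
  rwa [hW.stat k hk] at this

/-- `𝒟` is constant along the walk -/
theorem it_hw_keep0 (hW : T.HwOk W o M N K RQ Φ) {h : Θ} (hh : W.p h ≠ 0) {k : ℕ} (hk : k ≤ N) :
    T.Dd M (o k h) = T.Dd M (o 0 h) := by
  induction k with
  | zero => rfl
  | succ k ih => rw [hW.keepD h hh k (by omega), ih (by omega)]

/-- LEAF PB. the entropy of one fine name given the root at the start (`it_hw_keep0`, `ent_entC_congr`, `ent_map_entC`, `hW.stat`) -/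
theorem it_hw_ent1 (hW : T.HwOk W o M N K RQ Φ) {k : ℕ} (hk : k ≤ N) :
    W.entC (fun h => T.Xn K (o k h)) (T.hwC o) = T.P.entC (T.Xn K) T.Cs := by
  have e : ∀ h, W.p h ≠ 0 → T.hwC o h = T.Cs (o k h) := fun h hh =>
    (congrArg Prod.fst (it_hw_keep0 hW hh hk)).symm
  rw [← hW.stat k hk, ent_map_entC]
  refine ent_entC_congr W _ _ _ _ (fun h h' hh hh' => ?_) (fun _ _ _ _ _ => Iff.rfl)
  rw [e h hh, e h' hh']

/-- LEAF PB. (int:walk-kl), the family against the start -/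
theorem it_hw_phi_b (hW : T.HwOk W o M N K RQ Φ) : W.miC (T.hwXX o K N) (o 0) (T.hwC o) ≤ Φ := by
  have h1 := it_hw_np_b W (fun (i : Fin N) h => T.Xn K (o ((i : ℕ) + 1) h)) (o 0) (T.hwC o) fun h h' _ _ e => by
    unfold Tan.hwC
    rw [e]
  have h2 : ∑ i : Fin N, W.entC (fun h => T.Xn K (o ((i : ℕ) + 1) h)) (T.hwC o) = (N : ℝ) * T.P.entC (T.Xn K) T.Cs := by
    rw [Finset.sum_congr rfl fun (i : Fin N) _ => it_hw_ent1 hW (k := (i : ℕ) + 1) i.2]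
    simp
  rw [h2] at h1
  exact h1.trans hW.kl

/-- LEAF PB. (int:walk-kl), one position against the start and all the other positions -/
theorem it_hw_phi_a (hW : T.HwOk W o M N K RQ Φ) {k : ℕ} (hk : k < N) :
    W.miC (fun h => T.Xn K (o (k + 1) h)) (pair (o 0) (T.hwXE o K N k)) (T.hwC o) ≤ Φ := by
  have h1 := it_hw_np_a W (fun (i : Fin N) h => T.Xn K (o ((i : ℕ) + 1) h)) (o 0) (T.hwC o) (fun h h' _ _ e => by
    unfold Tan.hwC
    rw [e]) ⟨k, hk⟩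
  have h2 : ∑ i : Fin N, W.entC (fun h => T.Xn K (o ((i : ℕ) + 1) h)) (T.hwC o) = (N : ℝ) * T.P.entC (T.Xn K) T.Cs := by
    rw [Finset.sum_congr rfl fun (i : Fin N) _ => it_hw_ent1 hW (k := (i : ℕ) + 1) i.2]
    simp
  rw [h2] at h1
  refine le_trans (le_of_eq ?_) (h1.trans hW.kl)
  congr 2
  funext h i
  unfold Tan.hwXE
  by_cases hik : (i : ℕ) = k
  · rw [if_pos hik, if_pos (Fin.ext hik)]
  · rw [if_neg hik, if_neg fun e => hik (congrArg Fin.val e)]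

end walk

section budgets

variable {T : Tan} {Θ : Type} [Fintype Θ] {W : FLaw Θ} {o : ℕ → Θ → T.Ω} {a : ItPar} {pk : ItPk} {r : ℕ} {Φ : ℝ}

theorem it_hw_aux_Xn_nest (T : Tan) (h0 : 0 < T.δ) (h1 : T.δ < 1) {p q : ℝ} (hpq : p ≤ q) {ω ω' : T.Ω} (h : T.Xn q ω = T.Xn q ω') :
    T.Xn p ω = T.Xn p ω' := it_k_aux_cell_nest h0 h1 hpq h

theorem it_hw_aux_hwX (T : Tan) {Θ : Type} (o : ℕ → Θ → T.Ω) {q : ℝ} {k : ℕ} {h h' : Θ} (e : T.Xn q (o k h) = T.Xn q (o k h')) :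
    T.hwX o q k h = T.hwX o q k h' := by
  unfold Tan.hwX trep
  unfold Tan.Xn at e
  rw [e]

theorem it_hw_aux_XX (T : Tan) {Θ : Type} (o : ℕ → Θ → T.Ω) {K : ℝ} {N : ℕ} {h h' : Θ} (e : T.hwXX o K N h = T.hwXX o K N h') {k : ℕ}
    (h1 : 1 ≤ k) (hk : k ≤ N) : T.Xn K (o k h) = T.Xn K (o k h') := by
  obtain ⟨k', rfl⟩ : ∃ k', k = k' + 1 := ⟨k - 1, by omega⟩
  exact congrFun e ⟨k', hk⟩

theorem it_hw_aux_XE (T : Tan) {Θ : Type} (o : ℕ → Θ → T.Ω) {K : ℝ} {N k0 : ℕ} {h h' : Θ} (e : T.hwXE o K N k0 h = T.hwXE o K N k0 h') {k : ℕ}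
    (h1 : 1 ≤ k) (hk : k ≤ N) (hne : k ≠ k0 + 1) : T.Xn K (o k h) = T.Xn K (o k h') := by
  obtain ⟨k', rfl⟩ : ∃ k', k = k' + 1 := ⟨k - 1, by omega⟩
  have hne' : k' ≠ k0 := fun e => hne (by rw [e])
  have := congrFun e ⟨k', hk⟩
  simpa only [Tan.hwXE, if_neg hne', Option.some.injEq] using this

theorem it_hw_aux_hwx (T : Tan) {Θ : Type} (o : ℕ → Θ → T.Ω) (h0 : 0 < T.δ) (h1 : T.δ < 1) {K p : ℝ} (hpK : p ≤ K) (r j : ℕ) {h h' : Θ}
    (e1 : T.Xn K (o (2 * r) h) = T.Xn K (o (2 * r) h')) (e2 : T.Xn K (o (2 * j + 1) h) = T.Xn K (o (2 * j + 1) h')) :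
    T.hwx o K p r j h = T.hwx o K p r j h' := by
  unfold Tan.hwx
  rw [it_hw_aux_hwX T o e1, it_hw_aux_hwX T o e2, it_hw_aux_hwX T o (it_hw_aux_Xn_nest T h0 h1 hpK e2)]

theorem it_hw_aux_S {Ω : Type} (x t : ℕ → Ω → ℝ) (j : ℕ) {h h' : Ω} (ex : ∀ i < j, x i h = x i h') (et : ∀ i < j, t i h = t i h') :
    itHwS x t j h = itHwS x t j h' := by
  unfold itHwS
  rw [Finset.sum_congr rfl fun i hi => by rw [ex i (Finset.mem_range.1 hi), et i (Finset.mem_range.1 hi)]]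

theorem it_hw_aux_Ang_of_XX (T : Tan) {Θ : Type} (o : ℕ → Θ → T.Ω) (h0 : 0 < T.δ) (h1 : T.δ < 1) {K p : ℝ} (hpK : p ≤ K) {N : ℕ} {h h' : Θ}
    (e : T.hwXX o K N h = T.hwXX o K N h') : T.hwAng o K p N h = T.hwAng o K p N h' := by
  funext k
  have e1 : T.Xn K (o ((k : ℕ) + 1) h) = T.Xn K (o ((k : ℕ) + 1) h') := congrFun e k
  unfold Tan.hwAng
  rw [e1, it_hw_aux_Xn_nest T h0 h1 hpK e1]

theorem it_hw_aux_Ang_of_XE (T : Tan) {Θ : Type} (o : ℕ → Θ → T.Ω) (h0 : 0 < T.δ) (h1 : T.δ < 1) {K p : ℝ} (hpK : p ≤ K) {N k0 : ℕ} {h h' : Θ}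
    (e : T.hwXE o K N k0 h = T.hwXE o K N k0 h') (hodd : (k0 + 1) % 2 ≠ 0) (e' : T.Xn p (o (k0 + 1) h) = T.Xn p (o (k0 + 1) h')) :
    T.hwAng o K p N h = T.hwAng o K p N h' := by
  funext k
  unfold Tan.hwAng
  by_cases hk : (k : ℕ) = k0
  · rw [hk, if_neg hodd, if_neg hodd, e']
  · have e1 := it_hw_aux_XE T o e (k := (k : ℕ) + 1) (by omega) k.2 (by omega)
    rw [e1, it_hw_aux_Xn_nest T h0 h1 hpK e1]

theorem it_hw_aux_Ang_even (T : Tan) {Θ : Type} (o : ℕ → Θ → T.Ω) {K p : ℝ} {N : ℕ} {h h' : Θ} (e : T.hwAng o K p N h = T.hwAng o K p N h')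
    {k : ℕ} (h1 : 1 ≤ k) (hk : k ≤ N) (hev : k % 2 = 0) : T.Xn K (o k h) = T.Xn K (o k h') := by
  obtain ⟨k', rfl⟩ : ∃ k', k = k' + 1 := ⟨k - 1, by omega⟩
  have := congrFun e ⟨k', hk⟩
  simpa only [Tan.hwAng, if_pos hev] using this

theorem it_hw_aux_Ang_odd (T : Tan) {Θ : Type} (o : ℕ → Θ → T.Ω) {K p : ℝ} {N : ℕ} {h h' : Θ} (e : T.hwAng o K p N h = T.hwAng o K p N h')
    {k : ℕ} (h1 : 1 ≤ k) (hk : k ≤ N) (hodd : k % 2 ≠ 0) : T.Xn p (o k h) = T.Xn p (o k h') := by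
  obtain ⟨k', rfl⟩ : ∃ k', k = k' + 1 := ⟨k - 1, by omega⟩
  have := congrFun e ⟨k', hk⟩
  simpa only [Tan.hwAng, if_neg hodd] using this

theorem it_hw_aux_XiE (T : Tan) {M j : ℕ} {ω ω' : T.Ω} (e : T.hwXiE M j ω = T.hwXiE M j ω') {i : ℕ} (hi : i < M) (h1 : i ≠ 2 * j)
    (h2 : i ≠ 2 * j + 1) : T.mrk i ω = T.mrk i ω' := by
  have := congrFun e ⟨i, hi⟩
  simpa only [Tan.hwXiE, h1, h2, or_self, if_false] using this

theorem it_hw_aux_hwt (T : Tan) {Θ : Type} (o : ℕ → Θ → T.Ω) (r i : ℕ) {h h' : Θ} (e1 : T.mrk (2 * i) (o 0 h) = T.mrk (2 * i) (o 0 h'))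
    (e2 : T.mrk (2 * i + 1) (o 0 h) = T.mrk (2 * i + 1) (o 0 h')) : T.hwt o r i h = T.hwt o r i h' := by
  unfold Tan.hwt
  rw [e1, e2]

/-- LEAF IB. the point of the step `j` against the omitted pair.   Type B:  `YA = hwAng`, `YB = (Z_0, hwXiE j)`, `U = icQ ..` (read from `hwXX` and the marks of the pairs `i < j`), `V = hwTg j`. -/
theorem it_hw_i_inf (hW : T.HwOk W o pk.M (2 * r) pk.K pk.RQ Φ) (h0 : T.Adm0 a pk) (hr : 2 * r ≤ pk.M) {p : ℝ} (hp : 0 ≤ p) (hpK : p ≤ pk.K)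
    {j : ℕ} (hj : j < r) (n : ℕ) :
    W.miC (icQ (itHwQ (T.hwx o pk.K p r) (T.hwt o r) j) n) (T.hwTg o j) (T.hwD o pk.M pk.K p (2 * r) j) ≤ Φ := by
  have h1 := it_hw_mi_blk W (T.hwXX o pk.K (2 * r)) (o 0) (T.hwC o) (T.hwAng o pk.K p (2 * r))
    (fun h => (T.Zs (o 0 h), T.hwXiE pk.M j (o 0 h))) (icQ (itHwQ (T.hwx o pk.K p r) (T.hwt o r) j) n) (T.hwTg o j)
    (fun h h' _ _ e => it_hw_aux_Ang_of_XX T o h0.δ0 h0.δ1 hpK e) (fun h h' _ _ e => by rw [e]) (fun h h' _ _ eA eB _ => by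
      have ex : ∀ i < r, T.hwx o pk.K p r i h = T.hwx o pk.K p r i h' := fun i hi =>
        it_hw_aux_hwx T o h0.δ0 h0.δ1 hpK r i (it_hw_aux_XX T o eA (by omega) le_rfl) (it_hw_aux_XX T o eA (by omega) (by omega))
      have eB2 := (Prod.mk.inj eB).2
      have et : ∀ i < j, T.hwt o r i h = T.hwt o r i h' := fun i hi =>
        it_hw_aux_hwt T o r i (it_hw_aux_XiE T eB2 (by omega) (by omega) (by omega)) (it_hw_aux_XiE T eB2 (by omega) (by omega) (by omega))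
      unfold icQ itHwQ
      simp only
      rw [ex j hj, it_hw_aux_S _ _ j (fun i hi => ex i (by omega)) et]) (fun h h' _ _ e _ _ => by
      unfold Tan.hwTg
      rw [e])
  have h2 : W.miC (icQ (itHwQ (T.hwx o pk.K p r) (T.hwt o r) j) n) (T.hwTg o j) (T.hwD o pk.M pk.K p (2 * r) j)
      = W.miC (icQ (itHwQ (T.hwx o pk.K p r) (T.hwt o r) j) n) (T.hwTg o j)
        (pair (T.hwAng o pk.K p (2 * r)) (pair (fun h => (T.Zs (o 0 h), T.hwXiE pk.M j (o 0 h))) (T.hwC o))) :=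
    it_hw_miC_congr W _ _ _ _ _ _ (fun _ _ _ _ => Iff.rfl) (fun _ _ _ _ => Iff.rfl) fun h h' _ _ => by
      simp only [pair, Tan.hwD, Tan.hwC, Prod.mk.injEq]
      exact ⟨fun x => ⟨x.2, x.1, h0.side_C _ _ x.1.1⟩, fun x => ⟨x.2.1, x.1⟩⟩
  rw [h2]
  exact h1.trans (it_hw_phi_b hW)

/-- LEAF IB. a name of the start against the adjoined angular names, given any `Y0` of the start that determines the root.   Type B: `YA = ()`, `YB = Y0`. -/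
theorem it_hw_i_t (hW : T.HwOk W o pk.M (2 * r) pk.K pk.RQ Φ) (h0 : T.Adm0 a pk) {p : ℝ} (hp : 0 ≤ p) (hpK : p ≤ pk.K)
    {α β : Type} (U : T.Ω → α) (Y0 : T.Ω → β) (hY : ∀ ω ω', Y0 ω = Y0 ω' → T.Cs ω = T.Cs ω') :
    W.miC (fun h => U (o 0 h)) (T.hwAng o pk.K p (2 * r)) (fun h => Y0 (o 0 h)) ≤ Φ := by
  have h1 := it_hw_mi_blk W (T.hwXX o pk.K (2 * r)) (o 0) (T.hwC o) (fun _ => ()) (fun h => Y0 (o 0 h)) (T.hwAng o pk.K p (2 * r))
    (fun h => U (o 0 h)) (fun _ _ _ _ _ => rfl) (fun h h' _ _ e => by rw [e])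
    (fun h h' _ _ e _ _ => it_hw_aux_Ang_of_XX T o h0.δ0 h0.δ1 hpK e) (fun h h' _ _ e _ _ => by rw [e])
  have h2 : W.miC (fun h => U (o 0 h)) (T.hwAng o pk.K p (2 * r)) (fun h => Y0 (o 0 h))
      = W.miC (T.hwAng o pk.K p (2 * r)) (fun h => U (o 0 h)) (pair (fun _ => ()) (pair (fun h => Y0 (o 0 h)) (T.hwC o))) := by
    rw [ent_miC_comm]
    refine it_hw_miC_congr W _ _ _ _ _ _ (fun _ _ _ _ => Iff.rfl) (fun _ _ _ _ => Iff.rfl) fun h h' _ _ => ?_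
    simp only [pair, Tan.hwC, Prod.mk.injEq, true_and]
    exact ⟨fun x => ⟨x, hY _ _ x⟩, fun x => x.1⟩
  rw [h2]
  exact h1.trans (it_hw_phi_b hW)

/-- LEAF IA. the previous sum against the new scalar.   Type A at the position `2j+1`:  `YA = X_p(o (2j+1))`, `YB = (Z_0, Ξ, the other adjoined names)`. -/
theorem it_hw_i_cor (hW : T.HwOk W o pk.M (2 * r) pk.K pk.RQ Φ) (h0 : T.Adm0 a pk) (hr : 2 * r ≤ pk.M) {p : ℝ} (hp : 0 ≤ p) (hpK : p ≤ pk.K)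
    {j : ℕ} (hj : j < r) (n : ℕ) :
    W.miC (itHwC (T.hwx o pk.K p r) (T.hwt o r) j n) (icX (itHwQ (T.hwx o pk.K p r) (T.hwt o r) j) n) (T.hwDD o pk.M pk.K p (2 * r)) ≤ Φ := by
  obtain ⟨YB, hYB⟩ : ∃ YB : Θ → (T.ζ × (Fin pk.M → ItMk)) × (Fin (2 * r) → Option ℤ), YB = fun h =>
    ((T.Zs (o 0 h), T.Xi pk.M (o 0 h)), fun k : Fin (2 * r) => if (k : ℕ) = 2 * j then none else some (T.hwAng o pk.K p (2 * r) h k)) := ⟨_, rfl⟩
  have hodd : (2 * j + 1) % 2 ≠ 0 := by omega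
  have hYBe : ∀ h h', YB h = YB h' → T.Xn pk.K (o (2 * r) h) = T.Xn pk.K (o (2 * r) h') := by
    intro h h' e
    rw [hYB] at e
    have e2 := congrFun (Prod.mk.inj e).2 ⟨2 * r - 1, by omega⟩
    have hne : 2 * r - 1 ≠ 2 * j := by omega
    have hev : (2 * r - 1 + 1) % 2 = 0 := by omega
    simp only [if_neg hne, Option.some.injEq, Tan.hwAng, if_pos hev] at e2
    have e3 : 2 * r - 1 + 1 = 2 * r := by omega
    rwa [e3] at e2
  have h1 := it_hw_mi_blk W (fun h => T.Xn pk.K (o (2 * j + 1) h)) (pair (o 0) (T.hwXE o pk.K (2 * r) (2 * j))) (T.hwC o)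
    (fun h => T.Xn p (o (2 * j + 1) h)) YB (icX (itHwQ (T.hwx o pk.K p r) (T.hwt o r) j) n) (itHwC (T.hwx o pk.K p r) (T.hwt o r) j n)
    (fun h h' _ _ e => it_hw_aux_Xn_nest T h0.δ0 h0.δ1 hpK e) (fun h h' _ _ e => by
      simp only [pair, Prod.mk.injEq] at e
      rw [hYB]
      simp only [e.1, Prod.mk.injEq, true_and]
      funext k
      by_cases hk : (k : ℕ) = 2 * j
      · rw [if_pos hk, if_pos hk]
      · rw [if_neg hk, if_neg hk]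
        have e1 := it_hw_aux_XE T o e.2 (k := (k : ℕ) + 1) (by omega) k.2 (by omega)
        unfold Tan.hwAng
        rw [e1, it_hw_aux_Xn_nest T h0.δ0 h0.δ1 hpK e1]) (fun h h' _ _ eA eB _ => by
      unfold icX itHwQ
      simp only
      rw [it_hw_aux_hwx T o h0.δ0 h0.δ1 hpK r j (hYBe h h' eB) eA]) (fun h h' _ _ eB _ _ => by
      simp only [pair, Prod.mk.injEq] at eB
      unfold itHwC
      rw [it_hw_aux_S _ _ j (fun i hi => it_hw_aux_hwx T o h0.δ0 h0.δ1 hpK r i (it_hw_aux_XE T o eB.2 (by omega) le_rfl (by omega))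
        (it_hw_aux_XE T o eB.2 (by omega) (by omega) (by omega))) (fun i hi => it_hw_aux_hwt T o r i (by rw [eB.1]) (by rw [eB.1]))])
  have h2 : W.miC (itHwC (T.hwx o pk.K p r) (T.hwt o r) j n) (icX (itHwQ (T.hwx o pk.K p r) (T.hwt o r) j) n) (T.hwDD o pk.M pk.K p (2 * r))
      = W.miC (icX (itHwQ (T.hwx o pk.K p r) (T.hwt o r) j) n) (itHwC (T.hwx o pk.K p r) (T.hwt o r) j n)
        (pair (fun h => T.Xn p (o (2 * j + 1) h)) (pair YB (T.hwC o))) := by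
    rw [ent_miC_comm]
    refine it_hw_miC_congr W _ _ _ _ _ _ (fun _ _ _ _ => Iff.rfl) (fun _ _ _ _ => Iff.rfl) fun h h' _ _ => ?_
    rw [hYB]
    simp only [pair, Tan.hwDD, Tan.hwC, Prod.mk.injEq]
    constructor
    · rintro ⟨⟨x1, x2⟩, x3⟩
      refine ⟨it_hw_aux_Ang_odd T o x3 (by omega) (by omega) hodd, ⟨⟨x1, x2⟩, ?_⟩, h0.side_C _ _ x1⟩
      rw [x3]
    · rintro ⟨x0, ⟨⟨x1, x2⟩, x3⟩, -⟩
      refine ⟨⟨x1, x2⟩, ?_⟩
      funext k
      by_cases hk : (k : ℕ) = 2 * j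
      · unfold Tan.hwAng
        rw [hk, if_neg hodd, if_neg hodd, x0]
      · have := congrFun x3 k
        simpa only [if_neg hk, Option.some.injEq] using this
  rw [h2]
  exact h1.trans (it_hw_phi_a hW (by omega))

/-- LEAF IA. an angular name of the position `2j+1` against the data of the step, given its parent and the root.   Type A: `YA = X_p(o (2j+1))`, `YB = ()`. -/
theorem it_hw_i_x (hW : T.HwOk W o pk.M (2 * r) pk.K pk.RQ Φ) (h0 : T.Adm0 a pk) {p s : ℝ} (hp : 0 ≤ p) (hpK : p ≤ pk.K) (hsK : s ≤ pk.K)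
    {j : ℕ} (hj : j < r) :
    W.miC (fun h => T.Xn s (o (2 * j + 1) h)) (T.hwD o pk.M pk.K p (2 * r) j)
      (pair (fun h => T.Xn p (o (2 * j + 1) h)) (T.hwC o)) ≤ Φ := by
  have hodd : (2 * j + 1) % 2 ≠ 0 := by omega
  have h1 := it_hw_mi_blk W (fun h => T.Xn pk.K (o (2 * j + 1) h)) (pair (o 0) (T.hwXE o pk.K (2 * r) (2 * j))) (T.hwC o)
    (fun h => T.Xn p (o (2 * j + 1) h)) (fun _ => ()) (fun h => T.Xn s (o (2 * j + 1) h)) (T.hwD o pk.M pk.K p (2 * r) j)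
    (fun h h' _ _ e => it_hw_aux_Xn_nest T h0.δ0 h0.δ1 hpK e) (fun _ _ _ _ _ => rfl)
    (fun h h' _ _ e _ _ => it_hw_aux_Xn_nest T h0.δ0 h0.δ1 hsK e) (fun h h' _ _ eB eA _ => by
      simp only [pair, Prod.mk.injEq] at eB
      unfold Tan.hwD
      rw [eB.1, it_hw_aux_Ang_of_XE T o h0.δ0 h0.δ1 hpK eB.2 hodd eA])
  have h2 : W.miC (fun h => T.Xn s (o (2 * j + 1) h)) (T.hwD o pk.M pk.K p (2 * r) j) (pair (fun h => T.Xn p (o (2 * j + 1) h)) (T.hwC o))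
      = W.miC (fun h => T.Xn s (o (2 * j + 1) h)) (T.hwD o pk.M pk.K p (2 * r) j)
        (pair (fun h => T.Xn p (o (2 * j + 1) h)) (pair (fun _ => ()) (T.hwC o))) :=
    it_hw_miC_congr W _ _ _ _ _ _ (fun _ _ _ _ => Iff.rfl) (fun _ _ _ _ => Iff.rfl) fun h h' _ _ => by
      simp only [pair, Prod.mk.injEq, true_and]
  rw [h2]
  exact h1.trans (it_hw_phi_a hW (by omega))

/-- LEAF IA. an angular name of the position `2j+1` against the fine endpoint.   Type A: `YA = YB = ()`. -/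
theorem it_hw_i_sep (hW : T.HwOk W o pk.M (2 * r) pk.K pk.RQ Φ) (h0 : T.Adm0 a pk) {u : ℝ} (huK : u ≤ pk.K) {j : ℕ} (hj : j < r) :
    W.miC (fun h => T.Xn u (o (2 * j + 1) h)) (fun h => T.Xn pk.K (o (2 * r) h)) (T.hwC o) ≤ Φ := by
  have h1 := it_hw_mi_blk W (fun h => T.Xn pk.K (o (2 * j + 1) h)) (pair (o 0) (T.hwXE o pk.K (2 * r) (2 * j))) (T.hwC o)
    (fun _ => ()) (fun _ => ()) (fun h => T.Xn u (o (2 * j + 1) h)) (fun h => T.Xn pk.K (o (2 * r) h))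
    (fun _ _ _ _ _ => rfl) (fun _ _ _ _ _ => rfl)
    (fun h h' _ _ e _ _ => it_hw_aux_Xn_nest T h0.δ0 h0.δ1 huK e) (fun h h' _ _ eB _ _ => by
      simp only [pair, Prod.mk.injEq] at eB
      exact it_hw_aux_XE T o eB.2 (by omega) le_rfl (by omega))
  have h2 : W.miC (fun h => T.Xn u (o (2 * j + 1) h)) (fun h => T.Xn pk.K (o (2 * r) h)) (T.hwC o)
      = W.miC (fun h => T.Xn u (o (2 * j + 1) h)) (fun h => T.Xn pk.K (o (2 * r) h)) (pair (fun _ => ()) (pair (fun _ => ()) (T.hwC o))) :=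
    it_hw_miC_congr W _ _ _ _ _ _ (fun _ _ _ _ => Iff.rfl) (fun _ _ _ _ => Iff.rfl) fun h h' _ _ => by
      simp only [pair, Prod.mk.injEq, true_and]
  rw [h2]
  exact h1.trans (it_hw_phi_a hW (by omega))

theorem it_hw_aux_x_bd (hW : T.HwOk W o pk.M (2 * r) pk.K pk.RQ Φ) (h0 : T.Adm0 a pk) {p : ℝ} (hp : 0 ≤ p) (hpK : p ≤ pk.K)
    {i : ℕ} (hi : i < r) (h : Θ) (hh : W.p h ≠ 0) : |T.hwx o pk.K p r i h| ≤ 4 * (a.B0 + 1) := by
  have hK : 0 ≤ pk.K := hp.trans hpK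
  have bX : ∀ k ≤ 2 * r, |(T.F (o k h)).X| ≤ a.B0 := fun k hk => (it_k_aux_nrm_le _).1.trans (h0.bdF _ (it_hw_supp hW hk hh))
  have b1 : ∀ q, 0 ≤ q → ∀ k ≤ 2 * r, |T.hwX o q k h| ≤ a.B0 + 1 := fun q hq k hk =>
    (it_sk_trep_abs T.δ q _ h0.δ0 h0.δ1 hq).trans (by linarith [bX k hk])
  have l := it_hw_phi_lip (T.hwX o pk.K (2 * r) h) (T.hwX o pk.K (2 * i + 1) h) (T.hwX o p (2 * i + 1) h) (a.B0 + 1)
    (b1 _ hK _ le_rfl) (b1 _ hK _ (by omega)) (b1 _ hp _ (by omega))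
  have d := ig_trep_diff_bd T.δ p pk.K (T.F (o (2 * i + 1) h)).X h0.δ0 h0.δ1 hpK
  have hm := ig_msh_pos T.δ p
  have d' : |T.hwX o pk.K (2 * i + 1) h - T.hwX o p (2 * i + 1) h| ≤ msh T.δ p := by
    unfold Tan.hwX
    exact abs_le.2 ⟨by linarith [d.1], d.2.le⟩
  have hb : 0 ≤ a.B0 + 1 := (abs_nonneg _).trans (b1 _ hK _ le_rfl)
  have e : msh T.δ p * 2 ^ (tlev T.δ p) = 1 := by
    unfold msh
    field_simp
  have hpw : (0 : ℝ) < 2 ^ (tlev T.δ p) := by positivity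
  unfold Tan.hwx
  rw [abs_mul, abs_of_pos hpw]
  calc _ ≤ (4 * (a.B0 + 1) * msh T.δ p) * 2 ^ (tlev T.δ p) :=
        mul_le_mul_of_nonneg_right (l.trans (mul_le_mul_of_nonneg_left d' (by positivity))) hpw.le
    _ = 4 * (a.B0 + 1) := by rw [mul_assoc, e, mul_one]

theorem it_hw_aux_t_bd (hW : T.HwOk W o pk.M (2 * r) pk.K pk.RQ Φ) (h0 : T.Adm0 a pk) (hr : 2 * r ≤ pk.M)
    {i : ℕ} (hi : i < r) (h : Θ) (hh : W.p h ≠ 0) : |T.hwt o r i h| ≤ 2 * a.B0 / r := by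
  have hs := it_hw_supp hW (Nat.zero_le _) hh
  have m1 := (h0.bdM _ hs (2 * i) (by omega)).1
  have m2 := (h0.bdM _ hs (2 * i + 1) (by omega)).1
  have hr0 : (0 : ℝ) < r := by
    have : 0 < r := by omega
    exact_mod_cast this
  unfold Tan.hwt
  rw [abs_div, abs_of_pos hr0]
  refine div_le_div_of_nonneg_right ?_ hr0.le
  rw [abs_le] at m1 m2 ⊢
  constructor <;> linarith [m1.1, m1.2, m2.1, m2.2]

/-- LEAF BD. the chart: `|x_j| ≤ 4 (B0+1)`, `|t_j| ≤ 2 B0 / r`, `|S_j| ≤ 8 B0 (B0+1)`   (`it_hw_phi_lip`, `it_sk_trep_abs`, `it_k_aux_rep_dist`; the fine representative lies in the parent cell) -/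
theorem it_hw_bd (hW : T.HwOk W o pk.M (2 * r) pk.K pk.RQ Φ) (ha : a.Ok) (h0 : T.Adm0 a pk) (hr : 2 * r ≤ pk.M) {p : ℝ} (hp : 0 ≤ p) (hpK : p ≤ pk.K)
    {j : ℕ} (hj : j < r) (h : Θ) (hh : W.p h ≠ 0) :
    |T.hwx o pk.K p r j h| ≤ a.hwA ∧ |itHwS (T.hwx o pk.K p r) (T.hwt o r) j h| ≤ a.hwA ∧ |T.hwt o r j h| ≤ a.hwA := by
  have hB : 1 ≤ a.B0 := ha.2.2.2.2.2.2.2.2
  have hr0 : (1 : ℝ) ≤ r := by
    have : 1 ≤ r := by omega
    exact_mod_cast this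
  have hjr : (j : ℝ) ≤ r := by exact_mod_cast hj.le
  have t0 : 2 * a.B0 / r ≤ 2 * a.B0 := div_le_self (by linarith) hr0
  unfold ItPar.hwA
  refine ⟨(it_hw_aux_x_bd hW h0 hp hpK hj h hh).trans (by nlinarith), ?_, (it_hw_aux_t_bd hW h0 hr hj h hh).trans (by nlinarith)⟩
  unfold itHwS
  rw [abs_neg]
  refine (Finset.abs_sum_le_sum_abs _ _).trans ?_
  have s1 : ∑ i ∈ Finset.range j, |T.hwt o r i h * T.hwx o pk.K p r i h| ≤ ∑ _i ∈ Finset.range j, 2 * a.B0 / r * (4 * (a.B0 + 1)) := by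
    refine Finset.sum_le_sum fun i hi => ?_
    have hi' : i < r := (Finset.mem_range.1 hi).trans hj
    rw [abs_mul]
    exact mul_le_mul (it_hw_aux_t_bd hW h0 hr hi' h hh) (it_hw_aux_x_bd hW h0 hp hpK hi' h hh) (abs_nonneg _) (by positivity)
  refine s1.trans ?_
  rw [Finset.sum_const, Finset.card_range, nsmul_eq_mul]
  have e : (j : ℝ) * (2 * a.B0 / r * (4 * (a.B0 + 1))) = (j / r) * (8 * a.B0 * (a.B0 + 1)) := by
    field_simp
    ring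
  have hq : (j : ℝ) / r ≤ 1 := (div_le_one (by linarith)).2 hjr
  rw [e]
  have : (j : ℝ) / r * (8 * a.B0 * (a.B0 + 1)) ≤ 1 * (8 * a.B0 * (a.B0 + 1)) := mul_le_mul_of_nonneg_right hq (by positivity)
  nlinarith

theorem it_hw_tag (T : Tan) {Θ : Type} (o : ℕ → Θ → T.Ω) (r j : ℕ) (h h' : Θ) (e : T.hwTg o j h = T.hwTg o j h') : T.hwt o r j h = T.hwt o r j h' := by
  unfold Tan.hwTg at e
  unfold Tan.hwt
  rw [(Prod.mk.inj e).1, (Prod.mk.inj e).2]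

/-- LEAF BD. `(hwTg j, hwD j) ~ hwDD` -/
theorem it_hw_full (T : Tan) {Θ : Type} (o : ℕ → Θ → T.Ω) (M : ℕ) (K p : ℝ) (r j : ℕ) (hj : j < r) (hr : 2 * r ≤ M) (h h' : Θ) :
    T.hwDD o M K p (2 * r) h = T.hwDD o M K p (2 * r) h' ↔
      T.hwTg o j h = T.hwTg o j h' ∧ T.hwD o M K p (2 * r) j h = T.hwD o M K p (2 * r) j h' := by
  simp only [Tan.hwDD, Tan.hwTg, Tan.hwD, Prod.mk.injEq]
  constructor
  · rintro ⟨⟨x1, x2⟩, x3⟩
    have m : ∀ i (hi : i < M), T.mrk i (o 0 h) = T.mrk i (o 0 h') := fun i hi => congrFun x2 ⟨i, hi⟩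
    refine ⟨⟨m _ (by omega), m _ (by omega)⟩, ⟨x1, ?_⟩, x3⟩
    funext i
    unfold Tan.hwXiE
    rw [m i i.2]
  · rintro ⟨⟨y1, y2⟩, ⟨x1, x2⟩, x3⟩
    refine ⟨⟨x1, ?_⟩, x3⟩
    funext i
    unfold Tan.Xi
    by_cases h1 : (i : ℕ) = 2 * j
    · rw [h1, y1]
    · by_cases h2 : (i : ℕ) = 2 * j + 1
      · rw [h2, y2]
      · exact it_hw_aux_XiE T x2 i.2 h1 h2

end budgets

end Claimed.Agent.R256
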