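import Claimed.Agent.R256.Int.Base
import Claimed.Agent.R256.LT.Kit
import Claimed.Agent.R255.Iso.Grid

/-!
# Row 256, Sec. 5: THE LAYER KIT      (chief helper196; prefix `it_k_`)

Shared by all blocks of R256/Int.  Paper free: `FLaw` calculus (R255/Ent/Basic: `ent_surC_chain`, `ent_entC_chain`, `ent_entC_anti`, `ent_entC_le_log_nval`, `ent_surC_tail`, ...;
pathwise lemmas: R256/LT/Kit, R256/Lay/Sco, Lay/Law: GREP THEM FIRST) + arithmetic of dyadic cells (`tcell`, `trep`, `tlev`: R255/Iso/Grid `ig_*`, R255/Cl/Dich/Canon `dc_*`).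
`U ++ V` = joint tuple.  All statements for an arbitrary `T : Tan` with `0 < δ < 1`; no `Adm` unless stated.
 A. chain rules (exact)      B. monotonicity      C. lower scores      D. cells: linear changes of tuples, capacity, phase names      E. exchangeability (needs `Adm0`)
Provers: statements are frozen; add auxiliary lemmas ABOVE your theorem with prefix `it_k_aux_`.
-/

set_option autoImplicit false

namespace Claimed.Agent.R256

open Claimed.Agent.R255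
open Claimed.Agent.R255.FLaw (pair)
open scoped BigOperators
open Classical

variable (T : Tan)

/-! ## A. chain rules -/

theorem it_k_aux_rd_iff (p s : ℝ) (U : List (T.Ω → ItPh)) (ω ω' : T.Ω) :
    T.rd p s U ω = T.rd p s U ω' ↔ ∀ u ∈ U, tcell T.δ s (itVal (u ω) (T.F ω) (T.f0 p ω))
      = tcell T.δ s (itVal (u ω') (T.F ω') (T.f0 p ω')) := by
  unfold Tan.rd
  exact List.map_inj_left

theorem it_k_aux_rd_append (p s : ℝ) (U V : List (T.Ω → ItPh)) (ω ω' : T.Ω) :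
    T.rd p s (U ++ V) ω = T.rd p s (U ++ V) ω' ↔ T.rd p s U ω = T.rd p s U ω' ∧ T.rd p s V ω = T.rd p s V ω' := by
  simp only [it_k_aux_rd_iff, List.mem_append, or_imp, forall_and]

/-- `H(U, V | W) = H(V | W) + H(U | V, W)` -/
theorem it_k_chain (M : ℕ) (p q : ℝ) (U V W : List (T.Ω → ItPh)) :
    T.hh M p q (U ++ V) W = T.hh M p q V W + T.hh M p q U (V ++ W) := by
  unfold Tan.hh
  have h1 := ent_entC_chain T.P (T.rd p q V) (T.rd p q U) (pair (T.rd p q W) (T.base M p))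
  have h2 : T.P.entC (T.rd p q (U ++ V)) (pair (T.rd p q W) (T.base M p))
      = T.P.entC (pair (T.rd p q V) (T.rd p q U)) (pair (T.rd p q W) (T.base M p)) :=
    ent_entC_congr T.P _ _ _ _ (fun _ _ _ _ => Iff.rfl) (fun ω ω' _ _ _ => by
      rw [it_k_aux_rd_append]
      simp only [FLaw.pair, Prod.mk.injEq]
      exact and_comm)
  have h3 : T.P.entC (T.rd p q U) (pair (T.rd p q (V ++ W)) (T.base M p))
      = T.P.entC (T.rd p q U) (pair (T.rd p q V) (pair (T.rd p q W) (T.base M p))) :=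
    ent_entC_congr T.P _ _ _ _ (fun ω ω' _ _ => by
      simp only [FLaw.pair, Prod.mk.injEq, it_k_aux_rd_append]
      tauto) (fun _ _ _ _ _ => Iff.rfl)
  rw [h2, h1, h3]

/-- pointwise chain rule -/
theorem it_k_sur_chain (M : ℕ) (p q : ℝ) (U V W : List (T.Ω → ItPh)) (ω : T.Ω) (hω : T.P.p ω ≠ 0) :
    T.P.surC (T.rd p q (U ++ V)) (pair (T.rd p q W) (T.base M p)) ω
      = T.P.surC (T.rd p q V) (pair (T.rd p q W) (T.base M p)) ω
        + T.P.surC (T.rd p q U) (pair (T.rd p q (V ++ W)) (T.base M p)) ω := by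
  have h1 := ent_surC_chain T.P (T.rd p q V) (T.rd p q U) (pair (T.rd p q W) (T.base M p)) hω
  have h2 : T.P.surC (T.rd p q (U ++ V)) (pair (T.rd p q W) (T.base M p)) ω
      = T.P.surC (pair (T.rd p q V) (T.rd p q U)) (pair (T.rd p q W) (T.base M p)) ω :=
    ent_surC_congr T.P _ _ _ _ ω (fun _ _ => Iff.rfl) (fun ω' _ _ => by
      rw [it_k_aux_rd_append]
      simp only [FLaw.pair, Prod.mk.injEq]
      exact and_comm)
  have h3 : T.P.surC (T.rd p q U) (pair (T.rd p q (V ++ W)) (T.base M p)) ω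
      = T.P.surC (T.rd p q U) (pair (T.rd p q V) (pair (T.rd p q W) (T.base M p))) ω :=
    ent_surC_congr T.P _ _ _ _ ω (fun ω' _ => by
      simp only [FLaw.pair, Prod.mk.injEq, it_k_aux_rd_append]
      tauto) (fun _ _ _ => Iff.rfl)
  rw [h2, h1, h3]

/-- the order inside a tuple does not matter -/
theorem it_k_perm (M : ℕ) (p q : ℝ) (U U' V V' : List (T.Ω → ItPh)) (hU : U.Perm U') (hV : V.Perm V') :
    T.hh M p q U V = T.hh M p q U' V' := by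
  unfold Tan.hh
  refine ent_entC_congr T.P _ _ _ _ (fun ω ω' _ _ => ?_) (fun ω ω' _ _ _ => ?_)
  · simp only [FLaw.pair, Prod.mk.injEq, it_k_aux_rd_iff, hV.mem_iff]
  · simp only [it_k_aux_rd_iff, hU.mem_iff]

theorem it_k_aux_cell_nest {δ : ℝ} (h0 : 0 < δ) (h1 : δ < 1) {p q : ℝ} (hpq : p ≤ q) {x y : ℝ}
    (h : tcell δ q x = tcell δ q y) : tcell δ p x = tcell δ p y := by
  rw [ig_cell_nest δ p q x h0 h1 hpq, ig_cell_nest δ p q y h0 h1 hpq, h]

theorem it_k_aux_Fn_nest (h0 : 0 < T.δ) (h1 : T.δ < 1) {p q : ℝ} (hpq : p ≤ q) {ω ω' : T.Ω}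
    (h : T.Fn q ω = T.Fn q ω') : T.Fn p ω = T.Fn p ω' := by
  simp only [Tan.Fn, itF, Prod.mk.injEq] at h ⊢
  obtain ⟨⟨a1, a2, a3⟩, b1, b2, b3⟩ := h
  exact ⟨⟨it_k_aux_cell_nest h0 h1 hpq a1, it_k_aux_cell_nest h0 h1 hpq a2, it_k_aux_cell_nest h0 h1 hpq a3⟩,
    it_k_aux_cell_nest h0 h1 hpq b1, it_k_aux_cell_nest h0 h1 hpq b2, it_k_aux_cell_nest h0 h1 hpq b3⟩

/-- exact telescoping of `A(q) = H(F_q | 𝒟)` (nested dyadic names) -/
theorem it_k_tele (h0 : 0 < T.δ) (h1 : T.δ < 1) (M : ℕ) (p q : ℝ) (hpq : p ≤ q) : T.hA M q = T.hA M p + T.hF M p q := by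
  unfold Tan.hA Tan.hF
  have h1' := ent_entC_chain T.P (T.Fn p) (T.Fn q) (T.Dd M)
  have h2 : T.P.entC (pair (T.Fn p) (T.Fn q)) (T.Dd M) = T.P.entC (T.Fn q) (T.Dd M) :=
    ent_entC_congr T.P _ _ _ _ (fun _ _ _ _ => Iff.rfl) (fun ω ω' _ _ _ => by
      simp only [FLaw.pair, Prod.mk.injEq]
      exact ⟨fun h => h.2, fun h => ⟨it_k_aux_Fn_nest T h0 h1 hpq h, h⟩⟩)
  rw [← h2, h1']
  rfl

theorem it_k_aux_miC_congr {Ω : Type} [Fintype Ω] (P : FLaw Ω) {α α' β β' γ γ' : Type} (X : Ω → α) (X' : Ω → α')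
    (Y : Ω → β) (Y' : Ω → β') (Z : Ω → γ) (Z' : Ω → γ') (hX : ∀ ω ω', X ω = X ω' ↔ X' ω = X' ω')
    (hY : ∀ ω ω', Y ω = Y ω' ↔ Y' ω = Y' ω') (hZ : ∀ ω ω', Z ω = Z ω' ↔ Z' ω = Z' ω') :
    P.miC X Y Z = P.miC X' Y' Z' := by
  unfold FLaw.miC
  rw [ent_congr_ker P (pair X Z) (pair X' Z') fun ω ω' _ _ => by simp only [FLaw.pair, Prod.mk.injEq, hX, hZ],
    ent_congr_ker P (pair Y Z) (pair Y' Z') fun ω ω' _ _ => by simp only [FLaw.pair, Prod.mk.injEq, hY, hZ],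
    ent_congr_ker P (pair (pair X Y) Z) (pair (pair X' Y') Z') fun ω ω' _ _ => by
      simp only [FLaw.pair, Prod.mk.injEq, hX, hY, hZ],
    ent_congr_ker P Z Z' fun ω ω' _ _ => hZ ω ω']

/-- one layer of the information of a child name -/
theorem it_k_aux_inf_step (h0 : 0 < T.δ) (h1 : T.δ < 1) (l : ℝ) {p q : ℝ} (hpq : p ≤ q) :
    T.P.miC (T.Fn q) (T.O l) T.Cs = T.P.miC (T.Fn p) (T.O l) T.Cs + T.inf l p q := by
  have a1 := ent_miC_chain T.P (T.O l) (T.Fn q) (T.Fn p) T.Cs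
  have a2 : T.P.miC (T.O l) (pair (T.Fn q) (T.Fn p)) T.Cs = T.P.miC (T.O l) (T.Fn q) T.Cs :=
    it_k_aux_miC_congr T.P _ _ _ _ _ _ (fun _ _ => Iff.rfl) (fun ω ω' => by
      simp only [FLaw.pair, Prod.mk.injEq]
      exact ⟨fun h => h.1, fun h => ⟨h, it_k_aux_Fn_nest T h0 h1 hpq h⟩⟩) (fun _ _ => Iff.rfl)
  have a3 : T.P.miC (T.O l) (T.Fn q) (pair (T.Fn p) T.Cs) = T.inf l p q := by
    unfold Tan.inf
    rw [ent_miC_comm]
    exact it_k_aux_miC_congr T.P _ _ _ _ _ _ (fun _ _ => Iff.rfl) (fun _ _ => Iff.rfl) (fun ω ω' => by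
      simp only [FLaw.pair, Prod.mk.injEq]
      exact and_comm)
  rw [ent_miC_comm T.P (T.Fn q), ent_miC_comm T.P (T.Fn p), ← a2, a1, a3]

theorem it_k_aux_inf_nonneg (l p q : ℝ) : 0 ≤ T.inf l p q := ent_miC_nonneg _ _ _ _

/-- chain rule for the information of a child name over disjoint increasing layers `(P k, Q k)`, `k < n` -/
theorem it_k_inf_chain (h0 : 0 < T.δ) (h1 : T.δ < 1) (l : ℝ) (n : ℕ) (P Q : ℕ → ℝ) (Qtop : ℝ)
    (h1' : ∀ k < n, P k ≤ Q k) (h2 : ∀ k, k + 1 < n → Q k ≤ P (k + 1)) (h3 : ∀ k < n, Q k ≤ Qtop) :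
    ∑ k ∈ Finset.range n, T.inf l (P k) (Q k) ≤ T.P.miC (T.Fn Qtop) (T.O l) T.Cs := by
  induction n generalizing Qtop with
  | zero => simpa using ent_miC_nonneg T.P (T.Fn Qtop) (T.O l) T.Cs
  | succ n ih =>
    have hchain : ∀ j, j ≤ n → ∀ k < j, Q k ≤ P j := by
      intro j
      induction j with
      | zero => intro _ k hk; exact absurd hk (Nat.not_lt_zero k)
      | succ j ihj =>
        intro hj k hk
        rcases Nat.lt_succ_iff_lt_or_eq.1 hk with hk' | rfl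
        · exact ((ihj (Nat.le_of_succ_le hj) k hk').trans (h1' j (by omega))).trans (h2 j (by omega))
        · exact h2 k (by omega)
    have hI := ih (P n) (fun k hk => h1' k (by omega)) (fun k hk => h2 k (by omega)) (fun k hk => hchain n le_rfl k hk)
    rw [Finset.sum_range_succ]
    have s1 := it_k_aux_inf_step T h0 h1 l (h1' n (by omega))
    have s2 := it_k_aux_inf_step T h0 h1 l (h3 n (by omega))
    have s3 := it_k_aux_inf_nonneg T l (Q n) Qtop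
    linarith

/-! ## B. monotonicity -/

theorem it_k_nonneg (M : ℕ) (p q : ℝ) (U V : List (T.Ω → ItPh)) : 0 ≤ T.hh M p q U V := by
  exact ent_entC_nonneg _ _ _

theorem it_k_mono (M : ℕ) (p q : ℝ) (U U' V : List (T.Ω → ItPh)) : T.hh M p q U V ≤ T.hh M p q (U ++ U') V := by
  unfold Tan.hh
  exact ent_entC_mono T.P _ _ _ fun ω ω' _ _ h _ => ((it_k_aux_rd_append T p q U U' ω ω').1 h).1

theorem it_k_anti (M : ℕ) (p q : ℝ) (U V V' : List (T.Ω → ItPh)) : T.hh M p q U (V ++ V') ≤ T.hh M p q U V := by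
  unfold Tan.hh
  refine ent_entC_anti T.P _ _ _ fun ω ω' _ _ h => ?_
  simp only [FLaw.pair, Prod.mk.injEq] at h ⊢
  exact ⟨((it_k_aux_rd_append T p q V V' ω ω').1 h.1).1, h.2⟩

theorem it_k_subadd (M : ℕ) (p q : ℝ) (U U' V : List (T.Ω → ItPh)) :
    T.hh M p q (U ++ U') V ≤ T.hh M p q U V + T.hh M p q U' V := by
  unfold Tan.hh
  have h1 := ent_entC_pair_le_add T.P (T.rd p q U) (T.rd p q U') (pair (T.rd p q V) (T.base M p))
  have h2 : T.P.entC (T.rd p q (U ++ U')) (pair (T.rd p q V) (T.base M p))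
      = T.P.entC (pair (T.rd p q U) (T.rd p q U')) (pair (T.rd p q V) (T.base M p)) :=
    ent_entC_congr T.P _ _ _ _ (fun _ _ _ _ => Iff.rfl) (fun ω ω' _ _ _ => by
      rw [it_k_aux_rd_append]
      simp only [FLaw.pair, Prod.mk.injEq])
  rw [h2]
  exact h1

theorem it_k_hA_mono (h0 : 0 < T.δ) (h1 : T.δ < 1) (M : ℕ) (p q : ℝ) (hpq : p ≤ q) : T.hA M p ≤ T.hA M q := by
  rw [it_k_tele T h0 h1 M p q hpq]
  have : 0 ≤ T.hF M p q := ent_entC_nonneg _ _ _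
  linarith

/-! ## C. lower scores -/

theorem it_k_aux_L_pos (h0 : 0 < T.δ) (h1 : T.δ < 1) : 0 < T.L := by
  unfold Tan.L lg
  exact Real.log_pos (by rw [lt_div_iff₀ h0]; linarith)

/-- expectation from a lower score -/
theorem it_k_E_of_LS (h0 : 0 < T.δ) (h1 : T.δ < 1) (M : ℕ) (p q : ℝ) (hpq : p ≤ q) (U V : List (T.Ω → ItPh)) (ρ η : ℝ)
    (hη : 0 ≤ η) (hρ : η ≤ ρ) (h : T.LS M p q q U V ρ η) : (ρ - η) * (1 - η) * (q - p) * T.L ≤ T.hh M p q U V := by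
  have hL := it_k_aux_L_pos T h0 h1
  unfold Tan.LS at h
  unfold Tan.hh
  rw [ent_entC_eq_ev]
  have hc : 0 ≤ (ρ - η) * (q - p) * T.L :=
    mul_nonneg (mul_nonneg (sub_nonneg.2 hρ) (sub_nonneg.2 hpq)) hL.le
  have h2 := ent_ev_ge_of_bad T.P (f := T.P.surC (T.rd p q U) (pair (T.rd p q V) (T.base M p)))
    (fun ω => T.P.surC (T.rd p q U) (pair (T.rd p q V) (T.base M p)) ω < (ρ - η) * (q - p) * T.L)
    (c := (ρ - η) * (q - p) * T.L) (M := 0) (fun ω _ h => not_lt.1 h) (fun ω hω _ => ent_surC_nonneg T.P _ _ hω)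
  rw [zero_mul, add_zero] at h2
  refine le_trans ?_ h2
  have e : (ρ - η) * (1 - η) * (q - p) * T.L = (ρ - η) * (q - p) * T.L * (1 - η) := by ring
  rw [e]
  exact mul_le_mul_of_nonneg_left (by linarith) hc

/-- chain rule for lower scores -/
theorem it_k_LS_chain (h0 : 0 < T.δ) (h1 : T.δ < 1) (M : ℕ) (p q : ℝ) (hpq : p ≤ q) (U V W : List (T.Ω → ItPh)) (ρ ρ' η η' : ℝ)
    (h : T.LS M p q q U (V ++ W) ρ η) (h' : T.LS M p q q V W ρ' η') : T.LS M p q q (U ++ V) W (ρ + ρ') (η + η') := by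
  unfold Tan.LS at *
  refine le_trans (le_trans (ent_pr_mono T.P fun ω hω hbad => ?_) (ent_pr_or_le T.P _ _)) (add_le_add h h')
  by_contra hcon
  push Not at hcon
  obtain ⟨c1, c2⟩ := hcon
  rw [it_k_sur_chain T M p q U V W ω hω] at hbad
  have e : (ρ + ρ' - (η + η')) * (q - p) * T.L = (ρ - η) * (q - p) * T.L + (ρ' - η') * (q - p) * T.L := by ring
  linarith

/-- dropping held readings lowers a score by at most `u` off probability `e^{-u}` -/
theorem it_k_LS_drop (M : ℕ) (p s q : ℝ) (U V V' : List (T.Ω → ItPh)) (ρ η u : ℝ)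
    (h : T.LS M p s q U (V ++ V') ρ η) :
    T.P.pr (fun ω => T.P.surC (T.rd p s U) (pair (T.rd p q V) (T.base M p)) ω < (ρ - η) * (s - p) * T.L - u) ≤ η + Real.exp (-u) := by
  unfold Tan.LS at h
  have h2 := ltk_lp T.P (T.rd p s U) (pair (T.rd p q V) (T.base M p)) (T.rd p q V') u
  refine le_trans (le_trans (ent_pr_mono T.P fun ω hω hbad => ?_) (ent_pr_or_le T.P _ _)) (add_le_add h h2)
  by_contra hcon
  push Not at hcon
  obtain ⟨c1, c2⟩ := hcon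
  have e : T.P.surC (T.rd p s U) (pair (T.rd p q (V ++ V')) (T.base M p)) ω
      = T.P.surC (T.rd p s U) (pair (T.rd p q V') (pair (T.rd p q V) (T.base M p))) ω :=
    ent_surC_congr T.P _ _ _ _ ω (fun ω' _ => by
      simp only [FLaw.pair, Prod.mk.injEq, it_k_aux_rd_append]
      tauto) (fun _ _ _ => Iff.rfl)
  rw [e] at c1
  linarith

/-- a larger tuple has a larger score -/
theorem it_k_LS_mono (M : ℕ) (p q : ℝ) (U U' V : List (T.Ω → ItPh)) (ρ η : ℝ) (h : T.LS M p q q U V ρ η) :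
    T.LS M p q q (U ++ U') V ρ η := by
  unfold Tan.LS at *
  refine le_trans (ent_pr_mono T.P fun ω hω hbad => lt_of_le_of_lt ?_ hbad) h
  have h1 := ent_surC_chain T.P (T.rd p q U) (T.rd p q U') (pair (T.rd p q V) (T.base M p)) hω
  have h2 : T.P.surC (T.rd p q (U ++ U')) (pair (T.rd p q V) (T.base M p)) ω
      = T.P.surC (pair (T.rd p q U) (T.rd p q U')) (pair (T.rd p q V) (T.base M p)) ω :=
    ent_surC_congr T.P _ _ _ _ ω (fun _ _ => Iff.rfl) (fun ω' _ _ => by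
      rw [it_k_aux_rd_append]
      simp only [FLaw.pair, Prod.mk.injEq])
  have h3 := ent_surC_nonneg T.P (T.rd p q U') (pair (T.rd p q U) (pair (T.rd p q V) (T.base M p))) hω
  linarith

/-- entropy from an upper bound of the surprise off a small event and a capacity -/
theorem it_k_aux_ent_us {Ω : Type} [Fintype Ω] (P : FLaw Ω) {α β : Type} (B : Ω → β) (A : Ω → α) {c N η : ℝ} (hc : 0 ≤ c)
    (hN : 1 ≤ N) (h : P.pr (fun ω => c < P.surC B A ω) ≤ η) (hcap : P.NVal (fun _ => True) B A N) :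
    P.entC B A ≤ c + η * Real.log N + Real.log 2 := by
  obtain ⟨Ex, hEx⟩ : ∃ Ex : Ω → Prop, Ex = fun ω => c < P.surC B A ω := ⟨_, rfl⟩
  rw [← hEx] at h
  have hlogN := Real.log_nonneg hN
  have s1 : P.entC B A ≤ P.entC (pair Ex B) A :=
    ent_entC_mono P (pair Ex B) B A fun ω ω' _ _ h _ => (Prod.ext_iff.1 h).2
  have s2 := ent_entC_chain P Ex B A
  have s3 : P.entC Ex A ≤ Real.log 2 := (ent_entC_le P Ex A).trans (ent_prop_le P Ex)
  have s4 : P.entC B (pair Ex A) = P.entC B (pair A Ex) := by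
    refine ent_entC_congr P B B _ _ (fun ω ω' _ _ => ?_) fun _ _ _ _ _ => Iff.rfl
    simp only [FLaw.pair, Prod.mk.injEq]
    exact and_comm
  have s5 := ent_entC_pair_eq_avg P B A Ex
  have s6 : P.ev (fun ω => (P.cfib Ex ω).entC B A) ≤ c * (1 - P.pr Ex) + Real.log N * P.pr Ex := by
    refine ent_ev_le_of_bad P Ex (fun ω hω hex => ?_) (fun ω hω hex => ?_)
    · have hpos : 0 < P.pr (fun ω'' => Ex ω'' = Ex ω) := ent_fib_pos P Ex hω
      have hnv := ent_bin_count P (fun ω => ¬ Ex ω) A B (hi := c) (fun ω _ h => by rw [hEx] at h; exact not_lt.1 h)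
      have h7 := ent_entC_le_log_nval (P.cfib Ex ω) B A (fun ω₀ => by
        obtain ⟨S', hS'c, hS'⟩ := hnv ω₀
        refine ⟨S', hS'c, fun ω' hω' _ hA => ?_⟩
        have hsup := (ent_cnd_supp P (fun ω'' => Ex ω'' = Ex ω) hpos).1 hω'
        exact hS' ω' hsup.2 (by show ¬ Ex ω'; rw [hsup.1]; exact hex) hA)
      rwa [Real.log_exp] at h7
    · have hpos : 0 < P.pr (fun ω'' => Ex ω'' = Ex ω) := ent_fib_pos P Ex hω
      exact ent_entC_le_log_nval (P.cfib Ex ω) B A (fun ω₀ => by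
        obtain ⟨S', hS'c, hS'⟩ := hcap ω₀
        refine ⟨S', hS'c, fun ω' hω' _ hA => ?_⟩
        have hsup := (ent_cnd_supp P (fun ω'' => Ex ω'' = Ex ω) hpos).1 hω'
        exact hS' ω' hsup.2 trivial hA)
  have hpr0 := ent_pr_nonneg P Ex
  have s7 : c * (1 - P.pr Ex) ≤ c := by nlinarith
  have s8 : Real.log N * P.pr Ex ≤ η * Real.log N := by nlinarith
  linarith

/-- expectation from an upper score and the capacity `Kc` -/
theorem it_k_E_of_US (h0 : 0 < T.δ) (h1 : T.δ < 1) (M : ℕ) (p q : ℝ) (hpq : p ≤ q) (U V : List (T.Ω → ItPh)) (ρ η N : ℝ)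
    (hη : 0 ≤ η) (hρ : 0 ≤ ρ) (hN : 1 ≤ N) (h : T.US M p q q U V ρ η)
    (hcap : T.P.NVal (fun _ => True) (T.rd p q U) (pair (T.rd p q V) (T.base M p)) N) :
    T.hh M p q U V ≤ (ρ + η) * (q - p) * T.L + η * Real.log N + Real.log 2 := by
  have hL := it_k_aux_L_pos T h0 h1
  unfold Tan.US at h
  unfold Tan.hh
  exact it_k_aux_ent_us T.P _ _ (mul_nonneg (mul_nonneg (add_nonneg hρ hη) (sub_nonneg.2 hpq)) hL.le) hN h hcap

/-! ## D. cells -/

theorem it_k_aux_val_dot (u f f0 : ItPh) : itVal u f f0 = itDot u (f.sub f0) := rfl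

theorem it_k_aux_cell_dist {δ q a b : ℝ} (h : tcell δ q a = tcell δ q b) : |a - b| ≤ msh δ q := by
  have a1 := ig_cell_le δ q a
  have a2 := ig_lt_cell δ q a
  have b1 := ig_cell_le δ q b
  have b2 := ig_lt_cell δ q b
  rw [h] at a1 a2
  exact abs_le.2 ⟨by linarith, by linarith⟩

/-- closeness of a combined reading on a fibre of the generating readings -/
theorem it_k_aux_lin_close (M : ℕ) (p q A : ℝ) (hA : 1 ≤ A) (U : List (T.Ω → ItPh)) (u' : T.Ω → ItPh)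
    (hc : ∃ c : T.Ω → ℕ → ℝ, (∀ ω ω', T.base M p ω = T.base M p ω' → c ω = c ω') ∧ (∀ ω, T.P.p ω ≠ 0 → ∀ k, |c ω k| ≤ A) ∧
      ∀ ω, T.P.p ω ≠ 0 → ∀ x, itDot (u' ω) x = ∑ k ∈ Finset.range U.length, c ω k * itDot ((U.getD k (fun _ => ⟨0, 0, 0, 0, 0, 0⟩)) ω) x)
    (ω ω' : T.Ω) (hω : T.P.p ω ≠ 0) (hω' : T.P.p ω' ≠ 0) (hb : T.base M p ω = T.base M p ω')
    (hU : T.rd p q U ω = T.rd p q U ω') :
    |itVal (u' ω) (T.F ω) (T.f0 p ω) - itVal (u' ω') (T.F ω') (T.f0 p ω')| ≤ A * U.length * msh T.δ q := by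
  obtain ⟨c, c1, c2, c3⟩ := hc
  rw [it_k_aux_val_dot, it_k_aux_val_dot, c3 ω hω, c3 ω' hω', ← c1 ω ω' hb, ← Finset.sum_sub_distrib]
  refine (Finset.abs_sum_le_sum_abs _ _).trans ?_
  have hm := (ig_msh_pos T.δ q).le
  have hstep : ∀ k ∈ Finset.range U.length,
      |c ω k * itDot ((U.getD k (fun _ => ⟨0, 0, 0, 0, 0, 0⟩)) ω) ((T.F ω).sub (T.f0 p ω))
        - c ω k * itDot ((U.getD k (fun _ => ⟨0, 0, 0, 0, 0, 0⟩)) ω') ((T.F ω').sub (T.f0 p ω'))| ≤ A * msh T.δ q := by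
    intro k hk
    have hk' : k < U.length := Finset.mem_range.1 hk
    rw [← mul_sub, abs_mul]
    refine mul_le_mul (c2 ω hω k) ?_ (abs_nonneg _) (by linarith)
    rw [← it_k_aux_val_dot, ← it_k_aux_val_dot]
    refine it_k_aux_cell_dist ?_
    refine (it_k_aux_rd_iff T p q U ω ω').1 hU _ ?_
    rw [List.getD_eq_getElem _ _ hk']
    exact List.getElem_mem hk'
  refine (Finset.sum_le_sum hstep).trans ?_
  rw [Finset.sum_const, Finset.card_range, nsmul_eq_mul]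
  exact le_of_eq (by ring)

/-- one combined reading has at most `A |U| + 2` values -/
theorem it_k_aux_lin_one (M : ℕ) (p q A : ℝ) (hA : 1 ≤ A) (U : List (T.Ω → ItPh)) (u' : T.Ω → ItPh)
    (hc : ∃ c : T.Ω → ℕ → ℝ, (∀ ω ω', T.base M p ω = T.base M p ω' → c ω = c ω') ∧ (∀ ω, T.P.p ω ≠ 0 → ∀ k, |c ω k| ≤ A) ∧
      ∀ ω, T.P.p ω ≠ 0 → ∀ x, itDot (u' ω) x = ∑ k ∈ Finset.range U.length, c ω k * itDot ((U.getD k (fun _ => ⟨0, 0, 0, 0, 0, 0⟩)) ω) x) :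
    T.P.NVal (fun _ => True) (fun ω => tcell T.δ q (itVal (u' ω) (T.F ω) (T.f0 p ω))) (pair (T.rd p q U) (T.base M p))
      (A * U.length + 2) := by
  have hm := ig_msh_pos T.δ q
  have h := ltk_nval_close T.P (fun _ => True) (pair (T.rd p q U) (T.base M p))
    (fun ω => itVal (u' ω) (T.F ω) (T.f0 p ω)) (tlev T.δ q) (R := A * U.length * msh T.δ q)
    (mul_nonneg (mul_nonneg (by linarith) (Nat.cast_nonneg _)) hm.le)
    (fun ω ω' hω hω' _ _ hA' => by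
      simp only [FLaw.pair, Prod.mk.injEq] at hA'
      exact it_k_aux_lin_close T M p q A hA U u' hc ω ω' hω hω' hA'.2 hA'.1)
  have e : A * U.length * msh T.δ q * 2 ^ (tlev T.δ q) + 2 = A * U.length + 2 := by
    unfold msh
    field_simp
  rw [e] at h
  exact h

/-- the tuple of combined readings has at most `(A |U| + 2)^|U'|` values -/
theorem it_k_aux_lin_nval (M : ℕ) (p q A : ℝ) (hA : 1 ≤ A) (U U' : List (T.Ω → ItPh))
    (hc : ∀ u' ∈ U', ∃ c : T.Ω → ℕ → ℝ, (∀ ω ω', T.base M p ω = T.base M p ω' → c ω = c ω') ∧ (∀ ω, T.P.p ω ≠ 0 → ∀ k, |c ω k| ≤ A) ∧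
      ∀ ω, T.P.p ω ≠ 0 → ∀ x, itDot (u' ω) x = ∑ k ∈ Finset.range U.length, c ω k * itDot ((U.getD k (fun _ => ⟨0, 0, 0, 0, 0, 0⟩)) ω) x) :
    T.P.NVal (fun _ => True) (T.rd p q U') (pair (T.rd p q U) (T.base M p)) ((A * U.length + 2) ^ U'.length) := by
  have hpos : (0 : ℝ) ≤ A * U.length + 2 := add_nonneg (mul_nonneg (by linarith) (Nat.cast_nonneg _)) (by norm_num)
  induction U' with
  | nil =>
    intro ω₀
    exact ⟨{[]}, by simp, fun ω _ _ _ => by simp [Tan.rd]⟩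
  | cons u' U'' ih =>
    have h1 := ih fun v hv => hc v (List.mem_cons_of_mem _ hv)
    have h2 := it_k_aux_lin_one T M p q A hA U u' (hc u' List.mem_cons_self)
    have h3 : T.P.NVal (fun _ => True) (fun ω => tcell T.δ q (itVal (u' ω) (T.F ω) (T.f0 p ω)))
        (pair (T.rd p q U'') (pair (T.rd p q U) (T.base M p))) (A * U.length + 2) :=
      ltk_nval_mono T.P h2 (fun _ h => h) (fun ω ω' h => (Prod.ext_iff.1 h).2) ⟨id, fun _ => rfl⟩ le_rfl
    have h4 := ltk_nval_comp T.P (fun _ => True) _ _ _ hpos h1 h3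
    refine ltk_nval_mono T.P h4 (fun _ h => h) (fun _ _ h => h) ⟨fun x => x.1 :: x.2, fun ω => ?_⟩ ?_
    · simp [Tan.rd, FLaw.pair]
    · rw [List.length_cons, pow_succ]

theorem it_k_aux_lin_nval' (M : ℕ) (p q A : ℝ) (hA : 1 ≤ A) (U U' V : List (T.Ω → ItPh))
    (hc : ∀ u' ∈ U', ∃ c : T.Ω → ℕ → ℝ, (∀ ω ω', T.base M p ω = T.base M p ω' → c ω = c ω') ∧ (∀ ω, T.P.p ω ≠ 0 → ∀ k, |c ω k| ≤ A) ∧
      ∀ ω, T.P.p ω ≠ 0 → ∀ x, itDot (u' ω) x = ∑ k ∈ Finset.range U.length, c ω k * itDot ((U.getD k (fun _ => ⟨0, 0, 0, 0, 0, 0⟩)) ω) x) :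
    T.P.NVal (fun _ => True) (T.rd p q U') (pair (T.rd p q U) (pair (T.rd p q V) (T.base M p)))
      ((A * U.length + 2) ^ U'.length) :=
  ltk_nval_mono T.P (it_k_aux_lin_nval T M p q A hA U U' hc) (fun _ h => h) (fun ω ω' h => by
    simp only [FLaw.pair, Prod.mk.injEq] at h ⊢
    exact ⟨h.1, h.2.2⟩) ⟨id, fun _ => rfl⟩ le_rfl

/-- LINEAR CHANGE.  If every covector of `U'` is a combination of the covectors of `U` with coefficients that are functions of `(F_p, 𝒟)`, bounded by `A`,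
then `U_q` lists `U'_q` : at most `(A |U| + 2)` values per entry. -/
theorem it_k_lin (h0 : 0 < T.δ) (h1 : T.δ < 1) (M : ℕ) (p q A : ℝ) (hA : 1 ≤ A) (U U' V : List (T.Ω → ItPh))
    (hc : ∀ u' ∈ U', ∃ c : T.Ω → ℕ → ℝ, (∀ ω ω', T.base M p ω = T.base M p ω' → c ω = c ω') ∧ (∀ ω, T.P.p ω ≠ 0 → ∀ k, |c ω k| ≤ A) ∧
      ∀ ω, T.P.p ω ≠ 0 → ∀ x, itDot (u' ω) x = ∑ k ∈ Finset.range U.length, c ω k * itDot ((U.getD k (fun _ => ⟨0, 0, 0, 0, 0, 0⟩)) ω) x) :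
    T.hh M p q U' V ≤ T.hh M p q U V + U'.length * Real.log (A * U.length + 2) := by
  have hn := it_k_aux_lin_nval' T M p q A hA U U' V hc
  have s1 := it_k_mono T M p q U' U V
  have s2 := it_k_chain T M p q U' U V
  have s3 : T.hh M p q U' (U ++ V) ≤ Real.log ((A * U.length + 2) ^ U'.length) := by
    unfold Tan.hh
    refine ent_entC_le_log_nval T.P _ _ (ltk_nval_mono T.P hn (fun _ h => h) (fun ω ω' h => ?_) ⟨id, fun _ => rfl⟩ le_rfl)
    simp only [FLaw.pair, Prod.mk.injEq, it_k_aux_rd_append] at h ⊢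
    exact ⟨h.1.1, h.1.2, h.2⟩
  rw [Real.log_pow] at s3
  linarith

/-- pointwise version of the linear change (tail `e^{-u}`) -/
theorem it_k_lin_sur (h0 : 0 < T.δ) (h1 : T.δ < 1) (M : ℕ) (p q A u : ℝ) (hA : 1 ≤ A) (U U' V : List (T.Ω → ItPh))
    (hc : ∀ u' ∈ U', ∃ c : T.Ω → ℕ → ℝ, (∀ ω ω', T.base M p ω = T.base M p ω' → c ω = c ω') ∧ (∀ ω, T.P.p ω ≠ 0 → ∀ k, |c ω k| ≤ A) ∧
      ∀ ω, T.P.p ω ≠ 0 → ∀ x, itDot (u' ω) x = ∑ k ∈ Finset.range U.length, c ω k * itDot ((U.getD k (fun _ => ⟨0, 0, 0, 0, 0, 0⟩)) ω) x) :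
    T.P.pr (fun ω => T.P.surC (T.rd p q U) (pair (T.rd p q V) (T.base M p)) ω + U'.length * Real.log (A * U.length + 2) + u
      < T.P.surC (T.rd p q U') (pair (T.rd p q V) (T.base M p)) ω) ≤ Real.exp (-u) := by
  have hn := it_k_aux_lin_nval' T M p q A hA U U' V hc
  have hpos : (0 : ℝ) < A * U.length + 2 := add_pos_of_nonneg_of_pos (mul_nonneg (by linarith) (Nat.cast_nonneg _)) (by norm_num)
  have ht := ent_surC_tail T.P _ _ (pow_pos hpos U'.length) hn u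
  refine le_trans (ent_pr_mono T.P fun ω hω hbad => ?_) ht
  have hs := ent_surC_swap T.P (T.rd p q U') (T.rd p q U) (pair (T.rd p q V) (T.base M p)) hω
  have hnn := ent_surC_nonneg T.P (T.rd p q U) (pair (T.rd p q U') (pair (T.rd p q V) (T.base M p))) hω
  rw [Real.log_pow]
  linarith

theorem it_k_aux_nrm_le (u : ItPh) :
    |u.X| ≤ u.nrm ∧ |u.B| ≤ u.nrm ∧ |u.P| ≤ u.nrm ∧ |u.Y| ≤ u.nrm ∧ |u.N| ≤ u.nrm ∧ |u.D| ≤ u.nrm := by
  unfold ItPh.nrm
  refine ⟨?_, ?_, ?_, ?_, ?_, ?_⟩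
  · exact le_max_of_le_left (le_max_of_le_left (le_max_left _ _))
  · exact le_max_of_le_left (le_max_of_le_left (le_max_right _ _))
  · exact le_max_of_le_left (le_max_of_le_right (le_max_left _ _))
  · exact le_max_of_le_left (le_max_of_le_right (le_max_right _ _))
  · exact le_max_of_le_right (le_max_left _ _)
  · exact le_max_of_le_right (le_max_right _ _)

theorem it_k_aux_term {a A x m : ℝ} (ha : |a| ≤ A) (hA : 0 ≤ A) (hx : |x| ≤ m) : |a * x| ≤ A * m := by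
  rw [abs_mul]
  exact mul_le_mul ha hx (abs_nonneg _) hA

theorem it_k_aux_rep_dist (δ p x : ℝ) : |x - trep δ p x| ≤ msh δ p := by
  have a1 := ig_trep_le δ p x
  have a2 := ig_lt_trep δ p x
  exact abs_le.2 ⟨by linarith, by linarith⟩

/-- a reading with a bounded covector lives in a window `6 A msh_p` -/
theorem it_k_aux_val_bd (δ p A : ℝ) (hA : 0 ≤ A) (u f : ItPh) (hu : u.nrm ≤ A) : |itVal u f (itR δ p f)| ≤ 6 * A * msh δ p := by
  obtain ⟨n1, n2, n3, n4, n5, n6⟩ := it_k_aux_nrm_le u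
  unfold itVal itR
  have t1 := it_k_aux_term (n1.trans hu) hA (it_k_aux_rep_dist δ p f.X)
  have t2 := it_k_aux_term (n2.trans hu) hA (it_k_aux_rep_dist δ p f.B)
  have t3 := it_k_aux_term (n3.trans hu) hA (it_k_aux_rep_dist δ p f.P)
  have t4 := it_k_aux_term (n4.trans hu) hA (it_k_aux_rep_dist δ p f.Y)
  have t5 := it_k_aux_term (n5.trans hu) hA (it_k_aux_rep_dist δ p f.N)
  have t6 := it_k_aux_term (n6.trans hu) hA (it_k_aux_rep_dist δ p f.D)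
  rw [abs_le] at t1 t2 t3 t4 t5 t6
  exact abs_le.2 ⟨by linarith [t1.1, t2.1, t3.1, t4.1, t5.1, t6.1], by linarith [t1.2, t2.2, t3.2, t4.2, t5.2, t6.2]⟩

theorem it_k_aux_log_cap {δ : ℝ} (h0 : 0 < δ) (g C : ℝ) (hC : 0 < C) :
    Real.log (C * δ ^ (-g)) = g * lg δ + Real.log C := by
  unfold lg
  rw [Real.log_mul hC.ne' (Real.rpow_pos_of_pos h0 _).ne', Real.log_rpow h0, one_div, Real.log_inv]
  ring

/-- CAPACITY of one scalar reading with a covector bounded by `A` -/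
theorem it_k_cap (h0 : 0 < T.δ) (h1 : T.δ < 1) (M : ℕ) (p q A : ℝ) (hpq : p ≤ q) (hA : 1 ≤ A) (u : T.Ω → ItPh)
    (hu : ∀ ω, T.P.p ω ≠ 0 → (u ω).nrm ≤ A) (V : List (T.Ω → ItPh)) :
    T.hh M p q [u] V ≤ (q - p) * T.L + Real.log (24 * A + 4) := by
  have hA0 : (0 : ℝ) ≤ A := by linarith
  have hm := ig_msh_pos T.δ p
  have h := ltk_nval_close T.P (fun _ => True) (pair (T.rd p q V) (T.base M p))
    (fun ω => itVal (u ω) (T.F ω) (T.f0 p ω)) (tlev T.δ q) (R := 12 * A * msh T.δ p)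
    (mul_nonneg (mul_nonneg (by norm_num) hA0) hm.le)
    (fun ω ω' hω hω' _ _ _ => by
      have b1 := it_k_aux_val_bd T.δ p A hA0 (u ω) (T.F ω) (hu ω hω)
      have b2 := it_k_aux_val_bd T.δ p A hA0 (u ω') (T.F ω') (hu ω' hω')
      rw [abs_le] at b1 b2
      exact abs_le.2 ⟨by unfold Tan.f0; linarith [b1.1, b2.2], by unfold Tan.f0; linarith [b1.2, b2.1]⟩)
  have hr := ig_ratio_le T.δ p (q - p) h0 h1 (sub_nonneg.2 hpq)
  rw [add_sub_cancel] at hr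
  have hone : (1 : ℝ) ≤ T.δ ^ (-(q - p)) :=
    Real.one_le_rpow_of_pos_of_le_one_of_nonpos h0 h1.le (by linarith)
  have e : 12 * A * msh T.δ p * 2 ^ (tlev T.δ q) + 2 ≤ (24 * A + 4) * T.δ ^ (-(q - p)) := by
    rw [ig_msh_ratio T.δ p q h0 h1 hpq]
    have e1 : msh T.δ q * 2 ^ (tlev T.δ q) = 1 := by
      unfold msh
      field_simp
    have e2 : 12 * A * (2 ^ (tlev T.δ q - tlev T.δ p) * msh T.δ q) * 2 ^ (tlev T.δ q)
        = 12 * A * 2 ^ (tlev T.δ q - tlev T.δ p) * (msh T.δ q * 2 ^ (tlev T.δ q)) := by ring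
    rw [e2, e1, mul_one]
    have e3 : 12 * A * 2 ^ (tlev T.δ q - tlev T.δ p) ≤ 12 * A * (2 * T.δ ^ (-(q - p))) :=
      mul_le_mul_of_nonneg_left hr (by linarith)
    linarith
  have h2 : T.P.NVal (fun _ => True) (T.rd p q [u]) (pair (T.rd p q V) (T.base M p)) ((24 * A + 4) * T.δ ^ (-(q - p))) :=
    ltk_nval_mono T.P h (fun _ h => h) (fun _ _ h => h) ⟨fun x => [x], fun ω => by simp [Tan.rd, tcell]⟩ e
  have h3 := ent_entC_le_log_nval T.P _ _ h2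
  rw [it_k_aux_log_cap h0 _ _ (by linarith)] at h3
  exact h3

/-- the six coordinate readings -/
def itRF (Ω : Type) : List (Ω → ItPh) :=
  [fun _ => itcX, fun _ => itcB, fun _ => itcP, fun _ => itcY, fun _ => itcN, fun _ => itcD]

theorem it_kit_eqns_cite : True := by
  have := @itRF.eq_1
  trivial

theorem it_k_aux_shift {δ : ℝ} (h0 : 0 < δ) (h1 : δ < 1) {p q : ℝ} (hpq : p ≤ q) (x : ℝ) (c : ℤ) :
    tcell δ q (x - (c : ℝ) / 2 ^ (tlev δ p)) = tcell δ q x - c * 2 ^ (tlev δ q - tlev δ p) := by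
  have hl := ig_lev_mono δ p q h0 h1 hpq
  unfold tcell
  have e : (x - (c : ℝ) / 2 ^ (tlev δ p)) * 2 ^ (tlev δ q)
      = x * 2 ^ (tlev δ q) - ((c * 2 ^ (tlev δ q - tlev δ p) : ℤ) : ℝ) := by
    have e1 : (2 : ℝ) ^ (tlev δ q) = 2 ^ (tlev δ q - tlev δ p) * 2 ^ (tlev δ p) := by
      rw [← pow_add, Nat.sub_add_cancel hl]
    push_cast
    rw [e1]
    field_simp
  rw [e, Int.floor_sub_intCast]

theorem it_k_aux_shift_iff {δ : ℝ} (h0 : 0 < δ) (h1 : δ < 1) {p q : ℝ} (hpq : p ≤ q) {x y : ℝ}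
    (h : tcell δ p x = tcell δ p y) :
    tcell δ q (x - trep δ p x) = tcell δ q (y - trep δ p y) ↔ tcell δ q x = tcell δ q y := by
  unfold trep
  rw [it_k_aux_shift h0 h1 hpq, it_k_aux_shift h0 h1 hpq, h]
  exact sub_left_inj

theorem it_k_aux_valX (f g : ItPh) : itVal itcX f g = f.X - g.X := by simp [itVal, itcX]
theorem it_k_aux_valB (f g : ItPh) : itVal itcB f g = f.B - g.B := by simp [itVal, itcB]
theorem it_k_aux_valP (f g : ItPh) : itVal itcP f g = f.P - g.P := by simp [itVal, itcP]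
theorem it_k_aux_valY (f g : ItPh) : itVal itcY f g = f.Y - g.Y := by simp [itVal, itcY]
theorem it_k_aux_valN (f g : ItPh) : itVal itcN f g = f.N - g.N := by simp [itVal, itcN]
theorem it_k_aux_valD (f g : ItPh) : itVal itcD f g = f.D - g.D := by simp [itVal, itcD]

/-- the phase name is the tuple of the six coordinate readings (exactly: `trep δ p x · 2^(tlev q)` is an integer) -/
theorem it_k_F (h0 : 0 < T.δ) (h1 : T.δ < 1) (M : ℕ) (p q : ℝ) (hpq : p ≤ q) : T.hF M p q = T.hh M p q (itRF T.Ω) [] := by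
  unfold Tan.hF Tan.hh
  refine ent_entC_congr T.P _ _ _ _ (fun ω ω' _ _ => ?_) (fun ω ω' _ _ hb => ?_)
  · simp [FLaw.pair, Tan.rd]
  · have hb' : T.Fn p ω = T.Fn p ω' := (Prod.ext_iff.1 hb).1
    simp only [Tan.Fn, itF, Prod.mk.injEq] at hb' ⊢
    obtain ⟨⟨a1, a2, a3⟩, b1, b2, b3⟩ := hb'
    simp only [Tan.rd, itRF, List.map_cons, List.map_nil, List.cons.injEq, and_true, it_k_aux_valX, it_k_aux_valB,
      it_k_aux_valP, it_k_aux_valY, it_k_aux_valN, it_k_aux_valD, Tan.f0, itR]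
    rw [it_k_aux_shift_iff h0 h1 hpq a1, it_k_aux_shift_iff h0 h1 hpq a2, it_k_aux_shift_iff h0 h1 hpq a3,
      it_k_aux_shift_iff h0 h1 hpq b1, it_k_aux_shift_iff h0 h1 hpq b2, it_k_aux_shift_iff h0 h1 hpq b3]
    tauto

theorem it_k_aux_cell_mem (δ q B0 x : ℝ) (hx : |x| ≤ B0) :
    tcell δ q x ∈ Finset.Icc ⌊-(B0 * 2 ^ tlev δ q)⌋ ⌊B0 * 2 ^ tlev δ q⌋ := by
  have hp : (0 : ℝ) < 2 ^ tlev δ q := by positivity
  rw [abs_le] at hx
  unfold tcell
  refine Finset.mem_Icc.2 ⟨Int.floor_mono ?_, Int.floor_mono ?_⟩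
  · rw [← neg_mul]
    exact mul_le_mul_of_nonneg_right hx.1 hp.le
  · exact mul_le_mul_of_nonneg_right hx.2 hp.le

theorem it_k_aux_Icc_card (b : ℝ) (hb : 0 ≤ b) :
    ((Finset.Icc ⌊-b⌋ ⌊b⌋).card : ℝ) ≤ 2 * b + 2 ∧ (0 : ℝ) < ((Finset.Icc ⌊-b⌋ ⌊b⌋).card : ℝ) := by
  have hle : ⌊-b⌋ ≤ ⌊b⌋ := Int.floor_mono (by linarith)
  have h1 : ((Finset.Icc ⌊-b⌋ ⌊b⌋).card : ℤ) = ⌊b⌋ + 1 - ⌊-b⌋ := by
    rw [Int.card_Icc, Int.toNat_of_nonneg (by omega)]
  have h2 : ((Finset.Icc ⌊-b⌋ ⌊b⌋).card : ℝ) = (⌊b⌋ : ℝ) + 1 - (⌊-b⌋ : ℝ) := by exact_mod_cast h1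
  have h3 := Int.floor_le b
  have h4 := Int.lt_floor_add_one (-b)
  have h5 : (⌊-b⌋ : ℝ) ≤ (⌊b⌋ : ℝ) := by exact_mod_cast hle
  rw [h2]
  exact ⟨by linarith, by linarith⟩

/-- capacity of the phase name from the root -/
theorem it_k_hA_cap (h0 : 0 < T.δ) (h1 : T.δ < 1) (M : ℕ) (q B0 : ℝ) (hq : 0 ≤ q) (hB : 1 ≤ B0)
    (hF : ∀ ω, T.P.p ω ≠ 0 → (T.F ω).nrm ≤ B0) : T.hA M q ≤ 6 * (q * T.L + Real.log (4 * B0 + 4)) := by
  unfold Tan.hA
  obtain ⟨I, hI⟩ : ∃ I : Finset ℤ, I = Finset.Icc ⌊-(B0 * 2 ^ tlev T.δ q)⌋ ⌊B0 * 2 ^ tlev T.δ q⌋ := ⟨_, rfl⟩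
  have hb : (0 : ℝ) ≤ B0 * 2 ^ tlev T.δ q := mul_nonneg (by linarith) (by positivity)
  obtain ⟨c1, c2⟩ := it_k_aux_Icc_card _ hb
  rw [← hI] at c1 c2
  have s1 := ent_entC_le T.P (T.Fn q) (T.Dd M)
  have s2 := ent_le_log_card T.P (T.Fn q) ((I ×ˢ I ×ˢ I) ×ˢ (I ×ˢ I ×ˢ I)) (fun ω hω => by
    obtain ⟨n1, n2, n3, n4, n5, n6⟩ := it_k_aux_nrm_le (T.F ω)
    have hb := hF ω hω
    simp only [Tan.Fn, itF, Finset.mem_product, hI]
    exact ⟨⟨it_k_aux_cell_mem _ _ _ _ (n1.trans hb), it_k_aux_cell_mem _ _ _ _ (n2.trans hb),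
      it_k_aux_cell_mem _ _ _ _ (n3.trans hb)⟩, it_k_aux_cell_mem _ _ _ _ (n4.trans hb),
      it_k_aux_cell_mem _ _ _ _ (n5.trans hb), it_k_aux_cell_mem _ _ _ _ (n6.trans hb)⟩)
  have e : ((((I ×ˢ I ×ˢ I) ×ˢ (I ×ˢ I ×ˢ I)).card : ℕ) : ℝ) = (I.card : ℝ) ^ 6 := by
    simp only [Finset.card_product]
    push_cast
    ring
  rw [e, Real.log_pow] at s2
  have hone : (1 : ℝ) ≤ T.δ ^ (-q) := Real.one_le_rpow_of_pos_of_le_one_of_nonpos h0 h1.le (by linarith)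
  have hp := ig_pow_lev_le T.δ q h0 h1 hq
  have c3 : (I.card : ℝ) ≤ (4 * B0 + 4) * T.δ ^ (-q) := by
    have : B0 * 2 ^ tlev T.δ q ≤ B0 * (2 * T.δ ^ (-q)) := mul_le_mul_of_nonneg_left hp (by linarith)
    linarith
  have s3 := Real.log_le_log c2 c3
  rw [it_k_aux_log_cap h0 _ _ (by linarith)] at s3
  have s4 : ((6 : ℕ) : ℝ) * Real.log (I.card : ℝ) ≤ 6 * (q * T.L + Real.log (4 * B0 + 4)) := by
    push_cast
    unfold Tan.L
    linarith
  linarith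

/-! ## E. exchangeability -/

theorem it_k_aux_pr_transfer {Ω : Type} [Fintype Ω] (P : FLaw Ω) {α : Type} (W W' : Ω → α)
    (hW : ∀ w, P.pr (fun ω => W ω = w) = P.pr (fun ω => W' ω = w)) (E : α → Prop) :
    P.pr (fun ω => E (W ω)) = P.pr (fun ω => E (W' ω)) := by
  obtain ⟨S, hS⟩ : ∃ S : Finset α, S = Finset.univ.image W ∪ Finset.univ.image W' := ⟨_, rfl⟩
  rw [ent_pr_sum_values P (fun ω => E (W ω)) W S (fun ω _ _ => by
      rw [hS]; exact Finset.mem_union_left _ (Finset.mem_image_of_mem _ (Finset.mem_univ _))),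
    ent_pr_sum_values P (fun ω => E (W' ω)) W' S (fun ω _ _ => by
      rw [hS]; exact Finset.mem_union_right _ (Finset.mem_image_of_mem _ (Finset.mem_univ _)))]
  refine Finset.sum_congr rfl fun w _ => ?_
  by_cases hE : E w
  · have a1 : P.pr (fun ω => E (W ω) ∧ W ω = w) = P.pr (fun ω => W ω = w) :=
      ent_pr_congr P fun ω _ => ⟨fun h => h.2, fun h => ⟨h ▸ hE, h⟩⟩
    have a2 : P.pr (fun ω => E (W' ω) ∧ W' ω = w) = P.pr (fun ω => W' ω = w) :=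
      ent_pr_congr P fun ω _ => ⟨fun h => h.2, fun h => ⟨h ▸ hE, h⟩⟩
    rw [a1, a2, hW]
  · have a1 : P.pr (fun ω => E (W ω) ∧ W ω = w) = 0 := ent_pr_eq_zero P fun ω _ h => hE (h.2 ▸ h.1)
    have a2 : P.pr (fun ω => E (W' ω) ∧ W' ω = w) = 0 := ent_pr_eq_zero P fun ω _ h => hE (h.2 ▸ h.1)
    rw [a1, a2]

theorem it_k_aux_ent_transfer {Ω : Type} [Fintype Ω] (P : FLaw Ω) {α β : Type} (W W' : Ω → α)
    (hW : ∀ w, P.pr (fun ω => W ω = w) = P.pr (fun ω => W' ω = w)) (g : α → β) :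
    P.ent (fun ω => g (W ω)) = P.ent (fun ω => g (W' ω)) := by
  obtain ⟨S, hS⟩ : ∃ S : Finset β, S = Finset.univ.image (fun ω => g (W ω)) ∪ Finset.univ.image (fun ω => g (W' ω)) :=
    ⟨_, rfl⟩
  rw [ent_eq_sum P (fun ω => g (W ω)) S (fun ω _ => by
      rw [hS]; exact Finset.mem_union_left _ (Finset.mem_image_of_mem _ (Finset.mem_univ _))),
    ent_eq_sum P (fun ω => g (W' ω)) S (fun ω _ => by
      rw [hS]; exact Finset.mem_union_right _ (Finset.mem_image_of_mem _ (Finset.mem_univ _)))]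
  refine Finset.sum_congr rfl fun y _ => ?_
  rw [it_k_aux_pr_transfer P W W' hW (fun w => g w = y)]

theorem it_k_aux_entC_transfer {Ω : Type} [Fintype Ω] (P : FLaw Ω) {α β γ : Type} (W W' : Ω → α)
    (hW : ∀ w, P.pr (fun ω => W ω = w) = P.pr (fun ω => W' ω = w)) (g : α → β) (g' : α → γ) :
    P.entC (fun ω => g (W ω)) (fun ω => g' (W ω)) = P.entC (fun ω => g (W' ω)) (fun ω => g' (W' ω)) := by
  unfold FLaw.entC
  have e1 := it_k_aux_ent_transfer P W W' hW (fun w => (g w, g' w))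
  have e2 := it_k_aux_ent_transfer P W W' hW g'
  have e3 : P.ent (pair (fun ω => g (W ω)) (fun ω => g' (W ω))) = P.ent (pair (fun ω => g (W' ω)) (fun ω => g' (W' ω))) := e1
  rw [e3, e2]

/-- the records are exchangeable given the side -/
theorem it_k_aux_swap_law (a : ItPar) (pk : ItPk) (h : T.Adm0 a pk) (σ : Equiv.Perm (Fin pk.M)) (z : T.ζ)
    (x : Fin pk.M → ItMk) :
    T.P.pr (fun ω => T.Zs ω = z ∧ ∀ k : Fin pk.M, T.mrk k ω = x k)
      = T.P.pr (fun ω => T.Zs ω = z ∧ ∀ k : Fin pk.M, T.mrk (σ k) ω = x k) := by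
  have e0 : T.P.pr (fun ω => T.Zs ω = z ∧ ∀ k : Fin pk.M, T.mrk (σ k) ω = x k)
      = T.P.pr (fun ω => T.Zs ω = z ∧ ∀ k : Fin pk.M, T.mrk k ω = x (σ.symm k)) := by
    refine ent_pr_congr T.P fun ω _ => and_congr_right fun _ => ?_
    constructor
    · intro hh k
      have := hh (σ.symm k)
      rwa [Equiv.apply_symm_apply] at this
    · intro hh k
      have := hh (σ k)
      rwa [Equiv.symm_apply_apply] at this
  rw [e0]
  have i1 := h.indep z x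
  have i2 := h.indep z (fun k => x (σ.symm k))
  have e1 : ∏ k : Fin pk.M, T.P.pr (fun ω => T.Zs ω = z ∧ T.mrk k ω = x (σ.symm k))
      = ∏ k : Fin pk.M, T.P.pr (fun ω => T.Zs ω = z ∧ T.mrk k ω = x k) := by
    rw [← Equiv.prod_comp σ.symm (fun k : Fin pk.M => T.P.pr (fun ω => T.Zs ω = z ∧ T.mrk k ω = x k))]
    refine Finset.prod_congr rfl fun k _ => ?_
    exact h.ident z (x (σ.symm k)) k k.2 (σ.symm k) (σ.symm k).2
  rw [e1, ← i1] at i2
  by_cases hz : T.P.pr (fun ω => T.Zs ω = z) = 0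
  · have b1 : T.P.pr (fun ω => T.Zs ω = z ∧ ∀ k : Fin pk.M, T.mrk k ω = x k) ≤ T.P.pr (fun ω => T.Zs ω = z) :=
      ent_pr_mono T.P fun ω _ hh => hh.1
    have b2 : T.P.pr (fun ω => T.Zs ω = z ∧ ∀ k : Fin pk.M, T.mrk k ω = x (σ.symm k)) ≤ T.P.pr (fun ω => T.Zs ω = z) :=
      ent_pr_mono T.P fun ω _ hh => hh.1
    have c1 := ent_pr_nonneg T.P (fun ω => T.Zs ω = z ∧ ∀ k : Fin pk.M, T.mrk k ω = x k)
    have c2 := ent_pr_nonneg T.P (fun ω => T.Zs ω = z ∧ ∀ k : Fin pk.M, T.mrk k ω = x (σ.symm k))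
    linarith
  · exact (mul_right_cancel₀ (pow_ne_zero _ hz) i2).symm

theorem it_k_aux_factor {α β γ : Type} (f : α → β) (g : α → γ) (h : ∀ a a', f a = f a' → g a = g a') :
    ∃ G : β → Option γ, ∀ a, G (f a) = some (g a) := by
  refine ⟨Function.extend f (fun a => some (g a)) (fun _ => none), fun a => ?_⟩
  exact Function.FactorsThrough.extend_apply (fun a a' hh => congrArg some (h a a' hh)) _ a

theorem it_k_aux_swap_val {M : ℕ} {i j : ℕ} (hi : i < M) (hj : j < M) (k : Fin M) :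
    ((Equiv.swap (⟨i, hi⟩ : Fin M) ⟨j, hj⟩ k : Fin M) : ℕ) = Equiv.swap i j (k : ℕ) := by
  simp only [Equiv.swap_apply_def, Fin.ext_iff]
  split_ifs <;> rfl

/-- swapping two records does not change a layer entropy (`σ` = transposition of `i, j < M` acting on the marks of the symbols) -/
theorem it_k_swap (a : ItPar) (pk : ItPk) (h : T.Adm0 a pk) (p q : ℝ) (i j : ℕ) (hi : i < pk.M) (hj : j < pk.M) (U V : List ItSym)
    (hdep : ∀ u ∈ U ++ V, ∀ f Ξ Ξ', (∀ k < pk.M, Ξ k = Ξ' k) → (u : ItSym) f Ξ = u f Ξ') :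
    T.hh pk.M p q (U.map (T.fld p)) (V.map (T.fld p))
      = T.hh pk.M p q (U.map fun u => T.fld p (fun f Ξ => u f (fun k => Ξ (Equiv.swap i j k))))
          (V.map fun u => T.fld p (fun f Ξ => u f (fun k => Ξ (Equiv.swap i j k)))) := by
  obtain ⟨Fz', hFz'⟩ := it_k_aux_factor T.Zs T.F h.side_F
  obtain ⟨Cz, hCz⟩ := it_k_aux_factor T.Zs T.Cs h.side_C
  obtain ⟨Fz, hFz⟩ : ∃ Fz : T.ζ → ItPh, ∀ ω, T.F ω = Fz (T.Zs ω) :=
    ⟨fun z => (Fz' z).getD ⟨0, 0, 0, 0, 0, 0⟩, fun ω => by simp [hFz']⟩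
  obtain ⟨σ, hσ⟩ : ∃ σ : Equiv.Perm (Fin pk.M), ∀ k : Fin pk.M, ((σ k : Fin pk.M) : ℕ) = Equiv.swap i j (k : ℕ) :=
    ⟨Equiv.swap ⟨i, hi⟩ ⟨j, hj⟩, it_k_aux_swap_val hi hj⟩
  obtain ⟨ext, hext⟩ : ∃ ext : (Fin pk.M → ItMk) → ℕ → ItMk, ∀ x (k : ℕ) (hk : k < pk.M), ext x k = x ⟨k, hk⟩ :=
    ⟨fun x k => if hk : k < pk.M then x ⟨k, hk⟩ else ⟨0, 0, 0⟩, fun x k hk => by simp [hk]⟩
  obtain ⟨W, hWd⟩ : ∃ W : T.Ω → T.ζ × (Fin pk.M → ItMk), W = fun ω => (T.Zs ω, fun k : Fin pk.M => T.mrk k ω) := ⟨_, rfl⟩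
  obtain ⟨W', hWd'⟩ : ∃ W' : T.Ω → T.ζ × (Fin pk.M → ItMk), W' = fun ω => (T.Zs ω, fun k => T.mrk (σ k) ω) := ⟨_, rfl⟩
  have hW : ∀ w, T.P.pr (fun ω => W ω = w) = T.P.pr (fun ω => W' ω = w) := by
    rintro ⟨z, x⟩
    have := it_k_aux_swap_law T a pk h σ z x
    rw [hWd, hWd']
    simp only [Prod.mk.injEq, funext_iff]
    exact this
  obtain ⟨gl, hgl⟩ : ∃ gl : List ItSym → T.ζ × (Fin pk.M → ItMk) → List ℤ, gl = fun L w => L.map fun u =>
      tcell T.δ q (itVal (u (itR T.δ p (Fz w.1)) (ext w.2)) (Fz w.1) (itR T.δ p (Fz w.1))) := ⟨_, rfl⟩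
  obtain ⟨GB, hGB⟩ : ∃ GB : T.ζ × (Fin pk.M → ItMk) → ((ℤ × ℤ × ℤ) × (ℤ × ℤ × ℤ)) × (Option T.γ × (Fin pk.M → ItMk)),
      GB = fun w => (itF T.δ p (Fz w.1), (Cz w.1, w.2)) := ⟨_, rfl⟩
  have hA : ∀ L : List ItSym, (∀ u ∈ L, u ∈ U ++ V) → ∀ ω, T.rd p q (L.map (T.fld p)) ω = gl L (W ω) := by
    intro L hL ω
    rw [hgl, hWd]
    simp only [Tan.rd, List.map_map]
    refine List.map_congr_left fun u hu => ?_
    simp only [Function.comp, Tan.fld, Tan.f0, ← hFz]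
    rw [hdep u (hL u hu) _ (fun i => T.mrk i ω) (ext fun k : Fin pk.M => T.mrk k ω) (fun k hk => by rw [hext _ k hk])]
  have hB : ∀ L : List ItSym, (∀ u ∈ L, u ∈ U ++ V) → ∀ ω,
      T.rd p q (L.map fun u => T.fld p (fun f Ξ => u f (fun k => Ξ (Equiv.swap i j k)))) ω = gl L (W' ω) := by
    intro L hL ω
    rw [hgl, hWd']
    simp only [Tan.rd, List.map_map]
    refine List.map_congr_left fun u hu => ?_
    simp only [Function.comp, Tan.fld, Tan.f0, ← hFz]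
    rw [hdep u (hL u hu) _ (fun k => T.mrk (Equiv.swap i j k) ω) (ext fun k => T.mrk (σ k) ω) (fun k hk => by
      rw [hext _ k hk, hσ])]
  have hU : ∀ u ∈ U, u ∈ U ++ V := fun u hu => List.mem_append_left _ hu
  have hV : ∀ u ∈ V, u ∈ U ++ V := fun u hu => List.mem_append_right _ hu
  have hbase : ∀ ω ω', T.base pk.M p ω = T.base pk.M p ω' ↔ GB (W ω) = GB (W ω') := by
    intro ω ω'
    rw [hGB, hWd]
    simp only [Tan.base, Tan.Fn, Tan.Dd, Prod.mk.injEq, ← hFz, hCz, Option.some.injEq]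
    exact Iff.rfl
  have hbase' : ∀ ω ω', T.base pk.M p ω = T.base pk.M p ω' ↔ GB (W' ω) = GB (W' ω') := by
    intro ω ω'
    rw [hGB, hWd']
    simp only [Tan.base, Tan.Fn, Tan.Dd, Prod.mk.injEq, ← hFz, hCz, Option.some.injEq]
    refine and_congr_right fun _ => and_congr_right fun _ => ?_
    unfold Tan.Xi
    simp only [funext_iff]
    constructor
    · intro hh k
      exact hh (σ k)
    · intro hh k
      have := hh (σ.symm k)
      rwa [Equiv.apply_symm_apply] at this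
  unfold Tan.hh
  have L1 : T.P.entC (T.rd p q (U.map (T.fld p))) (pair (T.rd p q (V.map (T.fld p))) (T.base pk.M p))
      = T.P.entC (fun ω => gl U (W ω)) (fun ω => (gl V (W ω), GB (W ω))) :=
    ent_entC_congr T.P _ _ _ _ (fun ω ω' _ _ => by
      simp only [FLaw.pair, Prod.mk.injEq, hA V hV, hbase]) (fun ω ω' _ _ _ => by rw [hA U hU, hA U hU])
  have L2 : T.P.entC (T.rd p q (U.map fun u => T.fld p (fun f Ξ => u f (fun k => Ξ (Equiv.swap i j k)))))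
        (pair (T.rd p q (V.map fun u => T.fld p (fun f Ξ => u f (fun k => Ξ (Equiv.swap i j k))))) (T.base pk.M p))
      = T.P.entC (fun ω => gl U (W' ω)) (fun ω => (gl V (W' ω), GB (W' ω))) :=
    ent_entC_congr T.P _ _ _ _ (fun ω ω' _ _ => by
      simp only [FLaw.pair, Prod.mk.injEq, hB V hV, hbase']) (fun ω ω' _ _ _ => by rw [hB U hU, hB U hU])
  rw [L1, L2]
  exact it_k_aux_entC_transfer T.P W W' hW (gl U) (fun w => (gl V w, GB w))

end Claimed.Agent.R256
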