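import Claimed.Agent.R256.Int.Kit

/-!
# Row 256, Sec. 5: LAYER KIT, part 2      (chief helper196; prefixes `it_k_`, `it_w_`)

 `it_k_lin_ev`  linear change of tuples valid on an EVENT of the base (separations hold only with high probability): the complement pays the capacity.
 `it_w_chain`, `it_w_top`  the Heisenberg names `F_{p,z}` along a wedge: exact bookkeeping (no boundedness in the chain).
 Wedge versions of `Int/Kit.lean` A-D (`hhW`, `LSW` instead of `hh`, `LS`): same proofs with `T.baseW M p z` instead of `T.base M p`; add them here as `it_kw_*` when needed.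
Paper free.
-/

set_option autoImplicit false

namespace Claimed.Agent.R256

open Claimed.Agent.R255
open Claimed.Agent.R255.FLaw (pair)
open scoped BigOperators
open Classical

variable (T : Tan)

/-- entropy from a list bound on an event of the conditioning and a capacity off the event -/
theorem it_k_aux_ent_ev {Ω : Type} [Fintype Ω] (P : FLaw Ω) {α β : Type} (B : Ω → β) (A : Ω → α) (E : Ω → Prop)
    (hE : ∀ ω ω', A ω = A ω' → (E ω ↔ E ω')) {N1 N2 : ℝ} (h1 : 1 ≤ N1)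
    (hg : P.NVal E B A N1) (hb : P.NVal (fun _ => True) B A N2) :
    P.entC B A ≤ Real.log N1 + P.pr (fun ω => ¬ E ω) * Real.log N2 := by
  obtain ⟨Ex, hEx⟩ : ∃ Ex : Ω → Prop, Ex = fun ω => ¬ E ω := ⟨_, rfl⟩
  rw [← hEx]
  have s4 : P.entC B A = P.entC B (pair A Ex) := by
    refine ent_entC_congr P B B _ _ (fun ω ω' _ _ => ?_) fun _ _ _ _ _ => Iff.rfl
    simp only [FLaw.pair, Prod.mk.injEq]
    refine ⟨fun h => ⟨h, ?_⟩, fun h => h.1⟩
    rw [hEx]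
    simp only [hE ω ω' h]
  have s5 := ent_entC_pair_eq_avg P B A Ex
  have s6 : P.ev (fun ω => (P.cfib Ex ω).entC B A) ≤ Real.log N1 * (1 - P.pr Ex) + Real.log N2 * P.pr Ex := by
    refine ent_ev_le_of_bad P Ex (fun ω hω hex => ?_) (fun ω hω hex => ?_)
    · have hpos : 0 < P.pr (fun ω'' => Ex ω'' = Ex ω) := ent_fib_pos P Ex hω
      exact ent_entC_le_log_nval (P.cfib Ex ω) B A (fun ω₀ => by
        obtain ⟨S', hS'c, hS'⟩ := hg ω₀
        refine ⟨S', hS'c, fun ω' hω' _ hA => ?_⟩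
        have hsup := (ent_cnd_supp P (fun ω'' => Ex ω'' = Ex ω) hpos).1 hω'
        refine hS' ω' hsup.2 ?_ hA
        have h2 : ¬ Ex ω' := by rw [hsup.1]; exact hex
        rw [hEx] at h2
        exact not_not.1 h2)
    · have hpos : 0 < P.pr (fun ω'' => Ex ω'' = Ex ω) := ent_fib_pos P Ex hω
      exact ent_entC_le_log_nval (P.cfib Ex ω) B A (fun ω₀ => by
        obtain ⟨S', hS'c, hS'⟩ := hb ω₀
        refine ⟨S', hS'c, fun ω' hω' _ hA => ?_⟩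
        have hsup := (ent_cnd_supp P (fun ω'' => Ex ω'' = Ex ω) hpos).1 hω'
        exact hS' ω' hsup.2 trivial hA)
  have hpr0 := ent_pr_nonneg P Ex
  have hl := Real.log_nonneg h1
  have s7 : Real.log N1 * (1 - P.pr Ex) ≤ Real.log N1 := by nlinarith
  linarith

theorem it_k_aux_ev_close (M : ℕ) (p q A : ℝ) (hA : 1 ≤ A) (U : List (T.Ω → ItPh)) (u' : T.Ω → ItPh) (E : T.Ω → Prop)
    (hc : ∃ c : T.Ω → ℕ → ℝ, (∀ ω ω', T.base M p ω = T.base M p ω' → c ω = c ω') ∧ (∀ ω k, T.P.p ω ≠ 0 → E ω → |c ω k| ≤ A) ∧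
      ∀ ω x, T.P.p ω ≠ 0 → E ω →
        itDot (u' ω) x = ∑ k ∈ Finset.range U.length, c ω k * itDot ((U.getD k (fun _ => ⟨0, 0, 0, 0, 0, 0⟩)) ω) x)
    (ω ω' : T.Ω) (hω : T.P.p ω ≠ 0) (hω' : T.P.p ω' ≠ 0) (hEω : E ω) (hEω' : E ω') (hb : T.base M p ω = T.base M p ω')
    (hU : T.rd p q U ω = T.rd p q U ω') :
    |itVal (u' ω) (T.F ω) (T.f0 p ω) - itVal (u' ω') (T.F ω') (T.f0 p ω')| ≤ A * U.length * msh T.δ q := by
  obtain ⟨c, c1, c2, c3⟩ := hc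
  rw [it_k_aux_val_dot, it_k_aux_val_dot, c3 ω _ hω hEω, c3 ω' _ hω' hEω', ← c1 ω ω' hb, ← Finset.sum_sub_distrib]
  refine (Finset.abs_sum_le_sum_abs _ _).trans ?_
  have hm := (ig_msh_pos T.δ q).le
  have hstep : ∀ k ∈ Finset.range U.length,
      |c ω k * itDot ((U.getD k (fun _ => ⟨0, 0, 0, 0, 0, 0⟩)) ω) ((T.F ω).sub (T.f0 p ω))
        - c ω k * itDot ((U.getD k (fun _ => ⟨0, 0, 0, 0, 0, 0⟩)) ω') ((T.F ω').sub (T.f0 p ω'))| ≤ A * msh T.δ q := by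
    intro k hk
    have hk' : k < U.length := Finset.mem_range.1 hk
    rw [← mul_sub, abs_mul]
    refine mul_le_mul (c2 ω k hω hEω) ?_ (abs_nonneg _) (by linarith)
    rw [← it_k_aux_val_dot, ← it_k_aux_val_dot]
    refine it_k_aux_cell_dist ?_
    refine (it_k_aux_rd_iff T p q U ω ω').1 hU _ ?_
    rw [List.getD_eq_getElem _ _ hk']
    exact List.getElem_mem hk'
  refine (Finset.sum_le_sum hstep).trans ?_
  rw [Finset.sum_const, Finset.card_range, nsmul_eq_mul]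
  exact le_of_eq (by ring)

theorem it_k_aux_ev_one (M : ℕ) (p q A : ℝ) (hA : 1 ≤ A) (U : List (T.Ω → ItPh)) (u' : T.Ω → ItPh) (E : T.Ω → Prop)
    (hc : ∃ c : T.Ω → ℕ → ℝ, (∀ ω ω', T.base M p ω = T.base M p ω' → c ω = c ω') ∧ (∀ ω k, T.P.p ω ≠ 0 → E ω → |c ω k| ≤ A) ∧
      ∀ ω x, T.P.p ω ≠ 0 → E ω →
        itDot (u' ω) x = ∑ k ∈ Finset.range U.length, c ω k * itDot ((U.getD k (fun _ => ⟨0, 0, 0, 0, 0, 0⟩)) ω) x) :
    T.P.NVal E (fun ω => tcell T.δ q (itVal (u' ω) (T.F ω) (T.f0 p ω))) (pair (T.rd p q U) (T.base M p))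
      (A * U.length + 2) := by
  have hm := ig_msh_pos T.δ q
  have h := ltk_nval_close T.P E (pair (T.rd p q U) (T.base M p))
    (fun ω => itVal (u' ω) (T.F ω) (T.f0 p ω)) (tlev T.δ q) (R := A * U.length * msh T.δ q)
    (mul_nonneg (mul_nonneg (by linarith) (Nat.cast_nonneg _)) hm.le)
    (fun ω ω' hω hω' e e' hA' => by
      simp only [FLaw.pair, Prod.mk.injEq] at hA'
      exact it_k_aux_ev_close T M p q A hA U u' E hc ω ω' hω hω' e e' hA'.2 hA'.1)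
  have e : A * U.length * msh T.δ q * 2 ^ (tlev T.δ q) + 2 = A * U.length + 2 := by
    unfold msh
    field_simp
  rw [e] at h
  exact h

theorem it_k_aux_ev_nval (M : ℕ) (p q A : ℝ) (hA : 1 ≤ A) (U U' : List (T.Ω → ItPh)) (E : T.Ω → Prop)
    (hc : ∀ u' ∈ U', ∃ c : T.Ω → ℕ → ℝ, (∀ ω ω', T.base M p ω = T.base M p ω' → c ω = c ω') ∧ (∀ ω k, T.P.p ω ≠ 0 → E ω → |c ω k| ≤ A) ∧
      ∀ ω x, T.P.p ω ≠ 0 → E ω →
        itDot (u' ω) x = ∑ k ∈ Finset.range U.length, c ω k * itDot ((U.getD k (fun _ => ⟨0, 0, 0, 0, 0, 0⟩)) ω) x) :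
    T.P.NVal E (T.rd p q U') (pair (T.rd p q U) (T.base M p)) ((A * U.length + 2) ^ U'.length) := by
  have hpos : (0 : ℝ) ≤ A * U.length + 2 := add_nonneg (mul_nonneg (by linarith) (Nat.cast_nonneg _)) (by norm_num)
  induction U' with
  | nil =>
    intro ω₀
    exact ⟨{[]}, by simp, fun ω _ _ _ => by simp [Tan.rd]⟩
  | cons u' U'' ih =>
    have h1 := ih fun v hv => hc v (List.mem_cons_of_mem _ hv)
    have h2 := it_k_aux_ev_one T M p q A hA U u' E (hc u' List.mem_cons_self)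
    have h3 : T.P.NVal E (fun ω => tcell T.δ q (itVal (u' ω) (T.F ω) (T.f0 p ω)))
        (pair (T.rd p q U'') (pair (T.rd p q U) (T.base M p))) (A * U.length + 2) :=
      ltk_nval_mono T.P h2 (fun _ h => h) (fun ω ω' h => (Prod.ext_iff.1 h).2) ⟨id, fun _ => rfl⟩ le_rfl
    have h4 := ltk_nval_comp T.P E _ _ _ hpos h1 h3
    refine ltk_nval_mono T.P h4 (fun _ h => h) (fun _ _ h => h) ⟨fun x => x.1 :: x.2, fun ω => ?_⟩ ?_
    · simp [Tan.rd, FLaw.pair]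
    · rw [List.length_cons, pow_succ]

/-- capacity of one reading, as a list bound, any conditioning -/
theorem it_k_aux_cap_one (h0 : 0 < T.δ) (h1 : T.δ < 1) (p q A : ℝ) (hpq : p ≤ q) (hA : 1 ≤ A) {α : Type} (Cn : T.Ω → α) (u : T.Ω → ItPh)
    (hu : ∀ ω, T.P.p ω ≠ 0 → (u ω).nrm ≤ A) :
    T.P.NVal (fun _ => True) (fun ω => tcell T.δ q (itVal (u ω) (T.F ω) (T.f0 p ω))) Cn ((24 * A + 4) * T.δ ^ (-(q - p))) := by
  have hA0 : (0 : ℝ) ≤ A := by linarith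
  have hm := ig_msh_pos T.δ p
  have h := ltk_nval_close T.P (fun _ => True) Cn
    (fun ω => itVal (u ω) (T.F ω) (T.f0 p ω)) (tlev T.δ q) (R := 12 * A * msh T.δ p)
    (mul_nonneg (mul_nonneg (by norm_num) hA0) hm.le)
    (fun ω ω' hω hω' _ _ _ => by
      have b1 := it_k_aux_val_bd T.δ p A hA0 (u ω) (T.F ω) (hu ω hω)
      have b2 := it_k_aux_val_bd T.δ p A hA0 (u ω') (T.F ω') (hu ω' hω')
      rw [abs_le] at b1 b2
      exact abs_le.2 ⟨by unfold Tan.f0; linarith [b1.1, b2.2], by unfold Tan.f0; linarith [b1.2, b2.1]⟩)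
  have hr := ig_ratio_le T.δ p (q - p) h0 h1 (sub_nonneg.2 hpq)
  rw [add_sub_cancel] at hr
  have hone : (1 : ℝ) ≤ T.δ ^ (-(q - p)) :=
    Real.one_le_rpow_of_pos_of_le_one_of_nonpos h0 h1.le (by linarith)
  have e : 12 * A * msh T.δ p * 2 ^ (tlev T.δ q) + 2 ≤ (24 * A + 4) * T.δ ^ (-(q - p)) := by
    rw [ig_msh_ratio T.δ p q h0 h1 hpq]
    have e1 : msh T.δ q * 2 ^ (tlev T.δ q) = 1 := by
      unfold msh
      field_simp
    have e2 : 12 * A * (2 ^ (tlev T.δ q - tlev T.δ p) * msh T.δ q) * 2 ^ (tlev T.δ q)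
        = 12 * A * 2 ^ (tlev T.δ q - tlev T.δ p) * (msh T.δ q * 2 ^ (tlev T.δ q)) := by ring
    rw [e2, e1, mul_one]
    have e3 : 12 * A * 2 ^ (tlev T.δ q - tlev T.δ p) ≤ 12 * A * (2 * T.δ ^ (-(q - p))) :=
      mul_le_mul_of_nonneg_left hr (by linarith)
    linarith
  exact ltk_nval_mono T.P h (fun _ h => h) (fun _ _ h => h) ⟨id, fun ω => rfl⟩ e

/-- capacity of a tuple -/
theorem it_k_aux_cap_nval (h0 : 0 < T.δ) (h1 : T.δ < 1) (p q A : ℝ) (hpq : p ≤ q) (hA : 1 ≤ A) {α : Type} (Cn : T.Ω → α) (U' : List (T.Ω → ItPh))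
    (hu : ∀ u ∈ U', ∀ ω, T.P.p ω ≠ 0 → (u ω : ItPh).nrm ≤ A) :
    T.P.NVal (fun _ => True) (T.rd p q U') Cn (((24 * A + 4) * T.δ ^ (-(q - p))) ^ U'.length) := by
  have hpos : (0 : ℝ) ≤ (24 * A + 4) * T.δ ^ (-(q - p)) := by
    have : 0 < T.δ ^ (-(q - p)) := Real.rpow_pos_of_pos h0 _
    positivity
  induction U' with
  | nil =>
    intro ω₀
    exact ⟨{[]}, by simp, fun ω _ _ _ => by simp [Tan.rd]⟩
  | cons u' U'' ih =>
    have g1 := ih fun v hv => hu v (List.mem_cons_of_mem _ hv)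
    have g3 := it_k_aux_cap_one T h0 h1 p q A hpq hA (pair (T.rd p q U'') Cn) u' (hu u' List.mem_cons_self)
    have g4 := ltk_nval_comp T.P (fun _ => True) _ _ _ hpos g1 g3
    refine ltk_nval_mono T.P g4 (fun _ h => h) (fun _ _ h => h) ⟨fun x => x.1 :: x.2, fun ω => ?_⟩ ?_
    · simp [Tan.rd, FLaw.pair]
    · rw [List.length_cons, pow_succ]

/-- LINEAR CHANGE ON AN EVENT `E` of the base.  On `E` every covector of `U'` is a combination of the covectors of `U`, coefficients functions of `(F_p, 𝒟)` bounded by `A`; off `E` only `nrm ≤ A0`.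
Proof: split `H(· | V, base)` over the values of the base; good values: list bound; bad values: capacity as in `it_k_cap`.   OWNER helper196, EST 250 lines (block L-256-INT-KIT2) -/
theorem it_k_lin_ev (h0 : 0 < T.δ) (h1 : T.δ < 1) (M : ℕ) (p q A A0 : ℝ) (hpq : p ≤ q) (hA : 1 ≤ A) (hA0 : 1 ≤ A0)
    (U U' V : List (T.Ω → ItPh)) (E : T.Ω → Prop) (hE : ∀ ω ω', T.base M p ω = T.base M p ω' → (E ω ↔ E ω'))
    (hb : ∀ u' ∈ U', ∀ ω, T.P.p ω ≠ 0 → (u' ω : ItPh).nrm ≤ A0)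
    (hc : ∀ u' ∈ U', ∃ c : T.Ω → ℕ → ℝ, (∀ ω ω', T.base M p ω = T.base M p ω' → c ω = c ω') ∧ (∀ ω k, T.P.p ω ≠ 0 → E ω → |c ω k| ≤ A) ∧
      ∀ ω x, T.P.p ω ≠ 0 → E ω →
        itDot (u' ω) x = ∑ k ∈ Finset.range U.length, c ω k * itDot ((U.getD k (fun _ => ⟨0, 0, 0, 0, 0, 0⟩)) ω) x) :
    T.hh M p q U' V ≤ T.hh M p q U V + U'.length * Real.log (A * U.length + 2)
      + T.P.pr (fun ω => ¬ E ω) * (U'.length * ((q - p) * T.L + Real.log (24 * A0 + 4))) := by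
  have s1 := it_k_mono T M p q U' U V
  have s2 := it_k_chain T M p q U' U V
  have hN1 : (1 : ℝ) ≤ A * U.length + 2 := by
    have : (0 : ℝ) ≤ A * U.length := mul_nonneg (by linarith) (Nat.cast_nonneg _)
    linarith
  have g1 : T.P.NVal E (T.rd p q U') (pair (T.rd p q (U ++ V)) (T.base M p)) ((A * U.length + 2) ^ U'.length) :=
    ltk_nval_mono T.P (it_k_aux_ev_nval T M p q A hA U U' E hc) (fun _ h => h) (fun ω ω' h => by
      simp only [FLaw.pair, Prod.mk.injEq, it_k_aux_rd_append] at h ⊢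
      exact ⟨h.1.1, h.2⟩) ⟨id, fun _ => rfl⟩ le_rfl
  have g2 := it_k_aux_cap_nval T h0 h1 p q A0 hpq hA0 (pair (T.rd p q (U ++ V)) (T.base M p)) U' hb
  have s3 : T.hh M p q U' (U ++ V) ≤ Real.log ((A * U.length + 2) ^ U'.length)
      + T.P.pr (fun ω => ¬ E ω) * Real.log (((24 * A0 + 4) * T.δ ^ (-(q - p))) ^ U'.length) := by
    unfold Tan.hh
    exact it_k_aux_ent_ev T.P _ _ E (fun ω ω' h => hE ω ω' (Prod.ext_iff.1 h).2) (one_le_pow₀ hN1) g1 g2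
  rw [Real.log_pow, Real.log_pow, it_k_aux_log_cap h0 _ _ (by linarith)] at s3
  have e : T.L = lg T.δ := rfl
  rw [e]
  linarith

/-- three scalar cells, each in a window `R` on the fibres of `A` -/
theorem it_w_aux_tri {Ω α : Type} [Fintype Ω] (P : FLaw Ω) (A : Ω → α) (v1 v2 v3 : Ω → ℝ) (n : ℕ) {R : ℝ} (hR : 0 ≤ R)
    (h1 : ∀ ω ω', P.p ω ≠ 0 → P.p ω' ≠ 0 → A ω = A ω' → |v1 ω - v1 ω'| ≤ R)
    (h2 : ∀ ω ω', P.p ω ≠ 0 → P.p ω' ≠ 0 → A ω = A ω' → |v2 ω - v2 ω'| ≤ R)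
    (h3 : ∀ ω ω', P.p ω ≠ 0 → P.p ω' ≠ 0 → A ω = A ω' → |v3 ω - v3 ω'| ≤ R) :
    P.NVal (fun _ => True) (fun ω => ((⌊v1 ω * 2 ^ n⌋, ⌊v2 ω * 2 ^ n⌋, ⌊v3 ω * 2 ^ n⌋) : ℤ × ℤ × ℤ)) A ((R * 2 ^ n + 2) ^ 3) := by
  have hN : (0 : ℝ) ≤ R * 2 ^ n + 2 := by positivity
  have n1 := ltk_nval_close P (fun _ => True) A v1 n hR (fun ω ω' a b _ _ c => h1 ω ω' a b c)
  have n2 := ltk_nval_close P (fun _ => True) A v2 n hR (fun ω ω' a b _ _ c => h2 ω ω' a b c)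
  have n3 := ltk_nval_close P (fun _ => True) A v3 n hR (fun ω ω' a b _ _ c => h3 ω ω' a b c)
  have n2' : P.NVal (fun _ => True) (fun ω => ⌊v2 ω * 2 ^ n⌋) (pair (fun ω => ⌊v1 ω * 2 ^ n⌋) A) (R * 2 ^ n + 2) :=
    ltk_nval_mono P n2 (fun _ h => h) (fun ω ω' h => (Prod.ext_iff.1 h).2) ⟨id, fun _ => rfl⟩ le_rfl
  have c1 := ltk_nval_comp P (fun _ => True) _ _ _ hN n1 n2'
  have n3' : P.NVal (fun _ => True) (fun ω => ⌊v3 ω * 2 ^ n⌋) (pair (pair (fun ω => ⌊v2 ω * 2 ^ n⌋) (fun ω => ⌊v1 ω * 2 ^ n⌋)) A) (R * 2 ^ n + 2) :=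
    ltk_nval_mono P n3 (fun _ h => h) (fun ω ω' h => (Prod.ext_iff.1 h).2) ⟨id, fun _ => rfl⟩ le_rfl
  have c2 := ltk_nval_comp P (fun _ => True) _ _ _ hN c1 n3'
  refine ltk_nval_mono P c2 (fun _ h => h) (fun _ _ h => h) ⟨fun x => (x.2.2, x.2.1, x.1), fun ω => rfl⟩ (le_of_eq (by ring))

theorem it_w_aux_msh_le_one (δ q : ℝ) : msh δ q ≤ 1 := by
  unfold msh
  rw [div_le_one (by positivity)]
  exact one_le_pow₀ (by norm_num)

theorem it_w_aux_trep_eq {δ q x y : ℝ} (h : tcell δ q x = tcell δ q y) : trep δ q x = trep δ q y := by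
  unfold trep
  rw [h]

/-- `a - c b` on a common cell of `a`, `b` -/
theorem it_w_aux_var {a a' b b' c m C : ℝ} (ha : |a - a'| ≤ m) (hb : |b - b'| ≤ m) (hc : |c| ≤ C) :
    |(a - c * b) - (a' - c * b')| ≤ (1 + C) * m := by
  have e : (a - c * b) - (a' - c * b') = (a - a') - c * (b - b') := by ring
  rw [e]
  have h1 : |c * (b - b')| ≤ C * m := by
    rw [abs_mul]
    exact mul_le_mul hc hb (abs_nonneg _) ((abs_nonneg _).trans hc)
  calc |(a - a') - c * (b - b')| ≤ |a - a'| + |c * (b - b')| := abs_sub _ _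
    _ ≤ m + C * m := add_le_add ha h1
    _ = (1 + C) * m := by ring

/-- `w + c b` when `w` moves by `m`, `b` by `mq` and `|c| ≤ κ mp`, `mp mq ≤ 2 m` -/
theorem it_w_aux_var2 {w w' b b' c m mp mq κ : ℝ} (hw : |w - w'| ≤ m) (hb : |b - b'| ≤ mq) (hc : |c| ≤ κ * mp) (hκ : 0 ≤ κ) (hκ2 : κ ≤ 2)
    (hmp : 0 ≤ mp) (hprod : mp * mq ≤ 2 * m) : |(w + c * b) - (w' + c * b')| ≤ 5 * m := by
  have e : (w + c * b) - (w' + c * b') = (w - w') + c * (b - b') := by ring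
  rw [e]
  have hmq : 0 ≤ mq := (abs_nonneg _).trans hb
  have h1 : |c * (b - b')| ≤ κ * mp * mq := by
    rw [abs_mul]
    exact mul_le_mul hc hb (abs_nonneg _) (by positivity)
  have h2 : κ * mp * mq ≤ 2 * (2 * m) := by
    have : 0 ≤ mp * mq := by positivity
    nlinarith
  calc |(w - w') + c * (b - b')| ≤ |w - w'| + |c * (b - b')| := abs_add_le _ _
    _ ≤ m + 2 * (2 * m) := add_le_add hw (h1.trans h2)
    _ = 5 * m := by ring

theorem it_w_aux_prod {δ : ℝ} (h0 : 0 < δ) (h1 : δ < 1) {p q z : ℝ} (hp : 0 ≤ p) (hpq : p ≤ q) (hqz : q ≤ z) (hz : z ≤ 2 * p) :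
    msh δ p * msh δ q ≤ 2 * msh δ z := by
  calc msh δ p * msh δ q ≤ δ ^ p * δ ^ q :=
        mul_le_mul (ig_msh_le δ p h0) (ig_msh_le δ q h0) (ig_msh_pos δ q).le (by positivity)
    _ = δ ^ (p + q) := (Real.rpow_add h0 p q).symm
    _ ≤ δ ^ z := Real.rpow_le_rpow_of_exponent_ge h0 h1.le (by linarith)
    _ ≤ 2 * msh δ z := ig_le_msh δ z h0 h1 (by linarith)

/-- WEDGE CHAIN.  `F_{q,z}` determines `(X,B,P)_q` and lists `F_{p,z}` with at most `6·4·4` values: `Y - 2 X_p B = (Y - 2 X_q B) + 2 (X_q - X_p) B`, `0 ≤ X_q - X_p < μ_p`, `B` known up to `μ_q`,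
`μ_p μ_q ≤ δ^(p+q) ≤ δ^z < 2 μ_z`; same for `N - P_p X`, `D - P_p B`.   OWNER helper196, EST 300 lines (block L-256-INT-KIT2) -/
theorem it_w_chain (h0 : 0 < T.δ) (h1 : T.δ < 1) (M : ℕ) (p q z : ℝ) (hp : 0 ≤ p) (hpq : p ≤ q) (hqz : q ≤ z) (hz : z ≤ 2 * p) :
    T.hW M p z + T.hhW M p z q (itRH T.Ω) [] ≤ T.hW M q z + 3 * Real.log 8 := by
  unfold Tan.hW Tan.hhW
  have hm := ig_msh_pos T.δ z
  have hmp := ig_msh_pos T.δ p
  have hprod := it_w_aux_prod h0 h1 hp hpq hqz hz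
  have c0 := ent_entC_chain T.P (T.Hn p z) (T.rd p q (itRH T.Ω)) (T.Dd M)
  have c1 : T.P.entC (T.rd p q (itRH T.Ω)) (pair (T.rd p q []) (T.baseW M p z)) = T.P.entC (T.rd p q (itRH T.Ω)) (pair (T.Hn p z) (T.Dd M)) :=
    ent_entC_congr T.P _ _ _ _ (fun ω ω' _ _ => by simp [FLaw.pair, Tan.rd, Tan.baseW]) (fun _ _ _ _ _ => Iff.rfl)
  have s1 : T.P.entC (pair (T.Hn p z) (T.rd p q (itRH T.Ω))) (T.Dd M) ≤ T.P.entC (pair (T.Hn q z) (pair (T.Hn p z) (T.rd p q (itRH T.Ω)))) (T.Dd M) :=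
    ent_entC_mono T.P _ _ _ fun ω ω' _ _ h _ => (Prod.ext_iff.1 h).2
  have s2 := ent_entC_chain T.P (T.Hn q z) (pair (T.Hn p z) (T.rd p q (itRH T.Ω))) (T.Dd M)
  have key : ∀ ω ω', pair (T.Hn q z) (T.Dd M) ω = pair (T.Hn q z) (T.Dd M) ω' →
      (tcell T.δ q (T.F ω).X = tcell T.δ q (T.F ω').X ∧ tcell T.δ q (T.F ω).B = tcell T.δ q (T.F ω').B ∧ tcell T.δ q (T.F ω).P = tcell T.δ q (T.F ω').P) ∧
      |((T.F ω).Y - 2 * trep T.δ q (T.F ω).X * (T.F ω).B) - ((T.F ω').Y - 2 * trep T.δ q (T.F ω').X * (T.F ω').B)| ≤ msh T.δ z ∧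
      |((T.F ω).N - trep T.δ q (T.F ω).P * (T.F ω).X) - ((T.F ω').N - trep T.δ q (T.F ω').P * (T.F ω').X)| ≤ msh T.δ z ∧
      |((T.F ω).D - trep T.δ q (T.F ω).P * (T.F ω).B) - ((T.F ω').D - trep T.δ q (T.F ω').P * (T.F ω').B)| ≤ msh T.δ z := by
    intro ω ω' h
    have h' : T.Hn q z ω = T.Hn q z ω' := (Prod.ext_iff.1 h).1
    simp only [Tan.Hn, itHs, Prod.mk.injEq] at h'
    obtain ⟨⟨a1, a2, a3⟩, b1, b2, b3⟩ := h'
    exact ⟨⟨a1, a2, a3⟩, it_k_aux_cell_dist b1, it_k_aux_cell_dist b2, it_k_aux_cell_dist b3⟩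
  have hdiff : ∀ x : ℝ, |trep T.δ q x - trep T.δ p x| ≤ 1 * msh T.δ p := fun x => by
    have := ig_trep_diff_bd T.δ p q x h0 h1 hpq
    rw [one_mul, abs_le]
    constructor <;> linarith [this.1, this.2]
  have hn := it_w_aux_tri T.P (pair (T.Hn q z) (T.Dd M)) (fun ω => (T.F ω).Y - 2 * trep T.δ p (T.F ω).X * (T.F ω).B)
    (fun ω => (T.F ω).N - trep T.δ p (T.F ω).P * (T.F ω).X) (fun ω => (T.F ω).D - trep T.δ p (T.F ω).P * (T.F ω).B) (tlev T.δ z)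
    (R := 5 * msh T.δ z) (by positivity)
    (fun ω ω' _ _ c => by
      obtain ⟨⟨a1, a2, a3⟩, d1, d2, d3⟩ := key ω ω' c
      have eq := it_w_aux_trep_eq a1
      have ep := it_w_aux_trep_eq (it_k_aux_cell_nest h0 h1 hpq a1)
      have hc : |2 * (trep T.δ q (T.F ω).X - trep T.δ p (T.F ω).X)| ≤ 2 * msh T.δ p := by
        rw [abs_mul, abs_two]
        have := hdiff (T.F ω).X
        linarith
      have := it_w_aux_var2 d1 (it_k_aux_cell_dist a2) hc (by norm_num) le_rfl hmp.le hprod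
      rw [eq, ep] at this
      rw [ep]
      convert this using 2
      ring)
    (fun ω ω' _ _ c => by
      obtain ⟨⟨a1, a2, a3⟩, d1, d2, d3⟩ := key ω ω' c
      have eq := it_w_aux_trep_eq a3
      have ep := it_w_aux_trep_eq (it_k_aux_cell_nest h0 h1 hpq a3)
      have := it_w_aux_var2 d2 (it_k_aux_cell_dist a1) (hdiff (T.F ω).P) (by norm_num) (by norm_num) hmp.le hprod
      rw [eq, ep] at this
      rw [ep]
      convert this using 2
      ring)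
    (fun ω ω' _ _ c => by
      obtain ⟨⟨a1, a2, a3⟩, d1, d2, d3⟩ := key ω ω' c
      have eq := it_w_aux_trep_eq a3
      have ep := it_w_aux_trep_eq (it_k_aux_cell_nest h0 h1 hpq a3)
      have := it_w_aux_var2 d3 (it_k_aux_cell_dist a2) (hdiff (T.F ω).P) (by norm_num) (by norm_num) hmp.le hprod
      rw [eq, ep] at this
      rw [ep]
      convert this using 2
      ring)
  have e : 5 * msh T.δ z * 2 ^ (tlev T.δ z) + 2 = 7 := by
    unfold msh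
    field_simp
    norm_num
  rw [e] at hn
  have s3 : T.P.entC (pair (T.Hn p z) (T.rd p q (itRH T.Ω))) (pair (T.Hn q z) (T.Dd M)) ≤ Real.log (7 ^ 3) := by
    refine le_trans (le_of_eq ?_) (ent_entC_le_log_nval T.P _ _ hn)
    refine ent_entC_congr T.P _ _ _ _ (fun _ _ _ _ => Iff.rfl) (fun ω ω' _ _ h => ?_)
    obtain ⟨⟨a1, a2, a3⟩, _⟩ := key ω ω' h
    have p1 := it_k_aux_cell_nest h0 h1 hpq a1
    have p2 := it_k_aux_cell_nest h0 h1 hpq a2
    have p3 := it_k_aux_cell_nest h0 h1 hpq a3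
    have r1 := (it_k_aux_shift_iff h0 h1 hpq p1).2 a1
    have r2 := (it_k_aux_shift_iff h0 h1 hpq p2).2 a2
    have r3 := (it_k_aux_shift_iff h0 h1 hpq p3).2 a3
    simp only [FLaw.pair, Tan.Hn, itHs, Prod.mk.injEq, p1, p2, p3, true_and, Tan.rd, itRH, List.map_cons, List.map_nil, and_true,
      it_k_aux_valX, it_k_aux_valB, it_k_aux_valP, Tan.f0, itR, r1, r2, r3]
    rfl
  rw [Real.log_pow] at s3
  have s4 : Real.log 7 ≤ Real.log 8 := Real.log_le_log (by norm_num) (by norm_num)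
  push_cast at s3
  linarith

/-- the isotropic name `F_z` lists `F_{z,z}`   OWNER helper196, EST 200 lines (block L-256-INT-KIT2) -/

theorem it_w_top (h0 : 0 < T.δ) (h1 : T.δ < 1) (M : ℕ) (z B0 : ℝ) (hz : 0 ≤ z) (hB : 1 ≤ B0)
    (hF : ∀ ω, T.P.p ω ≠ 0 → (T.F ω).nrm ≤ B0) : T.hW M z z ≤ T.hA M z + 3 * Real.log (8 * B0 + 8) := by
  unfold Tan.hW Tan.hA
  have hm := ig_msh_pos T.δ z
  have s1 : T.P.entC (T.Hn z z) (T.Dd M) ≤ T.P.entC (pair (T.Fn z) (T.Hn z z)) (T.Dd M) :=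
    ent_entC_mono T.P _ _ _ fun ω ω' _ _ h _ => (Prod.ext_iff.1 h).2
  have s2 := ent_entC_chain T.P (T.Fn z) (T.Hn z z) (T.Dd M)
  have key : ∀ ω ω', T.P.p ω ≠ 0 → T.P.p ω' ≠ 0 → pair (T.Fn z) (T.Dd M) ω = pair (T.Fn z) (T.Dd M) ω' →
      trep T.δ z (T.F ω).X = trep T.δ z (T.F ω').X ∧ trep T.δ z (T.F ω).P = trep T.δ z (T.F ω').P ∧
      |trep T.δ z (T.F ω).X| ≤ B0 + 1 ∧ |trep T.δ z (T.F ω).P| ≤ B0 + 1 ∧
      |(T.F ω).X - (T.F ω').X| ≤ msh T.δ z ∧ |(T.F ω).B - (T.F ω').B| ≤ msh T.δ z ∧ |(T.F ω).Y - (T.F ω').Y| ≤ msh T.δ z ∧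
      |(T.F ω).N - (T.F ω').N| ≤ msh T.δ z ∧ |(T.F ω).D - (T.F ω').D| ≤ msh T.δ z := by
    intro ω ω' hω _ h
    have h' : T.Fn z ω = T.Fn z ω' := (Prod.ext_iff.1 h).1
    simp only [Tan.Fn, itF, Prod.mk.injEq] at h'
    obtain ⟨⟨a1, a2, a3⟩, b1, b2, b3⟩ := h'
    obtain ⟨n1, _, n3, _, _, _⟩ := it_k_aux_nrm_le (T.F ω)
    have hb := hF ω hω
    have r1 := it_k_aux_rep_dist T.δ z (T.F ω).X
    have r3 := it_k_aux_rep_dist T.δ z (T.F ω).P
    have hm1 := it_w_aux_msh_le_one T.δ z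
    refine ⟨it_w_aux_trep_eq a1, it_w_aux_trep_eq a3, ?_, ?_, it_k_aux_cell_dist a1, it_k_aux_cell_dist a2, it_k_aux_cell_dist b1,
      it_k_aux_cell_dist b2, it_k_aux_cell_dist b3⟩
    · have := n1.trans hb
      rw [abs_le] at r1 this ⊢
      constructor <;> linarith [r1.1, r1.2, this.1, this.2]
    · have := n3.trans hb
      rw [abs_le] at r3 this ⊢
      constructor <;> linarith [r3.1, r3.2, this.1, this.2]
  have hn := it_w_aux_tri T.P (pair (T.Fn z) (T.Dd M)) (fun ω => (T.F ω).Y - 2 * trep T.δ z (T.F ω).X * (T.F ω).B)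
    (fun ω => (T.F ω).N - trep T.δ z (T.F ω).P * (T.F ω).X) (fun ω => (T.F ω).D - trep T.δ z (T.F ω).P * (T.F ω).B) (tlev T.δ z)
    (R := (2 * B0 + 3) * msh T.δ z) (by positivity)
    (fun ω ω' a b c => by
      obtain ⟨e1, e2, k1, k2, d1, d2, d3, d4, d5⟩ := key ω ω' a b c
      rw [← e1]
      have hc : |2 * trep T.δ z (T.F ω).X| ≤ 2 * B0 + 2 := by
        rw [abs_mul, abs_two]
        linarith
      refine (it_w_aux_var d3 d2 hc).trans (le_of_eq (by ring)))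
    (fun ω ω' a b c => by
      obtain ⟨e1, e2, k1, k2, d1, d2, d3, d4, d5⟩ := key ω ω' a b c
      rw [← e2]
      refine (it_w_aux_var d4 d1 k2).trans (mul_le_mul_of_nonneg_right (by linarith) hm.le))
    (fun ω ω' a b c => by
      obtain ⟨e1, e2, k1, k2, d1, d2, d3, d4, d5⟩ := key ω ω' a b c
      rw [← e2]
      refine (it_w_aux_var d5 d2 k2).trans (mul_le_mul_of_nonneg_right (by linarith) hm.le))
  have e : (2 * B0 + 3) * msh T.δ z * 2 ^ (tlev T.δ z) + 2 = 2 * B0 + 5 := by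
    unfold msh
    field_simp
    ring
  rw [e] at hn
  have s3 : T.P.entC (T.Hn z z) (pair (T.Fn z) (T.Dd M)) ≤ Real.log ((2 * B0 + 5) ^ 3) := by
    refine le_trans (le_of_eq ?_) (ent_entC_le_log_nval T.P _ _ hn)
    refine ent_entC_congr T.P _ _ _ _ (fun _ _ _ _ => Iff.rfl) (fun ω ω' _ _ h => ?_)
    have h' : T.Fn z ω = T.Fn z ω' := (Prod.ext_iff.1 h).1
    simp only [Tan.Fn, itF, Prod.mk.injEq] at h'
    obtain ⟨⟨a1, a2, a3⟩, _⟩ := h'
    simp only [Tan.Hn, itHs, Prod.mk.injEq, a1, a2, a3, true_and]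
    rfl
  rw [Real.log_pow] at s3
  have s4 : Real.log (2 * B0 + 5) ≤ Real.log (8 * B0 + 8) := Real.log_le_log (by linarith) (by linarith)
  push_cast at s3
  linarith

/-! ## WEDGE COPIES of `Int/Kit.lean` A-D  (`hhW`, `LSW`, `T.baseW M p z`; same proofs; helper174) -/

/-- `H(U, V | W) = H(V | W) + H(U | V, W)` -/
theorem it_kw_chain (M : ℕ) (p z q : ℝ) (U V W : List (T.Ω → ItPh)) :
    T.hhW M p z q (U ++ V) W = T.hhW M p z q V W + T.hhW M p z q U (V ++ W) := by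
  unfold Tan.hhW
  have h1 := ent_entC_chain T.P (T.rd p q V) (T.rd p q U) (pair (T.rd p q W) (T.baseW M p z))
  have h2 : T.P.entC (T.rd p q (U ++ V)) (pair (T.rd p q W) (T.baseW M p z))
      = T.P.entC (pair (T.rd p q V) (T.rd p q U)) (pair (T.rd p q W) (T.baseW M p z)) :=
    ent_entC_congr T.P _ _ _ _ (fun _ _ _ _ => Iff.rfl) (fun ω ω' _ _ _ => by
      rw [it_k_aux_rd_append]
      simp only [FLaw.pair, Prod.mk.injEq]
      exact and_comm)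
  have h3 : T.P.entC (T.rd p q U) (pair (T.rd p q (V ++ W)) (T.baseW M p z))
      = T.P.entC (T.rd p q U) (pair (T.rd p q V) (pair (T.rd p q W) (T.baseW M p z))) :=
    ent_entC_congr T.P _ _ _ _ (fun ω ω' _ _ => by
      simp only [FLaw.pair, Prod.mk.injEq, it_k_aux_rd_append]
      tauto) (fun _ _ _ _ _ => Iff.rfl)
  rw [h2, h1, h3]

/-- pointwise chain rule -/
theorem it_kw_sur_chain (M : ℕ) (p z q : ℝ) (U V W : List (T.Ω → ItPh)) (ω : T.Ω) (hω : T.P.p ω ≠ 0) :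
    T.P.surC (T.rd p q (U ++ V)) (pair (T.rd p q W) (T.baseW M p z)) ω
      = T.P.surC (T.rd p q V) (pair (T.rd p q W) (T.baseW M p z)) ω
        + T.P.surC (T.rd p q U) (pair (T.rd p q (V ++ W)) (T.baseW M p z)) ω := by
  have h1 := ent_surC_chain T.P (T.rd p q V) (T.rd p q U) (pair (T.rd p q W) (T.baseW M p z)) hω
  have h2 : T.P.surC (T.rd p q (U ++ V)) (pair (T.rd p q W) (T.baseW M p z)) ω
      = T.P.surC (pair (T.rd p q V) (T.rd p q U)) (pair (T.rd p q W) (T.baseW M p z)) ω :=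
    ent_surC_congr T.P _ _ _ _ ω (fun _ _ => Iff.rfl) (fun ω' _ _ => by
      rw [it_k_aux_rd_append]
      simp only [FLaw.pair, Prod.mk.injEq]
      exact and_comm)
  have h3 : T.P.surC (T.rd p q U) (pair (T.rd p q (V ++ W)) (T.baseW M p z)) ω
      = T.P.surC (T.rd p q U) (pair (T.rd p q V) (pair (T.rd p q W) (T.baseW M p z))) ω :=
    ent_surC_congr T.P _ _ _ _ ω (fun ω' _ => by
      simp only [FLaw.pair, Prod.mk.injEq, it_k_aux_rd_append]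
      tauto) (fun _ _ _ => Iff.rfl)
  rw [h2, h1, h3]

/-- the order inside a tuple does not matter -/
theorem it_kw_perm (M : ℕ) (p z q : ℝ) (U U' V V' : List (T.Ω → ItPh)) (hU : U.Perm U') (hV : V.Perm V') :
    T.hhW M p z q U V = T.hhW M p z q U' V' := by
  unfold Tan.hhW
  refine ent_entC_congr T.P _ _ _ _ (fun ω ω' _ _ => ?_) (fun ω ω' _ _ _ => ?_)
  · simp only [FLaw.pair, Prod.mk.injEq, it_k_aux_rd_iff, hV.mem_iff]
  · simp only [it_k_aux_rd_iff, hU.mem_iff]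

theorem it_kw_nonneg (M : ℕ) (p z q : ℝ) (U V : List (T.Ω → ItPh)) : 0 ≤ T.hhW M p z q U V := by
  exact ent_entC_nonneg _ _ _

theorem it_kw_mono (M : ℕ) (p z q : ℝ) (U U' V : List (T.Ω → ItPh)) : T.hhW M p z q U V ≤ T.hhW M p z q (U ++ U') V := by
  unfold Tan.hhW
  exact ent_entC_mono T.P _ _ _ fun ω ω' _ _ h _ => ((it_k_aux_rd_append T p q U U' ω ω').1 h).1

theorem it_kw_anti (M : ℕ) (p z q : ℝ) (U V V' : List (T.Ω → ItPh)) : T.hhW M p z q U (V ++ V') ≤ T.hhW M p z q U V := by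
  unfold Tan.hhW
  refine ent_entC_anti T.P _ _ _ fun ω ω' _ _ h => ?_
  simp only [FLaw.pair, Prod.mk.injEq] at h ⊢
  exact ⟨((it_k_aux_rd_append T p q V V' ω ω').1 h.1).1, h.2⟩

theorem it_kw_subadd (M : ℕ) (p z q : ℝ) (U U' V : List (T.Ω → ItPh)) :
    T.hhW M p z q (U ++ U') V ≤ T.hhW M p z q U V + T.hhW M p z q U' V := by
  unfold Tan.hhW
  have h1 := ent_entC_pair_le_add T.P (T.rd p q U) (T.rd p q U') (pair (T.rd p q V) (T.baseW M p z))
  have h2 : T.P.entC (T.rd p q (U ++ U')) (pair (T.rd p q V) (T.baseW M p z))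
      = T.P.entC (pair (T.rd p q U) (T.rd p q U')) (pair (T.rd p q V) (T.baseW M p z)) :=
    ent_entC_congr T.P _ _ _ _ (fun _ _ _ _ => Iff.rfl) (fun ω ω' _ _ _ => by
      rw [it_k_aux_rd_append]
      simp only [FLaw.pair, Prod.mk.injEq])
  rw [h2]
  exact h1

/-- expectation from a lower score -/
theorem it_kw_E_of_LS (h0 : 0 < T.δ) (h1 : T.δ < 1) (M : ℕ) (p z q : ℝ) (hpq : p ≤ q) (U V : List (T.Ω → ItPh)) (ρ η : ℝ)
    (hη : 0 ≤ η) (hρ : η ≤ ρ) (h : T.LSW M p z q U V ρ η) : (ρ - η) * (1 - η) * (q - p) * T.L ≤ T.hhW M p z q U V := by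
  have hL := it_k_aux_L_pos T h0 h1
  unfold Tan.LSW at h
  unfold Tan.hhW
  rw [ent_entC_eq_ev]
  have hc : 0 ≤ (ρ - η) * (q - p) * T.L :=
    mul_nonneg (mul_nonneg (sub_nonneg.2 hρ) (sub_nonneg.2 hpq)) hL.le
  have h2 := ent_ev_ge_of_bad T.P (f := T.P.surC (T.rd p q U) (pair (T.rd p q V) (T.baseW M p z)))
    (fun ω => T.P.surC (T.rd p q U) (pair (T.rd p q V) (T.baseW M p z)) ω < (ρ - η) * (q - p) * T.L)
    (c := (ρ - η) * (q - p) * T.L) (M := 0) (fun ω _ h => not_lt.1 h) (fun ω hω _ => ent_surC_nonneg T.P _ _ hω)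
  rw [zero_mul, add_zero] at h2
  refine le_trans ?_ h2
  have e : (ρ - η) * (1 - η) * (q - p) * T.L = (ρ - η) * (q - p) * T.L * (1 - η) := by ring
  rw [e]
  exact mul_le_mul_of_nonneg_left (by linarith) hc

/-- chain rule for lower scores -/
theorem it_kw_LS_chain (h0 : 0 < T.δ) (h1 : T.δ < 1) (M : ℕ) (p z q : ℝ) (hpq : p ≤ q) (U V W : List (T.Ω → ItPh)) (ρ ρ' η η' : ℝ)
    (h : T.LSW M p z q U (V ++ W) ρ η) (h' : T.LSW M p z q V W ρ' η') : T.LSW M p z q (U ++ V) W (ρ + ρ') (η + η') := by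
  unfold Tan.LSW at *
  refine le_trans (le_trans (ent_pr_mono T.P fun ω hω hbad => ?_) (ent_pr_or_le T.P _ _)) (add_le_add h h')
  by_contra hcon
  push Not at hcon
  obtain ⟨c1, c2⟩ := hcon
  rw [it_kw_sur_chain T M p z q U V W ω hω] at hbad
  have e : (ρ + ρ' - (η + η')) * (q - p) * T.L = (ρ - η) * (q - p) * T.L + (ρ' - η') * (q - p) * T.L := by ring
  linarith

/-- dropping held readings lowers a score by at most `u` off probability `e^{-u}` -/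
theorem it_kw_LS_drop (M : ℕ) (p z q : ℝ) (U V V' : List (T.Ω → ItPh)) (ρ η u : ℝ)
    (h : T.LSW M p z q U (V ++ V') ρ η) :
    T.P.pr (fun ω => T.P.surC (T.rd p q U) (pair (T.rd p q V) (T.baseW M p z)) ω < (ρ - η) * (q - p) * T.L - u) ≤ η + Real.exp (-u) := by
  unfold Tan.LSW at h
  have h2 := ltk_lp T.P (T.rd p q U) (pair (T.rd p q V) (T.baseW M p z)) (T.rd p q V') u
  refine le_trans (le_trans (ent_pr_mono T.P fun ω hω hbad => ?_) (ent_pr_or_le T.P _ _)) (add_le_add h h2)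
  by_contra hcon
  push Not at hcon
  obtain ⟨c1, c2⟩ := hcon
  have e : T.P.surC (T.rd p q U) (pair (T.rd p q (V ++ V')) (T.baseW M p z)) ω
      = T.P.surC (T.rd p q U) (pair (T.rd p q V') (pair (T.rd p q V) (T.baseW M p z))) ω :=
    ent_surC_congr T.P _ _ _ _ ω (fun ω' _ => by
      simp only [FLaw.pair, Prod.mk.injEq, it_k_aux_rd_append]
      tauto) (fun _ _ _ => Iff.rfl)
  rw [e] at c1
  linarith

/-- a larger tuple has a larger score -/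
theorem it_kw_LS_mono (M : ℕ) (p z q : ℝ) (U U' V : List (T.Ω → ItPh)) (ρ η : ℝ) (h : T.LSW M p z q U V ρ η) :
    T.LSW M p z q (U ++ U') V ρ η := by
  unfold Tan.LSW at *
  refine le_trans (ent_pr_mono T.P fun ω hω hbad => lt_of_le_of_lt ?_ hbad) h
  have h1 := ent_surC_chain T.P (T.rd p q U) (T.rd p q U') (pair (T.rd p q V) (T.baseW M p z)) hω
  have h2 : T.P.surC (T.rd p q (U ++ U')) (pair (T.rd p q V) (T.baseW M p z)) ω
      = T.P.surC (pair (T.rd p q U) (T.rd p q U')) (pair (T.rd p q V) (T.baseW M p z)) ω :=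
    ent_surC_congr T.P _ _ _ _ ω (fun _ _ => Iff.rfl) (fun ω' _ _ => by
      rw [it_k_aux_rd_append]
      simp only [FLaw.pair, Prod.mk.injEq])
  have h3 := ent_surC_nonneg T.P (T.rd p q U') (pair (T.rd p q U) (pair (T.rd p q V) (T.baseW M p z))) hω
  linarith

/-- closeness of a combined reading on a fibre of the generating readings -/
theorem it_kw_aux_lin_close (M : ℕ) (p z q A : ℝ) (hA : 1 ≤ A) (U : List (T.Ω → ItPh)) (u' : T.Ω → ItPh)
    (hc : ∃ c : T.Ω → ℕ → ℝ, (∀ ω ω', T.baseW M p z ω = T.baseW M p z ω' → c ω = c ω') ∧ (∀ ω, T.P.p ω ≠ 0 → ∀ k, |c ω k| ≤ A) ∧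
      ∀ ω, T.P.p ω ≠ 0 → ∀ x, itDot (u' ω) x = ∑ k ∈ Finset.range U.length, c ω k * itDot ((U.getD k (fun _ => ⟨0, 0, 0, 0, 0, 0⟩)) ω) x)
    (ω ω' : T.Ω) (hω : T.P.p ω ≠ 0) (hω' : T.P.p ω' ≠ 0) (hb : T.baseW M p z ω = T.baseW M p z ω')
    (hU : T.rd p q U ω = T.rd p q U ω') :
    |itVal (u' ω) (T.F ω) (T.f0 p ω) - itVal (u' ω') (T.F ω') (T.f0 p ω')| ≤ A * U.length * msh T.δ q := by
  obtain ⟨c, c1, c2, c3⟩ := hc
  rw [it_k_aux_val_dot, it_k_aux_val_dot, c3 ω hω, c3 ω' hω', ← c1 ω ω' hb, ← Finset.sum_sub_distrib]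
  refine (Finset.abs_sum_le_sum_abs _ _).trans ?_
  have hm := (ig_msh_pos T.δ q).le
  have hstep : ∀ k ∈ Finset.range U.length,
      |c ω k * itDot ((U.getD k (fun _ => ⟨0, 0, 0, 0, 0, 0⟩)) ω) ((T.F ω).sub (T.f0 p ω))
        - c ω k * itDot ((U.getD k (fun _ => ⟨0, 0, 0, 0, 0, 0⟩)) ω') ((T.F ω').sub (T.f0 p ω'))| ≤ A * msh T.δ q := by
    intro k hk
    have hk' : k < U.length := Finset.mem_range.1 hk
    rw [← mul_sub, abs_mul]
    refine mul_le_mul (c2 ω hω k) ?_ (abs_nonneg _) (by linarith)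
    rw [← it_k_aux_val_dot, ← it_k_aux_val_dot]
    refine it_k_aux_cell_dist ?_
    refine (it_k_aux_rd_iff T p q U ω ω').1 hU _ ?_
    rw [List.getD_eq_getElem _ _ hk']
    exact List.getElem_mem hk'
  refine (Finset.sum_le_sum hstep).trans ?_
  rw [Finset.sum_const, Finset.card_range, nsmul_eq_mul]
  exact le_of_eq (by ring)

/-- one combined reading has at most `A |U| + 2` values -/
theorem it_kw_aux_lin_one (M : ℕ) (p z q A : ℝ) (hA : 1 ≤ A) (U : List (T.Ω → ItPh)) (u' : T.Ω → ItPh)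
    (hc : ∃ c : T.Ω → ℕ → ℝ, (∀ ω ω', T.baseW M p z ω = T.baseW M p z ω' → c ω = c ω') ∧ (∀ ω, T.P.p ω ≠ 0 → ∀ k, |c ω k| ≤ A) ∧
      ∀ ω, T.P.p ω ≠ 0 → ∀ x, itDot (u' ω) x = ∑ k ∈ Finset.range U.length, c ω k * itDot ((U.getD k (fun _ => ⟨0, 0, 0, 0, 0, 0⟩)) ω) x) :
    T.P.NVal (fun _ => True) (fun ω => tcell T.δ q (itVal (u' ω) (T.F ω) (T.f0 p ω))) (pair (T.rd p q U) (T.baseW M p z))
      (A * U.length + 2) := by
  have hm := ig_msh_pos T.δ q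
  have h := ltk_nval_close T.P (fun _ => True) (pair (T.rd p q U) (T.baseW M p z))
    (fun ω => itVal (u' ω) (T.F ω) (T.f0 p ω)) (tlev T.δ q) (R := A * U.length * msh T.δ q)
    (mul_nonneg (mul_nonneg (by linarith) (Nat.cast_nonneg _)) hm.le)
    (fun ω ω' hω hω' _ _ hA' => by
      simp only [FLaw.pair, Prod.mk.injEq] at hA'
      exact it_kw_aux_lin_close T M p z q A hA U u' hc ω ω' hω hω' hA'.2 hA'.1)
  have e : A * U.length * msh T.δ q * 2 ^ (tlev T.δ q) + 2 = A * U.length + 2 := by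
    unfold msh
    field_simp
  rw [e] at h
  exact h

/-- the tuple of combined readings has at most `(A |U| + 2)^|U'|` values -/
theorem it_kw_aux_lin_nval (M : ℕ) (p z q A : ℝ) (hA : 1 ≤ A) (U U' : List (T.Ω → ItPh))
    (hc : ∀ u' ∈ U', ∃ c : T.Ω → ℕ → ℝ, (∀ ω ω', T.baseW M p z ω = T.baseW M p z ω' → c ω = c ω') ∧ (∀ ω, T.P.p ω ≠ 0 → ∀ k, |c ω k| ≤ A) ∧
      ∀ ω, T.P.p ω ≠ 0 → ∀ x, itDot (u' ω) x = ∑ k ∈ Finset.range U.length, c ω k * itDot ((U.getD k (fun _ => ⟨0, 0, 0, 0, 0, 0⟩)) ω) x) :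
    T.P.NVal (fun _ => True) (T.rd p q U') (pair (T.rd p q U) (T.baseW M p z)) ((A * U.length + 2) ^ U'.length) := by
  have hpos : (0 : ℝ) ≤ A * U.length + 2 := add_nonneg (mul_nonneg (by linarith) (Nat.cast_nonneg _)) (by norm_num)
  induction U' with
  | nil =>
    intro ω₀
    exact ⟨{[]}, by simp, fun ω _ _ _ => by simp [Tan.rd]⟩
  | cons u' U'' ih =>
    have h1 := ih fun v hv => hc v (List.mem_cons_of_mem _ hv)
    have h2 := it_kw_aux_lin_one T M p z q A hA U u' (hc u' List.mem_cons_self)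
    have h3 : T.P.NVal (fun _ => True) (fun ω => tcell T.δ q (itVal (u' ω) (T.F ω) (T.f0 p ω)))
        (pair (T.rd p q U'') (pair (T.rd p q U) (T.baseW M p z))) (A * U.length + 2) :=
      ltk_nval_mono T.P h2 (fun _ h => h) (fun ω ω' h => (Prod.ext_iff.1 h).2) ⟨id, fun _ => rfl⟩ le_rfl
    have h4 := ltk_nval_comp T.P (fun _ => True) _ _ _ hpos h1 h3
    refine ltk_nval_mono T.P h4 (fun _ h => h) (fun _ _ h => h) ⟨fun x => x.1 :: x.2, fun ω => ?_⟩ ?_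
    · simp [Tan.rd, FLaw.pair]
    · rw [List.length_cons, pow_succ]

theorem it_kw_aux_lin_nval' (M : ℕ) (p z q A : ℝ) (hA : 1 ≤ A) (U U' V : List (T.Ω → ItPh))
    (hc : ∀ u' ∈ U', ∃ c : T.Ω → ℕ → ℝ, (∀ ω ω', T.baseW M p z ω = T.baseW M p z ω' → c ω = c ω') ∧ (∀ ω, T.P.p ω ≠ 0 → ∀ k, |c ω k| ≤ A) ∧
      ∀ ω, T.P.p ω ≠ 0 → ∀ x, itDot (u' ω) x = ∑ k ∈ Finset.range U.length, c ω k * itDot ((U.getD k (fun _ => ⟨0, 0, 0, 0, 0, 0⟩)) ω) x) :
    T.P.NVal (fun _ => True) (T.rd p q U') (pair (T.rd p q U) (pair (T.rd p q V) (T.baseW M p z)))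
      ((A * U.length + 2) ^ U'.length) :=
  ltk_nval_mono T.P (it_kw_aux_lin_nval T M p z q A hA U U' hc) (fun _ h => h) (fun ω ω' h => by
    simp only [FLaw.pair, Prod.mk.injEq] at h ⊢
    exact ⟨h.1, h.2.2⟩) ⟨id, fun _ => rfl⟩ le_rfl

/-- LINEAR CHANGE.  If every covector of `U'` is a combination of the covectors of `U` with coefficients that are functions of `(F_p, 𝒟)`, bounded by `A`,
then `U_q` lists `U'_q` : at most `(A |U| + 2)` values per entry. -/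
theorem it_kw_lin (h0 : 0 < T.δ) (h1 : T.δ < 1) (M : ℕ) (p z q A : ℝ) (hA : 1 ≤ A) (U U' V : List (T.Ω → ItPh))
    (hc : ∀ u' ∈ U', ∃ c : T.Ω → ℕ → ℝ, (∀ ω ω', T.baseW M p z ω = T.baseW M p z ω' → c ω = c ω') ∧ (∀ ω, T.P.p ω ≠ 0 → ∀ k, |c ω k| ≤ A) ∧
      ∀ ω, T.P.p ω ≠ 0 → ∀ x, itDot (u' ω) x = ∑ k ∈ Finset.range U.length, c ω k * itDot ((U.getD k (fun _ => ⟨0, 0, 0, 0, 0, 0⟩)) ω) x) :
    T.hhW M p z q U' V ≤ T.hhW M p z q U V + U'.length * Real.log (A * U.length + 2) := by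
  have hn := it_kw_aux_lin_nval' T M p z q A hA U U' V hc
  have s1 := it_kw_mono T M p z q U' U V
  have s2 := it_kw_chain T M p z q U' U V
  have s3 : T.hhW M p z q U' (U ++ V) ≤ Real.log ((A * U.length + 2) ^ U'.length) := by
    unfold Tan.hhW
    refine ent_entC_le_log_nval T.P _ _ (ltk_nval_mono T.P hn (fun _ h => h) (fun ω ω' h => ?_) ⟨id, fun _ => rfl⟩ le_rfl)
    simp only [FLaw.pair, Prod.mk.injEq, it_k_aux_rd_append] at h ⊢
    exact ⟨h.1.1, h.1.2, h.2⟩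
  rw [Real.log_pow] at s3
  linarith

/-- pointwise version of the linear change (tail `e^{-u}`) -/
theorem it_kw_lin_sur (h0 : 0 < T.δ) (h1 : T.δ < 1) (M : ℕ) (p z q A u : ℝ) (hA : 1 ≤ A) (U U' V : List (T.Ω → ItPh))
    (hc : ∀ u' ∈ U', ∃ c : T.Ω → ℕ → ℝ, (∀ ω ω', T.baseW M p z ω = T.baseW M p z ω' → c ω = c ω') ∧ (∀ ω, T.P.p ω ≠ 0 → ∀ k, |c ω k| ≤ A) ∧
      ∀ ω, T.P.p ω ≠ 0 → ∀ x, itDot (u' ω) x = ∑ k ∈ Finset.range U.length, c ω k * itDot ((U.getD k (fun _ => ⟨0, 0, 0, 0, 0, 0⟩)) ω) x) :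
    T.P.pr (fun ω => T.P.surC (T.rd p q U) (pair (T.rd p q V) (T.baseW M p z)) ω + U'.length * Real.log (A * U.length + 2) + u
      < T.P.surC (T.rd p q U') (pair (T.rd p q V) (T.baseW M p z)) ω) ≤ Real.exp (-u) := by
  have hn := it_kw_aux_lin_nval' T M p z q A hA U U' V hc
  have hpos : (0 : ℝ) < A * U.length + 2 := add_pos_of_nonneg_of_pos (mul_nonneg (by linarith) (Nat.cast_nonneg _)) (by norm_num)
  have ht := ent_surC_tail T.P _ _ (pow_pos hpos U'.length) hn u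
  refine le_trans (ent_pr_mono T.P fun ω hω hbad => ?_) ht
  have hs := ent_surC_swap T.P (T.rd p q U') (T.rd p q U) (pair (T.rd p q V) (T.baseW M p z)) hω
  have hnn := ent_surC_nonneg T.P (T.rd p q U) (pair (T.rd p q U') (pair (T.rd p q V) (T.baseW M p z))) hω
  rw [Real.log_pow]
  linarith

/-- CAPACITY of one scalar reading with a covector bounded by `A` -/
theorem it_kw_cap (h0 : 0 < T.δ) (h1 : T.δ < 1) (M : ℕ) (p z q A : ℝ) (hpq : p ≤ q) (hA : 1 ≤ A) (u : T.Ω → ItPh)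
    (hu : ∀ ω, T.P.p ω ≠ 0 → (u ω).nrm ≤ A) (V : List (T.Ω → ItPh)) :
    T.hhW M p z q [u] V ≤ (q - p) * T.L + Real.log (24 * A + 4) := by
  have hA0 : (0 : ℝ) ≤ A := by linarith
  have hm := ig_msh_pos T.δ p
  have h := ltk_nval_close T.P (fun _ => True) (pair (T.rd p q V) (T.baseW M p z))
    (fun ω => itVal (u ω) (T.F ω) (T.f0 p ω)) (tlev T.δ q) (R := 12 * A * msh T.δ p)
    (mul_nonneg (mul_nonneg (by norm_num) hA0) hm.le)
    (fun ω ω' hω hω' _ _ _ => by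
      have b1 := it_k_aux_val_bd T.δ p A hA0 (u ω) (T.F ω) (hu ω hω)
      have b2 := it_k_aux_val_bd T.δ p A hA0 (u ω') (T.F ω') (hu ω' hω')
      rw [abs_le] at b1 b2
      exact abs_le.2 ⟨by unfold Tan.f0; linarith [b1.1, b2.2], by unfold Tan.f0; linarith [b1.2, b2.1]⟩)
  have hr := ig_ratio_le T.δ p (q - p) h0 h1 (sub_nonneg.2 hpq)
  rw [add_sub_cancel] at hr
  have hone : (1 : ℝ) ≤ T.δ ^ (-(q - p)) :=
    Real.one_le_rpow_of_pos_of_le_one_of_nonpos h0 h1.le (by linarith)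
  have e : 12 * A * msh T.δ p * 2 ^ (tlev T.δ q) + 2 ≤ (24 * A + 4) * T.δ ^ (-(q - p)) := by
    rw [ig_msh_ratio T.δ p q h0 h1 hpq]
    have e1 : msh T.δ q * 2 ^ (tlev T.δ q) = 1 := by
      unfold msh
      field_simp
    have e2 : 12 * A * (2 ^ (tlev T.δ q - tlev T.δ p) * msh T.δ q) * 2 ^ (tlev T.δ q)
        = 12 * A * 2 ^ (tlev T.δ q - tlev T.δ p) * (msh T.δ q * 2 ^ (tlev T.δ q)) := by ring
    rw [e2, e1, mul_one]
    have e3 : 12 * A * 2 ^ (tlev T.δ q - tlev T.δ p) ≤ 12 * A * (2 * T.δ ^ (-(q - p))) :=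
      mul_le_mul_of_nonneg_left hr (by linarith)
    linarith
  have h2 : T.P.NVal (fun _ => True) (T.rd p q [u]) (pair (T.rd p q V) (T.baseW M p z)) ((24 * A + 4) * T.δ ^ (-(q - p))) :=
    ltk_nval_mono T.P h (fun _ h => h) (fun _ _ h => h) ⟨fun x => [x], fun ω => by simp [Tan.rd, tcell]⟩ e
  have h3 := ent_entC_le_log_nval T.P _ _ h2
  rw [it_k_aux_log_cap h0 _ _ (by linarith)] at h3
  exact h3

end Claimed.Agent.R256
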