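import Claimed.Agent.R256.Int.ModeGeo

/-!
# Row 256, Sec. 5, block MODE, file 5: GEOMETRY OF TWO LEGS (quadratic)      (architect helper27; prefix `it_m_`)

Paper free (05 (int:commutator-mode)).   `F0 --(Q_i)--> F1 --(Q_j)--> F2`.   With `F0` and `X2` held, moving `X1` by `d` moves `F2` by
`d ∂` with `⟨w, ∂⟩ = 2 (X2 - X1) itCom w μ_i μ_j` for every covector `w` central at `F2`  (`it_m_com_id`: an identity of polynomials).
`it_m_com_core` : the value of a central covector frozen at the parent of `F2`;  `it_m_com_close` : closeness of the end points.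
-/

set_option autoImplicit false

namespace Claimed.Agent.R256

open Claimed.Agent.R255
open Claimed.Agent.R255.FLaw (pair)
open scoped BigOperators
open Classical

theorem it_m_nrm_tri3 (a b c : ItPh) : (a.sub c).nrm ≤ (a.sub b).nrm + (b.sub c).nrm := by
  have h := it_m_nrm_tri (a.sub c) (b.sub c)
  have e : (a.sub c).sub (b.sub c) = a.sub b := by
    simp only [ItPh.sub, ItPh.mk.injEq]
    refine ⟨by ring, by ring, by ring, by ring, by ring, by ring⟩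
  rw [e] at h
  linarith

/-- the leg is Lipschitz in its base point -/
theorem it_m_leg_lipf {B0 : ℝ} (hB : 1 ≤ B0) (f g : ItPh) (μ : ItMk) (hth : |μ.th| ≤ B0) {Δ : ℝ} (hΔ : |Δ| ≤ 2 * B0) :
    ((itmLeg true f μ Δ).sub (itmLeg true g μ Δ)).nrm ≤ 5 * B0 ^ 2 * (f.sub g).nrm := by
  obtain ⟨n1, n2, n3, n4, n5, n6⟩ := it_k_aux_nrm_le (f.sub g)
  have hn := it_m_nrm_nonneg (f.sub g)
  have m1 : |f.X - g.X| ≤ (f.sub g).nrm := n1
  have m2 : |f.B - g.B| ≤ (f.sub g).nrm := n2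
  have m3 : |f.P - g.P| ≤ (f.sub g).nrm := n3
  have m4 : |f.Y - g.Y| ≤ (f.sub g).nrm := n4
  have m5 : |f.N - g.N| ≤ (f.sub g).nrm := n5
  have m6 : |f.D - g.D| ≤ (f.sub g).nrm := n6
  clear n1 n2 n3 n4 n5 n6
  generalize (f.sub g).nrm = ρ at hn m1 m2 m3 m4 m5 m6 ⊢
  have hB0 : 0 ≤ B0 := by linarith
  have hBB : B0 ≤ B0 ^ 2 := by nlinarith
  have hρ1 : ρ ≤ 5 * B0 ^ 2 * ρ := by nlinarith
  have hρB : B0 * ρ ≤ B0 ^ 2 * ρ := mul_le_mul_of_nonneg_right hBB hn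
  have tΔ : |μ.th * Δ| ≤ B0 * (2 * B0) := it_k_aux_term hth hB0 hΔ
  simp only [itmLeg, if_true, ItPh.sub]
  refine it_m_nrm_le ?_ ?_ ?_ ?_ ?_ ?_ <;> dsimp only
  · have : f.X + Δ - (g.X + Δ) = f.X - g.X := by ring
    rw [this]; exact m1.trans hρ1
  · have : f.B - μ.th * Δ - (g.B - μ.th * Δ) = f.B - g.B := by ring
    rw [this]; exact m2.trans hρ1
  · have : f.P + 2 * μ.r * Δ - (g.P + 2 * μ.r * Δ) = f.P - g.P := by ring
    rw [this]; exact m3.trans hρ1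
  · have : f.Y - μ.th * (2 * f.X * Δ + Δ ^ 2) - (g.Y - μ.th * (2 * g.X * Δ + Δ ^ 2))
        = (f.Y - g.Y) - 2 * ((μ.th * Δ) * (f.X - g.X)) := by ring
    rw [this]
    have t := it_k_aux_term tΔ (by positivity) m1
    have t2 := abs_sub (f.Y - g.Y) (2 * ((μ.th * Δ) * (f.X - g.X)))
    rw [abs_mul 2, abs_two] at t2
    nlinarith
  · have : f.N + (f.P * Δ + μ.r * Δ ^ 2) - (g.N + (g.P * Δ + μ.r * Δ ^ 2)) = (f.N - g.N) + Δ * (f.P - g.P) := by ring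
    rw [this]
    have t := it_k_aux_term hΔ (by positivity) m3
    have t2 := abs_add_le (f.N - g.N) (Δ * (f.P - g.P))
    nlinarith
  · have : f.D - μ.th * (f.P * Δ + μ.r * Δ ^ 2) - (g.D - μ.th * (g.P * Δ + μ.r * Δ ^ 2))
        = (f.D - g.D) - (μ.th * Δ) * (f.P - g.P) := by ring
    rw [this]
    have t := it_k_aux_term tΔ (by positivity) m3
    have t2 := abs_sub (f.D - g.D) ((μ.th * Δ) * (f.P - g.P))
    nlinarith

/-- the leg is Lipschitz in its length -/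
theorem it_m_leg_lipd {B0 : ℝ} (hB : 1 ≤ B0) (f : ItPh) (hf : f.nrm ≤ 4 * B0 ^ 2) (μ : ItMk) (hth : |μ.th| ≤ B0) (hr : |μ.r| ≤ B0)
    {Δ Δ' : ℝ} (hΔ : |Δ| ≤ 2 * B0) (hΔ' : |Δ'| ≤ 2 * B0) :
    ((itmLeg true f μ Δ').sub (itmLeg true f μ Δ)).nrm ≤ 24 * B0 ^ 3 * |Δ' - Δ| := by
  obtain ⟨n1, -, n3, -, -, -⟩ := it_k_aux_nrm_le f
  have hX := n1.trans hf
  have hP := n3.trans hf
  have hB0 : 0 ≤ B0 := by linarith
  have hB2 : B0 ≤ B0 ^ 2 := by nlinarith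
  have hB3 : B0 ^ 2 ≤ B0 ^ 3 := by nlinarith [sq_nonneg B0]
  have he := abs_nonneg (Δ' - Δ)
  have hsum : |Δ' + Δ| ≤ 4 * B0 := (abs_add_le _ _).trans (by linarith)
  have h1 : |Δ' - Δ| ≤ 24 * B0 ^ 3 * |Δ' - Δ| := by nlinarith
  -- the two brackets
  have k1 : |2 * f.X + (Δ' + Δ)| ≤ 12 * B0 ^ 2 := by
    have := abs_add_le (2 * f.X) (Δ' + Δ)
    rw [abs_mul, abs_two] at this
    nlinarith
  have k2 : |f.P + μ.r * (Δ' + Δ)| ≤ 8 * B0 ^ 2 := by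
    have := abs_add_le f.P (μ.r * (Δ' + Δ))
    have t := it_k_aux_term hr hB0 hsum
    nlinarith
  simp only [itmLeg, if_true, ItPh.sub]
  refine it_m_nrm_le ?_ ?_ ?_ ?_ ?_ ?_ <;> dsimp only
  · have : f.X + Δ' - (f.X + Δ) = Δ' - Δ := by ring
    rw [this]; exact h1
  · have : f.B - μ.th * Δ' - (f.B - μ.th * Δ) = -(μ.th * (Δ' - Δ)) := by ring
    rw [this, abs_neg]
    have t := it_k_aux_term hth hB0 (le_refl |Δ' - Δ|)
    nlinarith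
  · have : f.P + 2 * μ.r * Δ' - (f.P + 2 * μ.r * Δ) = 2 * (μ.r * (Δ' - Δ)) := by ring
    rw [this, abs_mul, abs_two]
    have t := it_k_aux_term hr hB0 (le_refl |Δ' - Δ|)
    nlinarith
  · have : f.Y - μ.th * (2 * f.X * Δ' + Δ' ^ 2) - (f.Y - μ.th * (2 * f.X * Δ + Δ ^ 2))
        = -((μ.th * (2 * f.X + (Δ' + Δ))) * (Δ' - Δ)) := by ring
    rw [this, abs_neg]
    have t0 := it_k_aux_term hth hB0 k1
    have t := it_k_aux_term t0 (by positivity) (le_refl |Δ' - Δ|)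
    refine t.trans ?_
    have : B0 * (12 * B0 ^ 2) = 12 * B0 ^ 3 := by ring
    rw [this]
    nlinarith [pow_nonneg hB0 3]
  · have : f.N + (f.P * Δ' + μ.r * Δ' ^ 2) - (f.N + (f.P * Δ + μ.r * Δ ^ 2)) = (f.P + μ.r * (Δ' + Δ)) * (Δ' - Δ) := by ring
    rw [this]
    have t := it_k_aux_term k2 (by positivity) (le_refl |Δ' - Δ|)
    refine t.trans ?_
    nlinarith [pow_nonneg hB0 3]
  · have : f.D - μ.th * (f.P * Δ' + μ.r * Δ' ^ 2) - (f.D - μ.th * (f.P * Δ + μ.r * Δ ^ 2))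
        = -((μ.th * (f.P + μ.r * (Δ' + Δ))) * (Δ' - Δ)) := by ring
    rw [this, abs_neg]
    have t0 := it_k_aux_term hth hB0 k2
    have t := it_k_aux_term t0 (by positivity) (le_refl |Δ' - Δ|)
    refine t.trans ?_
    have : B0 * (8 * B0 ^ 2) = 8 * B0 ^ 3 := by ring
    rw [this]
    nlinarith [pow_nonneg hB0 3]

/-- THE COMMUTATOR IDENTITY -/
theorem it_m_com_id (w f F0 : ItPh) (μ ν : ItMk) (a b d : ℝ) (hP : w.P = 0) (hX : w.X = -w.N * f.P)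
    (hBc : w.B = -2 * w.Y * f.X - w.D * f.P) :
    itDot w ((itmLeg true (itmLeg true F0 μ (a + d)) ν (b - d)).sub (itmLeg true (itmLeg true F0 μ a) ν b))
      = 2 * b * d * itCom w μ ν
        + d * (μ.th - ν.th) * (2 * w.Y * (f.X - (F0.X + a + b)) + w.D * (f.P - (F0.P + 2 * μ.r * a + 2 * ν.r * b)))
        + d ^ 2 * (-(w.Y * (μ.th - ν.th)) - w.N * (μ.r - ν.r) + w.D * (-(μ.th * μ.r) + 2 * ν.th * μ.r - ν.th * ν.r)) := by
  simp only [itDot, itmLeg, ItPh.sub, itCom, if_true]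
  rw [hP, hX, hBc]
  ring

/-- two consecutive legs -/
structure ItTwo (δ R B0 : ℝ) (μ ν : ItMk) (F0 F1 F2 : ItPh) : Prop where
  b0 : F0.nrm ≤ B0
  b1 : F1.nrm ≤ B0
  b2 : F2.nrm ≤ B0
  q1 : itQ true δ R F0 μ = itQ true δ R F1 μ
  q2 : itQ true δ R F1 ν = itQ true δ R F2 ν

/-- the end point of the exact two-leg path -/
def itmPhi (F0 : ItPh) (μ ν : ItMk) (a b : ℝ) : ItPh := itmLeg true (itmLeg true F0 μ a) ν b

theorem it_m_geo2_eqns_cite : True := by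
  have := @itmPhi.eq_1
  trivial

theorem it_m_X_diff {B0 : ℝ} {f g : ItPh} (hf : f.nrm ≤ B0) (hg : g.nrm ≤ B0) : |f.X - g.X| ≤ 2 * B0 := by
  have h1 := (it_k_aux_nrm_le f).1.trans hf
  have h2 := (it_k_aux_nrm_le g).1.trans hg
  have := abs_sub f.X g.X
  linarith

theorem it_m_up {B0 : ℝ} (hB : 1 ≤ B0) {k : ℕ} (hk : k ≤ 5) {x : ℝ} (hx : 0 ≤ x) : B0 ^ k * x ≤ B0 ^ 5 * x :=
  mul_le_mul_of_nonneg_right (pow_le_pow_right₀ hB hk) hx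

/-- the sampled path follows the exact path -/
theorem it_m_two_exact {δ R B0 : ℝ} (h0 : 0 < δ) (hB : 1 ≤ B0) {μ ν : ItMk} {F0 F1 F2 : ItPh} (h : ItTwo δ R B0 μ ν F0 F1 F2)
    (hμ : |μ.th| ≤ B0) (hν : |ν.th| ≤ B0) :
    (F1.sub (itmLeg true F0 μ (F1.X - F0.X))).nrm ≤ 3 * B0 ^ 2 * δ ^ R ∧
      (F2.sub (itmPhi F0 μ ν (F1.X - F0.X) (F2.X - F1.X))).nrm ≤ 18 * B0 ^ 4 * δ ^ R := by
  have he : 0 < δ ^ R := Real.rpow_pos_of_pos h0 R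
  have e1 := it_m_leg_exact true h0 hB F0 F1 μ h.b1 hμ (by simp) h.q1
  have e2 := it_m_leg_exact true h0 hB F1 F2 ν h.b2 hν (by simp) h.q2
  have e3 := it_m_leg_lipf hB F1 (itmLeg true F0 μ (F1.X - F0.X)) ν hν (it_m_X_diff h.b2 h.b1)
  have e4 := it_m_nrm_tri3 F2 (itmLeg true F1 ν (F2.X - F1.X)) (itmPhi F0 μ ν (F1.X - F0.X) (F2.X - F1.X))
  refine ⟨e1, e4.trans ?_⟩
  unfold itmPhi
  have hB2 : 0 ≤ 5 * B0 ^ 2 := by positivity
  have e5 := mul_le_mul_of_nonneg_left e1 hB2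
  have hB4 : B0 ^ 2 * δ ^ R ≤ B0 ^ 4 * δ ^ R := mul_le_mul_of_nonneg_right (pow_le_pow_right₀ hB (by norm_num)) he.le
  nlinarith

/-- the first leg stays in the box `4 B0²` -/
theorem it_m_leg_box {δ R B0 : ℝ} (h0 : 0 < δ) (h1 : δ < 1) (hB : 1 ≤ B0) (hR : 0 ≤ R) {μ ν : ItMk} {F0 F1 F2 : ItPh}
    (h : ItTwo δ R B0 μ ν F0 F1 F2) (hμ : |μ.th| ≤ B0) (hν : |ν.th| ≤ B0) :
    (itmLeg true F0 μ (F1.X - F0.X)).nrm ≤ 4 * B0 ^ 2 := by
  have e1 := (it_m_two_exact h0 hB h hμ hν).1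
  have e2 := it_m_nrm_tri (itmLeg true F0 μ (F1.X - F0.X)) F1
  rw [it_m_sub_comm] at e2
  have e3 := it_m_pow_le_one h0 h1 hR
  have e4 := h.b1
  nlinarith [sq_nonneg B0]

/-- closeness of the end points of two paths from the same origin -/
theorem it_m_com_close {δ R K p B0 : ℝ} (h0 : 0 < δ) (h1 : δ < 1) (hB : 1 ≤ B0) (hp : 0 ≤ p) (hpR : p ≤ R) (hpK : p ≤ K)
    {μ ν : ItMk} {F0 F1 F2 F1' F2' : ItPh}
    (h : ItTwo δ R B0 μ ν F0 F1 F2) (h' : ItTwo δ R B0 μ ν F0 F1' F2')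
    (hμ1 : |μ.th| ≤ B0) (hμ2 : |μ.r| ≤ B0) (hν1 : |ν.th| ≤ B0) (hν2 : |ν.r| ≤ B0)
    (hx1 : |F1'.X - F1.X| ≤ δ ^ p) (hx2 : |F2'.X - F2.X| ≤ δ ^ K) :
    (F2'.sub F2).nrm ≤ 204 * B0 ^ 5 * δ ^ p := by
  have hpp : 0 < δ ^ p := Real.rpow_pos_of_pos h0 p
  have hR : 0 ≤ R := hp.trans hpR
  have eR : δ ^ R ≤ δ ^ p := it_m_pow_le h0 h1 hpR
  have eK : δ ^ K ≤ δ ^ p := it_m_pow_le h0 h1 hpK
  have t1 := (it_m_two_exact h0 hB h hμ1 hν1).2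
  have t2 := (it_m_two_exact h0 hB h' hμ1 hν1).2
  have hbox' := it_m_leg_box h0 h1 hB hR h' hμ1 hν1
  -- change the length of the second leg
  have t3 := it_m_leg_lipd hB (itmLeg true F0 μ (F1'.X - F0.X)) hbox' ν hν1 hν2 (it_m_X_diff h.b2 h.b1) (it_m_X_diff h'.b2 h'.b1)
  -- change the base point of the second leg
  have t4 := it_m_leg_lipf hB (itmLeg true F0 μ (F1'.X - F0.X)) (itmLeg true F0 μ (F1.X - F0.X)) ν hν1 (it_m_X_diff h.b2 h.b1)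
  have hF0 : F0.nrm ≤ 4 * B0 ^ 2 := h.b0.trans (by nlinarith)
  have t5 := it_m_leg_lipd hB F0 hF0 μ hμ1 hμ2 (it_m_X_diff h.b1 h.b0) (it_m_X_diff h'.b1 h'.b0)
  have d1 : |F2'.X - F1'.X - (F2.X - F1.X)| ≤ 2 * δ ^ p := by
    have : F2'.X - F1'.X - (F2.X - F1.X) = (F2'.X - F2.X) - (F1'.X - F1.X) := by ring
    rw [this]
    exact (abs_sub _ _).trans (by linarith)
  have d2 : |F1'.X - F0.X - (F1.X - F0.X)| ≤ δ ^ p := by
    have : F1'.X - F0.X - (F1.X - F0.X) = F1'.X - F1.X := by ring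
    rw [this]; exact hx1
  have s1 := it_m_nrm_tri3 F2' (itmPhi F0 μ ν (F1'.X - F0.X) (F2'.X - F1'.X)) F2
  have s2 := it_m_nrm_tri3 (itmPhi F0 μ ν (F1'.X - F0.X) (F2'.X - F1'.X)) (itmPhi F0 μ ν (F1'.X - F0.X) (F2.X - F1.X)) F2
  have s3 := it_m_nrm_tri3 (itmPhi F0 μ ν (F1'.X - F0.X) (F2.X - F1.X)) (itmPhi F0 μ ν (F1.X - F0.X) (F2.X - F1.X)) F2
  rw [it_m_sub_comm (itmPhi F0 μ ν (F1.X - F0.X) (F2.X - F1.X)) F2] at s3
  unfold itmPhi at s1 s2 s3 t1 t2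
  have hB3 : 0 ≤ 24 * B0 ^ 3 := by positivity
  have u3 := t3.trans (mul_le_mul_of_nonneg_left d1 hB3)
  have u5 := t5.trans (mul_le_mul_of_nonneg_left d2 hB3)
  have u4 := t4.trans (mul_le_mul_of_nonneg_left u5 (by positivity : (0 : ℝ) ≤ 5 * B0 ^ 2))
  have v1 : 18 * B0 ^ 4 * δ ^ R ≤ 18 * (B0 ^ 5 * δ ^ p) := by
    have := it_m_up hB (k := 4) (by norm_num) hpp.le
    have h4 : 0 ≤ B0 ^ 4 := by positivity
    nlinarith [mul_le_mul_of_nonneg_left eR h4]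
  have v3 : 24 * B0 ^ 3 * (2 * δ ^ p) ≤ 48 * (B0 ^ 5 * δ ^ p) := by
    have := it_m_up hB (k := 3) (by norm_num) hpp.le
    nlinarith
  have v4 : 5 * B0 ^ 2 * (24 * B0 ^ 3 * δ ^ p) = 120 * (B0 ^ 5 * δ ^ p) := by ring
  nlinarith

theorem it_m_dot_bd {w v : ItPh} {A c : ℝ} (hw : w.nrm ≤ A) (hv : v.nrm ≤ c) : |itDot w v| ≤ 6 * (A * c) := by
  have hA : 0 ≤ A := (it_m_nrm_nonneg w).trans hw
  have g := mul_le_mul hw hv (it_m_nrm_nonneg _) hA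
  exact (it_m_dot_le _ _).trans (by linarith)

/-- first remainder of the commutator identity (real numbers only) -/
theorem it_m_com_R1 {d th Yw Dw x y A B0 P e : ℝ} (hd : |d| ≤ P) (hth : |th| ≤ 2 * B0) (hY : |Yw| ≤ A) (hD : |Dw| ≤ A)
    (hx : |x| ≤ P) (hy : |y| ≤ P + 18 * B0 ^ 4 * e) (hP0 : 0 ≤ P) (hP1 : P ≤ 1) (hB : 1 ≤ B0) (hA : 0 ≤ A) (he : 0 ≤ e) :
    |d * th * (2 * Yw * x + Dw * y)| ≤ 6 * (B0 ^ 5 * (A * P ^ 2)) + 36 * (B0 ^ 5 * (A * e)) := by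
  have hB0 : 0 ≤ B0 := by linarith
  have g1 : |2 * Yw * x| ≤ 2 * A * P := by
    have : |2 * Yw| ≤ 2 * A := by rw [abs_mul, abs_two]; linarith
    exact it_k_aux_term this (by positivity) hx
  have g2 := it_k_aux_term hD hA hy
  have g3 := (abs_add_le _ _).trans (add_le_add g1 g2)
  have g4 := it_k_aux_term hd hP0 hth
  have g5 := it_k_aux_term g4 (by positivity) g3
  refine g5.trans ?_
  have u1 := it_m_up hB (k := 1) (by norm_num) (mul_nonneg hA (sq_nonneg P))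
  have u2 : P * (B0 ^ 5 * (A * e)) ≤ 1 * (B0 ^ 5 * (A * e)) := mul_le_mul_of_nonneg_right hP1 (by positivity)
  calc P * (2 * B0) * (2 * A * P + A * (P + 18 * B0 ^ 4 * e))
      = 6 * (B0 ^ 1 * (A * P ^ 2)) + 36 * (P * (B0 ^ 5 * (A * e))) := by ring
    _ ≤ _ := by linarith

/-- second remainder of the commutator identity (real numbers only) -/
theorem it_m_com_R2 {d Yw Nw Dw t1 r1 t2 r2 A B0 P : ℝ} (hd : |d| ≤ P) (hY : |Yw| ≤ A) (hN : |Nw| ≤ A) (hD : |Dw| ≤ A)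
    (ht1 : |t1| ≤ B0) (hr1 : |r1| ≤ B0) (ht2 : |t2| ≤ B0) (hr2 : |r2| ≤ B0) (hB : 1 ≤ B0) (hA : 0 ≤ A) :
    |d ^ 2 * (-(Yw * (t1 - t2)) - Nw * (r1 - r2) + Dw * (-(t1 * r1) + 2 * t2 * r1 - t2 * r2))| ≤ 8 * (B0 ^ 5 * (A * P ^ 2)) := by
  have hB0 : 0 ≤ B0 := by linarith
  have hth : |t1 - t2| ≤ 2 * B0 := (abs_sub _ _).trans (by linarith)
  have hrr : |r1 - r2| ≤ 2 * B0 := (abs_sub _ _).trans (by linarith)
  have g1 := it_k_aux_term hY hA hth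
  have g2 := it_k_aux_term hN hA hrr
  have m1 := it_k_aux_term ht1 hB0 hr1
  have m2 := it_k_aux_term ht2 hB0 hr1
  have m3 := it_k_aux_term ht2 hB0 hr2
  have g3 : |-(t1 * r1) + 2 * t2 * r1 - t2 * r2| ≤ 4 * B0 ^ 2 := by
    have e : -(t1 * r1) + 2 * t2 * r1 - t2 * r2 = -(t1 * r1) + 2 * (t2 * r1) - t2 * r2 := by ring
    rw [e]
    refine (abs_sub _ _).trans ?_
    have := abs_add_le (-(t1 * r1)) (2 * (t2 * r1))
    rw [abs_neg, abs_mul 2, abs_two] at this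
    nlinarith
  have g4 := it_k_aux_term hD hA g3
  have g5 : |-(Yw * (t1 - t2)) - Nw * (r1 - r2) + Dw * (-(t1 * r1) + 2 * t2 * r1 - t2 * r2)|
      ≤ A * (2 * B0) + A * (2 * B0) + A * (4 * B0 ^ 2) := by
    refine (abs_add_le _ _).trans (add_le_add ((abs_sub _ _).trans (add_le_add ?_ g2)) g4)
    rw [abs_neg]; exact g1
  have hsq : |d ^ 2| ≤ P ^ 2 := by
    rw [abs_of_nonneg (sq_nonneg _)]
    exact sq_le_sq' (by linarith [(abs_le.1 hd).1]) (abs_le.1 hd).2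
  have g6 := it_k_aux_term hsq (sq_nonneg _) g5
  refine g6.trans ?_
  have u1 := it_m_up hB (k := 1) (by norm_num) (mul_nonneg hA (sq_nonneg P))
  have u2 := it_m_up hB (k := 2) (by norm_num) (mul_nonneg hA (sq_nonneg P))
  calc P ^ 2 * (A * (2 * B0) + A * (2 * B0) + A * (4 * B0 ^ 2))
      = 4 * (B0 ^ 1 * (A * P ^ 2)) + 4 * (B0 ^ 2 * (A * P ^ 2)) := by ring
    _ ≤ _ := by linarith

/-- the sum of the five errors (real numbers only) -/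
theorem it_m_com_sum {x1 x2 x3 x4 x5 Ze ZK Zp : ℝ} (h1 : |x1| ≤ 108 * Ze) (h2 : |x2| ≤ 144 * ZK) (h3 : |x3| ≤ 6 * Zp + 36 * Ze)
    (h4 : |x4| ≤ 8 * Zp) (h5 : |x5| ≤ 108 * Ze) (z1 : 0 ≤ Ze) (z2 : 0 ≤ ZK) (z3 : 0 ≤ Zp) :
    |x1 + x2 + x3 + x4 - x5| ≤ 400 * (Ze + ZK + Zp) := by
  refine (abs_sub _ _).trans ?_
  refine (add_le_add ((abs_add_le _ _).trans (add_le_add ((abs_add_le _ _).trans (add_le_add ((abs_add_le _ _).trans
    (add_le_add h1 h2)) h3)) h4)) h5).trans ?_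
  linarith

/-- THE CORE (commutator): a central covector frozen at the parent of `F2` reads the motion of `X1` as `2 (X2 - X1) d itCom` -/
theorem it_m_com_core {δ R K p B0 A : ℝ} (h0 : 0 < δ) (h1 : δ < 1) (hB : 1 ≤ B0) (hp : 0 ≤ p) (hR : 0 ≤ R)
    {μ ν : ItMk} {F0 F1 F2 F1' F2' : ItPh}
    (h : ItTwo δ R B0 μ ν F0 F1 F2) (h' : ItTwo δ R B0 μ ν F0 F1' F2')
    (hμ1 : |μ.th| ≤ B0) (hμ2 : |μ.r| ≤ B0) (hν1 : |ν.th| ≤ B0) (hν2 : |ν.r| ≤ B0)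
    (hx1 : |F1'.X - F1.X| ≤ δ ^ p) (hx2 : |F2'.X - F2.X| ≤ δ ^ K)
    (w : ItPh) (hw : w.nrm ≤ A) (hP : w.P = 0) (hX : w.X = -w.N * (itR δ p F2).P)
    (hBc : w.B = -2 * w.Y * (itR δ p F2).X - w.D * (itR δ p F2).P) :
    |itDot w (F2'.sub F2) - 2 * (F2.X - F1.X) * (F1'.X - F1.X) * itCom w μ ν|
      ≤ 400 * B0 ^ 5 * A * (δ ^ R + δ ^ K + δ ^ (2 * p)) := by
  have hpp : 0 < δ ^ p := Real.rpow_pos_of_pos h0 p
  have hp1 : δ ^ p ≤ 1 := it_m_pow_le_one h0 h1 hp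
  have he : 0 < δ ^ R := Real.rpow_pos_of_pos h0 R
  have hK : 0 < δ ^ K := Real.rpow_pos_of_pos h0 K
  have hB0 : 0 ≤ B0 := by linarith
  have hA : 0 ≤ A := (it_m_nrm_nonneg w).trans hw
  obtain ⟨-, -, -, wY, wN, wD⟩ := it_k_aux_nrm_le w
  rw [it_m_pow_two h0 p]
  have t1 := (it_m_two_exact h0 hB h hμ1 hν1).2
  have t2 := (it_m_two_exact h0 hB h' hμ1 hν1).2
  have hbox' := it_m_leg_box h0 h1 hB hR h' hμ1 hν1
  have ea : F1'.X - F0.X = (F1.X - F0.X) + (F1'.X - F1.X) := by ring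
  have eb : F2.X - F1'.X = (F2.X - F1.X) - (F1'.X - F1.X) := by ring
  have t3 := it_m_leg_lipd hB (itmLeg true F0 μ (F1'.X - F0.X)) hbox' ν hν1 hν2 (it_m_X_diff h.b2 h'.b1) (it_m_X_diff h'.b2 h'.b1)
  have e3 : F2'.X - F1'.X - (F2.X - F1'.X) = F2'.X - F2.X := by ring
  rw [e3] at t3
  have D1 : |itDot w (F2'.sub (itmPhi F0 μ ν (F1'.X - F0.X) (F2'.X - F1'.X)))| ≤ 108 * (B0 ^ 5 * (A * δ ^ R)) := by
    refine (it_m_dot_bd hw t2).trans ?_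
    calc 6 * (A * (18 * B0 ^ 4 * δ ^ R)) = 108 * (B0 ^ 4 * (A * δ ^ R)) := by ring
      _ ≤ _ := by linarith only [it_m_up hB (k := 4) (by norm_num) (mul_nonneg hA he.le)]
  have D4 : |itDot w (F2.sub (itmPhi F0 μ ν (F1.X - F0.X) (F2.X - F1.X)))| ≤ 108 * (B0 ^ 5 * (A * δ ^ R)) := by
    refine (it_m_dot_bd hw t1).trans ?_
    calc 6 * (A * (18 * B0 ^ 4 * δ ^ R)) = 108 * (B0 ^ 4 * (A * δ ^ R)) := by ring
      _ ≤ _ := by linarith only [it_m_up hB (k := 4) (by norm_num) (mul_nonneg hA he.le)]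
  have D2 : |itDot w ((itmPhi F0 μ ν (F1'.X - F0.X) (F2'.X - F1'.X)).sub (itmPhi F0 μ ν (F1'.X - F0.X) (F2.X - F1'.X)))|
      ≤ 144 * (B0 ^ 5 * (A * δ ^ K)) := by
    have t3' : ((itmPhi F0 μ ν (F1'.X - F0.X) (F2'.X - F1'.X)).sub (itmPhi F0 μ ν (F1'.X - F0.X) (F2.X - F1'.X))).nrm
        ≤ 24 * B0 ^ 3 * δ ^ K := t3.trans (mul_le_mul_of_nonneg_left hx2 (by positivity))
    refine (it_m_dot_bd hw t3').trans ?_
    calc 6 * (A * (24 * B0 ^ 3 * δ ^ K)) = 144 * (B0 ^ 3 * (A * δ ^ K)) := by ring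
      _ ≤ _ := by linarith only [it_m_up hB (k := 3) (by norm_num) (mul_nonneg hA hK.le)]
  have x1 : |(itR δ p F2).X - (F0.X + (F1.X - F0.X) + (F2.X - F1.X))| ≤ δ ^ p := by
    have : (itR δ p F2).X - (F0.X + (F1.X - F0.X) + (F2.X - F1.X)) = -(F2.X - trep δ p F2.X) := by
      simp only [itR]; ring
    rw [this, abs_neg]
    exact it_m_trep_close h0 p _
  have x2 : |(itR δ p F2).P - (F0.P + 2 * μ.r * (F1.X - F0.X) + 2 * ν.r * (F2.X - F1.X))| ≤ δ ^ p + 18 * B0 ^ 4 * δ ^ R := by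
    have e : (itR δ p F2).P - (F0.P + 2 * μ.r * (F1.X - F0.X) + 2 * ν.r * (F2.X - F1.X))
        = -(F2.P - trep δ p F2.P) + (F2.sub (itmPhi F0 μ ν (F1.X - F0.X) (F2.X - F1.X))).P := by
      simp only [itR, itmPhi, itmLeg, ItPh.sub, if_true]; ring
    rw [e]
    refine (abs_add_le _ _).trans (add_le_add ?_ ((it_k_aux_nrm_le _).2.2.1.trans t1))
    rw [abs_neg]
    exact it_m_trep_close h0 p _
  have hth : |μ.th - ν.th| ≤ 2 * B0 := (abs_sub _ _).trans (by linarith only [hμ1, hν1])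
  have R1 := it_m_com_R1 hx1 hth (wY.trans hw) (wD.trans hw) x1 x2 hpp.le hp1 hB hA he.le
  have R2 := it_m_com_R2 hx1 (wY.trans hw) (wN.trans hw) (wD.trans hw) hμ1 hμ2 hν1 hν2 hB hA
  have id := it_m_com_id w (itR δ p F2) F0 μ ν (F1.X - F0.X) (F2.X - F1.X) (F1'.X - F1.X) hP hX hBc
  rw [← ea, ← eb] at id
  have fin : itDot w (F2'.sub F2) - 2 * (F2.X - F1.X) * (F1'.X - F1.X) * itCom w μ ν
      = itDot w (F2'.sub (itmPhi F0 μ ν (F1'.X - F0.X) (F2'.X - F1'.X)))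
      + itDot w ((itmPhi F0 μ ν (F1'.X - F0.X) (F2'.X - F1'.X)).sub (itmPhi F0 μ ν (F1'.X - F0.X) (F2.X - F1'.X)))
      + ((F1'.X - F1.X) * (μ.th - ν.th) * (2 * w.Y * ((itR δ p F2).X - (F0.X + (F1.X - F0.X) + (F2.X - F1.X)))
      + w.D * ((itR δ p F2).P - (F0.P + 2 * μ.r * (F1.X - F0.X) + 2 * ν.r * (F2.X - F1.X)))))
      + ((F1'.X - F1.X) ^ 2 * (-(w.Y * (μ.th - ν.th)) - w.N * (μ.r - ν.r)
      + w.D * (-(μ.th * μ.r) + 2 * ν.th * μ.r - ν.th * ν.r)))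
      - itDot w (F2.sub (itmPhi F0 μ ν (F1.X - F0.X) (F2.X - F1.X))) := by
    have id' : itDot w (itmPhi F0 μ ν (F1'.X - F0.X) (F2.X - F1'.X)) - itDot w (itmPhi F0 μ ν (F1.X - F0.X) (F2.X - F1.X)) = _ :=
      (it_m_dot_sub w _ _).symm.trans id
    simp only [it_m_dot_sub]
    linarith only [id']
  rw [fin]
  refine (it_m_com_sum D1 D2 R1 R2 D4 (by positivity) (by positivity) (by positivity)).trans (le_of_eq (by ring))

end Claimed.Agent.R256
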