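import Claimed.Agent.R256.Int.ModeKit

/-!
# Row 256, Sec. 5, block MODE, file 4: THE TWO-LEG WALK      (architect helper27; prefix `it_m_`)

Paper free (04 Cor. names:walks for two legs).   `P : FLaw Ω`, kept data `G1 G2 : Ω → γ`.
`ItWalk2 P G1 G2 W` : `W` is a law of `(ω0, ω1, ω2)` with `ω0 ~ P`, `ω1 ~ P( . | G1 = G1 ω0)`, `ω2 ~ P( . | G2 = G2 ω1)`:
stationary, the legs keep their data, each new point is conditionally independent of the history given the kept data.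
* `it_m_walk2_exists`  from `layWalk` (`R256/Lay/Walk.lean`: `lay_walk_stat`, `lay_walk_keep`, `lay_walk_ci`, `lay_walk_prev`), `σ = Ω`, `ξ = Unit`, `n = 2`.
* `it_m_markov`        `X - g - H` Markov, `g` a function of `H`, `C` a function of `g` (on the support)  =>  `I(X ; H | C) ≤ I(X ; g | C)`.
* `it_m_walk2_mi`      `I_W(A(ω1) ; (ω0, B(ω2)) | C(ω1)) ≤ I_P(A ; G1 | C) + I_P(B ; G2 | C)`;   `it_m_walk2_mi'`  `I_W(B(ω2) ; ω1 | C(ω1)) ≤ I_P(B ; G2 | C)`.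
-/

set_option autoImplicit false

namespace Claimed.Agent.R256

open Claimed.Agent.R255
open Claimed.Agent.R255.FLaw (pair)
open scoped BigOperators
open Classical

/-- the two-leg walk law -/
structure ItWalk2 {Ω γ : Type} [Fintype Ω] (P : FLaw Ω) (G1 G2 : Ω → γ) (W : FLaw (Ω × Ω × Ω)) : Prop where
  s0 : W.map (fun h => h.1) = P
  s1 : W.map (fun h => h.2.1) = P
  s2 : W.map (fun h => h.2.2) = P
  k1 : ∀ h, W.p h ≠ 0 → G1 h.2.1 = G1 h.1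
  k2 : ∀ h, W.p h ≠ 0 → G2 h.2.2 = G2 h.2.1
  c1 : W.CI (fun h => h.2.1) (fun h => h.1) (fun h => G1 h.1)
  c2 : W.CI (fun h => h.2.2) (fun h => (h.1, h.2.1)) (fun h => G2 h.2.1)

variable {Ω : Type} [Fintype Ω]

theorem it_m_w1_ci_pull {Ω₁ Ω₂ α β γ : Type} [Fintype Ω₁] [Fintype Ω₂] (P : FLaw Ω₁) (φ : Ω₁ → Ω₂) (U : Ω₂ → α) (V : Ω₂ → β)
    (Z : Ω₂ → γ) (h : (P.map φ).CI U V Z) : P.CI (fun ω => U (φ ω)) (fun ω => V (φ ω)) (fun ω => Z (φ ω)) := by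
  intro u v z
  have h1 := h u v z
  rw [ent_map_pr, ent_map_pr, ent_map_pr, ent_map_pr] at h1
  exact h1

/-- LEAF L-256-INT-MODE-W1.
Plan: `W` = image of `layWalk R G 2` (`R256/Lay/Walk.lean`) with `σ = Ω`, `ξ = Unit`, `R = P.map (fun ω => (ω, ()))`, `G 0 = G1 ∘ Prod.fst`, `G 1 = G2 ∘ Prod.fst`
(e.g. `G k y = if k = 0 then G1 y.1 else G2 y.1`), under `h ↦ (h.1 0, h.1 1, h.1 2)`.
`s0 s1 s2`: `lay_walk_stat` + `lay_wk_map_map` + `lay_wk_map_id`.  `k1 k2`: `lay_wk_map_supp` + `lay_walk_keep` (`j = 0, 1 : Fin 2`).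
`c2`: `lay_walk_ci R G 1`, `ent_ci_comp` (read `(h.1 0, h.1 1)` off the prefix), `lay_wk_map_ci`.
`c1`: `lay_walk_ci R G 0` on `layWalk R G 1 = (layWalk R G 2).map prefix` (`lay_walk_prev`); CI pulls back along `map` by `ent_map_pr` (converse of `lay_wk_map_ci`, same four rewrites). -/
theorem it_m_walk2_exists {γ : Type} (P : FLaw Ω) (G1 G2 : Ω → γ) : ∃ W : FLaw (Ω × Ω × Ω), ItWalk2 P G1 G2 W := by
  obtain ⟨R, hR⟩ : ∃ R : FLaw (Ω × Unit), R = P.map (fun ω => (ω, ())) := ⟨_, rfl⟩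
  obtain ⟨G, hG0, hG1⟩ : ∃ G : ℕ → Ω × Unit → γ, (∀ y, G 0 y = G1 y.1) ∧ (∀ y, G 1 y = G2 y.1) :=
    ⟨fun k y => if k = 0 then G1 y.1 else G2 y.1, fun _ => rfl, fun _ => rfl⟩
  have hG : ∀ k y y', G k y = G k y' → y.2 = y'.2 := fun _ _ _ _ => rfl
  have hRP : R.map Prod.fst = P := by
    rw [hR, lay_wk_map_map]
    exact lay_wk_map_id P _ fun _ => rfl
  have hst : ∀ j : Fin 3, (layWalk R G 2).map (fun h => h.1 j) = P := by
    intro j
    have e := lay_wk_map_map (layWalk R G 2) (fun h => (h.1 j, h.2)) Prod.fst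
    rw [lay_walk_stat R G hG 2 j, hRP] at e
    exact e.symm
  refine ⟨(layWalk R G 2).map (fun h => (h.1 0, h.1 1, h.1 2)), ?_, ?_, ?_, ?_, ?_, ?_, ?_⟩
  · rw [lay_wk_map_map]
    exact hst 0
  · rw [lay_wk_map_map]
    exact hst 1
  · rw [lay_wk_map_map]
    exact hst 2
  · intro h hh
    obtain ⟨y, rfl, hy⟩ := lay_wk_map_supp _ _ hh
    have h1 := lay_walk_keep R G hG 2 y hy 0
    have h2 : G 0 (y.1 1, y.2) = G 0 (y.1 0, y.2) := h1
    rw [hG0, hG0] at h2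
    exact h2
  · intro h hh
    obtain ⟨y, rfl, hy⟩ := lay_wk_map_supp _ _ hh
    have h1 := lay_walk_keep R G hG 2 y hy 1
    have h2 : G 1 (y.1 2, y.2) = G 1 (y.1 1, y.2) := h1
    rw [hG1, hG1] at h2
    exact h2
  · refine lay_wk_map_ci _ _ _ _ _ ?_
    have c := lay_walk_ci R G 0
    rw [← lay_walk_prev R G 1] at c
    have c' := it_m_w1_ci_pull _ _ _ _ _ c
    have c'' := ent_ci_comp _ _ _ _ c' (fun z _ => z) (fun v _ => v.1 0)
    have e : (fun h : (Fin 3 → Ω) × Unit => G 0 (h.1 0, h.2)) = fun h => G1 (h.1 0) := by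
      funext h
      rw [hG0]
    have c3 : (layWalk R G 2).CI (fun h => h.1 1) (fun h => h.1 0) (fun h => G 0 (h.1 0, h.2)) := c''
    rw [e] at c3
    exact c3
  · refine lay_wk_map_ci _ _ _ _ _ ?_
    have c := lay_walk_ci R G 1
    have c'' := ent_ci_comp _ _ _ _ c (fun z _ => z) (fun v _ => (v.1 0, v.1 1))
    have e : (fun h : (Fin 3 → Ω) × Unit => G 1 (h.1 1, h.2)) = fun h => G2 (h.1 1) := by
      funext h
      rw [hG1]
    have c3 : (layWalk R G 2).CI (fun h => h.1 2) (fun h => (h.1 0, h.1 1)) (fun h => G 1 (h.1 1, h.2)) := c''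
    rw [e] at c3
    exact c3

/-- `miC` only depends on the kernels of the observations ON THE SUPPORT -/
theorem it_m_miC_congr {α α' β β' γ γ' : Type} (P : FLaw Ω) (X : Ω → α) (X' : Ω → α') (Y : Ω → β) (Y' : Ω → β') (Z : Ω → γ)
    (Z' : Ω → γ') (hX : ∀ ω ω', P.p ω ≠ 0 → P.p ω' ≠ 0 → (X ω = X ω' ↔ X' ω = X' ω'))
    (hY : ∀ ω ω', P.p ω ≠ 0 → P.p ω' ≠ 0 → (Y ω = Y ω' ↔ Y' ω = Y' ω'))
    (hZ : ∀ ω ω', P.p ω ≠ 0 → P.p ω' ≠ 0 → (Z ω = Z ω' ↔ Z' ω = Z' ω')) : P.miC X Y Z = P.miC X' Y' Z' := by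
  unfold FLaw.miC
  rw [ent_congr_ker P (pair X Z) (pair X' Z') (fun ω ω' h h' => by simp only [pair, Prod.mk.injEq, hX ω ω' h h', hZ ω ω' h h']),
    ent_congr_ker P (pair Y Z) (pair Y' Z') (fun ω ω' h h' => by simp only [pair, Prod.mk.injEq, hY ω ω' h h', hZ ω ω' h h']),
    ent_congr_ker P (pair (pair X Y) Z) (pair (pair X' Y') Z') (fun ω ω' h h' => by
      simp only [pair, Prod.mk.injEq, hX ω ω' h h', hY ω ω' h h', hZ ω ω' h h']),
    ent_congr_ker P Z Z' hZ]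

/-- LEAF L-256-INT-MODE-W2.  Markov chain `X0 - g - H`.
Plan: `miC X H C = miC X (pair H g) C` (`it_m_miC_congr`) `= miC X g C + miC X H (pair g C)` (`ent_miC_chain`), `miC X H (pair g C) = miC X H g` (congr on the support)
`≤ miC X0 H g` (`it_m_mi_first`) `= 0` (`ent_ci_iff`). -/
theorem it_m_markov {α₀ α β γ κ : Type} (W : FLaw Ω) (X0 : Ω → α₀) (X : Ω → α) (H : Ω → β) (g : Ω → γ) (C : Ω → κ)
    (hci : W.CI X0 H g) (hX : ∀ ω ω', X0 ω = X0 ω' → X ω = X ω') (hg : ∀ ω ω', H ω = H ω' → g ω = g ω')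
    (hC : ∀ ω ω', W.p ω ≠ 0 → W.p ω' ≠ 0 → g ω = g ω' → C ω = C ω') : W.miC X H C ≤ W.miC X g C := by
  have e1 : W.miC X H C = W.miC X (pair H g) C :=
    it_m_miC_congr W X X H (pair H g) C C (fun _ _ _ _ => Iff.rfl)
      (fun ω ω' _ _ => ⟨fun h => Prod.ext h (hg ω ω' h), fun h => congrArg Prod.fst h⟩) (fun _ _ _ _ => Iff.rfl)
  have e2 : W.miC X H (pair g C) = W.miC X H g :=
    it_m_miC_congr W X X H H (pair g C) g (fun _ _ _ _ => Iff.rfl) (fun _ _ _ _ => Iff.rfl)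
      (fun ω ω' h h' => ⟨fun e => congrArg Prod.fst e, fun e => Prod.ext e (hC ω ω' h h' e)⟩)
  have e3 : W.miC X H g ≤ 0 := (it_m_mi_first W X0 X H g hX).trans (le_of_eq ((ent_ci_iff W X0 H g).1 hci))
  rw [e1, ent_miC_chain W X H g C, e2]
  linarith

/-- LEAF L-256-INT-MODE-W2.
Plan: `it_m_markov` with `X0 = π2`, `H = (π0, π1)`, `g = G2 ∘ π1`, `hW.c2`;  then `g = G2 ∘ π2`, `C ∘ π1 = C ∘ π2` on the support (`hW.k2`, `hc2`; `it_m_miC_congr`);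
then `ent_map_miC` and `hW.s2`. -/
theorem it_m_walk2_mi' {γ β κ : Type} (P : FLaw Ω) (G1 G2 : Ω → γ) (W : FLaw (Ω × Ω × Ω)) (hW : ItWalk2 P G1 G2 W)
    (B : Ω → β) (C : Ω → κ) (c2 : γ → κ) (hc2 : ∀ ω, C ω = c2 (G2 ω)) :
    W.miC (fun h => B h.2.2) (fun h => (h.1, h.2.1)) (fun h => C h.2.1) ≤ P.miC B G2 C := by
  have h1 := it_m_markov W (fun h => h.2.2) (fun h => B h.2.2) (fun h => (h.1, h.2.1)) (fun h => G2 h.2.1) (fun h => C h.2.1) hW.c2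
    (fun _ _ e => congrArg B e) (fun _ _ e => congrArg G2 (congrArg Prod.snd e)) (fun ω ω' _ _ e => by
      show C ω.2.1 = C ω'.2.1
      rw [hc2, hc2]
      exact congrArg c2 e)
  have hC : ∀ h : Ω × Ω × Ω, W.p h ≠ 0 → C h.2.1 = C h.2.2 := fun h hh => by rw [hc2, hc2, hW.k2 h hh]
  have h2 : W.miC (fun h => B h.2.2) (fun h => G2 h.2.1) (fun h => C h.2.1) = W.miC (fun h => B h.2.2) (fun h => G2 h.2.2) (fun h => C h.2.2) :=
    it_m_miC_congr W _ _ _ _ _ _ (fun _ _ _ _ => Iff.rfl) (fun ω ω' h h' => by rw [hW.k2 ω h, hW.k2 ω' h'])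
      (fun ω ω' h h' => by rw [hC ω h, hC ω' h'])
  have h3 : W.miC (fun h => B h.2.2) (fun h => G2 h.2.2) (fun h => C h.2.2) = P.miC B G2 C := by
    rw [← hW.s2, ent_map_miC]
  rw [h2, h3] at h1
  exact h1

/-- LEAF L-256-INT-MODE-W2.
Plan: `ent_miC_chain`: `I(A1 ; (π0, B2) | C1) = I(A1 ; B2 | C1) + I(A1 ; π0 | (B2, C1))` is the WRONG order; use the pair in the order `(B2, π0)` (congr):
`I(A1 ; (B2, π0) | C1) = I(A1 ; π0 | C1) + I(A1 ; B2 | (π0, C1))`.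
First term: `it_m_markov` (`X0 = π1`, `H = π0`, `g = G1 ∘ π0`, `hW.c1`), `g = G1 ∘ π1` on the support (`hW.k1`), `ent_map_miC`, `hW.s1`.
Second term: `= I(B2 ; A1 | (π0, C1)) ≤ I(B2 ; (A1, π0) | C1)` (`ent_miC_comm`, `ent_miC_chain`, `ent_miC_nonneg`) `≤ I(B2 ; (π0, π1) | C1)` (`ent_miC_mono`) `≤` `it_m_walk2_mi'`. -/
theorem it_m_walk2_mi {γ α β κ : Type} (P : FLaw Ω) (G1 G2 : Ω → γ) (W : FLaw (Ω × Ω × Ω)) (hW : ItWalk2 P G1 G2 W)
    (A : Ω → α) (B : Ω → β) (C : Ω → κ) (c1 c2 : γ → κ) (hc1 : ∀ ω, C ω = c1 (G1 ω)) (hc2 : ∀ ω, C ω = c2 (G2 ω)) :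
    W.miC (fun h => A h.2.1) (pair (fun h => h.1) (fun h => B h.2.2)) (fun h => C h.2.1) ≤ P.miC A G1 C + P.miC B G2 C := by
  have e1 : W.miC (fun h => A h.2.1) (pair (fun h => h.1) (fun h => B h.2.2)) (fun h => C h.2.1)
      = W.miC (fun h => A h.2.1) (pair (fun h => B h.2.2) (fun h => h.1)) (fun h => C h.2.1) :=
    it_m_miC_congr W _ _ _ _ _ _ (fun _ _ _ _ => Iff.rfl)
      (fun ω ω' _ _ => ⟨fun e => Prod.ext (Prod.mk.inj e).2 (Prod.mk.inj e).1, fun e => Prod.ext (Prod.mk.inj e).2 (Prod.mk.inj e).1⟩)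
      (fun _ _ _ _ => Iff.rfl)
  -- the first leg
  have f1 := it_m_markov W (fun h => h.2.1) (fun h => A h.2.1) (fun h => h.1) (fun h => G1 h.1) (fun h => C h.2.1) hW.c1
    (fun _ _ e => congrArg A e) (fun _ _ e => congrArg G1 e) (fun ω ω' h h' e => by
      show C ω.2.1 = C ω'.2.1
      rw [hc1, hc1, hW.k1 ω h, hW.k1 ω' h']
      exact congrArg c1 e)
  have f2 : W.miC (fun h => A h.2.1) (fun h => G1 h.1) (fun h => C h.2.1) = W.miC (fun h => A h.2.1) (fun h => G1 h.2.1) (fun h => C h.2.1) :=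
    it_m_miC_congr W _ _ _ _ _ _ (fun _ _ _ _ => Iff.rfl) (fun ω ω' h h' => by rw [hW.k1 ω h, hW.k1 ω' h']) (fun _ _ _ _ => Iff.rfl)
  have f3 : W.miC (fun h => A h.2.1) (fun h => G1 h.2.1) (fun h => C h.2.1) = P.miC A G1 C := by
    rw [← hW.s1, ent_map_miC]
  rw [f2, f3] at f1
  -- the second leg
  have g1 : W.miC (fun h => A h.2.1) (fun h => B h.2.2) (pair (fun h => h.1) (fun h => C h.2.1))
      ≤ W.miC (fun h => B h.2.2) (pair (fun h => A h.2.1) (fun h => h.1)) (fun h => C h.2.1) := by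
    rw [ent_miC_comm, ent_miC_chain W (fun h => B h.2.2) (fun h => A h.2.1) (fun h => h.1) (fun h => C h.2.1)]
    linarith [ent_miC_nonneg W (fun h => B h.2.2) (fun h => h.1) (fun h => C h.2.1)]
  have g2 : W.miC (fun h => B h.2.2) (pair (fun h => A h.2.1) (fun h => h.1)) (fun h => C h.2.1)
      ≤ W.miC (fun h => B h.2.2) (fun h => (h.1, h.2.1)) (fun h => C h.2.1) :=
    ent_miC_mono W _ _ _ _ (fun ω ω' _ _ e _ => Prod.ext (congrArg A (Prod.mk.inj e).2) (Prod.mk.inj e).1)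
  have g3 := it_m_walk2_mi' P G1 G2 W hW B C c2 hc2
  rw [e1, ent_miC_chain W (fun h => A h.2.1) (fun h => B h.2.2) (fun h => h.1) (fun h => C h.2.1)]
  linarith

/-- scores travel along a stationary coordinate -/
theorem it_m_map_sur {Ω' α β : Type} [Fintype Ω'] (W : FLaw Ω') (φ : Ω' → Ω) (P : FLaw Ω) (h : W.map φ = P) (X : Ω → α) (Y : Ω → β)
    (E : ℝ → Ω → Prop) :
    P.pr (fun ω => E (P.surC X Y ω) ω) = W.pr (fun x => E (W.surC (fun x => X (φ x)) (fun x => Y (φ x)) x) (φ x)) := by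
  subst h
  rw [ent_map_pr]
  refine ent_pr_congr W fun x _ => ?_
  rw [ent_map_surC]

theorem it_m_map_supp {Ω' : Type} [Fintype Ω'] (W : FLaw Ω') (φ : Ω' → Ω) (P : FLaw Ω) (h : W.map φ = P) {x : Ω'} (hx : W.p x ≠ 0) :
    P.p (φ x) ≠ 0 := by
  subst h
  exact ent_map_supp W φ hx

end Claimed.Agent.R256
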