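import Claimed.Agent.R256.Int.ModeAng
import Claimed.Agent.R256.Int.ModeGeo2
import Claimed.Agent.R256.Int.ModeWalk

/-!
# Row 256, Sec. 5, block MODE, file 6: THE COMMUTATOR MODE      (architect helper27; prefix `it_m_`)

`it_m_mode_com` = `it_mode_com` of `Int/Meta.lean` (same statement, proved here).
Plan (05 Lemma int:modes-geometric, second half).  Two-leg walk `x = (ω0, ω1, ω2)`, leg 1 keeps `(Q_i, Ξ, C_*)`, leg 2 keeps `(Q_j, Ξ, C_*)` (`ItWalk2`).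
The reading is scored at `ω2` (stationarity).   `Yp = ((ω0, X_K(ω2)), (X_p(ω1), C_*))`,  `U = X_s(ω1)`.
 N1  `F_p(ω2)` is listed by `Yp`;   N2  central held readings which kill `b_ij` are listed by `(F_p(ω2), Yp)`;
 N3  on `|itCom u| ≥ δ^χ`, `|X(ω2) - X(ω1)| ≥ δ^χ1` the name `X_s(ω1)` is listed by `(F_p(ω2), u_s(ω2), Yp)` up to `δ^(-χ-χ1)`.
 Separation `|X(ω2) - X(ω1)| ≥ δ^χ1` by `ltk_sep` (uses `m > 0`).   Then `it_m_asm` on the walk law.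
-/

set_option autoImplicit false

namespace Claimed.Agent.R256

open Claimed.Agent.R255
open Claimed.Agent.R255.FLaw (pair)
open scoped BigOperators
open Classical

/-- the data kept by the leg `i` -/
noncomputable def Tan.mG (T : Tan) (pk : ItPk) (i : ℕ) : T.Ω → (((ℤ × ℤ × ℤ) × (ℤ × ℤ)) × (Fin pk.M → ItMk)) × T.γ :=
  pair (pair (T.Qn pk.RQ i) (T.Xi pk.M)) T.Cs

/-- the constant loss of the commutator transfer -/
noncomputable def itmC2 (B0 A : ℝ) : ℝ :=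
  Real.log ((408 * B0 ^ 5 + 2) ^ 6 * (2400 * B0 ^ 5 * A + 2) ^ 3) + Real.log ((408 * B0 ^ 5 + 2) ^ 6 * (2400 * B0 ^ 5 * A + 4))

theorem it_m_com_eqns_cite : True := by
  have := @Tan.mG.eq_1; have := @itmC2.eq_1
  trivial

theorem it_m_map_pr {Ω Ω' : Type} [Fintype Ω] [Fintype Ω'] (W : FLaw Ω') (φ : Ω' → Ω) (P : FLaw Ω) (h : W.map φ = P)
    (E : Ω → Prop) : P.pr E = W.pr (fun x => E (φ x)) := by
  subst h
  exact ent_map_pr W φ E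

section tan

variable (T : Tan)

/-- the budget of one leg -/
theorem it_m_G_mi (a : ItPar) (pk : ItPk) (acc : ℝ) (hI : T.AdmI a pk acc) (h0 : 0 < T.δ) (h1 : T.δ < 1) {s : ℝ}
    (hsK : s ≤ pk.K) {i : ℕ} (hi : i < pk.M) : T.P.miC (T.Xn s) (T.mG pk i) T.Cs ≤ acc * T.L := by
  have e1 : T.P.miC (T.Xn s) (T.mG pk i) T.Cs ≤ T.P.miC (T.Xn s) (pair (T.Qn pk.RQ i) (T.Xi pk.M)) T.Cs :=
    ent_miC_mono T.P _ _ _ _ (fun ω ω' _ _ e1 e2 => by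
      unfold Tan.mG pair
      unfold pair at e1
      rw [e1, e2])
  have e2 : T.P.miC (T.Xn s) (pair (T.Qn pk.RQ i) (T.Xi pk.M)) T.Cs
      ≤ T.P.miC (T.Xn pk.K) (pair (T.Qn pk.RQ i) (T.Xi pk.M)) T.Cs :=
    it_m_mi_first T.P _ _ _ _ (fun ω ω' e => by
      rw [it_m_Xn_fun T h0 h1 hsK ω, it_m_Xn_fun T h0 h1 hsK ω', e])
  exact e1.trans (e2.trans (hI.fib i hi))

/-- what a sample of the walk satisfies -/
theorem it_m_w_facts (a : ItPar) (pk : ItPk) (h : T.Adm0 a pk) (hq : T.quad = true) {i j : ℕ} (hi : i < pk.M) (hj : j < pk.M)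
    {W : FLaw (T.Ω × T.Ω × T.Ω)} (hW : ItWalk2 T.P (T.mG pk i) (T.mG pk j) W) {x : T.Ω × T.Ω × T.Ω} (hx : W.p x ≠ 0) :
    T.P.p x.1 ≠ 0 ∧ T.P.p x.2.1 ≠ 0 ∧ T.P.p x.2.2 ≠ 0 ∧ T.Xi pk.M x.2.1 = T.Xi pk.M x.1 ∧ T.Xi pk.M x.2.2 = T.Xi pk.M x.1 ∧
      T.Cs x.2.1 = T.Cs x.1 ∧ T.Cs x.2.2 = T.Cs x.1 ∧
      ItTwo T.δ pk.RQ a.B0 (T.mrk i x.1) (T.mrk j x.1) (T.F x.1) (T.F x.2.1) (T.F x.2.2) := by
  have p0 := it_m_map_supp W _ T.P hW.s0 hx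
  have p1 := it_m_map_supp W _ T.P hW.s1 hx
  have p2 := it_m_map_supp W _ T.P hW.s2 hx
  have k1 := hW.k1 x hx
  have k2 := hW.k2 x hx
  simp only [Tan.mG, pair, Prod.mk.injEq] at k1 k2
  obtain ⟨⟨q1, x1⟩, c1⟩ := k1
  obtain ⟨⟨q2, x2⟩, c2⟩ := k2
  have mi1 : T.mrk i x.2.1 = T.mrk i x.1 := congrFun x1 ⟨i, hi⟩
  have mj1 : T.mrk j x.2.1 = T.mrk j x.1 := congrFun x1 ⟨j, hj⟩
  have mj2 : T.mrk j x.2.2 = T.mrk j x.2.1 := congrFun x2 ⟨j, hj⟩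
  refine ⟨p0, p1, p2, x1, x2.trans x1, c1, c2.trans c1, h.bdF _ p0, h.bdF _ p1, h.bdF _ p2, ?_, ?_⟩
  · unfold Tan.Qn at q1
    rw [mi1, hq] at q1
    exact q1.symm
  · unfold Tan.Qn at q2
    rw [mj2, mj1, hq] at q2
    exact q2.symm

/-- two samples of the walk with the same origin: closeness of the end points -/
theorem it_m_w_close (a : ItPar) (pk : ItPk) (h : T.Adm0 a pk) (hB : 1 ≤ a.B0) (hq : T.quad = true) {i j : ℕ} (hi : i < pk.M)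
    (hj : j < pk.M) {W : FLaw (T.Ω × T.Ω × T.Ω)} (hW : ItWalk2 T.P (T.mG pk i) (T.mG pk j) W) {p : ℝ} (hp : 0 ≤ p)
    (hpK : p ≤ pk.K) (hKR : pk.K ≤ pk.RQ) {x x' : T.Ω × T.Ω × T.Ω} (hx : W.p x ≠ 0) (hx' : W.p x' ≠ 0) (e0 : x.1 = x'.1)
    (e2 : T.Xn pk.K x.2.2 = T.Xn pk.K x'.2.2) (e1 : T.Xn p x.2.1 = T.Xn p x'.2.1) :
    ((T.F x.2.2).sub (T.F x'.2.2)).nrm ≤ 204 * a.B0 ^ 5 * T.δ ^ p := by
  obtain ⟨p0, -, -, -, -, -, -, two⟩ := it_m_w_facts T a pk h hq hi hj hW hx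
  obtain ⟨-, -, -, -, -, -, -, two'⟩ := it_m_w_facts T a pk h hq hi hj hW hx'
  rw [← e0] at two'
  obtain ⟨a1, a2, -⟩ := h.bdM _ p0 i hi
  obtain ⟨b1, b2, -⟩ := h.bdM _ p0 j hj
  exact it_m_com_close h.δ0 h.δ1 hB hp (hpK.trans hKR) hpK two' two a1 a2 b1 b2 (it_m_cell_close h.δ0 e1)
    (it_m_cell_close h.δ0 e2)

/-- two samples of the walk with the same origin: the value of a central frozen reading -/
theorem it_m_w_val (a : ItPar) (pk : ItPk) (h : T.Adm0 a pk) (hB : 1 ≤ a.B0) (hq : T.quad = true) {i j : ℕ} (hi : i < pk.M)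
    (hj : j < pk.M) {W : FLaw (T.Ω × T.Ω × T.Ω)} (hW : ItWalk2 T.P (T.mG pk i) (T.mG pk j) W) {p A : ℝ} (hp : 0 ≤ p)
    (hR : 0 ≤ pk.RQ) {x x' : T.Ω × T.Ω × T.Ω} (hx : W.p x ≠ 0) (hx' : W.p x' ≠ 0) (e0 : x.1 = x'.1)
    (e2 : T.Xn pk.K x.2.2 = T.Xn pk.K x'.2.2) (e1 : T.Xn p x.2.1 = T.Xn p x'.2.1) (eF : T.Fn p x.2.2 = T.Fn p x'.2.2)
    (w : ItSym) (hw : w.Reg pk.M a.B0 A) (hc : w.Cen) :
    |itVal (T.fld p w x.2.2) (T.F x.2.2) (T.f0 p x.2.2) - itVal (T.fld p w x'.2.2) (T.F x'.2.2) (T.f0 p x'.2.2)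
      - 2 * ((T.F x'.2.2).X - (T.F x'.2.1).X) * ((T.F x.2.1).X - (T.F x'.2.1).X)
        * itCom (T.fld p w x.2.2) (T.mrk i x.2.2) (T.mrk j x.2.2)|
      ≤ 400 * a.B0 ^ 5 * A * (T.δ ^ pk.RQ + T.δ ^ pk.K + T.δ ^ (2 * p)) := by
  obtain ⟨p0, -, p2, -, X2, -, -, two⟩ := it_m_w_facts T a pk h hq hi hj hW hx
  obtain ⟨-, -, -, -, X2', -, -, two'⟩ := it_m_w_facts T a pk h hq hi hj hW hx'
  rw [← e0] at two' X2'
  obtain ⟨a1, a2, -⟩ := h.bdM _ p0 i hi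
  obtain ⟨b1, b2, -⟩ := h.bdM _ p0 j hj
  have hΞ : T.Xi pk.M x.2.2 = T.Xi pk.M x'.2.2 := X2.trans X2'.symm
  have mi : T.mrk i x.2.2 = T.mrk i x.1 := congrFun X2 ⟨i, hi⟩
  have mj : T.mrk j x.2.2 = T.mrk j x.1 := congrFun X2 ⟨j, hj⟩
  have hf0 := it_m_f0_congr T eF
  obtain ⟨c1, c2, c3⟩ := hc (T.f0 p x.2.2) (fun k => T.mrk k x.2.2)
  rw [← it_m_fld_congr T w hw eF hΞ, ← hf0, it_m_val_sub, mi, mj]
  refine it_m_com_core h.δ0 h.δ1 hB hp hR two' two a1 a2 b1 b2 (it_m_cell_close h.δ0 e1) (it_m_cell_close h.δ0 e2) _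
    (it_m_fld_nrm T a pk h w hw hp p2) c1 ?_ ?_
  · have : itR T.δ p (T.F x'.2.2) = T.f0 p x.2.2 := hf0.symm
    rw [this]; exact c2
  · have : itR T.δ p (T.F x'.2.2) = T.f0 p x.2.2 := hf0.symm
    rw [this]; exact c3

/-- N1 : the parent phase name of the end point is listed -/
theorem it_m_com_N1 (a : ItPar) (pk : ItPk) (h : T.Adm0 a pk) (hB : 1 ≤ a.B0) (hq : T.quad = true) {i j : ℕ} (hi : i < pk.M)
    (hj : j < pk.M) {W : FLaw (T.Ω × T.Ω × T.Ω)} (hW : ItWalk2 T.P (T.mG pk i) (T.mG pk j) W) {p : ℝ} (hp : 0 ≤ p)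
    (hpK : p ≤ pk.K) (hKR : pk.K ≤ pk.RQ) (G : T.Ω × T.Ω × T.Ω → Prop) :
    W.NVal G (fun x => T.Fn p x.2.2)
      (pair (pair (fun x => x.1) (fun x => T.Xn pk.K x.2.2)) (pair (fun x => T.Xn p x.2.1) (fun x => T.Cs x.2.1)))
      ((408 * a.B0 ^ 5 + 2) ^ 6) := by
  have hpp : 0 < T.δ ^ p := Real.rpow_pos_of_pos h.δ0 p
  have := it_m_nval_itF W G
    (pair (pair (fun x => x.1) (fun x => T.Xn pk.K x.2.2)) (pair (fun x => T.Xn p x.2.1) (fun x => T.Cs x.2.1)))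
    (fun x => T.F x.2.2) (R := 204 * a.B0 ^ 5 * T.δ ^ p) h.δ0 h.δ1 hp (by positivity) (by
      intro x x' hx hx' _ _ hY
      simp only [pair, Prod.mk.injEq] at hY
      exact it_m_w_close T a pk h hB hq hi hj hW hp hpK hKR hx hx' hY.1.1 hY.1.2 hY.2.1)
  have e : 2 * (204 * a.B0 ^ 5 * T.δ ^ p) * T.δ ^ (-p) + 2 = 408 * a.B0 ^ 5 + 2 := by
    have := it_m_pow_cancel h.δ0 p
    calc _ = 408 * a.B0 ^ 5 * (T.δ ^ p * T.δ ^ (-p)) + 2 := by ring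
      _ = _ := by rw [this]; ring
  rw [e] at this
  exact this

/-- N2 : central held readings which kill the commutator mode are listed -/
theorem it_m_com_N2 (a : ItPar) (pk : ItPk) (h : T.Adm0 a pk) (hB : 1 ≤ a.B0) (hq : T.quad = true) {i j : ℕ} (hi : i < pk.M)
    (hj : j < pk.M) {W : FLaw (T.Ω × T.Ω × T.Ω)} (hW : ItWalk2 T.P (T.mG pk i) (T.mG pk j) W) {p q A : ℝ} (hp : 0 ≤ p)
    (hpq : p ≤ q) (hq2 : q ≤ 2 * p) (hqK : q ≤ pk.K) (hKR : pk.K ≤ pk.RQ) (hA : 0 ≤ A) (V : List ItSym)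
    (hV : ∀ v ∈ V, ItSym.Reg v pk.M a.B0 A ∧ ItSym.Cen v)
    (hkill : ∀ v ∈ V, ∀ f Ξ, itCom (v f Ξ) (Ξ i) (Ξ j) = 0) (G : T.Ω × T.Ω × T.Ω → Prop) :
    W.NVal G (fun x => T.rd p q (V.map (T.fld p)) x.2.2)
      (pair (fun x => T.Fn p x.2.2)
        (pair (pair (fun x => x.1) (fun x => T.Xn pk.K x.2.2)) (pair (fun x => T.Xn p x.2.1) (fun x => T.Cs x.2.1))))
      ((2400 * a.B0 ^ 5 * A + 2) ^ V.length) := by
  have hqq : 0 < T.δ ^ q := Real.rpow_pos_of_pos h.δ0 q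
  have := it_m_nval_list W G (pair (fun x => T.Fn p x.2.2)
      (pair (pair (fun x => x.1) (fun x => T.Xn pk.K x.2.2)) (pair (fun x => T.Xn p x.2.1) (fun x => T.Cs x.2.1))))
    (V.map (T.fld p)) (fun u x => itVal (u x.2.2) (T.F x.2.2) (T.f0 p x.2.2)) (s := q)
    (R := 1200 * a.B0 ^ 5 * A * T.δ ^ q) h.δ0 h.δ1 (hp.trans hpq) (by positivity) (by
      intro u hu x x' hx hx' _ _ hY
      obtain ⟨v, hv, rfl⟩ := List.mem_map.1 hu
      simp only [pair, Prod.mk.injEq] at hY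
      have hval := it_m_w_val T a pk h hB hq hi hj hW hp (((hp.trans hpq).trans hqK).trans hKR) hx hx' hY.2.1.1 hY.2.1.2
        hY.2.2.1 hY.1 v (hV v hv).1 (hV v hv).2
      have hk : itCom (T.fld p v x.2.2) (T.mrk i x.2.2) (T.mrk j x.2.2) = 0 := hkill v hv _ _
      rw [hk, mul_zero, sub_zero] at hval
      refine hval.trans ?_
      have e1 : T.δ ^ pk.RQ ≤ T.δ ^ q := it_m_pow_le h.δ0 h.δ1 (hqK.trans hKR)
      have e2 : T.δ ^ (2 * p) ≤ T.δ ^ q := it_m_pow_le h.δ0 h.δ1 hq2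
      have e3 : T.δ ^ pk.K ≤ T.δ ^ q := it_m_pow_le h.δ0 h.δ1 hqK
      have hc : 0 ≤ 400 * a.B0 ^ 5 * A := by positivity
      nlinarith [mul_le_mul_of_nonneg_left e1 hc, mul_le_mul_of_nonneg_left e2 hc, mul_le_mul_of_nonneg_left e3 hc])
  have e : 2 * (1200 * a.B0 ^ 5 * A * T.δ ^ q) * T.δ ^ (-q) + 2 = 2400 * a.B0 ^ 5 * A + 2 := by
    have := it_m_pow_cancel h.δ0 q
    calc _ = 2400 * a.B0 ^ 5 * A * (T.δ ^ q * T.δ ^ (-q)) + 2 := by ring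
      _ = _ := by rw [this]; ring
  rw [e, List.length_map] at this
  exact this

/-- N3 : the middle angular name is listed by a central reading which sees the commutator mode -/
theorem it_m_com_N3 (a : ItPar) (pk : ItPk) (h : T.Adm0 a pk) (hB : 1 ≤ a.B0) (hq : T.quad = true) {i j : ℕ} (hi : i < pk.M)
    (hj : j < pk.M) {W : FLaw (T.Ω × T.Ω × T.Ω)} (hW : ItWalk2 T.P (T.mG pk i) (T.mG pk j) W) {p s A χ χ1 : ℝ} (hp : 0 ≤ p)
    (hps : p ≤ s) (hs2 : s ≤ 2 * p) (hsK : s ≤ pk.K) (hKR : pk.K ≤ pk.RQ) (hA : 0 ≤ A) (hχ : 0 ≤ χ) (hχ1 : 0 ≤ χ1) (u : ItSym)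
    (hu : u.Reg pk.M a.B0 A) (hc : u.Cen) :
    W.NVal (fun x => T.δ ^ χ ≤ |itCom (T.fld p u x.2.2) (T.mrk i x.2.2) (T.mrk j x.2.2)| ∧
        T.δ ^ χ1 ≤ |(T.F x.2.2).X - (T.F x.2.1).X|) (fun x => T.Xn s x.2.1)
      (pair (fun x => T.Fn p x.2.2) (pair (fun x => T.rd p s [T.fld p u] x.2.2)
        (pair (pair (fun x => x.1) (fun x => T.Xn pk.K x.2.2)) (pair (fun x => T.Xn p x.2.1) (fun x => T.Cs x.2.1)))))
      ((2400 * a.B0 ^ 5 * A + 4) * T.δ ^ (-(χ + χ1))) := by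
  have hss : 0 < T.δ ^ s := Real.rpow_pos_of_pos h.δ0 s
  have hcc : 0 < T.δ ^ χ := Real.rpow_pos_of_pos h.δ0 χ
  have hc1 : 0 < T.δ ^ χ1 := Real.rpow_pos_of_pos h.δ0 χ1
  have hc2 : 0 < T.δ ^ (χ + χ1) := Real.rpow_pos_of_pos h.δ0 _
  have hsc : 0 < T.δ ^ (s - (χ + χ1)) := Real.rpow_pos_of_pos h.δ0 _
  have := it_m_nval_cell W (fun x => T.δ ^ χ ≤ |itCom (T.fld p u x.2.2) (T.mrk i x.2.2) (T.mrk j x.2.2)| ∧
        T.δ ^ χ1 ≤ |(T.F x.2.2).X - (T.F x.2.1).X|)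
    (pair (fun x => T.Fn p x.2.2) (pair (fun x => T.rd p s [T.fld p u] x.2.2)
        (pair (pair (fun x => x.1) (fun x => T.Xn pk.K x.2.2)) (pair (fun x => T.Xn p x.2.1) (fun x => T.Cs x.2.1)))))
    (fun x => (T.F x.2.1).X) (s := s) (R := (1200 * a.B0 ^ 5 * A + 1) * T.δ ^ (s - (χ + χ1))) h.δ0 h.δ1 (hp.trans hps)
    (by positivity) (by
      intro x x' hx hx' hG hG' hY
      simp only [pair, Prod.mk.injEq] at hY
      have hval := it_m_w_val T a pk h hB hq hi hj hW hp (((hp.trans hps).trans hsK).trans hKR) hx hx' hY.2.2.1.1 hY.2.2.1.2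
        hY.2.2.2.1 hY.1 u hu hc
      have hcell : tcell T.δ s (itVal (T.fld p u x.2.2) (T.F x.2.2) (T.f0 p x.2.2))
          = tcell T.δ s (itVal (T.fld p u x'.2.2) (T.F x'.2.2) (T.f0 p x'.2.2)) := by
        have := hY.2.1
        simpa [Tan.rd] using this
      have hcl := it_m_cell_close h.δ0 hcell
      have e1 : T.δ ^ pk.RQ ≤ T.δ ^ s := it_m_pow_le h.δ0 h.δ1 (hsK.trans hKR)
      have e2 : T.δ ^ (2 * p) ≤ T.δ ^ s := it_m_pow_le h.δ0 h.δ1 hs2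
      have e3 : T.δ ^ pk.K ≤ T.δ ^ s := it_m_pow_le h.δ0 h.δ1 hsK
      have hcst : 0 ≤ 400 * a.B0 ^ 5 * A := by positivity
      generalize itVal (T.fld p u x.2.2) (T.F x.2.2) (T.f0 p x.2.2)
        - itVal (T.fld p u x'.2.2) (T.F x'.2.2) (T.f0 p x'.2.2) = dv at hval hcl
      generalize itCom (T.fld p u x.2.2) (T.mrk i x.2.2) (T.mrk j x.2.2) = c at hval hG
      generalize (T.F x'.2.2).X - (T.F x'.2.1).X = b at hval hG'
      show |(T.F x.2.1).X - (T.F x'.2.1).X| ≤ _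
      generalize (T.F x.2.1).X - (T.F x'.2.1).X = d at hval
      have hprod : |2 * b * d * c| ≤ (1200 * a.B0 ^ 5 * A + 1) * T.δ ^ s := by
        have key : ∀ x y : ℝ, |y| ≤ |x| + |x - y| := fun x y => by
          have := abs_sub_abs_le_abs_sub y x
          rw [abs_sub_comm y x] at this
          linarith
        have t1 := key dv (2 * b * d * c)
        nlinarith [mul_le_mul_of_nonneg_left e1 hcst, mul_le_mul_of_nonneg_left e2 hcst, mul_le_mul_of_nonneg_left e3 hcst]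
      have h3 : |d| * T.δ ^ (χ + χ1) ≤ (1200 * a.B0 ^ 5 * A + 1) * T.δ ^ s := by
        refine le_trans ?_ hprod
        rw [Real.rpow_add h.δ0, abs_mul, abs_mul, abs_mul, abs_two]
        have m1 : T.δ ^ χ * T.δ ^ χ1 ≤ |c| * |b| := mul_le_mul hG.1 hG'.2 hc1.le (abs_nonneg _)
        have m2 := mul_le_mul_of_nonneg_left m1 (abs_nonneg d)
        have m3 : 0 ≤ |d| * (|c| * |b|) := by positivity
        nlinarith
      rw [Real.rpow_sub h.δ0, ← mul_div_assoc, le_div_iff₀ hc2]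
      exact h3)
  refine it_m_nval_le W this ?_
  have hone : 1 ≤ T.δ ^ (-(χ + χ1)) := Real.one_le_rpow_of_pos_of_le_one_of_nonpos h.δ0 h.δ1.le (by linarith)
  have e : T.δ ^ (s - (χ + χ1)) * T.δ ^ (-s) = T.δ ^ (-(χ + χ1)) := by
    rw [← Real.rpow_add h.δ0]; congr 1; ring
  calc 2 * ((1200 * a.B0 ^ 5 * A + 1) * T.δ ^ (s - (χ + χ1))) * T.δ ^ (-s) + 2
      = (2400 * a.B0 ^ 5 * A + 2) * (T.δ ^ (s - (χ + χ1)) * T.δ ^ (-s)) + 2 := by ring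
    _ = (2400 * a.B0 ^ 5 * A + 2) * T.δ ^ (-(χ + χ1)) + 2 := by rw [e]
    _ ≤ (2400 * a.B0 ^ 5 * A + 4) * T.δ ^ (-(χ + χ1)) := by nlinarith

/-- SEPARATION of the two last angular positions of the walk (uses the lower angular window at the depth `χ1`) -/
theorem it_m_com_sep (a : ItPar) (pk : ItPk) (acc : ℝ) (hI : T.AdmI a pk acc) (h : T.Adm0 a pk) (hq : T.quad = true) {i j : ℕ}
    (hi : i < pk.M) (hj : j < pk.M) {W : FLaw (T.Ω × T.Ω × T.Ω)} (hW : ItWalk2 T.P (T.mG pk i) (T.mG pk j) W) {χ1 : ℝ}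
    (hχ1 : 0 ≤ χ1) (hχG : χ1 ∈ pk.G) (hχK : χ1 ≤ pk.K) {t t' : ℝ} (ht' : 0 < t')
    (hst : Real.log 6 + t + t' < a.m * χ1 * T.L - acc * T.L) :
    W.pr (fun x => |(T.F x.2.2).X - (T.F x.2.1).X| < T.δ ^ χ1) ≤ Real.exp (-t) + (acc * T.L + 1) / t' + acc := by
  have hc1 : 0 < T.δ ^ χ1 := Real.rpow_pos_of_pos h.δ0 χ1
  refine ltk_sep W (fun x => |(T.F x.2.2).X - (T.F x.2.1).X| < T.δ ^ χ1) (fun x => T.Xn χ1 x.2.2) (fun x => (x.1, x.2.1))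
    (fun x => T.Cs x.2.1) (n := 6) (s := a.m * χ1 * T.L - acc * T.L) (by norm_num) ht' ?_ ?_ ?_ hst
  · have := it_m_nval_cell W (fun x => |(T.F x.2.2).X - (T.F x.2.1).X| < T.δ ^ χ1)
      (pair (fun x => (x.1, x.2.1)) (fun x => T.Cs x.2.1)) (fun x => (T.F x.2.2).X) (s := χ1) (R := 2 * T.δ ^ χ1)
      h.δ0 h.δ1 hχ1 (by positivity) (by
        intro x x' _ _ hG hG' hY
        simp only [pair, Prod.mk.injEq] at hY
        rw [← hY.1.2] at hG'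
        have e : (T.F x.2.2).X - (T.F x'.2.2).X
            = ((T.F x.2.2).X - (T.F x.2.1).X) - ((T.F x'.2.2).X - (T.F x.2.1).X) := by ring
        rw [e]
        exact (abs_sub _ _).trans (by linarith))
    have e : 2 * (2 * T.δ ^ χ1) * T.δ ^ (-χ1) + 2 = 6 := by
      have := it_m_pow_cancel h.δ0 χ1
      calc _ = 4 * (T.δ ^ χ1 * T.δ ^ (-χ1)) + 2 := by ring
        _ = _ := by rw [this]; norm_num
    rw [e] at this
    exact this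
  · exact (it_m_walk2_mi' T.P _ _ W hW (T.Xn χ1) T.Cs Prod.snd (fun _ => rfl)).trans
      (it_m_G_mi T a pk acc hI h.δ0 h.δ1 hχK hj)
  · have e1 := it_m_map_sur W (fun x => x.2.2) T.P hW.s2 (T.Xn χ1) T.Cs (fun v _ => v < a.m * χ1 * T.L - acc * T.L)
    have e2 : T.P.pr (fun ω => T.P.surC (T.Xn χ1) T.Cs ω < a.m * χ1 * T.L - acc * T.L) ≤ acc := by
      refine le_trans (ent_pr_mono T.P fun ω _ hbad => ?_) (hI.ang χ1 hχG)
      have := neg_abs_le (T.P.surC (T.Xn χ1) T.Cs ω - a.m * χ1 * T.L)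
      linarith
    rw [e1] at e2
    refine le_trans (le_of_eq (ent_pr_congr W fun x hx => ?_)) e2
    have hcg : W.surC (fun x => T.Xn χ1 x.2.2) (fun x => T.Cs x.2.1) x
        = W.surC (fun x => T.Xn χ1 x.2.2) (fun x => T.Cs x.2.2) x := by
      obtain ⟨-, -, -, -, -, c1, c2, -⟩ := it_m_w_facts T a pk h hq hi hj hW hx
      refine ent_surC_congr W _ _ _ _ x (fun x' hx' => ?_) (fun _ _ _ => Iff.rfl)
      obtain ⟨-, -, -, -, -, c1', c2', -⟩ := it_m_w_facts T a pk h hq hi hj hW hx'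
      rw [c1, c2, c1', c2']
    rw [hcg]

/-- the budget of the commutator transfer -/
theorem it_m_com_mi (a : ItPar) (pk : ItPk) (acc : ℝ) (hI : T.AdmI a pk acc) (h0 : 0 < T.δ) (h1 : T.δ < 1) {i j : ℕ}
    (hi : i < pk.M) (hj : j < pk.M) {W : FLaw (T.Ω × T.Ω × T.Ω)} (hW : ItWalk2 T.P (T.mG pk i) (T.mG pk j) W) {p s : ℝ}
    (hps : p ≤ s) (hsK : s ≤ pk.K) :
    W.miC (fun x => T.Xn s x.2.1) (pair (fun x => x.1) (fun x => T.Xn pk.K x.2.2))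
      (pair (fun x => T.Xn p x.2.1) (fun x => T.Cs x.2.1)) ≤ 2 * acc * T.L := by
  have e1 := it_m_mi_prefix W (fun x => T.Xn s x.2.1) (pair (fun x => x.1) (fun x => T.Xn pk.K x.2.2)) (fun x => T.Cs x.2.1)
    (fun z : ℤ => z / (2 : ℤ) ^ (tlev T.δ s - tlev T.δ p))
  have hfun : (fun x : T.Ω × T.Ω × T.Ω => T.Xn p x.2.1)
      = fun x => (fun z : ℤ => z / (2 : ℤ) ^ (tlev T.δ s - tlev T.δ p)) (T.Xn s x.2.1) :=
    funext fun x => it_m_Xn_fun T h0 h1 hps x.2.1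
  rw [hfun]
  refine e1.trans ((it_m_walk2_mi T.P _ _ W hW (T.Xn s) (T.Xn pk.K) T.Cs Prod.snd Prod.snd (fun _ => rfl) (fun _ => rfl)).trans ?_)
  have g1 := it_m_G_mi T a pk acc hI h0 h1 hsK hi
  have g2 := it_m_G_mi T a pk acc hI h0 h1 le_rfl hj
  linarith

/-- `it_mode_com` at fixed accuracy -/
theorem it_m_com_at (a : ItPar) (pk : ItPk) (τ κ0 acc : ℝ) (hA : T.Adm a pk τ κ0 acc) (hB : 1 ≤ a.B0) (hq : T.quad = true)
    {i j : ℕ} (hi : i < pk.M) (hj : j < pk.M)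
    {p s q A χ χ1 : ℝ} (hp : 0 ≤ p) (hps : p ≤ s) (hsq : s ≤ q) (hq2 : q ≤ 2 * p) (hqK : q ≤ pk.K) (hKR : pk.K ≤ pk.RQ)
    (hpG : p ∈ pk.G) (hsG : s ∈ pk.G) (hA0 : 0 ≤ A) (hχ : 0 ≤ χ) (hχ1 : 0 ≤ χ1) (hχG : χ1 ∈ pk.G) (hχK : χ1 ≤ pk.K)
    (u : ItSym) (V : List ItSym) (hu : u.Reg pk.M a.B0 A) (hc : u.Cen)
    (hV : ∀ v ∈ V, ItSym.Reg v pk.M a.B0 A ∧ ItSym.Cen v) (hlen : V.length ≤ 3)
    (hkill : ∀ v ∈ V, ∀ f Ξ, itCom (v f Ξ) (Ξ i) (Ξ j) = 0) (t : ℝ) {t' t2 t2' : ℝ} (ht' : 0 < t') (ht2' : 0 < t2')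
    (hst : Real.log 6 + t2 + t2' < a.m * χ1 * T.L - acc * T.L) :
    T.P.pr (fun ω => T.P.surC (T.rd p s [T.fld p u]) (pair (T.rd p q (V.map (T.fld p))) (T.base pk.M p)) ω
        < a.m * (s - p) * T.L - 2 * acc * T.L - t' - itmC2 a.B0 A - (χ + χ1) * T.L - 3 * t)
      ≤ (T.P.pr (fun ω => |itCom (T.fld p u ω) (T.mrk i ω) (T.mrk j ω)| < T.δ ^ χ)
          + (Real.exp (-t2) + (acc * T.L + 1) / t2' + acc))
        + 3 * Real.exp (-t) + (2 * acc * T.L + 1) / t' + 2 * acc := by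
  have h := hA.t0
  obtain ⟨W, hW⟩ := it_m_walk2_exists T.P (T.mG pk i) (T.mG pk j)
  have hB5 : (0 : ℝ) ≤ a.B0 ^ 5 := by positivity
  have hV1 : (1 : ℝ) ≤ 2400 * a.B0 ^ 5 * A + 2 := by nlinarith [mul_nonneg hB5 hA0]
  have hNF : (0 : ℝ) < (408 * a.B0 ^ 5 + 2) ^ 6 := by positivity
  have hNV : (0 : ℝ) < (2400 * a.B0 ^ 5 * A + 2) ^ 3 := by positivity
  have hNU : (0 : ℝ) < 2400 * a.B0 ^ 5 * A + 4 := by linarith
  have hdc : 0 < T.δ ^ (-(χ + χ1)) := Real.rpow_pos_of_pos h.δ0 _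
  rw [it_m_map_sur W (fun x => x.2.2) T.P hW.s2 (T.rd p s [T.fld p u]) (pair (T.rd p q (V.map (T.fld p))) (T.base pk.M p))
    (fun v _ => v < a.m * (s - p) * T.L - 2 * acc * T.L - t' - itmC2 a.B0 A - (χ + χ1) * T.L - 3 * t)]
  refine it_m_asm W (fun x => T.δ ^ χ ≤ |itCom (T.fld p u x.2.2) (T.mrk i x.2.2) (T.mrk j x.2.2)| ∧
        T.δ ^ χ1 ≤ |(T.F x.2.2).X - (T.F x.2.1).X|)
    (fun x => T.rd p s [T.fld p u] x.2.2) (fun x => T.Xn s x.2.1)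
    (fun x => pair (T.rd p q (V.map (T.fld p))) (T.base pk.M p) x.2.2)
    (pair (pair (fun x => x.1) (fun x => T.Xn pk.K x.2.2)) (pair (fun x => T.Xn p x.2.1) (fun x => T.Cs x.2.1)))
    (pair (fun x => T.Xn p x.2.1) (fun x => T.Cs x.2.1))
    (N₁ := (408 * a.B0 ^ 5 + 2) ^ 6 * (2400 * a.B0 ^ 5 * A + 2) ^ 3)
    (N₂ := (408 * a.B0 ^ 5 + 2) ^ 6 * ((2400 * a.B0 ^ 5 * A + 4) * T.δ ^ (-(χ + χ1))))
    (t' := t') (c := a.m * (s - p) * T.L - 2 * acc * T.L) (by positivity) (by positivity) ?_ ?_ ?_ ?_ ?_ ?_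
  · -- the conditioning is listed
    have n1 := it_m_com_N1 T a pk h hB hq hi hj hW hp ((hps.trans hsq).trans hqK) hKR
      (fun x => T.δ ^ χ ≤ |itCom (T.fld p u x.2.2) (T.mrk i x.2.2) (T.mrk j x.2.2)| ∧
        T.δ ^ χ1 ≤ |(T.F x.2.2).X - (T.F x.2.1).X|)
    have n2 := it_m_nval_le W (it_m_com_N2 T a pk h hB hq hi hj hW hp (hps.trans hsq) hq2 hqK hKR hA0 V hV hkill
      (fun x => T.δ ^ χ ≤ |itCom (T.fld p u x.2.2) (T.mrk i x.2.2) (T.mrk j x.2.2)| ∧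
        T.δ ^ χ1 ≤ |(T.F x.2.2).X - (T.F x.2.1).X|)) (pow_le_pow_right₀ hV1 hlen)
    have n3 := ltk_nval_comp W _ _ _ _ hNV.le n1 n2
    refine it_m_nval_with W n3 _ (fun b A => (b.1, (b.2, (A.2.2, T.Xi pk.M A.1.1)))) (fun x hx => ?_)
    obtain ⟨-, -, -, -, X2, c1, c2, -⟩ := it_m_w_facts T a pk h hq hi hj hW hx
    simp only [pair, Tan.base, Tan.Dd]
    rw [X2, c1, c2]
  · -- the middle angular name is listed
    have n1 := it_m_nval_ref W (A' := pair (fun x => T.rd p s [T.fld p u] x.2.2)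
        (pair (pair (fun x => x.1) (fun x => T.Xn pk.K x.2.2)) (pair (fun x => T.Xn p x.2.1) (fun x => T.Cs x.2.1))))
      (it_m_com_N1 T a pk h hB hq hi hj hW hp ((hps.trans hsq).trans hqK) hKR
      (fun x => T.δ ^ χ ≤ |itCom (T.fld p u x.2.2) (T.mrk i x.2.2) (T.mrk j x.2.2)| ∧
        T.δ ^ χ1 ≤ |(T.F x.2.2).X - (T.F x.2.1).X|)) (fun ω ω' e => (Prod.mk.inj e).2)
    have n2 := it_m_com_N3 T a pk h hB hq hi hj hW hp hps (hsq.trans hq2) (hsq.trans hqK) hKR hA0 hχ hχ1 u hu hc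
    have n3 := ltk_nval_comp W _ _ _ _ (by positivity) n1 n2
    exact it_m_nval_with W n3 _ (fun b _ => b.1) (fun ω _ => rfl)
  · -- the good event
    have s1 := it_m_com_sep T a pk acc hA.ti h hq hi hj hW hχ1 hχG hχK ht2' hst
    have s2 := it_m_map_pr W (fun x => x.2.2) T.P hW.s2 (fun ω => |itCom (T.fld p u ω) (T.mrk i ω) (T.mrk j ω)| < T.δ ^ χ)
    rw [s2]
    refine le_trans (le_trans (ent_pr_mono W fun x _ hbad => ?_) (ent_pr_or_le W _ _)) (add_le_add le_rfl s1)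
    by_contra hcon
    push Not at hcon
    exact hbad hcon
  · refine (ltk_info_tail W (fun x => T.Xn s x.2.1) (pair (fun x => T.Xn p x.2.1) (fun x => T.Cs x.2.1))
      (pair (fun x => x.1) (fun x => T.Xn pk.K x.2.2)) ht').trans ?_
    exact div_le_div_of_nonneg_right (by linarith [it_m_com_mi T a pk acc hA.ti h.δ0 h.δ1 hi hj hW hps (hsq.trans hqK)]) ht'.le
  · have e1 := it_m_map_sur W (fun x => x.2.1) T.P hW.s1 (T.Xn s) (pair (T.Xn p) T.Cs)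
      (fun v _ => v < a.m * (s - p) * T.L - 2 * acc * T.L)
    have e2 : T.P.pr (fun ω => T.P.surC (T.Xn s) (pair (T.Xn p) T.Cs) ω < a.m * (s - p) * T.L - 2 * acc * T.L) ≤ 2 * acc := by
      refine le_trans (ent_pr_mono T.P fun ω _ hbad => ?_) (it_m_ang_win T a pk acc hA.ti h.δ0 h.δ1 hpG hsG hps)
      have := neg_abs_le (T.P.surC (T.Xn s) (pair (T.Xn p) T.Cs) ω - a.m * (s - p) * T.L)
      linarith
    rw [e1] at e2
    exact e2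
  · have e : Real.log ((408 * a.B0 ^ 5 + 2) ^ 6 * ((2400 * a.B0 ^ 5 * A + 4) * T.δ ^ (-(χ + χ1))))
        = (χ + χ1) * T.L + Real.log ((408 * a.B0 ^ 5 + 2) ^ 6 * (2400 * a.B0 ^ 5 * A + 4)) := by
      rw [← mul_assoc]
      exact it_k_aux_log_cap h.δ0 (χ + χ1) _ (by positivity)
    rw [e]
    unfold itmC2
    linarith

end tan

/-- `it_mode_com` -/
theorem it_m_mode_com (a : ItPar) (ha : a.Ok) (hm : 0 < a.m) (A0 : ℝ) (n : ℕ) (hn : 0 < n) :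
    ItLayer true false false a (fun T pk p q η => ∀ i < pk.M, ∀ j < pk.M, i ≠ j → ∀ (u : ItSym) (V : List ItSym),
      u.Reg pk.M a.B0 A0 → u.Cen → (∀ v ∈ V, ItSym.Reg v pk.M a.B0 A0 ∧ ItSym.Cen v) → V.length ≤ 3 →
      (∀ v ∈ V, ∀ f Ξ, itCom (v f Ξ) (Ξ i) (Ξ j) = 0) →
      T.P.pr (fun ω => |itCom (T.fld p u ω) (T.mrk i ω) (T.mrk j ω)| < T.δ ^ itChi p q n η) ≤ η / 2 →
      ∀ k, 1 ≤ k → k ≤ n → T.LS pk.M p (itS p q n k) q [T.fld p u] (V.map (T.fld p)) a.m η) := by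
  intro η hη
  refine ⟨1, one_pos, fun κ0 _ => ⟨1, one_pos, fun p q hp hpq hq2 => ?_⟩⟩
  have hB : 1 ≤ a.B0 := ha.2.2.2.2.2.2.2.2
  have hn' : (0 : ℝ) < n := Nat.cast_pos.2 hn
  have ht0 : 0 < (q - p) / n := div_pos (by linarith) hn'
  obtain ⟨acc1, hacc1, hnum1⟩ := it_m_num η ((q - p) / n) (itmC2 a.B0 (max A0 0)) hη ht0
  obtain ⟨acc2, hacc2, hnum2⟩ := it_m_num η (a.m * ((q - p) / n) / 4) (Real.log 6) hη (by positivity)
  have hχ1 : 0 < η * ((q - p) / n) / 16 := by positivity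
  refine ⟨itmPk p q n (η * ((q - p) / n) / 16), min acc1 acc2, it_m_pk_pre hp hpq n hχ1.le, lt_min hacc1 hacc2, ?_⟩
  intro pk acc T hpk hle hacc hacc' hquad hA _ _ i hi j hj _ u V hu hc hV hlen hkill hsep k hk hkn
  obtain ⟨hqK, hχG, hpG, hsG⟩ := it_m_pk_mem hle
  obtain ⟨hs1, hs2⟩ := it_m_itS_sub hpq hn hk hkn
  obtain ⟨hL, n1, n2, n3, n4, n5⟩ := hnum1 acc T.δ hA.t0.δ0 hA.small (hacc'.trans (min_le_left _ _))
  obtain ⟨-, k1, k2, k3, -, k5⟩ := hnum2 acc T.δ hA.t0.δ0 hA.small (hacc'.trans (min_le_right _ _))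
  have hps : p ≤ itS p q n k := by linarith
  have hχ : itChi p q n η = η * ((q - p) / n) / 4 := by
    unfold itChi; field_simp
  have hχ0 : 0 ≤ itChi p q n η := by rw [hχ]; positivity
  have ht' : 0 < η * ((q - p) / n) * lg T.δ / 8 := by positivity
  have ht2 : 0 < η * (a.m * ((q - p) / n) / 4) * lg T.δ / 16 := by positivity
  have hLL : T.L = lg T.δ := rfl
  have e0 : acc * lg T.δ ≤ η * ((q - p) / n) / 32 * lg T.δ := mul_le_mul_of_nonneg_right n5 hL.le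
  have e0' : acc * lg T.δ ≤ η * (a.m * ((q - p) / n) / 4) / 32 * lg T.δ := mul_le_mul_of_nonneg_right k5 hL.le
  have hst : Real.log 6 + η * (a.m * ((q - p) / n) / 4) * lg T.δ / 16 + η * (a.m * ((q - p) / n) / 4) * lg T.δ / 16
      < a.m * (η * ((q - p) / n) / 16) * T.L - acc * T.L := by
    rw [hLL]
    nlinarith
  have h := it_m_com_at T a pk 1 κ0 acc hA hB hquad hi hj hp.le hps hs2 (by linarith) hqK hpk.2.2.1.le hpG (hsG k hkn)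
    (le_max_right A0 0) hχ0 hχ1.le hχG (hpk.2.2.2.2.2.2 _ hχG).2 u V (it_m_reg_mono hu (le_max_left _ _)) hc
    (fun v hv => ⟨it_m_reg_mono (hV v hv).1 (le_max_left _ _), (hV v hv).2⟩)
    hlen hkill (η * ((q - p) / n) * lg T.δ / 16) ht' ht2 hst
  unfold Tan.LS
  have e3 : 0 ≤ η * ((q - p) / n) * lg T.δ := by positivity
  refine le_trans (ent_pr_mono T.P fun ω _ hbad => ?_) (h.trans ?_)
  · refine lt_of_lt_of_le hbad ?_
    rw [hLL, hχ]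
    have e2 : η * ((q - p) / n) * lg T.δ ≤ η * (itS p q n k - p) * lg T.δ :=
      mul_le_mul_of_nonneg_right (mul_le_mul_of_nonneg_left hs1 hη.le) hL.le
    nlinarith
  · rw [hLL]
    have e4 : (acc * lg T.δ + 1) / (η * (a.m * ((q - p) / n) / 4) * lg T.δ / 16)
        ≤ 2 * ((2 * acc * lg T.δ + 1) / (η * (a.m * ((q - p) / n) / 4) * lg T.δ / 8)) := by
      have e5 : 2 * ((2 * acc * lg T.δ + 1) / (η * (a.m * ((q - p) / n) / 4) * lg T.δ / 8))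
          = (2 * acc * lg T.δ + 1) / (η * (a.m * ((q - p) / n) / 4) * lg T.δ / 16) := by
        field_simp
        ring
      rw [e5]
      exact div_le_div_of_nonneg_right (by nlinarith [mul_nonneg hacc.le hL.le]) ht2.le
    linarith

end Claimed.Agent.R256
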