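import Claimed.Agent.R256.Int.MotLay

/-!
# Row 256, Sec. 5, block MOT: THE EXITS      (architect helper177; prefix `it_o_`)

`it_o_mot_gen`, `it_o_mot_th`, `it_o_mot_thj`, `it_o_mot_r`, `it_o_mot_two` = VERBATIM the stubs `it_mot_gen`, `it_mot_th`, `it_mot_thj`, `it_mot_r`, `it_mot_two` of `Int/Meta.lean`.
-/

set_option autoImplicit false

namespace Claimed.Agent.R256

open Claimed.Agent.R255
open Claimed.Agent.R255.FLaw (pair)
open scoped BigOperators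
open Classical

/-- arithmetic of `it_o_mot_gen` -/
theorem it_o_aux_gen_num (ρ η m Δ sp L cc χA lC l2 e v : ℝ) (hη : 0 < η) (hm1 : m ≤ 1) (hΔ : 0 < Δ) (hsp : Δ ≤ sp) (hL : 0 < L)
    (hcc : cc = m * η * Δ / 256) (hχA : χA = η * Δ / 32) (he : e ≤ 2) (hlC : 0 ≤ lC) (hv : v ≤ 6) (hK : 16 * lC + l2 ≤ cc * L) :
    (ρ - η) * sp * L ≤ ((ρ - η / 4) * sp * L - (e * χA * L + l2) - cc * L) - (2 * v + 4) * lC - 7 * (cc * L) - 2 * (cc * L) := by
  have h1 : (2 * v + 4) * lC ≤ 16 * lC := mul_le_mul_of_nonneg_right (by linarith) hlC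
  have hχ0 : 0 < χA := by rw [hχA]; positivity
  have h2 : e * χA * L ≤ 2 * χA * L := by
    apply mul_le_mul_of_nonneg_right _ hL.le
    exact mul_le_mul_of_nonneg_right he hχ0.le
  have h3 : cc ≤ η * Δ / 256 := by
    rw [hcc]
    have : m * (η * Δ) ≤ 1 * (η * Δ) := mul_le_mul_of_nonneg_right hm1 (by positivity)
    linarith
  have h4 : cc * L ≤ η * Δ / 256 * L := mul_le_mul_of_nonneg_right h3 hL.le
  have h5 : η * Δ * L ≤ η * sp * L := by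
    apply mul_le_mul_of_nonneg_right _ hL.le
    exact mul_le_mul_of_nonneg_left hsp hη.le
  have h6 : 0 < η * Δ * L := by positivity
  have e1 : 2 * χA * L = η * Δ * L / 16 := by rw [hχA]; ring
  have e2 : η * Δ / 256 * L = η * Δ * L / 256 := by ring
  have e3 : (ρ - η) * sp * L = (ρ - η / 4) * sp * L - 3 / 4 * (η * sp * L) := by ring
  rw [e3]
  rw [e1] at h2
  rw [e2] at h4
  linarith

/-- LEAF L7 = `it_mot_gen`.   No clause of `AdmM` is used: `τ = 1`, `κ1 = 1`.   Constants of the header of `Int/MotLay.lean` with `χA = η Δ / 32`, `c1 = m η Δ / 256`, `t = t' = c1 L`;  `pk0 = ⟨0, 0, 0, 1, {χA, q}, ∅⟩`; `A0' = max A0 1`; `C` from `it_o_one_gen`;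
`acc0 = it_o_book c1 (min (η / 64) c1) (max (16 log C + log 2) (log 11 + 1))`.   If `ρ ≤ η` : `it_o_LS_triv`.   Else `η < 1`, `e χA ≤ η Δ / 16 < s - p`.
`it_o_cap_drop` (`ι = T.inn j p c1 c2`, `Y = (ξ_{j,p}, (Zs, Ξ_{-j}))`, depths `s - e χA ≤ s`) + the hypothesis (`it_o_bad_cons`):  `pr { sur(inn_{s - e χA} | Y) < c0 } ≤ η / 4 + exp (-t)`, `c0 = (ρ - η/4)(s - p) L - (e χA L + log 2) - t`.
`it_o_one_gen`.   Threshold: `(3 η / 4)(s - p) ≥ 3 η Δ / 4 ≥ η Δ / 16 + 11 c1`.   Probability `η / 4 + 13 η / 64 ≤ η`.   OWNER open (L-256-INT-MOT-L7), EST 350 lines -/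
theorem it_o_mot_gen (quad : Bool) (a : ItPar) (ha : a.Ok) (hm : 0 < a.m) (A0 ρ : ℝ) (hρ : 0 ≤ ρ) (hρ1 : ρ ≤ 1) (n : ℕ) (hn : 0 < n) :
    ItLayer quad false false a (fun T pk p q η => ∀ j < pk.M, ∀ (u : ItSym) (V : List ItSym) (e : ℕ) (c1 c2 : (ℕ → ItMk) → ℝ),
      u.Reg pk.M a.B0 A0 → u.KFree j → (∀ v ∈ V, ItSym.Reg v pk.M a.B0 A0 ∧ ItSym.KFree v j) → V.length ≤ 6 → (e = 1 ∨ e = 2) →
      (∀ v ∈ V, ∀ f Ξ A, itDot (v f Ξ) (itvTh quad f (Ξ j) A) = 0 ∧ itDot (v f Ξ) (itvR quad (Ξ j) A) = 0) →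
      (∀ f Ξ A, itDot (u f Ξ) (itvTh quad f (Ξ j) A) = A ^ e * c1 Ξ ∧ itDot (u f Ξ) (itvR quad (Ξ j) A) = A ^ e * c2 Ξ) →
      ∀ k, 1 ≤ k → k ≤ n →
      T.P.pr (fun ω => T.P.surC (fun ω' => tcell T.δ (itS p q n k) (T.inn j p c1 c2 ω')) (pair (T.xin j p) (pair T.Zs (T.XiE pk.M j))) ω
          < (ρ - η / 4) * (itS p q n k - p) * T.L) ≤ η / 4 →
      T.LS pk.M p (itS p q n k) q [T.fld p u] (V.map (T.fld p)) ρ η) := by
  intro η hη
  have hn0 : (0 : ℝ) < n := by exact_mod_cast hn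
  have hm1 : a.m ≤ 1 := ha.2.2.2.2.1
  obtain ⟨C, hC, one⟩ := it_o_one_gen a ha (max A0 1) (le_max_right _ _)
  have hlC : 0 ≤ Real.log C := Real.log_nonneg hC
  refine ⟨1, one_pos, fun κ0 _ => ⟨1, one_pos, fun p q hp hpq hq => ?_⟩⟩
  obtain ⟨Δ, hΔ⟩ : ∃ Δ : ℝ, Δ = (q - p) / n := ⟨_, rfl⟩
  have hΔ0 : 0 < Δ := by rw [hΔ]; exact div_pos (by linarith) hn0
  obtain ⟨χA, hχA⟩ : ∃ χA : ℝ, χA = η * Δ / 32 := ⟨_, rfl⟩
  have hχA0 : 0 < χA := by rw [hχA]; positivity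
  obtain ⟨cc, hcc⟩ : ∃ cc : ℝ, cc = a.m * η * Δ / 256 := ⟨_, rfl⟩
  have hcc0 : 0 < cc := by rw [hcc]; positivity
  obtain ⟨acc0, hacc0, book⟩ := it_o_book cc (min (η / 64) cc) (max (16 * Real.log C + Real.log 2) (Real.log 11 + 1)) hcc0
    (lt_min (by positivity) hcc0)
  refine ⟨⟨0, 0, 0, 1, {χA, q}, ∅⟩, acc0, ⟨one_pos, ?_⟩, hacc0, ?_⟩
  · intro x hx
    simp only [Finset.mem_insert, Finset.mem_singleton] at hx
    rcases hx with rfl | rfl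
    · exact hχA0.le
    · linarith
  intro pk acc T hpk hle haccp hacc hquad hT _ _ j hj u V e c1 c2 hu huk hV hVl he hkill hsee k hk1 hkn hyp
  subst hquad
  have hδ0 := hT.t0.δ0
  have hδ1 := hT.t0.δ1
  obtain ⟨hL, b1, b2, b3, b4⟩ := book acc T.L haccp hacc (it_cb_L_ge T acc hδ0 hT.small)
  have hG : ({χA, q} : Finset ℝ) ⊆ pk.G := hle.2.2.2.2
  have hχG : χA ∈ pk.G := hG (by simp)
  have hqG : q ∈ pk.G := hG (by simp)
  have hqK : q ≤ pk.K := (hpk.2.2.2.2.2.2 q hqG).2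
  obtain ⟨s, hs⟩ : ∃ s : ℝ, s = itS p q n k := ⟨_, rfl⟩
  rw [← hs] at hyp ⊢
  have hk1' : (1 : ℝ) ≤ k := by exact_mod_cast hk1
  have hkn' : (k : ℝ) ≤ n := by exact_mod_cast hkn
  have hsp : s - p = Δ * k := by rw [hs, hΔ, itS]; ring
  have hsp1 : Δ ≤ s - p := by rw [hsp]; nlinarith
  have hsq : s ≤ q := by
    have : Δ * k ≤ Δ * n := mul_le_mul_of_nonneg_left hkn' hΔ0.le
    have e1 : Δ * n = q - p := by rw [hΔ]; field_simp
    linarith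
  by_cases hρη : ρ ≤ η
  · apply it_o_LS_triv T pk.M p s q _ _ ρ η hη.le
    have : (ρ - η) * ((s - p) * T.L) ≤ 0 :=
      mul_nonpos_of_nonpos_of_nonneg (by linarith) (mul_nonneg (by linarith) hL.le)
    linarith
  have hη1 : η < 1 := by
    push Not at hρη
    linarith
  have he2 : (e : ℝ) ≤ 2 := by
    rcases he with rfl | rfl <;> norm_num
  have he0 : (0 : ℝ) ≤ e := Nat.cast_nonneg e
  have heχ : (e : ℝ) * χA ≤ η * Δ / 16 := by
    have : (e : ℝ) * χA ≤ 2 * χA := mul_le_mul_of_nonneg_right he2 hχA0.le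
    rw [hχA] at this ⊢
    linarith
  have hps : p ≤ s - e * χA := by
    have : η * Δ / 16 ≤ Δ := by nlinarith
    linarith
  obtain ⟨t, ht⟩ : ∃ t : ℝ, t = cc * T.L := ⟨_, rfl⟩
  have ht0 : 0 < t := by rw [ht]; positivity
  have θ1 : min (η / 64) cc ≤ η / 64 := min_le_left _ _
  have θ2 : min (η / 64) cc ≤ cc := min_le_right _ _
  have K1 : 16 * Real.log C + Real.log 2 ≤ cc * T.L := (le_max_left _ _).trans b1
  have K2 : Real.log 11 + 1 ≤ cc * T.L := (le_max_right _ _).trans b1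
  -- the innovation at the tested depth
  obtain ⟨c0, hc0⟩ : ∃ c0 : ℝ, c0 = (ρ - η / 4) * (s - p) * T.L - (e * χA * T.L + Real.log 2) - t := ⟨_, rfl⟩
  have hinn : T.P.pr (fun ω => T.P.surC (fun ω' => tcell T.δ (s - e * χA) (T.inn j p c1 c2 ω'))
      (pair (T.xin j p) (pair T.Zs (T.XiE pk.M j))) ω < c0) ≤ η / 4 + Real.exp (-t) := by
    have cd := it_o_cap_drop T.P T.δ hδ0 hδ1 (T.inn j p c1 c2) (pair (T.xin j p) (pair T.Zs (T.XiE pk.M j)))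
      (s - e * χA) s t (by nlinarith)
    refine it_o_bad_cons T.P hyp (le_trans (ent_pr_mono T.P fun ω _ hE => ?_) cd)
    obtain ⟨h1, h2⟩ := hE
    push Not at h2
    have e1 : (s - (s - e * χA)) * lg T.δ = e * χA * T.L := by
      have : T.L = lg T.δ := rfl
      rw [this]; ring
    rw [e1]
    rw [hc0] at h1
    linarith
  have hreg : ∀ w ∈ u :: V, ItSym.Reg w pk.M a.B0 (max A0 1) ∧ ItSym.KFree w j := by
    intro w hw
    rcases List.mem_cons.1 hw with rfl | hw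
    · exact ⟨it_s_reg_mono (le_max_left _ _) hu, huk⟩
    · exact ⟨it_s_reg_mono (le_max_left _ _) (hV w hw).1, (hV w hw).2⟩
  have hsep : Real.log 11 + t + t < (a.m * χA - acc) * T.L := by
    have e1 : a.m * χA = 8 * cc := by rw [hχA, hcc]; ring
    have e2 : acc * T.L ≤ cc * T.L := mul_le_mul_of_nonneg_right (b2.trans θ2) hL.le
    have e3 : (8 * cc - acc) * T.L = 8 * (cc * T.L) - acc * T.L := by ring
    have e4 : 0 < cc * T.L := by positivity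
    rw [e1, ht, e3]
    linarith
  have key := one T pk acc hpk hT.t0 hT.ti j hj u V e c1 c2 hreg hkill hsee p s q χA c0 (η / 4 + Real.exp (-t)) t t hp hsq
    (by linarith) hqK hχG hps hinn ht0 hsep
  unfold Tan.LS
  refine le_trans (ent_pr_mono T.P fun ω _ h => lt_of_lt_of_le h ?_) (key.trans ?_)
  · have hv : ((V.length : ℕ) : ℝ) ≤ 6 := by exact_mod_cast hVl
    have := it_o_aux_gen_num ρ η a.m Δ (s - p) T.L cc χA (Real.log C) (Real.log 2) e V.length hη hm1 hΔ0 hsp1 hL hcc hχA he2 hlC hv K1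
    rw [hc0, ht]
    exact this
  · have p1 : Real.exp (-t) ≤ η / 64 := by rw [ht]; exact b3.trans θ1
    have p2 : acc ≤ η / 64 := b2.trans θ1
    have p3 : (acc * T.L + 1) / t ≤ η / 64 := by rw [ht]; exact b4.trans θ1
    linarith

theorem it_o_as_bd (a : ItPar) (ha : a.Ok) : 0 ≤ a.as ∧ a.as ≤ 1 := by
  obtain ⟨h1, h2, h3, h4, h5, h6, h7, h8, h9⟩ := ha
  refine ⟨le_max_right _ _, max_le ?_ zero_le_one⟩
  have := mul_nonneg h1.le h6
  linarith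

theorem it_o_itS_one (p q : ℝ) : itS p q 1 1 = q := by
  simp [itS]

/-- `it_mot_th` -/
theorem it_o_mot_th (quad : Bool) (a : ItPar) (ha : a.Ok) (hm : 0 < a.m) (hc : a.c < 1 ∨ (quad = false ∧ 1 < a.c)) (A0 : ℝ) :
    ItLayer quad false false a (fun T pk p q η => ∀ j < pk.M, ∀ (u : ItSym) (V : List ItSym) (e : ℕ) (g : ItPh → (ℕ → ItMk) → ℝ),
      u.Reg pk.M a.B0 A0 → u.KFree j → (∀ v ∈ V, ItSym.Reg v pk.M a.B0 A0 ∧ ItSym.KFree v j) → V.length ≤ 6 → (e = 1 ∨ e = 2) →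
      (∀ v ∈ V, ∀ f Ξ A, itDot (v f Ξ) (itvTh quad f (Ξ j) A) = 0) →
      (∀ f Ξ A, itDot (u f Ξ) (itvTh quad f (Ξ j) A) = A ^ e * g f Ξ) →
      T.P.pr (fun ω => |g (T.f0 p ω) (fun i => T.mrk i ω)| < T.δ ^ itChi p q 1 η) ≤ η / 2 →
      T.LS pk.M p q q [T.fld p u] (V.map (T.fld p)) a.rth η) := by
  have key : ∃ (yf : ℝ → ℝ → ℝ) (κy : ℝ), 0 < κy ∧
      (∀ p q : ℝ, 0 < p → p < q → q ≤ (1 + κy) * p → p ≤ yf p q ∧ (false = false → q ≤ yf p q)) ∧ ItInn quad a true a.rth yf 1 := by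
    rcases hc with hc | ⟨hq, hc⟩
    · refine ⟨fun _ q => q, 1, one_pos, fun p q _ hpq _ => ⟨hpq.le, fun _ => le_rfl⟩, ?_⟩
      have : a.rth = a.as := by simp [ItPar.rth, hc]
      rw [this]
      exact it_o_inn_mixt quad a ha hc
    · refine ⟨fun p _ => a.c * p, a.c - 1, by linarith, fun p q hp hpq hq => ⟨by nlinarith, fun _ => by linarith⟩, ?_⟩
      have : a.rth = a.d := by simp [ItPar.rth, not_lt.2 hc.le]
      rw [this]
      have h := it_o_inn_time quad a ha 1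
      rw [hq] at h ⊢
      simpa using h
  obtain ⟨yf, κy, hκy, hy, hInn⟩ := key
  have hρ : 0 ≤ a.rth ∧ a.rth ≤ 1 := by
    unfold ItPar.rth
    split_ifs
    · exact it_o_as_bd a ha
    · exact ⟨ha.2.1.le, ha.2.2.1⟩
  have h := it_o_layer_mov quad a ha hm true false a.rth hρ.1 hρ.2 A0 1 one_pos yf κy hκy hy hInn
  intro η hη
  obtain ⟨τ, hτ, H⟩ := h η hη
  refine ⟨τ, hτ, fun κ0 hκ0 => ?_⟩
  obtain ⟨κ1, hκ1, H⟩ := H κ0 hκ0
  refine ⟨κ1, hκ1, fun p q hp hpq hq => ?_⟩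
  obtain ⟨pk0, acc0, hpre, hacc0, H⟩ := H p q hp hpq hq
  refine ⟨pk0, acc0, hpre, hacc0, fun pk acc T g1 g2 g3 g4 g5 g6 g7 g8 j hj u V e g hu hk hV hl he hkill hsee hg => ?_⟩
  have := H pk acc T g1 g2 g3 g4 g5 g6 g7 g8 j hj u V e g hu hk hV hl he hkill (fun h => by simp at h) hsee hg 1 le_rfl le_rfl
  rwa [it_o_itS_one] at this

/-- `it_mot_thj` -/
theorem it_o_mot_thj (quad : Bool) (a : ItPar) (ha : a.Ok) (hm : 0 < a.m) (hc : 1 ≤ a.c) (A0 : ℝ) (n : ℕ) (hn : 0 < n) :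
    ItLayer quad false false a (fun T pk p q η => ∀ j < pk.M, ∀ (u : ItSym) (V : List ItSym) (e : ℕ) (g : ItPh → (ℕ → ItMk) → ℝ),
      u.Reg pk.M a.B0 A0 → u.KFree j → (∀ v ∈ V, ItSym.Reg v pk.M a.B0 A0 ∧ ItSym.KFree v j) → V.length ≤ 6 → (e = 1 ∨ e = 2) →
      (∀ v ∈ V, ∀ f Ξ A, itDot (v f Ξ) (itvTh quad f (Ξ j) A) = 0 ∧ itDot (v f Ξ) (itvR quad (Ξ j) A) = 0) →
      (∀ f Ξ A, itDot (u f Ξ) (itvTh quad f (Ξ j) A) = A ^ e * g f Ξ ∧ itDot (u f Ξ) (itvR quad (Ξ j) A) = 0) →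
      T.P.pr (fun ω => |g (T.f0 p ω) (fun i => T.mrk i ω)| < T.δ ^ itChi p q n η) ≤ η / 2 →
      ∀ k, 1 ≤ k → k ≤ n → T.LS pk.M p (itS p q n k) q [T.fld p u] (V.map (T.fld p)) a.d η) := by
  have hy : ∀ p q : ℝ, 0 < p → p < q → q ≤ (1 + 1) * p →
      p ≤ (fun p (_ : ℝ) => if quad then min 1 a.c * p else a.c * p) p q ∧
        (true = false → q ≤ (fun p (_ : ℝ) => if quad then min 1 a.c * p else a.c * p) p q) := by
    intro p q hp _ _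
    refine ⟨?_, fun h => by simp at h⟩
    show p ≤ if quad then min 1 a.c * p else a.c * p
    split_ifs
    · rw [min_eq_left hc, one_mul]
    · nlinarith
  have h := it_o_layer_mov quad a ha hm true true a.d ha.2.1.le ha.2.2.1 A0 n hn _ 1 one_pos hy (it_o_inn_time quad a ha n)
  intro η hη
  obtain ⟨τ, hτ, H⟩ := h η hη
  refine ⟨τ, hτ, fun κ0 hκ0 => ?_⟩
  obtain ⟨κ1, hκ1, H⟩ := H κ0 hκ0
  refine ⟨κ1, hκ1, fun p q hp hpq hq => ?_⟩
  obtain ⟨pk0, acc0, hpre, hacc0, H⟩ := H p q hp hpq hq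
  refine ⟨pk0, acc0, hpre, hacc0, fun pk acc T g1 g2 g3 g4 g5 g6 g7 g8 j hj u V e g hu hk hV hl he hkill hsee hg => ?_⟩
  refine H pk acc T g1 g2 g3 g4 g5 g6 g7 g8 j hj u V e g hu hk hV hl he (fun v hv f Ξ A => (hkill v hv f Ξ A).1) (fun _ w hw f Ξ A => ?_)
    (fun f Ξ A => (hsee f Ξ A).1) hg
  rcases List.mem_cons.1 hw with rfl | hw
  · exact (hsee f Ξ A).2
  · exact (hkill w hw f Ξ A).2

/-- `it_mot_r` -/
theorem it_o_mot_r (quad : Bool) (a : ItPar) (ha : a.Ok) (hm : 0 < a.m) (hc : a.c < 1) (A0 : ℝ) (n : ℕ) (hn : 0 < n) :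
    ItLayer quad false false a (fun T pk p q η => ∀ j < pk.M, ∀ (u : ItSym) (V : List ItSym) (e : ℕ) (g : ItPh → (ℕ → ItMk) → ℝ),
      u.Reg pk.M a.B0 A0 → u.KFree j → (∀ v ∈ V, ItSym.Reg v pk.M a.B0 A0 ∧ ItSym.KFree v j) → V.length ≤ 6 → (e = 1 ∨ e = 2) →
      (∀ v ∈ V, ∀ f Ξ A, itDot (v f Ξ) (itvR quad (Ξ j) A) = 0) →
      (∀ f Ξ A, itDot (u f Ξ) (itvR quad (Ξ j) A) = A ^ e * g f Ξ) →
      T.P.pr (fun ω => |g (T.f0 p ω) (fun i => T.mrk i ω)| < T.δ ^ itChi p q n η) ≤ η / 2 →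
      ∀ k, 1 ≤ k → k ≤ n → T.LS pk.M p (itS p q n k) q [T.fld p u] (V.map (T.fld p)) a.ν η) := by
  have h := it_o_layer_mov quad a ha hm false false a.ν ha.2.2.2.2.2.1 ha.2.2.2.2.2.2.1 A0 n hn (fun _ q => q) 1 one_pos
    (fun p q _ hpq _ => ⟨hpq.le, fun _ => le_rfl⟩) (it_o_inn_mixr quad a ha hc n)
  intro η hη
  obtain ⟨τ, hτ, H⟩ := h η hη
  refine ⟨τ, hτ, fun κ0 hκ0 => ?_⟩
  obtain ⟨κ1, hκ1, H⟩ := H κ0 hκ0
  refine ⟨κ1, hκ1, fun p q hp hpq hq => ?_⟩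
  obtain ⟨pk0, acc0, hpre, hacc0, H⟩ := H p q hp hpq hq
  refine ⟨pk0, acc0, hpre, hacc0, fun pk acc T g1 g2 g3 g4 g5 g6 g7 g8 j hj u V e g hu hk hV hl he hkill hsee hg => ?_⟩
  exact H pk acc T g1 g2 g3 g4 g5 g6 g7 g8 j hj u V e g hu hk hV hl he hkill (fun h => by simp at h) hsee hg

/-- `it_mot_two` -/
theorem it_o_mot_two (a : ItPar) (ha : a.Ok) (hm : 0 < a.m) (full : Bool)
    (hc : (full = true ∧ 1 ≤ a.c) ∨ (full = false ∧ ((a.c < 1 ∧ a.ν = 0) ∨ 1 < a.c))) (A0 : ℝ) :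
    ItLayer false false false a (fun T pk p q η => ∀ i < pk.M, ∀ j < pk.M, ∀ V : List ItSym,
      (∀ v ∈ V, ItSym.Reg v pk.M a.B0 A0 ∧ ItSym.KFree v j) → V.length ≤ 4 →
      (∀ v ∈ V, ∀ f Ξ A, itDot (v f Ξ) (itvTh false f (Ξ j) A) = 0 ∧ (full = true → itDot (v f Ξ) (itvR false (Ξ j) A) = 0)) →
      T.LS pk.M p q q [T.cW i, T.cH p] (V.map (T.fld p)) (2 * a.d) η) := by
  have htime : ItInn false a true a.d (fun p _ => a.c * p) 1 := by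
    have h := it_o_inn_time false a ha 1
    simpa using h
  rcases hc with ⟨hf, hc⟩ | ⟨hf, ⟨hc, hν⟩ | hc⟩
  · exact it_o_layer_two a ha hm full A0 (fun p _ => a.c * p) 1 one_pos
      (fun p q hp _ _ => ⟨by nlinarith, fun h => by rw [hf] at h; simp at h⟩) htime
  · have has : a.as = a.d := by
      unfold ItPar.as
      rw [hν, mul_zero, sub_zero]
      exact max_eq_left ha.2.1.le
    have h := it_o_inn_mixt false a ha hc
    rw [has] at h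
    exact it_o_layer_two a ha hm full A0 (fun _ q => q) 1 one_pos (fun p q _ hpq _ => ⟨hpq.le, fun _ => le_rfl⟩) h
  · exact it_o_layer_two a ha hm full A0 (fun p _ => a.c * p) (a.c - 1) (by linarith)
      (fun p q hp hpq hq => ⟨by nlinarith, fun _ => by linarith⟩) htime

end Claimed.Agent.R256
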