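import Claimed.Agent.R256.Int.RadTan

/-!
# Row 256, Sec. 5, block RAD, file 4: PIN PRODUCTS (`it_slope_pin`)      (architect helper9; prefix `it_r_`)

PAPER-FREE.  Black box: X6 `pj_pin_law` (`Prj/Contract.lean`).  `T.pin i j = - pjPin (T.pl i) (T.pl j)`.
 LAW LEVEL   `it_r_sep1` (separation of the time marks, from `it_r_sep`), `it_r_neg` (sign flip of a scalar reading: `ltk_transfer`, two values on each side),
             `it_r_pin_law` (X6 with bounds on the support only), `it_r_pin_core` (all held records by `it_r_ci_sur`; the separation of the first coordinates from the time window).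
 TAN LEVEL   `it_r_pair` (the pair of records `(i, j)` has the law of `(0, 1)`: `Tan.Cross` for all pairs), `it_r_step1`, `it_r_win1` (hereditary root window of the time marks from `AdmM.time` + (LP)),
             `it_r_aux_pin_lev`, `it_r_aux_pin_at` (number of levels `tlev δ t + 2^N`, so that `(..) / 2^k ≥ tlev δ (t / 2^k)`; levels -> mesh of depths),  EXIT 3 `it_r_slope_pin`.
NO LEAF in this file: everything is proved from RadKit / RadCore / RadTan and X6.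
-/

set_option autoImplicit false

namespace Claimed.Agent.R256

open Claimed.Agent.R255
open Claimed.Agent.R255.FLaw (pair)
open scoped BigOperators
open Classical

theorem it_r_aux_pin_iid_comp {Ω ζ : Type} [Fintype Ω] (P : FLaw Ω) (Zs : Ω → ζ) (a b : Ω → ℝ × ℝ) (h : PjIid P Zs a b)
    (f : ℝ × ℝ → ℝ × ℝ) : PjIid P Zs (fun ω => f (a ω)) (fun ω => f (b ω)) := by
  have hCI : P.CI a b Zs := by
    intro u v z
    have h1 := h.1 z u v
    have e1 : P.pr (fun ω => a ω = u ∧ b ω = v ∧ Zs ω = z) = P.pr (fun ω => Zs ω = z ∧ a ω = u ∧ b ω = v) :=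
      ent_pr_congr P fun ω _ => by tauto
    have e2 : P.pr (fun ω => a ω = u ∧ Zs ω = z) = P.pr (fun ω => Zs ω = z ∧ a ω = u) :=
      ent_pr_congr P fun ω _ => by tauto
    have e3 : P.pr (fun ω => b ω = v ∧ Zs ω = z) = P.pr (fun ω => Zs ω = z ∧ b ω = v) :=
      ent_pr_congr P fun ω _ => by tauto
    rw [e1, e2, e3]
    exact h1
  have c := ent_ci_comp P a b Zs hCI (fun u _ => f u) (fun v _ => f v)
  refine ⟨fun z x y => ?_, fun z x => ?_⟩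
  · have h1 := c x y z
    have e1 : P.pr (fun ω => f (a ω) = x ∧ f (b ω) = y ∧ Zs ω = z) = P.pr (fun ω => Zs ω = z ∧ f (a ω) = x ∧ f (b ω) = y) :=
      ent_pr_congr P fun ω _ => by tauto
    have e2 : P.pr (fun ω => f (a ω) = x ∧ Zs ω = z) = P.pr (fun ω => Zs ω = z ∧ f (a ω) = x) :=
      ent_pr_congr P fun ω _ => by tauto
    have e3 : P.pr (fun ω => f (b ω) = y ∧ Zs ω = z) = P.pr (fun ω => Zs ω = z ∧ f (b ω) = y) :=
      ent_pr_congr P fun ω _ => by tauto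
    rw [e1, e2, e3] at h1
    exact h1
  · exact (it_r_ident (α' := Unit) (β' := Unit) P Zs a b h.2).1 (fun z' v => z' = z ∧ f v = x)

/-- SEPARATION of the first coordinates of two records -/
theorem it_r_sep1 {Ω ζ : Type} [Fintype Ω] (P : FLaw Ω) (Zs : Ω → ζ) (a b : Ω → ℝ × ℝ) (h : PjIid P Zs a b)
    (d η : ℝ) (n k₀ : ℕ) (hk : k₀ ≤ n) :
    P.pr (fun ω => PjGoodH P (icX a) Zs d η n ω ∧ |(a ω).1 - (b ω).1| ≤ (1 / 2 : ℝ) ^ k₀)
      ≤ 9 * (2 : ℝ) ^ (-(d * k₀ - η * n)) := by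
  have h' := it_r_aux_pin_iid_comp P Zs a b h (fun v => (v.1, 0))
  have key := it_r_sep P Zs _ _ h' id d η n k₀ hk
  refine le_trans (ent_pr_mono P fun ω _ hω => ?_) key
  refine ⟨?_, hω.2, ?_⟩
  · intro k k' hkk hk'
    refine le_trans (hω.1 k k' hkk hk') (le_of_eq ?_)
    refine ent_surC_congr P _ _ _ _ ω (fun ω' _ => ?_) (fun ω' _ _ => ?_)
    · simp only [pair, icQ, icX, Prod.mk.injEq, and_true]
    · simp only [icQ, icX, Prod.mk.injEq, and_true]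
  · simp only [id, sub_self, abs_zero]
    positivity

theorem it_r_aux_pin_floor_neg (y : ℝ) : ⌊-y⌋ = -⌊y⌋ - 1 ∨ ⌊-y⌋ = -⌊y⌋ := by
  have h1 := Int.floor_le y
  have h2 := Int.lt_floor_add_one y
  by_cases h : (⌊y⌋ : ℝ) = y
  · right
    rw [Int.floor_eq_iff]
    push_cast
    constructor <;> linarith
  · left
    have h3 : (⌊y⌋ : ℝ) < y := lt_of_le_of_ne h1 h
    rw [Int.floor_eq_iff]
    push_cast
    constructor <;> linarith

theorem it_r_aux_pin_cell_neg (m : ℕ) (y : ℝ) : icCell m (-y) = -icCell m y - 1 ∨ icCell m (-y) = -icCell m y := by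
  unfold icCell
  rw [neg_mul]
  exact it_r_aux_pin_floor_neg _

/-- SIGN FLIP of a scalar reading: two values on each side -/
theorem it_r_neg {Ω γ : Type} [Fintype Ω] (P : FLaw Ω) (g : Ω → ℝ) (C : Ω → γ) (m m' : ℕ) (x : ℝ) :
    P.pr (fun ω => P.surC (icS (fun ω => -g ω) m') (pair (icS (fun ω => -g ω) m) C) ω
        < P.surC (icS g m') (pair (icS g m) C) ω - 2 * Real.log 2 - 3 * x) ≤ 3 * Real.exp (-x) := by
  have key := ltk_transfer P (fun _ => True) (icS (fun ω => -g ω) m') (icS g m') (pair (icS (fun ω => -g ω) m) C)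
    (pair (icS g m) C) (N₁ := 2) (N₂ := 2) (by norm_num) (by norm_num) ?_ ?_ x
  · refine le_trans (ent_pr_mono P fun ω _ hω => ?_) key
    refine ⟨trivial, ?_⟩
    linarith
  · intro ω₀
    refine ⟨{(-icCell m (g ω₀) - 1, C ω₀), (-icCell m (g ω₀), C ω₀)}, ?_, ?_⟩
    · have := Finset.card_le_two (a := (-icCell m (g ω₀) - 1, C ω₀)) (b := (-icCell m (g ω₀), C ω₀))
      exact_mod_cast this
    · intro ω _ _ hA
      simp only [pair, icS, Prod.mk.injEq] at hA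
      simp only [pair, icS, Finset.mem_insert, Finset.mem_singleton, Prod.mk.injEq]
      rcases it_r_aux_pin_cell_neg m (g ω) with h | h
      · left; exact ⟨by rw [h, hA.1], hA.2⟩
      · right; exact ⟨by rw [h, hA.1], hA.2⟩
  · intro ω₀
    refine ⟨{-icCell m' (-g ω₀) - 1, -icCell m' (-g ω₀)}, ?_, ?_⟩
    · have := Finset.card_le_two (a := -icCell m' (-g ω₀) - 1) (b := -icCell m' (-g ω₀))
      exact_mod_cast this
    · intro ω _ _ hA
      simp only [pair, icS, Prod.mk.injEq] at hA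
      simp only [icS, Finset.mem_insert, Finset.mem_singleton]
      rcases it_r_aux_pin_cell_neg m' (-g ω) with h | h
      · left; rw [neg_neg] at h; rw [h, hA.1]
      · right; rw [neg_neg] at h; rw [h, hA.1]

theorem it_r_aux_pin_goodH_supp {Ω α δ : Type} [Fintype Ω] (P : FLaw Ω) (X X' : ℕ → Ω → α) (D D' : Ω → δ)
    (hX : ∀ k ω, P.p ω ≠ 0 → X k ω = X' k ω) (hD : ∀ ω, P.p ω ≠ 0 → D ω = D' ω) (e η : ℝ) (n : ℕ) {ω : Ω} (hω : P.p ω ≠ 0) :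
    PjGoodH P X D e η n ω ↔ PjGoodH P X' D' e η n ω := by
  have key : ∀ k k', P.surC (X k') (pair (X k) D) ω = P.surC (X' k') (pair (X' k) D') ω := by
    intro k k'
    refine ent_surC_congr P _ _ _ _ ω (fun ω' h' => ?_) (fun ω' h' _ => ?_)
    · simp only [pair]
      rw [hX k ω' h', hX k ω hω, hD ω' h', hD ω hω]
    · rw [hX k' ω' h', hX k' ω hω]
  unfold PjGoodH
  simp only [key]

/-- X6 with bounds on the support only -/
theorem it_r_pin_law (A d ε : ℝ) (hA : 1 ≤ A) (hd : 0 < d) (hd1 : d ≤ 1) (hε : 0 < ε) :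
    ∃ η : ℝ, 0 < η ∧ ∃ N n₁ : ℕ, ∀ n : ℕ, n₁ ≤ n →
      ∀ (Ω ζ : Type) [Fintype Ω] (P : FLaw Ω) (Zs : Ω → ζ) (a b : Ω → ℝ × ℝ),
        PjIid P Zs a b → ItBdS P A a → ItBdS P A b →
        P.pr (fun ω => ¬ PjGoodH P (icQ a) Zs d η n ω) ≤ η →
        P.pr (fun ω => ¬ PjGoodH P (icX a) Zs d η n ω) ≤ η →
        P.pr (fun ω => (2 : ℝ) ^ (-(η * n)) ≤ |(b ω).1 - (a ω).1| ∧ (2 : ℝ) ^ (-(η * n)) ≤ |(b ω).2 - (a ω).2| ∧
          ∀ k ≤ N, ¬ PjGoodH P (icS (fun ω => pjPin (a ω) (b ω))) (pair Zs a) (d - ε) ε (n / 2 ^ k) ω) ≤ ε := by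
  obtain ⟨η, hη, N, n₁, H⟩ := pj_pin_law A d ε hA hd hd1 hε
  refine ⟨η, hη, N, n₁, fun n hn Ω ζ _ P Zs a b hiid hba hbb h1 h2 => ?_⟩
  obtain ⟨a', ha'⟩ : ∃ a' : Ω → ℝ × ℝ, a' = fun ω => if P.p ω ≠ 0 then a ω else (0, 0) := ⟨_, rfl⟩
  obtain ⟨b', hb'⟩ : ∃ b' : Ω → ℝ × ℝ, b' = fun ω => if P.p ω ≠ 0 then b ω else (0, 0) := ⟨_, rfl⟩
  have ea : ∀ ω, P.p ω ≠ 0 → a' ω = a ω := fun ω h => by rw [ha']; simp only [h, ne_eq, not_false_eq_true, if_true]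
  have eb : ∀ ω, P.p ω ≠ 0 → b' ω = b ω := fun ω h => by rw [hb']; simp only [h, ne_eq, not_false_eq_true, if_true]
  have key := H n hn Ω ζ P Zs a' b' ?_ ?_ ?_ ?_ ?_
  · refine le_trans (le_of_eq (ent_pr_congr P fun ω hω => ?_)) key
    rw [ea ω hω, eb ω hω]
    have e : ∀ k, PjGoodH P (icS (fun ω => pjPin (a ω) (b ω))) (pair Zs a) (d - ε) ε (n / 2 ^ k) ω
        ↔ PjGoodH P (icS (fun ω => pjPin (a' ω) (b' ω))) (pair Zs a') (d - ε) ε (n / 2 ^ k) ω := by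
      intro k
      refine it_r_aux_pin_goodH_supp P _ _ _ _ (fun l ω' h' => ?_) (fun ω' h' => ?_) _ _ _ hω
      · simp only [icS]; rw [ea ω' h', eb ω' h']
      · simp only [pair]; rw [ea ω' h']
    simp only [e]
  · refine ⟨fun z x y => ?_, fun z x => ?_⟩
    · have e1 : P.pr (fun ω => Zs ω = z ∧ a' ω = x ∧ b' ω = y) = P.pr (fun ω => Zs ω = z ∧ a ω = x ∧ b ω = y) :=
        ent_pr_congr P fun ω hω => by rw [ea ω hω, eb ω hω]
      have e2 : P.pr (fun ω => Zs ω = z ∧ a' ω = x) = P.pr (fun ω => Zs ω = z ∧ a ω = x) :=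
        ent_pr_congr P fun ω hω => by rw [ea ω hω]
      have e3 : P.pr (fun ω => Zs ω = z ∧ b' ω = y) = P.pr (fun ω => Zs ω = z ∧ b ω = y) :=
        ent_pr_congr P fun ω hω => by rw [eb ω hω]
      rw [e1, e2, e3]
      exact hiid.1 z x y
    · have e2 : P.pr (fun ω => Zs ω = z ∧ a' ω = x) = P.pr (fun ω => Zs ω = z ∧ a ω = x) :=
        ent_pr_congr P fun ω hω => by rw [ea ω hω]
      have e3 : P.pr (fun ω => Zs ω = z ∧ b' ω = x) = P.pr (fun ω => Zs ω = z ∧ b ω = x) :=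
        ent_pr_congr P fun ω hω => by rw [eb ω hω]
      rw [e2, e3]
      exact hiid.2 z x
  · intro ω
    by_cases h : P.p ω ≠ 0
    · rw [ea ω h]; exact hba ω h
    · rw [ha']; simp only [h, if_false, abs_zero]
      constructor <;> linarith
  · intro ω
    by_cases h : P.p ω ≠ 0
    · rw [eb ω h]; exact hbb ω h
    · rw [hb']; simp only [h, if_false, abs_zero]
      constructor <;> linarith
  · refine le_trans (le_of_eq (ent_pr_congr P fun ω hω => ?_)) h1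
    rw [it_r_aux_pin_goodH_supp P (icQ a') (icQ a) Zs Zs (fun l ω' h' => by simp only [icQ]; rw [ea ω' h']) (fun _ _ => rfl) _ _ _ hω]
  · refine le_trans (le_of_eq (ent_pr_congr P fun ω hω => ?_)) h2
    rw [it_r_aux_pin_goodH_supp P (icX a') (icX a) Zs Zs (fun l ω' h' => by simp only [icX]; rw [ea ω' h']) (fun _ _ => rfl) _ _ _ hω]

theorem it_r_aux_pin_goodH_weak {Ω α δ : Type} [Fintype Ω] (P : FLaw Ω) (X : ℕ → Ω → α) (D : Ω → δ) {e e' η η' : ℝ} {n : ℕ}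
    (he : e' ≤ e) (hη : η ≤ η') {ω : Ω} (hg : PjGoodH P X D e η n ω) : PjGoodH P X D e' η' n ω := by
  intro k k' hkk hk'
  refine le_trans ?_ (hg k k' hkk hk')
  have hl2 : 0 < Real.log 2 := Real.log_pos (by norm_num)
  apply mul_le_mul_of_nonneg_right _ hl2.le
  have h1 : (k : ℝ) ≤ k' := by exact_mod_cast hkk
  have h2 : e' * ((k' : ℝ) - k) ≤ e * ((k' : ℝ) - k) := mul_le_mul_of_nonneg_right he (by linarith)
  have h3 : η * n ≤ η' * n := mul_le_mul_of_nonneg_right hη (Nat.cast_nonneg n)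
  linarith

theorem it_r_aux_pin_sepnum (d η ηm η₁ : ℝ) (n k₀ : ℕ) (hd : 0 < d) (hd1 : d ≤ 1) (hη : 0 < η) (h1 : η₁ ≤ d * ηm / 2)
    (hk2 : ηm * n < (k₀ : ℝ) + 1) (g : 144 / η < (2 : ℝ) ^ (d * ηm / 2 * n)) :
    9 * (2 : ℝ) ^ (-(d * k₀ - η₁ * n)) ≤ η / 8 := by
  have hn0 : (0 : ℝ) ≤ n := Nat.cast_nonneg n
  have a1 : η₁ * n ≤ d * ηm / 2 * n := mul_le_mul_of_nonneg_right h1 hn0
  have a2 : d * (ηm * n) ≤ d * ((k₀ : ℝ) + 1) := mul_le_mul_of_nonneg_left hk2.le hd.le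
  have a3 : d * ηm / 2 * n - 1 ≤ d * k₀ - η₁ * n := by nlinarith
  have b1 : (2 : ℝ) ^ (-(d * k₀ - η₁ * n)) ≤ (2 : ℝ) ^ (1 + -(d * ηm / 2 * n)) :=
    Real.rpow_le_rpow_of_exponent_le (by norm_num) (by linarith)
  have b2 : (2 : ℝ) ^ (-(d * ηm / 2 * n)) ≤ η / 144 := by
    rw [Real.rpow_neg (by norm_num), inv_le_comm₀ (by positivity) (by positivity), inv_div]
    exact g.le
  rw [Real.rpow_add (by norm_num), Real.rpow_one] at b1
  linarith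

/-- GLUE (helper9).  PIN PRODUCTS, law form: all held records, separations from the windows. -/
theorem it_r_pin_core (A d η : ℝ) (hA : 1 ≤ A) (hd : 0 < d) (hd1 : d ≤ 1) (hη : 0 < η) :
    ∃ η₁ : ℝ, 0 < η₁ ∧ ∃ N n₁ : ℕ, ∀ n : ℕ, n₁ ≤ n →
      ∀ (Ω ζ β : Type) [Fintype Ω] (P : FLaw Ω) (Zs : Ω → ζ) (a b : Ω → ℝ × ℝ) (V : Ω → β),
        PjIid P Zs a b → ItBdS P A a → ItBdS P A b → (∀ ω ω', V ω = V ω' → a ω = a ω') → P.CI b V Zs →
        P.pr (fun ω => ¬ PjGoodH P (icQ a) Zs d η₁ n ω) ≤ η₁ →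
        P.pr (fun ω => ¬ PjGoodH P (icX a) Zs d η₁ n ω) ≤ η₁ →
        P.pr (fun ω => |(b ω).2 - (a ω).2| < (2 : ℝ) ^ (-(η₁ * n))) ≤ η₁ →
        P.pr (fun ω => ∀ k ≤ N, ¬ PjGoodH P (icS (fun ω => pjPin (a ω) (b ω))) (pair Zs V) (d - η) η (n / 2 ^ k) ω) ≤ η := by
  obtain ⟨η6, hη6, N, n6, H⟩ := it_r_pin_law A d (η / 2) hA hd hd1 (by positivity)
  obtain ⟨ηm, hηm⟩ : ∃ ηm, ηm = min η6 1 := ⟨_, rfl⟩
  have hm0 : 0 < ηm := by rw [hηm]; exact lt_min hη6 one_pos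
  have hm1 : ηm ≤ 1 := by rw [hηm]; exact min_le_right _ _
  have hm6 : ηm ≤ η6 := by rw [hηm]; exact min_le_left _ _
  obtain ⟨η₁, hη₁⟩ : ∃ η₁, η₁ = min ηm (min (η / 8) (d * ηm / 2)) := ⟨_, rfl⟩
  have h10 : 0 < η₁ := by rw [hη₁]; exact lt_min hm0 (lt_min (by positivity) (by positivity))
  have h11 : η₁ ≤ ηm := by rw [hη₁]; exact min_le_left _ _
  have h12 : η₁ ≤ η / 8 := by rw [hη₁]; exact (min_le_right _ _).trans (min_le_left _ _)
  have h13 : η₁ ≤ d * ηm / 2 := by rw [hη₁]; exact (min_le_right _ _).trans (min_le_right _ _)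
  obtain ⟨N1, hN1⟩ := ic_aux_large (d * ηm / 2) (144 / η) (by positivity)
  refine ⟨η₁, h10, N, max n6 N1, fun n hn Ω ζ β _ P Zs a b V hiid hba hbb hV hCI hQ hX hsep => ?_⟩
  have hn0 : (0 : ℝ) ≤ n := Nat.cast_nonneg n
  obtain ⟨k₀, hk₀⟩ : ∃ k₀ : ℕ, k₀ = ⌊ηm * n⌋₊ := ⟨_, rfl⟩
  have hk1 : (k₀ : ℝ) ≤ ηm * n := by rw [hk₀]; exact Nat.floor_le (by positivity)
  have hk2 : ηm * n < (k₀ : ℝ) + 1 := by rw [hk₀]; exact Nat.lt_floor_add_one _
  have hk₀n : k₀ ≤ n := by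
    have : (k₀ : ℝ) ≤ n := hk1.trans (by nlinarith)
    exact_mod_cast this
  have hQ' : P.pr (fun ω => ¬ PjGoodH P (icQ a) Zs d η6 n ω) ≤ η6 := by
    refine le_trans (le_trans (ent_pr_mono P fun ω _ h => ?_) hQ) (h11.trans hm6)
    exact fun hg => h (it_r_aux_goodH_mono P _ _ (h11.trans hm6) hg)
  have hX' : P.pr (fun ω => ¬ PjGoodH P (icX a) Zs d η6 n ω) ≤ η6 := by
    refine le_trans (le_trans (ent_pr_mono P fun ω _ h => ?_) hX) (h11.trans hm6)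
    exact fun hg => h (it_r_aux_goodH_mono P _ _ (h11.trans hm6) hg)
  have key := H n (by omega) Ω ζ P Zs a b hiid hba hbb hQ' hX'
  have s1 := (it_r_sep1 P Zs a b hiid d η₁ n k₀ hk₀n).trans
    (it_r_aux_pin_sepnum d η ηm η₁ n k₀ hd hd1 hη h13 hk2 (hN1 n (by omega)))
  have hsum : P.pr (fun ω => ∀ k ≤ N, ¬ PjGoodH P (icS (fun ω => pjPin (a ω) (b ω))) (pair Zs V) (d - η) η (n / 2 ^ k) ω)
      ≤ (η₁ + η₁) + (η / 8 + η / 2) := by
    refine le_trans ?_ (add_le_add (add_le_add hsep hX) (add_le_add s1 key))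
    refine le_trans ?_ (add_le_add (ent_pr_or_le P _ _) (ent_pr_or_le P _ _))
    refine le_trans (ent_pr_mono P fun ω hω h => ?_) (ent_pr_or_le P _ _)
    by_cases c1 : |(b ω).2 - (a ω).2| < (2 : ℝ) ^ (-(η₁ * n))
    · exact Or.inl (Or.inl c1)
    by_cases c2 : PjGoodH P (icX a) Zs d η₁ n ω
    swap
    · exact Or.inl (Or.inr c2)
    by_cases c3 : |(a ω).1 - (b ω).1| ≤ (1 / 2 : ℝ) ^ k₀
    · exact Or.inr (Or.inl ⟨c2, c3⟩)
    refine Or.inr (Or.inr ⟨?_, ?_, fun k hk hg => h k hk ?_⟩)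
    · rw [abs_sub_comm]
      refine le_trans ?_ (not_le.1 c3).le
      have e : (1 / 2 : ℝ) ^ k₀ = (2 : ℝ) ^ (-(k₀ : ℝ)) := by
        rw [Real.rpow_neg (by norm_num), Real.rpow_natCast, one_div, inv_pow]
      rw [e]
      apply Real.rpow_le_rpow_of_exponent_le (by norm_num)
      have : ηm * n ≤ η6 * n := mul_le_mul_of_nonneg_right hm6 hn0
      linarith
    · refine le_trans ?_ (not_lt.1 c1)
      apply Real.rpow_le_rpow_of_exponent_le (by norm_num)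
      have : η₁ * n ≤ η6 * n := mul_le_mul_of_nonneg_right (h11.trans hm6) hn0
      linarith
    · refine it_r_aux_pin_goodH_weak P _ _ (by linarith) (by linarith) (e := d - η / 2) (η := η / 2) ?_
      intro l l' hl hl'
      refine le_trans (hg l l' hl hl') (le_of_eq ?_)
      exact (it_r_ci_sur P b V Zs a hCI hV (fun y x => icCell l' (pjPin x y)) (fun y x => icCell l (pjPin x y)) hω).symm
  linarith

/-- two records are conditionally independent given the side -/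
theorem it_r_aux_pin_two (T : Tan) (a : ItPar) (pk : ItPk) (h : T.Adm0 a pk) (i j : ℕ) (hi : i < pk.M) (hj : j < pk.M)
    (hij : i ≠ j) (z : T.ζ) (x y : ItMk) :
    T.P.pr (fun ω => T.Zs ω = z ∧ T.mrk i ω = x ∧ T.mrk j ω = y) * T.P.pr (fun ω => T.Zs ω = z)
      = T.P.pr (fun ω => T.Zs ω = z ∧ T.mrk i ω = x) * T.P.pr (fun ω => T.Zs ω = z ∧ T.mrk j ω = y) := by
  have c := ent_ci_comp T.P (T.mrk j) (T.XiE pk.M j) T.Zs (it_r_ci T a pk h j hj) (fun u _ => u) (fun v _ => v ⟨i, hi⟩)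
  have c1 := c y x z
  have e0 : ∀ ω, T.XiE pk.M j ω ⟨i, hi⟩ = T.mrk i ω := by
    intro ω
    unfold Tan.XiE
    simp only [hij, if_false]
  simp only [e0] at c1
  have e1 : T.P.pr (fun ω => T.Zs ω = z ∧ T.mrk i ω = x ∧ T.mrk j ω = y)
      = T.P.pr (fun ω => T.mrk j ω = y ∧ T.mrk i ω = x ∧ T.Zs ω = z) := ent_pr_congr T.P fun ω _ => by tauto
  have e2 : T.P.pr (fun ω => T.Zs ω = z ∧ T.mrk i ω = x) = T.P.pr (fun ω => T.mrk i ω = x ∧ T.Zs ω = z) :=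
    ent_pr_congr T.P fun ω _ => by tauto
  have e3 : T.P.pr (fun ω => T.Zs ω = z ∧ T.mrk j ω = y) = T.P.pr (fun ω => T.mrk j ω = y ∧ T.Zs ω = z) :=
    ent_pr_congr T.P fun ω _ => by tauto
  rw [e1, e2, e3, c1]
  ring

/-- EXCHANGEABLE PAIRS: the pair of records `(i, j)` has the law of the pair `(0, 1)` -/
theorem it_r_pair (T : Tan) (a : ItPar) (pk : ItPk) (h : T.Adm0 a pk) (hM : 2 ≤ pk.M) (i j : ℕ) (hi : i < pk.M) (hj : j < pk.M)
    (hij : i ≠ j) (Φ : ItMk → ItMk → Prop) :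
    T.P.pr (fun ω => Φ (T.mrk i ω) (T.mrk j ω)) = T.P.pr (fun ω => Φ (T.mrk 0 ω) (T.mrk 1 ω)) := by
  refine it_r_aux_transfer T.P (fun ω => (T.Zs ω, T.mrk i ω, T.mrk j ω)) (fun ω => (T.Zs ω, T.mrk 0 ω, T.mrk 1 ω)) (fun w => ?_)
    (fun w => Φ w.2.1 w.2.2)
  obtain ⟨z, x, y⟩ := w
  simp only [Prod.mk.injEq]
  have a1 := it_r_aux_pin_two T a pk h i j hi hj hij z x y
  have a2 := it_r_aux_pin_two T a pk h 0 1 (by omega) (by omega) (by norm_num) z x y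
  rw [h.ident z x i hi 0 (by omega), h.ident z y j hj 1 (by omega), ← a2] at a1
  rcases (ent_pr_nonneg T.P (fun ω => T.Zs ω = z)).eq_or_lt with h0 | hpos
  · have b1 : T.P.pr (fun ω => T.Zs ω = z ∧ T.mrk i ω = x ∧ T.mrk j ω = y) = 0 := by
      refine le_antisymm ?_ (ent_pr_nonneg _ _)
      rw [h0]
      exact ent_pr_mono _ fun ω _ hh => hh.1
    have b2 : T.P.pr (fun ω => T.Zs ω = z ∧ T.mrk 0 ω = x ∧ T.mrk 1 ω = y) = 0 := by
      refine le_antisymm ?_ (ent_pr_nonneg _ _)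
      rw [h0]
      exact ent_pr_mono _ fun ω _ hh => hh.1
    rw [b1, b2]
  · exact mul_right_cancel₀ hpos.ne' a1

/-- ONE STEP of the time mark of the record `i` -/
theorem it_r_step1 (T : Tan) (a : ItPar) (pk : ItPk) (τ' τ κ0 acc : ℝ) (hT : T.Adm a pk τ κ0 acc) (hτ' : 0 ≤ τ')
    (i : ℕ) (hi : i < pk.M) (u u' : ℝ) (hu : u ∈ pk.G) (hu' : u' ∈ pk.G) (huu : u < u') (x : ℝ) :
    T.P.pr (fun ω => T.P.surC (icX (T.pl i) (tlev T.δ u')) (pair (icX (T.pl i) (tlev T.δ u)) T.Zs) ω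
      < ((a.d - τ') * (u' - u) - acc) * T.L - x) ≤ acc + Real.exp (-x) := by
  have hL : 0 < T.L := it_r_aux_lg_pos T.δ hT.t0.δ0 hT.t0.δ1
  have time := hT.tm.time u hu u' hu' huu
  have lp := ltk_lp T.P (T.thn 0 u') (pair T.Zs (T.thn 0 u)) (T.rn 0 (T.rdep a u)) x
  have s0 : T.P.pr (fun ω => T.P.surC (T.thn 0 u') (pair T.Zs (T.thn 0 u)) ω < ((a.d - τ') * (u' - u) - acc) * T.L - x)
      ≤ acc + Real.exp (-x) := by
    refine le_trans ?_ (add_le_add time lp)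
    refine le_trans (ent_pr_mono T.P fun ω _ hω => ?_) (ent_pr_or_le T.P _ _)
    by_contra hcon
    push Not at hcon
    obtain ⟨c1, c2⟩ := hcon
    have e : T.P.surC (T.thn 0 u') (pair (T.rn 0 (T.rdep a u)) (pair T.Zs (T.thn 0 u))) ω
        = T.P.surC (T.thn 0 u') (pair T.Zs (pair (T.thn 0 u) (T.rn 0 (T.rdep a u)))) ω := by
      refine ent_surC_congr T.P _ _ _ _ ω (fun ω' _ => ?_) (fun _ _ _ => Iff.rfl)
      simp only [pair, Prod.mk.injEq]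
      tauto
    rw [e] at c2
    have m1 : (a.d - τ') * (u' - u) ≤ a.d * (u' - u) := mul_le_mul_of_nonneg_right (by linarith) (by linarith)
    have m2 : ((a.d - τ') * (u' - u) - acc) * T.L ≤ (a.d * (u' - u) - acc) * T.L :=
      mul_le_mul_of_nonneg_right (by linarith) hL.le
    linarith
  have id := (it_r_ident T.P T.Zs (T.mrk 0) (T.mrk i) (fun z v => hT.t0.ident z v 0 (by omega) i hi)).2
    (fun μ => tcell T.δ u' μ.th) (fun μ => tcell T.δ u μ.th) (((a.d - τ') * (u' - u) - acc) * T.L - x)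
  refine le_trans (le_of_eq ?_) s0
  refine Eq.trans ?_ id.symm
  refine ent_pr_congr T.P fun ω _ => ?_
  have e : T.P.surC (icX (T.pl i) (tlev T.δ u')) (pair (icX (T.pl i) (tlev T.δ u)) T.Zs) ω
      = T.P.surC (fun ω => tcell T.δ u' (T.mrk i ω).th) (pair T.Zs (fun ω => tcell T.δ u (T.mrk i ω).th)) ω := by
    refine ent_surC_congr T.P _ _ _ _ ω (fun ω' _ => ?_) (fun _ _ _ => Iff.rfl)
    simp only [pair, Prod.mk.injEq]
    exact and_comm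
  rw [e]

/-- HEREDITARY ROOT WINDOW `[0, t]` of the time marks.  Loss `η₁ · tlev δ t` bits. -/
theorem it_r_win1 (a : ItPar) (ha : a.Ok) (η₁ : ℝ) (hη₁ : 0 < η₁) (t : ℝ) (ht : 0 < t) :
    ∃ (G₀ : Finset ℝ) (acc0 : ℝ), (∀ u ∈ G₀, 0 ≤ u) ∧ 0 < acc0 ∧ ∀ (pk : ItPk) (τ κ0 acc : ℝ) (T : Tan), G₀ ⊆ pk.G → 0 < acc →
      acc ≤ acc0 → T.Adm a pk τ κ0 acc → ∀ i < pk.M,
      T.P.pr (fun ω => ¬ ItWin T.P (icX (T.pl i)) T.Zs a.d (η₁ * tlev T.δ t) 0 (tlev T.δ t) ω) ≤ η₁ := by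
  have hl2 : 0 < Real.log 2 := Real.log_pos (by norm_num)
  have hd := ha.2.1
  have hd1 := ha.2.2.1
  obtain ⟨R, hR⟩ : ∃ R : ℕ, 16 * (2 + ((0 : ℕ) : ℝ)) / η₁ + 1 ≤ (R : ℝ) := exists_nat_ge _
  have hR1 : (1 : ℝ) ≤ R := by
    have : 0 ≤ 16 * (2 + ((0 : ℕ) : ℝ)) / η₁ := by positivity
    linarith
  have hR0 : (0 : ℝ) < R := by linarith
  obtain ⟨h, hh⟩ : ∃ h : ℝ, h = t / R := ⟨_, rfl⟩
  have hh0 : 0 < h := by rw [hh]; positivity
  have hRh : (R : ℝ) * h = t := by rw [hh]; field_simp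
  obtain ⟨L₀, hL₀⟩ : ∃ L₀ : ℝ, L₀ = max 1 (max (8 * Real.log 2 * (2 + ((0 : ℕ) : ℝ) + R) / (η₁ * t))
      (8 * R * Real.log (2 * R / η₁) / (η₁ * t))) := ⟨_, rfl⟩
  refine ⟨(Finset.range (R + 1)).image (fun r : ℕ => 0 + (r : ℝ) * h),
    min (η₁ * t / (8 * R)) (min (η₁ / (2 * R)) (Real.exp (-L₀))), ?_, ?_, ?_⟩
  · intro u hu
    rw [Finset.mem_image] at hu
    obtain ⟨r, -, rfl⟩ := hu
    positivity
  · exact lt_min (by positivity) (lt_min (by positivity) (Real.exp_pos _))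
  intro pk τ κ0 acc T hG hacc0 hacc hT i hi
  have hδ0 := hT.t0.δ0
  have hδ1 := hT.t0.δ1
  have ac1 : acc ≤ η₁ * t / (8 * R) := hacc.trans (min_le_left _ _)
  have ac2 : acc ≤ η₁ / (2 * R) := hacc.trans ((min_le_right _ _).trans (min_le_left _ _))
  have ac3 : acc ≤ Real.exp (-L₀) := hacc.trans ((min_le_right _ _).trans (min_le_right _ _))
  have hLL : L₀ ≤ T.L := it_r_aux_lg_ge T.δ L₀ hδ0 (hT.small.le.trans ac3)
  have hL1 : 1 ≤ T.L := le_trans (by rw [hL₀]; exact le_max_left _ _) hLL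
  have hL2 : 8 * Real.log 2 * (2 + ((0 : ℕ) : ℝ) + R) / (η₁ * t) ≤ T.L :=
    le_trans (by rw [hL₀]; exact (le_max_left _ _).trans (le_max_right _ _)) hLL
  have hL3 : 8 * R * Real.log (2 * R / η₁) / (η₁ * t) ≤ T.L :=
    le_trans (by rw [hL₀]; exact (le_max_right _ _).trans (le_max_right _ _)) hLL
  have hLpos : 0 < T.L := by linarith
  obtain ⟨x, hx⟩ : ∃ x : ℝ, x = η₁ * (t * T.L) / (8 * R) := ⟨_, rfl⟩
  have hRx : (R : ℝ) * x = η₁ * (t * T.L) / 8 := by rw [hx]; field_simp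
  obtain ⟨num1, num2⟩ := it_r_aux_win_num a.d η₁ t h T.L acc x (Real.log 2) R ((0 : ℕ) : ℝ) (tlev T.δ t) hd hd1 hη₁ hh0 hLpos hacc0
    hl2 hR0 (by simp) hRh (by
      have : 16 * (2 + ((0 : ℕ) : ℝ)) / η₁ ≤ R := by linarith
      rw [div_le_iff₀ hη₁] at this
      linarith) (by
      rw [le_div_iff₀ (by positivity)] at ac1
      exact ac1) (by
      rw [div_le_iff₀ (by positivity)] at hL2
      linarith) hRx (it_r_lev T.δ t hδ0 hδ1 ht.le).1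
  -- the bad steps
  obtain ⟨s, hs⟩ : ∃ s : ℝ, s = ((a.d - η₁ / 8) * h - acc) * T.L - x := ⟨_, rfl⟩
  have hbad : ∀ r : ℕ, r < R →
      T.P.pr (fun ω => T.P.surC (icX (T.pl i) (tlev T.δ (0 + ((r + 1 : ℕ) : ℝ) * h)))
        (pair (icX (T.pl i) (tlev T.δ (0 + (r : ℝ) * h))) T.Zs) ω < s) ≤ acc + Real.exp (-x) := by
    intro r hrR
    have e : 0 + ((r + 1 : ℕ) : ℝ) * h - (0 + (r : ℝ) * h) = h := by push_cast; ring
    have key := it_r_step1 T a pk (η₁ / 8) τ κ0 acc hT (by positivity) i hi (0 + (r : ℝ) * h)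
      (0 + ((r + 1 : ℕ) : ℝ) * h)
      (hG (Finset.mem_image.2 ⟨r, Finset.mem_range.2 (by omega), rfl⟩))
      (hG (Finset.mem_image.2 ⟨r + 1, Finset.mem_range.2 (by omega), rfl⟩)) (by push_cast; linarith) x
    rw [e, ← hs] at key
    exact key
  have hprob : (R : ℝ) * (acc + Real.exp (-x)) ≤ η₁ := by
    have q1 : (R : ℝ) * acc ≤ η₁ / 2 := by
      rw [le_div_iff₀ (by positivity)] at ac2
      linarith
    have q2 : Real.exp (-x) ≤ η₁ / (2 * R) := by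
      have q3 : Real.log (2 * R / η₁) ≤ x := by
        rw [div_le_iff₀ (by positivity)] at hL3
        rw [hx, le_div_iff₀ (by positivity)]
        linarith
      calc Real.exp (-x) ≤ Real.exp (-Real.log (2 * R / η₁)) := Real.exp_le_exp.2 (by linarith)
        _ = η₁ / (2 * R) := by
          rw [Real.exp_neg, Real.exp_log (by positivity), inv_div]
    have q4 : (R : ℝ) * Real.exp (-x) ≤ η₁ / 2 := by
      calc (R : ℝ) * Real.exp (-x) ≤ R * (η₁ / (2 * R)) := mul_le_mul_of_nonneg_left q2 hR0.le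
        _ = η₁ / 2 := by field_simp
    linarith
  have hsum : T.P.pr (fun ω => ∃ r ∈ Finset.range R,
      T.P.surC (icX (T.pl i) (tlev T.δ (0 + ((r + 1 : ℕ) : ℝ) * h)))
        (pair (icX (T.pl i) (tlev T.δ (0 + (r : ℝ) * h))) T.Zs) ω < s) ≤ R * (acc + Real.exp (-x)) := by
    refine le_trans (ent_pr_exists_le T.P _ _) ?_
    calc _ ≤ ∑ _r ∈ Finset.range R, (acc + Real.exp (-x)) := by
          refine Finset.sum_le_sum fun r hr => ?_
          rw [Finset.mem_range] at hr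
          exact hbad r hr
      _ = R * (acc + Real.exp (-x)) := by
          rw [Finset.sum_const, nsmul_eq_mul, Finset.card_range]
  refine le_trans (ent_pr_mono T.P fun ω hω hbadω => ?_) (hsum.trans hprob)
  by_contra hcon
  push Not at hcon
  apply hbadω
  have det := it_r_aux_win_det T.P (icX (T.pl i)) T.Zs (fun k k' hk ω ω' hq => ic_aux_X_nest _ hk ω ω' hq) T.δ 0 h a.d s hδ0 hδ1
    le_rfl hh0 hd.le R 0 (hs ▸ num1) hω (fun r _ hrR => hcon r (Finset.mem_range.2 hrR))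
  rw [hRh, it_r_aux_lev_zero, zero_add] at det
  refine it_r_aux_win_mono T.P _ _ ?_ det
  rw [hs]
  exact num2

theorem it_r_aux_pin_pow (δ y m : ℝ) (h0 : 0 < δ) (h : y * lg δ ≤ m * Real.log 2) : (2 : ℝ) ^ (-m) ≤ δ ^ y := by
  rw [← it_r_aux_exp2, Real.rpow_def_of_pos h0]
  apply Real.exp_le_exp.2
  have e : lg δ = - Real.log δ := by unfold lg; rw [one_div, Real.log_inv]
  rw [e] at h
  linarith

theorem it_r_aux_pin_lev (δ t : ℝ) (h0 : 0 < δ) (h1 : δ < 1) (ht : 0 < t) (N k : ℕ) (hk : k ≤ N) :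
    tlev δ (t / 2 ^ k) ≤ (tlev δ t + 2 ^ N) / 2 ^ k ∧
    (((tlev δ t + 2 ^ N) / 2 ^ k : ℕ) : ℝ) * Real.log 2 ≤ t / 2 ^ k * lg δ + (1 + 2 ^ N) * Real.log 2 := by
  have hl2 : 0 < Real.log 2 := Real.log_pos (by norm_num)
  have hLp : 0 < lg δ := it_r_aux_lg_pos δ h0 h1
  have p2 : (0 : ℝ) < 2 ^ k := by positivity
  have p1 : (1 : ℝ) ≤ 2 ^ k := one_le_pow₀ (by norm_num)
  have pN : (2 : ℝ) ^ k ≤ 2 ^ N := pow_le_pow_right₀ (by norm_num) hk
  have a1 := it_r_lev δ (t / 2 ^ k) h0 h1 (by positivity)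
  have a2 := it_r_lev δ t h0 h1 ht.le
  constructor
  · rw [Nat.le_div_iff_mul_le (by positivity)]
    have b1 : ((tlev δ (t / 2 ^ k) : ℕ) : ℝ) * Real.log 2 * 2 ^ k < (t / 2 ^ k * lg δ + Real.log 2) * 2 ^ k :=
      mul_lt_mul_of_pos_right a1.2 p2
    have e1 : (t / 2 ^ k * lg δ + Real.log 2) * 2 ^ k = t * lg δ + 2 ^ k * Real.log 2 := by field_simp
    rw [e1] at b1
    have b2 : (2 : ℝ) ^ k * Real.log 2 ≤ 2 ^ N * Real.log 2 := mul_le_mul_of_nonneg_right pN hl2.le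
    have b3 : (((tlev δ (t / 2 ^ k) : ℕ) : ℝ) * 2 ^ k) * Real.log 2 < (((tlev δ t : ℕ) : ℝ) + 2 ^ N) * Real.log 2 := by
      nlinarith [a2.1]
    have b4 := lt_of_mul_lt_mul_right b3 hl2.le
    have b5 : tlev δ (t / 2 ^ k) * 2 ^ k < tlev δ t + 2 ^ N := by exact_mod_cast b4
    exact b5.le
  · have c1 : (((tlev δ t + 2 ^ N) / 2 ^ k : ℕ) : ℝ) ≤ (((tlev δ t + 2 ^ N : ℕ) : ℝ)) / ((2 ^ k : ℕ) : ℝ) := Nat.cast_div_le
    push_cast at c1
    have c2 : (((tlev δ t : ℕ) : ℝ) + 2 ^ N) / 2 ^ k * Real.log 2 ≤ t / 2 ^ k * lg δ + (1 + 2 ^ N) * Real.log 2 := by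
      have e2 : (((tlev δ t : ℕ) : ℝ) + 2 ^ N) / 2 ^ k * Real.log 2
          = (((tlev δ t : ℕ) : ℝ) * Real.log 2 + 2 ^ N * Real.log 2) / 2 ^ k := by ring
      have e3 : t / 2 ^ k * lg δ = t * lg δ / 2 ^ k := by ring
      rw [e2, e3, div_le_iff₀ p2, add_mul, div_mul_cancel₀ _ p2.ne']
      have c3 : (1 + 2 ^ N) * Real.log 2 * 1 ≤ (1 + 2 ^ N) * Real.log 2 * 2 ^ k :=
        mul_le_mul_of_nonneg_left p1 (by positivity)
      linarith [a2.2]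
    exact (mul_le_mul_of_nonneg_right c1 hl2.le).trans c2

theorem it_r_aux_pin_conv (d ε η D Y S Nk l2 x c : ℝ) (hd1 : d ≤ 1) (hε0 : 0 < ε) (hεd : ε ≤ d) (hεη : ε ≤ η / 4) (hl2 : 0 < l2)
    (hS : D - l2 ≤ S * l2) (hN : Nk * l2 ≤ Y + c * l2) (hD : D ≤ Y) (hY0 : 0 ≤ Y)
    (hY : (3 + ε * c) * l2 + 3 * x ≤ η / 2 * Y) :
    d * D - η * Y ≤ ((d - ε) * S - ε * Nk) * l2 - 2 * l2 - 3 * x := by
  have a1 : (d - ε) * (D - l2) ≤ (d - ε) * (S * l2) := mul_le_mul_of_nonneg_left hS (by linarith)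
  have a2 : ε * (Nk * l2) ≤ ε * (Y + c * l2) := mul_le_mul_of_nonneg_left hN hε0.le
  have a3 : ε * D ≤ ε * Y := mul_le_mul_of_nonneg_left hD hε0.le
  have a4 : (d - ε) * l2 ≤ 1 * l2 := mul_le_mul_of_nonneg_right (by linarith) hl2.le
  have a5 : ε * Y ≤ η / 4 * Y := mul_le_mul_of_nonneg_right hεη hY0
  linarith

/-- pointwise conversion: levels to the mesh of depths, with the sign flip -/
theorem it_r_aux_pin_at {Ω γ : Type} [Fintype Ω] (P : FLaw Ω) (g : Ω → ℝ) (C : Ω → γ) (δ d ε η t x c : ℝ) (n nk : ℕ) (ω : Ω)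
    (h0 : 0 < δ) (h1 : δ < 1) (ht : 0 < t) (hn : 0 < n) (hd1 : d ≤ 1) (hε0 : 0 < ε) (hεd : ε ≤ d) (hεη : ε ≤ η / 4)
    (hL : Real.log 2 ≤ t * lg δ) (hnk1 : tlev δ t ≤ nk) (hnk2 : (nk : ℝ) * Real.log 2 ≤ t * lg δ + c * Real.log 2)
    (hY : (3 + ε * c) * Real.log 2 + 3 * x ≤ η / 2 * (t * lg δ))
    (hg : PjGoodH P (icS g) C (d - ε) ε nk ω)
    (hneg : ∀ l l' : ℕ, l ≤ n → l' ≤ n →
      P.surC (icS g (tlev δ (t * l' / n))) (pair (icS g (tlev δ (t * l / n))) C) ω - 2 * Real.log 2 - 3 * x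
        ≤ P.surC (icS (fun ω => -g ω) (tlev δ (t * l' / n))) (pair (icS (fun ω => -g ω) (tlev δ (t * l / n))) C) ω) :
    ∀ l l' : ℕ, l < l' → l' ≤ n → (d * (t * ((l' : ℝ) - l) / n) - η * t) * lg δ
      ≤ P.surC (icS (fun ω => -g ω) (tlev δ (t * l' / n))) (pair (icS (fun ω => -g ω) (tlev δ (t * l / n))) C) ω := by
  intro l l' hl hl'
  have hl2 : 0 < Real.log 2 := Real.log_pos (by norm_num)
  have hLp : 0 < lg δ := it_r_aux_lg_pos δ h0 h1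
  have hn0 : (0 : ℝ) < n := by exact_mod_cast hn
  obtain ⟨l1, l2, -, l4⟩ := it_r_aux_slope_lev δ t h0 h1 ht n l l' hn hl hl' hL
  have g1 := hg _ _ l1 (l2.trans hnk1)
  have g2 := hneg l l' (by omega) hl'
  have hD : t * ((l' : ℝ) - l) / n * lg δ ≤ t * lg δ := by
    apply mul_le_mul_of_nonneg_right _ hLp.le
    rw [div_le_iff₀ hn0]
    apply mul_le_mul_of_nonneg_left _ ht.le
    have a1 : (l' : ℝ) ≤ n := by exact_mod_cast hl'
    have a2 : (0 : ℝ) ≤ l := Nat.cast_nonneg l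
    linarith
  have c := it_r_aux_pin_conv d ε η (t * ((l' : ℝ) - l) / n * lg δ) (t * lg δ)
    (((tlev δ (t * l' / n) : ℕ) : ℝ) - (tlev δ (t * l / n) : ℕ)) nk (Real.log 2) x c hd1 hε0 hεd hεη hl2 l4 hnk2 hD (by positivity) hY
  have e : (d * (t * ((l' : ℝ) - l) / n) - η * t) * lg δ = d * (t * ((l' : ℝ) - l) / n * lg δ) - η * (t * lg δ) := by ring
  rw [e]
  linarith

/-- union bound for the sign flips -/
theorem it_r_aux_pin_negs {Ω γ : Type} [Fintype Ω] (P : FLaw Ω) (g : Ω → ℝ) (C : Ω → γ) (lv : ℕ → ℕ → ℕ) (N n : ℕ) (x : ℝ) :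
    P.pr (fun ω => ∃ k ≤ N, ∃ l ≤ n, ∃ l' ≤ n,
      P.surC (icS (fun ω => -g ω) (lv k l')) (pair (icS (fun ω => -g ω) (lv k l)) C) ω
        < P.surC (icS g (lv k l')) (pair (icS g (lv k l)) C) ω - 2 * Real.log 2 - 3 * x)
      ≤ ((N : ℝ) + 1) * ((n : ℝ) + 1) ^ 2 * (3 * Real.exp (-x)) := by
  have h := ent_pr_exists_le P (Finset.range (N + 1) ×ˢ (Finset.range (n + 1) ×ˢ Finset.range (n + 1)))
    (fun w ω => P.surC (icS (fun ω => -g ω) (lv w.1 w.2.2)) (pair (icS (fun ω => -g ω) (lv w.1 w.2.1)) C) ω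
        < P.surC (icS g (lv w.1 w.2.2)) (pair (icS g (lv w.1 w.2.1)) C) ω - 2 * Real.log 2 - 3 * x)
  refine le_trans (ent_pr_mono P fun ω _ hω => ?_) (h.trans ?_)
  · obtain ⟨k, hk, l, hl, l', hl', hh⟩ := hω
    refine ⟨(k, l, l'), ?_, hh⟩
    simp only [Finset.mem_product, Finset.mem_range]
    omega
  · calc _ ≤ ∑ _w ∈ Finset.range (N + 1) ×ˢ (Finset.range (n + 1) ×ˢ Finset.range (n + 1)), 3 * Real.exp (-x) :=
          Finset.sum_le_sum fun w _ => it_r_neg P g C _ _ x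
      _ = _ := by
          rw [Finset.sum_const, nsmul_eq_mul, Finset.card_product, Finset.card_product, Finset.card_range, Finset.card_range]
          push_cast
          ring

theorem it_r_aux_pin_root {Ω α δ : Type} [Fintype Ω] (P : FLaw Ω) (X : ℕ → Ω → α) (D : Ω → δ) (e η₁ : ℝ) (nl nt : ℕ) (hη₁ : 0 ≤ η₁)
    (h1 : nl ≤ nt) (h2 : nt ≤ 2 * nl) {ω : Ω} (h : ItWin P X D e (η₁ / 2 * nt) 0 nt ω) : PjGoodH P X D e η₁ nl ω := by
  intro k k' hk hk'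
  refine le_trans ?_ (h k k' (Nat.zero_le _) hk (hk'.trans h1))
  have hl2 : 0 < Real.log 2 := Real.log_pos (by norm_num)
  apply mul_le_mul_of_nonneg_right _ hl2.le
  have a1 : (nt : ℝ) ≤ 2 * nl := by exact_mod_cast h2
  have a2 : η₁ / 2 * nt ≤ η₁ / 2 * (2 * nl) := mul_le_mul_of_nonneg_left a1 (by positivity)
  linarith

theorem it_r_aux_pin_scale (t L η K' l2 : ℝ) (N k : ℕ) (hk : k ≤ N) (ht : 0 < t) (hL : 0 < L) (hη : 0 < η)
    (h1 : 2 ^ N * l2 ≤ t * L) (h2 : 2 ^ N * (K' * (2 / η)) ≤ t * L) :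
    l2 ≤ t / 2 ^ k * L ∧ K' ≤ η / 2 * (t / 2 ^ k * L) := by
  have p2 : (0 : ℝ) < 2 ^ k := by positivity
  have pN : (2 : ℝ) ^ k ≤ 2 ^ N := pow_le_pow_right₀ (by norm_num) hk
  have e : t / 2 ^ k * L = t * L / 2 ^ k := by ring
  have m : t * L / 2 ^ N ≤ t * L / 2 ^ k := div_le_div_of_nonneg_left (by positivity) p2 pN
  rw [e]
  constructor
  · refine le_trans ?_ m
    rw [le_div_iff₀ (by positivity)]
    linarith
  · have h3 : K' * (2 / η) ≤ t * L / 2 ^ N := by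
      rw [le_div_iff₀ (by positivity)]
      linarith
    have h4 : K' = η / 2 * (K' * (2 / η)) := by field_simp
    rw [h4]
    exact mul_le_mul_of_nonneg_left (h3.trans m) (by positivity)

theorem it_r_aux_pin_count (δ t c : ℝ) (h0 : 0 < δ) (h1 : δ < 1) (ht : 0 < t) (N n₁ : ℕ) (hc : c = 1 + 2 ^ N)
    (hY : ((n₁ : ℝ) + c) * Real.log 2 ≤ t * lg δ) :
    n₁ ≤ tlev δ t + 2 ^ N ∧ tlev δ t + 2 ^ N ≤ tlev δ (2 * t) ∧ tlev δ (2 * t) ≤ 2 * (tlev δ t + 2 ^ N) ∧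
      t * lg δ ≤ ((tlev δ t + 2 ^ N : ℕ) : ℝ) * Real.log 2 := by
  have hl2 : 0 < Real.log 2 := Real.log_pos (by norm_num)
  have a1 := it_r_lev δ t h0 h1 ht.le
  have a2 := it_r_lev δ (2 * t) h0 h1 (by positivity)
  have hn10 : (0 : ℝ) ≤ n₁ := Nat.cast_nonneg _
  have hc0 : 0 < c := by rw [hc]; positivity
  have pN : (0 : ℝ) < 2 ^ N := by positivity
  refine ⟨?_, ?_, ?_, ?_⟩
  · have b1 : (n₁ : ℝ) * Real.log 2 ≤ ((tlev δ t : ℕ) : ℝ) * Real.log 2 := by nlinarith [a1.1]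
    have b2 := le_of_mul_le_mul_right b1 hl2
    have b3 : n₁ ≤ tlev δ t := by exact_mod_cast b2
    exact b3.trans (Nat.le_add_right _ _)
  · have b1 : (((tlev δ t : ℕ) : ℝ) + 2 ^ N) * Real.log 2 ≤ ((tlev δ (2 * t) : ℕ) : ℝ) * Real.log 2 := by
      rw [hc] at hY
      nlinarith [a1.2, a2.1]
    have b2 := le_of_mul_le_mul_right b1 hl2
    exact_mod_cast b2
  · have := it_r_aux_lev_add δ t t
    rw [← two_mul] at this
    have h2 : 0 ≤ 2 ^ N := Nat.zero_le _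
    omega
  · push_cast
    nlinarith [a1.1]

/-- EXIT 3 (helper9) = `it_slope_pin` of `Int/Meta.lean`, verbatim. -/
theorem it_r_slope_pin (a : ItPar) (ha : a.Ok) (n : ℕ) (hn : 0 < n) (η : ℝ) (hη : 0 < η) : ∃ N : ℕ,
    ItLayerAt false false true a (fun T pk p q => ∀ i < pk.M, ∀ j < pk.M, i ≠ j →
      T.P.pr (fun ω => ∀ k ≤ N, ¬ T.SlopeAt pk.M j ((q - p) / 2 ^ k) n (T.pin i j) a.d η ω) ≤ η) := by
  have hl2 : 0 < Real.log 2 := Real.log_pos (by norm_num)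
  have hn0 : (0 : ℝ) < n := by exact_mod_cast hn
  have hd := ha.2.1
  have hd1 := ha.2.2.1
  have hB0 : 1 ≤ a.B0 := ha.2.2.2.2.2.2.2.2
  obtain ⟨ε, hε⟩ : ∃ ε, ε = min (η / 4) a.d := ⟨_, rfl⟩
  have hε0 : 0 < ε := by rw [hε]; exact lt_min (by positivity) hd
  have hεη : ε ≤ η / 4 := by rw [hε]; exact min_le_left _ _
  have hεd : ε ≤ a.d := by rw [hε]; exact min_le_right _ _
  obtain ⟨η₁, hη₁, N, n₁, Hc⟩ := it_r_pin_core a.B0 a.d ε hB0 hd hd1 hε0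
  obtain ⟨τ, hτ, Hw⟩ := it_r_win a ha (η₁ / 2) (by positivity)
  refine ⟨N, τ, hτ, fun κ0 hκ0 => ⟨1, one_pos, fun p q hp hpq hq => ?_⟩⟩
  obtain ⟨t, ht⟩ : ∃ t, t = q - p := ⟨_, rfl⟩
  have ht0 : 0 < t := by rw [ht]; linarith
  obtain ⟨G₁, acc₁, hG₁, hacc₁, W₁⟩ := Hw κ0 hκ0 0 (2 * t) le_rfl (by positivity) (Or.inl rfl)
  obtain ⟨G₂, acc₂, hG₂, hacc₂, W₂⟩ := it_r_win1 a ha (η₁ / 2) (by positivity) (2 * t) (by positivity)
  obtain ⟨K, hK⟩ : ∃ K : ℝ, K = ((N : ℝ) + 1) * ((n : ℝ) + 1) ^ 2 := ⟨_, rfl⟩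
  have hK0 : 0 < K := by rw [hK]; positivity
  obtain ⟨x, hx⟩ : ∃ x : ℝ, x = max (Real.log (6 * K / η)) 0 := ⟨_, rfl⟩
  have hx0 : 0 ≤ x := by rw [hx]; exact le_max_right _ _
  have hxe : K * (3 * Real.exp (-x)) ≤ η / 2 := by
    have q2 : Real.exp (-x) ≤ η / (6 * K) := by
      calc Real.exp (-x) ≤ Real.exp (-Real.log (6 * K / η)) :=
            Real.exp_le_exp.2 (by rw [hx]; linarith [le_max_left (Real.log (6 * K / η)) 0])
        _ = η / (6 * K) := by rw [Real.exp_neg, Real.exp_log (by positivity), inv_div]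
    calc K * (3 * Real.exp (-x)) ≤ K * (3 * (η / (6 * K))) := by gcongr
      _ = η / 2 := by field_simp; ring
  obtain ⟨c, hc⟩ : ∃ c : ℝ, c = 1 + 2 ^ N := ⟨_, rfl⟩
  have hc0 : 0 < c := by rw [hc]; positivity
  obtain ⟨L₀, hL₀⟩ : ∃ L₀ : ℝ, L₀ = (((n₁ : ℝ) + c) * Real.log 2
      + 2 ^ N * (((3 + ε * c) * Real.log 2 + 3 * x) * (2 / η))) / t := ⟨_, rfl⟩
  refine ⟨⟨0, 0, 0, η₁ * t, G₁ ∪ G₂, ∅⟩, min acc₁ (min acc₂ (min η₁ (Real.exp (-L₀)))),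
    ⟨by positivity, ?_⟩, lt_min hacc₁ (lt_min hacc₂ (lt_min hη₁ (Real.exp_pos _))), ?_⟩
  · intro u hu
    simp only [Finset.mem_union] at hu
    rcases hu with hu | hu
    · exact hG₁ u hu
    · exact hG₂ u hu
  intro pk acc T hpk hle hacc0 hacc hquad hT _ hcr i hi j hj hij
  rw [← ht]
  have hδ0 := hT.t0.δ0
  have hδ1 := hT.t0.δ1
  have hLp : 0 < lg T.δ := it_r_aux_lg_pos T.δ hδ0 hδ1
  have hGsub : G₁ ∪ G₂ ⊆ pk.G := hle.2.2.2.2
  have hχ : pk.χ ≤ η₁ * t := hle.2.2.2.1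
  have hs1 : G₁ ⊆ pk.G := fun u hu => hGsub (by simp [hu])
  have hs2 : G₂ ⊆ pk.G := fun u hu => hGsub (by simp [hu])
  have ac1 : acc ≤ acc₁ := hacc.trans (min_le_left _ _)
  have ac2 : acc ≤ acc₂ := hacc.trans ((min_le_right _ _).trans (min_le_left _ _))
  have ac3 : acc ≤ η₁ := hacc.trans ((min_le_right _ _).trans ((min_le_right _ _).trans (min_le_left _ _)))
  have ac4 : acc ≤ Real.exp (-L₀) := hacc.trans ((min_le_right _ _).trans ((min_le_right _ _).trans (min_le_right _ _)))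
  have hLL : L₀ ≤ lg T.δ := it_r_aux_lg_ge T.δ L₀ hδ0 (hT.small.le.trans ac4)
  have hY : ((n₁ : ℝ) + c) * Real.log 2 + 2 ^ N * (((3 + ε * c) * Real.log 2 + 3 * x) * (2 / η)) ≤ t * lg T.δ := by
    rw [hL₀, div_le_iff₀ ht0] at hLL
    linarith
  have q1 : 0 ≤ ((n₁ : ℝ) + c) * Real.log 2 := by positivity
  have q2 : 0 ≤ (2 : ℝ) ^ N * (((3 + ε * c) * Real.log 2 + 3 * x) * (2 / η)) := by positivity
  have hY1 : ((n₁ : ℝ) + c) * Real.log 2 ≤ t * lg T.δ := by linarith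
  have hY2 : (2 : ℝ) ^ N * (((3 + ε * c) * Real.log 2 + 3 * x) * (2 / η)) ≤ t * lg T.δ := by linarith
  have hY3 : (2 : ℝ) ^ N * Real.log 2 ≤ t * lg T.δ := by
    have : (2 : ℝ) ^ N * Real.log 2 ≤ ((n₁ : ℝ) + c) * Real.log 2 := by
      apply mul_le_mul_of_nonneg_right _ hl2.le
      have : (0 : ℝ) ≤ n₁ := Nat.cast_nonneg _
      rw [hc]; linarith
    linarith
  obtain ⟨cn1, cn2, cn3, cn4⟩ := it_r_aux_pin_count T.δ t c hδ0 hδ1 ht0 N n₁ hc hY1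
  obtain ⟨nl, hnl⟩ : ∃ nl : ℕ, nl = tlev T.δ t + 2 ^ N := ⟨_, rfl⟩
  rw [← hnl] at cn1 cn2 cn3 cn4
  have hrootQ : T.P.pr (fun ω => ¬ PjGoodH T.P (icQ (T.pl i)) T.Zs a.d η₁ nl ω) ≤ η₁ := by
    have w := W₁ pk acc T hs1 hacc0 ac1 hT i hi
    rw [it_r_aux_lev_zero, zero_add] at w
    refine le_trans (ent_pr_mono T.P fun ω _ h => ?_) (w.trans (by linarith))
    exact fun hw => h (it_r_aux_pin_root T.P _ _ a.d η₁ nl _ hη₁.le cn2 cn3 hw)
  have hrootX : T.P.pr (fun ω => ¬ PjGoodH T.P (icX (T.pl i)) T.Zs a.d η₁ nl ω) ≤ η₁ := by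
    have w := W₂ pk τ κ0 acc T hs2 hacc0 ac2 hT i hi
    refine le_trans (ent_pr_mono T.P fun ω _ h => ?_) (w.trans (by linarith))
    exact fun hw => h (it_r_aux_pin_root T.P _ _ a.d η₁ nl _ hη₁.le cn2 cn3 hw)
  have hsep : T.P.pr (fun ω => |(T.pl j ω).2 - (T.pl i ω).2| < (2 : ℝ) ^ (-(η₁ * nl))) ≤ η₁ := by
    have cross : T.P.pr (fun ω => |(T.mrk 0 ω).r - (T.mrk 1 ω).r| < T.δ ^ pk.χ) ≤ acc := hcr rfl
    rw [← it_r_pair T a pk hT.t0 hpk.1 i j hi hj hij (fun μ μ' => |μ.r - μ'.r| < T.δ ^ pk.χ)] at cross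
    refine le_trans (ent_pr_mono T.P fun ω _ h => ?_) (cross.trans ac3)
    have b1 : (2 : ℝ) ^ (-(η₁ * nl)) ≤ T.δ ^ (η₁ * t) := by
      apply it_r_aux_pin_pow T.δ _ _ hδ0
      have := mul_le_mul_of_nonneg_left cn4 hη₁.le
      linarith
    have b2 : T.δ ^ (η₁ * t) ≤ T.δ ^ pk.χ := Real.rpow_le_rpow_of_exponent_ge hδ0 hδ1.le hχ
    rw [abs_sub_comm]
    exact lt_of_lt_of_le h (b1.trans b2)
  have key := Hc nl cn1 T.Ω T.ζ (Fin pk.M → ItMk) T.P T.Zs (T.pl i) (T.pl j) (T.XiE pk.M j)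
    (it_r_iid T a pk hT.t0 i j hi hj hij) (it_r_aux_bd T a pk hT.t0 i hi) (it_r_aux_bd T a pk hT.t0 j hj)
    (it_r_aux_V T pk.M i j hi hij) (it_r_aux_ci_pl T a pk hT.t0 j hj) hrootQ hrootX hsep
  have negs := it_r_aux_pin_negs T.P (fun ω => pjPin (T.pl i ω) (T.pl j ω)) (pair T.Zs (T.XiE pk.M j))
    (fun k l => tlev T.δ (t / 2 ^ k * l / n)) N n x
  rw [← hK] at negs
  have hpin : T.pin i j = fun ω => -(pjPin (T.pl i ω) (T.pl j ω)) := by
    funext ω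
    unfold Tan.pin pjPin Tan.pl
    ring
  have hfin : T.P.pr (fun ω => ∀ k ≤ N, ¬ T.SlopeAt pk.M j (t / 2 ^ k) n (T.pin i j) a.d η ω) ≤ ε + η / 2 := by
    refine le_trans ?_ (add_le_add key (negs.trans hxe))
    refine le_trans (ent_pr_mono T.P fun ω _ h => ?_) (ent_pr_or_le T.P _ _)
    by_contra hcon
    push Not at hcon
    obtain ⟨⟨k, hk, hg⟩, hneg⟩ := hcon
    apply h k hk
    obtain ⟨sc1, sc2⟩ := it_r_aux_pin_scale t (lg T.δ) η ((3 + ε * c) * Real.log 2 + 3 * x) (Real.log 2) N k hk ht0 hLp hη hY3 hY2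
    obtain ⟨lv1, lv2⟩ := it_r_aux_pin_lev T.δ t hδ0 hδ1 ht0 N k hk
    rw [← hnl] at lv1 lv2
    rw [← hc] at lv2
    have at' := it_r_aux_pin_at T.P (fun ω => pjPin (T.pl i ω) (T.pl j ω)) (pair T.Zs (T.XiE pk.M j)) T.δ a.d ε η (t / 2 ^ k) x c n
      (nl / 2 ^ k) ω hδ0 hδ1 (by positivity) hn hd1 hε0 hεd hεη sc1 lv1 lv2 sc2 hg (fun l l' hl hl' => hneg k hk l hl l' hl')
    unfold Tan.SlopeAt
    rw [hpin]
    exact at'
  linarith

end Claimed.Agent.R256
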