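import Claimed.Agent.R256.Int.ModeGeo

/-!
# Row 256, Sec. 5, block MODE, file 3: THE ANGULAR MODE      (architect helper27; prefix `it_m_`)

`it_m_ang_up` = `it_ang_up`, `it_m_mode_ang` = `it_mode_ang` of `Int/Meta.lean` (same statements, proved here).
Plan (05 Lemma int:modes-geometric, first half).  `Yp = ((Q_i, Ξ), (X_p, C_*))`.
 N1  `F_p` is listed by `Yp` (short leg);  N2  the held readings `V_q` are listed by `(F_p, Yp)` (they kill `ℓ_i`; `q ≤ 2p`, `q ≤ RQ`);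
 N3  on `|⟨u, ℓ_i⟩| ≥ δ^χ` the name `X_s` is listed by `(F_p, u_s, Yp)` up to `δ^(-χ)`.
 Then `it_m_asm`: transfer, information tail from (fib), window from (ang).
-/

set_option autoImplicit false

namespace Claimed.Agent.R256

open Claimed.Agent.R255
open Claimed.Agent.R255.FLaw (pair)
open scoped BigOperators
open Classical

/-- NUMERICS: everything that must be small is small once `δ < acc ≤ acc0` -/
theorem it_m_num (η t0 cst : ℝ) (hη : 0 < η) (ht0 : 0 < t0) : ∃ acc0 : ℝ, 0 < acc0 ∧ ∀ acc δ : ℝ, 0 < δ → δ < acc → acc ≤ acc0 →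
    0 < lg δ ∧ cst ≤ η * t0 * lg δ / 16 ∧ Real.exp (-(η * t0 * lg δ / 16)) ≤ η / 64 ∧
    (2 * acc * lg δ + 1) / (η * t0 * lg δ / 8) ≤ η / 16 ∧ acc ≤ η / 64 ∧ acc ≤ η * t0 / 32 := by
  have ha : 0 < η * t0 := mul_pos hη ht0
  have hb : 0 < η * (η * t0) := mul_pos hη ha
  refine ⟨min (Real.exp (-(16 * |cst| / (η * t0) + 1024 / (η * (η * t0)) + 1))) (min (η / 64) (min (η * t0 / 32) (η * (η * t0) / 512))),
    by positivity, ?_⟩
  intro acc δ h0 hacc hle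
  have l1 : acc ≤ Real.exp (-(16 * |cst| / (η * t0) + 1024 / (η * (η * t0)) + 1)) := hle.trans (min_le_left _ _)
  have l2 : acc ≤ η / 64 := hle.trans ((min_le_right _ _).trans (min_le_left _ _))
  have l3 : acc ≤ η * t0 / 32 := hle.trans ((min_le_right _ _).trans ((min_le_right _ _).trans (min_le_left _ _)))
  have l4 : acc ≤ η * (η * t0) / 512 := hle.trans ((min_le_right _ _).trans ((min_le_right _ _).trans (min_le_right _ _)))
  have hL := it_m_L_large h0 hacc l1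
  generalize lg δ = L at hL
  have p1 : 0 ≤ 16 * |cst| / (η * t0) := by positivity
  have p2 : 0 < 1024 / (η * (η * t0)) := by positivity
  have hL0 : 0 < L := by linarith
  have q1 : 16 * |cst| ≤ L * (η * t0) := by
    have : 16 * |cst| / (η * t0) ≤ L := by linarith
    rwa [div_le_iff₀ ha] at this
  have q2 : 1024 ≤ L * (η * (η * t0)) := by
    have : 1024 / (η * (η * t0)) ≤ L := by linarith
    rwa [div_le_iff₀ hb] at this
  refine ⟨hL0, ?_, ?_, ?_, l2, l3⟩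
  · have := le_abs_self cst
    nlinarith
  · have hx : 0 < η * t0 * L / 16 := by positivity
    refine (it_m_exp_le hx).trans ?_
    rw [div_le_iff₀ hx]
    nlinarith
  · have hx : 0 < η * t0 * L / 8 := by positivity
    rw [div_le_iff₀ hx]
    have : acc * L ≤ η * (η * t0) / 512 * L := mul_le_mul_of_nonneg_right l4 hL0.le
    nlinarith

theorem it_m_val_X (f f0 : ItPh) : itVal itcX f f0 = f.X - f0.X := by
  simp [itVal, itcX]

section tan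

variable (T : Tan)

/-- `it_ang_up` at fixed accuracy -/
theorem it_m_up_at (a : ItPar) (pk : ItPk) (acc : ℝ) (hI : T.AdmI a pk acc) (h0 : 0 < T.δ) (h1 : T.δ < 1) {p s : ℝ}
    (hp : p ∈ pk.G) (hs : s ∈ pk.G) (hps : p ≤ s) (q : ℝ) (V : List (T.Ω → ItPh)) (t : ℝ) :
    T.P.pr (fun ω => a.m * (s - p) * T.L + 2 * acc * T.L + t
      < T.P.surC (T.rd p s [fun _ => itcX]) (pair (T.rd p q V) (T.base pk.M p)) ω) ≤ 2 * acc + Real.exp (-t) := by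
  have w := it_m_ang_win T a pk acc hI h0 h1 hp hs hps
  have l := lay_lp T.P (T.Xn s) (pair (T.Xn p) T.Cs) (pair (T.rd p q V) (T.base pk.M p))
    (fun c => (c.2.1.1.1, c.2.2.1)) (fun ω => rfl) t
  refine le_trans (le_trans (ent_pr_mono T.P fun ω hω hbad => ?_) (ent_pr_or_le T.P
    (fun ω => 2 * acc * T.L < |T.P.surC (T.Xn s) (pair (T.Xn p) T.Cs) ω - a.m * (s - p) * T.L|)
    (fun ω => T.P.surC (T.Xn s) (pair (T.Xn p) T.Cs) ω + t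
      < T.P.surC (T.Xn s) (pair (T.rd p q V) (T.base pk.M p)) ω))) (add_le_add w l)
  have hc : T.P.surC (T.rd p s [fun _ => itcX]) (pair (T.rd p q V) (T.base pk.M p)) ω
      = T.P.surC (T.Xn s) (pair (T.rd p q V) (T.base pk.M p)) ω := by
    refine ent_surC_congr T.P _ _ _ _ ω (fun _ _ => Iff.rfl) (fun ω' _ hY => ?_)
    have hF : T.Fn p ω' = T.Fn p ω := congrArg (fun c => c.2.1) hY
    have hX : tcell T.δ p (T.F ω').X = tcell T.δ p (T.F ω).X := congrArg (fun c => c.1.1) hF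
    simp only [Tan.rd, List.map_cons, List.map_nil, List.cons.injEq, and_true, it_m_val_X]
    exact it_m_cell_shift h0 h1 hps _ _ _ _ hX
  rw [hc] at hbad
  by_contra hcon
  push Not at hcon
  obtain ⟨c1, c2⟩ := hcon
  have := (abs_le.1 c1).2
  linarith

end tan

/-- `it_ang_up` -/
theorem it_m_ang_up (quad : Bool) (a : ItPar) (_ha : a.Ok) (n : ℕ) (hn : 0 < n) :
    ItLayer quad false false a (fun T pk p q η => ∀ V : List (T.Ω → ItPh),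
      ∀ k, 1 ≤ k → k ≤ n → T.US pk.M p (itS p q n k) q [fun _ => itcX] V a.m η) := by
  intro η hη
  refine ⟨1, one_pos, fun κ0 _ => ⟨1, one_pos, fun p q hp hpq _ => ?_⟩⟩
  have hn' : (0 : ℝ) < n := Nat.cast_pos.2 hn
  have ht0 : 0 < (q - p) / n := div_pos (by linarith) hn'
  obtain ⟨acc0, hacc0, hnum⟩ := it_m_num η ((q - p) / n) 0 hη ht0
  refine ⟨itmPk p q n p, acc0, it_m_pk_pre hp hpq n hp.le, hacc0, ?_⟩
  intro pk acc T _ hle hacc hacc' _ hA _ _ V k hk hkn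
  obtain ⟨-, -, hpG, hsG⟩ := it_m_pk_mem hle
  obtain ⟨hs1, hs2⟩ := it_m_itS_sub hpq hn hk hkn
  obtain ⟨hL, -, n2, -, n4, n5⟩ := hnum acc T.δ hA.t0.δ0 hA.small hacc'
  have hps : p ≤ itS p q n k := by linarith
  have h := it_m_up_at T a pk acc hA.ti hA.t0.δ0 hA.t0.δ1 hpG (hsG k hkn) hps q V (η * ((q - p) / n) * lg T.δ / 16)
  unfold Tan.US
  refine le_trans (ent_pr_mono T.P fun ω _ hbad => ?_) (h.trans (by linarith))
  refine lt_of_le_of_lt ?_ hbad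
  have hLL : T.L = lg T.δ := rfl
  rw [hLL]
  have e1 : acc * lg T.δ ≤ η * ((q - p) / n) / 32 * lg T.δ := mul_le_mul_of_nonneg_right n5 hL.le
  have e2 : η * ((q - p) / n) * lg T.δ ≤ η * (itS p q n k - p) * lg T.δ :=
    mul_le_mul_of_nonneg_right (mul_le_mul_of_nonneg_left hs1 hη.le) hL.le
  have e3 : 0 ≤ η * ((q - p) / n) * lg T.δ := by positivity
  nlinarith

section tan2

variable (T : Tan)

theorem it_m_f0_congr {p : ℝ} {ω ω' : T.Ω} (hF : T.Fn p ω = T.Fn p ω') : T.f0 p ω = T.f0 p ω' :=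
  it_m_itR_congr hF

theorem it_m_fld_congr {M : ℕ} {B0 A : ℝ} (w : ItSym) (hw : w.Reg M B0 A) {p : ℝ} {ω ω' : T.Ω}
    (hF : T.Fn p ω = T.Fn p ω') (hΞ : T.Xi M ω = T.Xi M ω') : T.fld p w ω = T.fld p w ω' := by
  unfold Tan.fld
  rw [it_m_f0_congr T hF]
  exact hw.dep _ _ _ (fun i hi => congrFun hΞ ⟨i, hi⟩)

theorem it_m_fld_nrm (a : ItPar) (pk : ItPk) (h : T.Adm0 a pk) {A : ℝ} (w : ItSym) (hw : w.Reg pk.M a.B0 A) {p : ℝ}
    (hp : 0 ≤ p) {ω : T.Ω} (hω : T.P.p ω ≠ 0) : (T.fld p w ω).nrm ≤ A := by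
  refine hw.bd _ _ (it_m_itR_box h.δ0 h.δ1 hp (h.bdF ω hω)) (fun i hi => ?_)
  obtain ⟨b1, b2, b3⟩ := h.bdM ω hω i hi
  exact ⟨by linarith, by linarith, by linarith⟩

/-- two samples on one short leg are close -/
theorem it_m_ang_close (a : ItPar) (pk : ItPk) (h : T.Adm0 a pk) (hB : 1 ≤ a.B0) {i : ℕ} (hi : i < pk.M) {p R : ℝ}
    (hp : 0 ≤ p) (hpR : p ≤ R) {ω ω' : T.Ω} (hω : T.P.p ω ≠ 0) (hω' : T.P.p ω' ≠ 0)
    (hQ : T.Qn R i ω = T.Qn R i ω') (hΞ : T.Xi pk.M ω = T.Xi pk.M ω') (hX : T.Xn p ω = T.Xn p ω') :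
    ((T.F ω).sub (T.F ω')).nrm ≤ 8 * a.B0 ^ 2 * T.δ ^ p := by
  have hμ : T.mrk i ω = T.mrk i ω' := congrFun hΞ ⟨i, hi⟩
  obtain ⟨b1, b2, -⟩ := h.bdM ω' hω' i hi
  refine it_m_leg_close T.quad h.δ0 h.δ1 hB hp hpR (T.F ω') (T.F ω) (T.mrk i ω') (h.bdF ω' hω') (h.bdF ω hω) b1 b2
    (fun hq => ⟨h.lin0 hq ω', h.lin0 hq ω⟩) ?_ (it_m_cell_close h.δ0 hX)
  have := hQ.symm
  unfold Tan.Qn at this
  rwa [hμ] at this

/-- the value of a frozen reading along a short leg -/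
theorem it_m_ang_val (a : ItPar) (pk : ItPk) (h : T.Adm0 a pk) (hB : 1 ≤ a.B0) {i : ℕ} (hi : i < pk.M) {p R A : ℝ}
    (hp : 0 ≤ p) {ω ω' : T.Ω} (hω : T.P.p ω ≠ 0) (hω' : T.P.p ω' ≠ 0)
    (hQ : T.Qn R i ω = T.Qn R i ω') (hΞ : T.Xi pk.M ω = T.Xi pk.M ω') (hF : T.Fn p ω = T.Fn p ω')
    (w : ItSym) (hw : w.Reg pk.M a.B0 A) :
    |itVal (T.fld p w ω) (T.F ω) (T.f0 p ω) - itVal (T.fld p w ω') (T.F ω') (T.f0 p ω')
      - ((T.F ω).X - (T.F ω').X) * itDot (T.fld p w ω) (itvEll T.quad (T.f0 p ω) (T.mrk i ω))|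
      ≤ 30 * a.B0 ^ 2 * A * (T.δ ^ R + T.δ ^ (2 * p)) := by
  have hμ : T.mrk i ω = T.mrk i ω' := congrFun hΞ ⟨i, hi⟩
  obtain ⟨b1, b2, -⟩ := h.bdM ω' hω' i hi
  have hX : T.Xn p ω = T.Xn p ω' := congrArg (fun c => c.1.1) hF
  rw [← it_m_fld_congr T w hw hF hΞ, ← it_m_f0_congr T hF, it_m_val_sub, hμ, it_m_f0_congr T hF]
  refine it_m_core T.quad h.δ0 hB (T.F ω') (T.F ω) (T.mrk i ω') (h.bdF ω hω) b1 b2
    (fun hq => ⟨h.lin0 hq ω', h.lin0 hq ω⟩) ?_ (it_m_cell_close h.δ0 hX) _ (it_m_fld_nrm T a pk h w hw hp hω)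
  have := hQ.symm
  unfold Tan.Qn at this
  rwa [hμ] at this

theorem it_m_pow_cancel {δ : ℝ} (h0 : 0 < δ) (p : ℝ) : δ ^ p * δ ^ (-p) = 1 := by
  rw [← Real.rpow_add h0, add_neg_cancel, Real.rpow_zero]

/-- N1 : the parent phase name is listed -/
theorem it_m_ang_N1 (a : ItPar) (pk : ItPk) (h : T.Adm0 a pk) (hB : 1 ≤ a.B0) {i : ℕ} (hi : i < pk.M) {p : ℝ}
    (hp : 0 ≤ p) (hpR : p ≤ pk.RQ) (G : T.Ω → Prop) :
    T.P.NVal G (T.Fn p) (pair (pair (T.Qn pk.RQ i) (T.Xi pk.M)) (pair (T.Xn p) T.Cs)) ((16 * a.B0 ^ 2 + 2) ^ 6) := by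
  have hpp : 0 < T.δ ^ p := Real.rpow_pos_of_pos h.δ0 p
  have := it_m_nval_itF T.P G (pair (pair (T.Qn pk.RQ i) (T.Xi pk.M)) (pair (T.Xn p) T.Cs)) T.F
    (R := 8 * a.B0 ^ 2 * T.δ ^ p) h.δ0 h.δ1 hp (by positivity) (by
      intro ω ω' hω hω' _ _ hY
      simp only [pair, Prod.mk.injEq] at hY
      exact it_m_ang_close T a pk h hB hi hp hpR hω hω' hY.1.1 hY.1.2 hY.2.1)
  have e : 2 * (8 * a.B0 ^ 2 * T.δ ^ p) * T.δ ^ (-p) + 2 = 16 * a.B0 ^ 2 + 2 := by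
    have := it_m_pow_cancel h.δ0 p
    calc _ = 16 * a.B0 ^ 2 * (T.δ ^ p * T.δ ^ (-p)) + 2 := by ring
      _ = _ := by rw [this]; ring
  rw [e] at this
  exact this

/-- N2 : held readings which kill `ℓ_i` are listed -/
theorem it_m_ang_N2 (a : ItPar) (pk : ItPk) (h : T.Adm0 a pk) (hB : 1 ≤ a.B0) {i : ℕ} (hi : i < pk.M) {p q A : ℝ}
    (hp : 0 ≤ p) (hpq : p ≤ q) (hq2 : q ≤ 2 * p) (hqR : q ≤ pk.RQ) (hA : 0 ≤ A) (V : List ItSym)
    (hV : ∀ v ∈ V, ItSym.Reg v pk.M a.B0 A)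
    (hkill : ∀ v ∈ V, ∀ f Ξ, itDot (v f Ξ) (itvEll T.quad f (Ξ i)) = 0) (G : T.Ω → Prop) :
    T.P.NVal G (T.rd p q (V.map (T.fld p)))
      (pair (T.Fn p) (pair (pair (T.Qn pk.RQ i) (T.Xi pk.M)) (pair (T.Xn p) T.Cs))) ((120 * a.B0 ^ 2 * A + 2) ^ V.length) := by
  have hqq : 0 < T.δ ^ q := Real.rpow_pos_of_pos h.δ0 q
  have := it_m_nval_list T.P G (pair (T.Fn p) (pair (pair (T.Qn pk.RQ i) (T.Xi pk.M)) (pair (T.Xn p) T.Cs)))
    (V.map (T.fld p)) (fun u ω => itVal (u ω) (T.F ω) (T.f0 p ω)) (s := q)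
    (R := 60 * a.B0 ^ 2 * A * T.δ ^ q) h.δ0 h.δ1 (hp.trans hpq) (by positivity) (by
      intro u hu ω ω' hω hω' _ _ hY
      obtain ⟨v, hv, rfl⟩ := List.mem_map.1 hu
      simp only [pair, Prod.mk.injEq] at hY
      have hval := it_m_ang_val T a pk h hB hi hp hω hω' hY.2.1.1 hY.2.1.2 hY.1 v (hV v hv)
      have hk : itDot (T.fld p v ω) (itvEll T.quad (T.f0 p ω) (T.mrk i ω)) = 0 := hkill v hv _ _
      rw [hk, mul_zero, sub_zero] at hval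
      refine hval.trans ?_
      have e1 : T.δ ^ pk.RQ ≤ T.δ ^ q := it_m_pow_le h.δ0 h.δ1 hqR
      have e2 : T.δ ^ (2 * p) ≤ T.δ ^ q := it_m_pow_le h.δ0 h.δ1 hq2
      have hc : 0 ≤ 30 * a.B0 ^ 2 * A := by positivity
      nlinarith [mul_le_mul_of_nonneg_left e1 hc, mul_le_mul_of_nonneg_left e2 hc])
  have e : 2 * (60 * a.B0 ^ 2 * A * T.δ ^ q) * T.δ ^ (-q) + 2 = 120 * a.B0 ^ 2 * A + 2 := by
    have := it_m_pow_cancel h.δ0 q
    calc _ = 120 * a.B0 ^ 2 * A * (T.δ ^ q * T.δ ^ (-q)) + 2 := by ring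
      _ = _ := by rw [this]; ring
  rw [e, List.length_map] at this
  exact this

/-- N3 : the angular name is listed by a reading which sees `ℓ_i` -/
theorem it_m_ang_N3 (a : ItPar) (pk : ItPk) (h : T.Adm0 a pk) (hB : 1 ≤ a.B0) {i : ℕ} (hi : i < pk.M) {p s A χ : ℝ}
    (hp : 0 ≤ p) (hps : p ≤ s) (hs2 : s ≤ 2 * p) (hsR : s ≤ pk.RQ) (hA : 0 ≤ A) (hχ : 0 ≤ χ) (u : ItSym)
    (hu : u.Reg pk.M a.B0 A) :
    T.P.NVal (fun ω => T.δ ^ χ ≤ |itDot (T.fld p u ω) (itvEll T.quad (T.f0 p ω) (T.mrk i ω))|) (T.Xn s)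
      (pair (T.Fn p) (pair (T.rd p s [T.fld p u]) (pair (pair (T.Qn pk.RQ i) (T.Xi pk.M)) (pair (T.Xn p) T.Cs))))
      ((120 * a.B0 ^ 2 * A + 4) * T.δ ^ (-χ)) := by
  have hss : 0 < T.δ ^ s := Real.rpow_pos_of_pos h.δ0 s
  have hcc : 0 < T.δ ^ χ := Real.rpow_pos_of_pos h.δ0 χ
  have hsc : 0 < T.δ ^ (s - χ) := Real.rpow_pos_of_pos h.δ0 _
  have := it_m_nval_cell T.P (fun ω => T.δ ^ χ ≤ |itDot (T.fld p u ω) (itvEll T.quad (T.f0 p ω) (T.mrk i ω))|)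
    (pair (T.Fn p) (pair (T.rd p s [T.fld p u]) (pair (pair (T.Qn pk.RQ i) (T.Xi pk.M)) (pair (T.Xn p) T.Cs))))
    (fun ω => (T.F ω).X) (s := s) (R := (60 * a.B0 ^ 2 * A + 1) * T.δ ^ (s - χ)) h.δ0 h.δ1 (hp.trans hps) (by positivity) (by
      intro ω ω' hω hω' hG _ hY
      simp only [pair, Prod.mk.injEq] at hY
      have hval := it_m_ang_val T a pk h hB hi hp hω hω' hY.2.2.1.1 hY.2.2.1.2 hY.1 u hu
      have hcell : tcell T.δ s (itVal (T.fld p u ω) (T.F ω) (T.f0 p ω))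
          = tcell T.δ s (itVal (T.fld p u ω') (T.F ω') (T.f0 p ω')) := by
        have := hY.2.1
        simpa [Tan.rd] using this
      have hcl := it_m_cell_close h.δ0 hcell
      have e1 : T.δ ^ pk.RQ ≤ T.δ ^ s := it_m_pow_le h.δ0 h.δ1 hsR
      have e2 : T.δ ^ (2 * p) ≤ T.δ ^ s := it_m_pow_le h.δ0 h.δ1 hs2
      have hc : 0 ≤ 30 * a.B0 ^ 2 * A := by positivity
      have hprod : |((T.F ω).X - (T.F ω').X) * itDot (T.fld p u ω) (itvEll T.quad (T.f0 p ω) (T.mrk i ω))|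
          ≤ (60 * a.B0 ^ 2 * A + 1) * T.δ ^ s := by
        have key : ∀ x y : ℝ, |y| ≤ |x| + |x - y| := fun x y => by
          have := abs_sub_abs_le_abs_sub y x
          rw [abs_sub_comm y x] at this
          linarith
        have t1 := key (itVal (T.fld p u ω) (T.F ω) (T.f0 p ω) - itVal (T.fld p u ω') (T.F ω') (T.f0 p ω'))
          (((T.F ω).X - (T.F ω').X) * itDot (T.fld p u ω) (itvEll T.quad (T.f0 p ω) (T.mrk i ω)))
        nlinarith [mul_le_mul_of_nonneg_left e1 hc, mul_le_mul_of_nonneg_left e2 hc]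
      rw [abs_mul] at hprod
      have h3 : |(T.F ω).X - (T.F ω').X| * T.δ ^ χ ≤ (60 * a.B0 ^ 2 * A + 1) * T.δ ^ s :=
        (mul_le_mul_of_nonneg_left hG (abs_nonneg _)).trans hprod
      rw [Real.rpow_sub h.δ0, ← mul_div_assoc, le_div_iff₀ hcc]
      exact h3)
  refine it_m_nval_le T.P this ?_
  have hone : 1 ≤ T.δ ^ (-χ) := Real.one_le_rpow_of_pos_of_le_one_of_nonpos h.δ0 h.δ1.le (by linarith)
  have e : T.δ ^ (s - χ) * T.δ ^ (-s) = T.δ ^ (-χ) := by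
    rw [← Real.rpow_add h.δ0]; congr 1; ring
  calc 2 * ((60 * a.B0 ^ 2 * A + 1) * T.δ ^ (s - χ)) * T.δ ^ (-s) + 2
      = (120 * a.B0 ^ 2 * A + 2) * (T.δ ^ (s - χ) * T.δ ^ (-s)) + 2 := by ring
    _ = (120 * a.B0 ^ 2 * A + 2) * T.δ ^ (-χ) + 2 := by rw [e]
    _ ≤ (120 * a.B0 ^ 2 * A + 4) * T.δ ^ (-χ) := by nlinarith

end tan2

/-- the constant loss of the angular transfer -/
noncomputable def itmC (B0 A : ℝ) : ℝ :=
  Real.log ((16 * B0 ^ 2 + 2) ^ 6 * (120 * B0 ^ 2 * A + 2) ^ 6) + Real.log ((16 * B0 ^ 2 + 2) ^ 6 * (120 * B0 ^ 2 * A + 4))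

theorem it_m_ang_eqns_cite : True := by
  have := @itmC.eq_1
  trivial

theorem it_m_reg_mono {u : ItSym} {M : ℕ} {B0 A A' : ℝ} (h : u.Reg M B0 A) (hA : A ≤ A') : u.Reg M B0 A' :=
  ⟨h.dep, fun f Ξ h1 h2 => (h.bd f Ξ h1 h2).trans hA, fun f f' Ξ Ξ' ε h1 h2 h3 h4 h5 h6 =>
    (h.lip f f' Ξ Ξ' ε h1 h2 h3 h4 h5 h6).trans (mul_le_mul_of_nonneg_right hA ((it_m_nrm_nonneg _).trans h5))⟩

section tan3

variable (T : Tan)

/-- `it_mode_ang` at fixed accuracy -/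
theorem it_m_ang_at (a : ItPar) (pk : ItPk) (τ κ0 acc : ℝ) (hA : T.Adm a pk τ κ0 acc) (hB : 1 ≤ a.B0) {i : ℕ} (hi : i < pk.M)
    {p s q A χ : ℝ} (hp : 0 ≤ p) (hps : p ≤ s) (hsq : s ≤ q) (hq2 : q ≤ 2 * p) (hqK : q ≤ pk.K) (hKR : pk.K ≤ pk.RQ)
    (hpG : p ∈ pk.G) (hsG : s ∈ pk.G) (hA0 : 0 ≤ A) (hχ : 0 ≤ χ) (u : ItSym) (V : List ItSym)
    (hu : u.Reg pk.M a.B0 A) (hV : ∀ v ∈ V, ItSym.Reg v pk.M a.B0 A) (hlen : V.length ≤ 6)
    (hkill : ∀ v ∈ V, ∀ f Ξ, itDot (v f Ξ) (itvEll T.quad f (Ξ i)) = 0) (t : ℝ) {t' : ℝ} (ht' : 0 < t') :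
    T.P.pr (fun ω => T.P.surC (T.rd p s [T.fld p u]) (pair (T.rd p q (V.map (T.fld p))) (T.base pk.M p)) ω
        < a.m * (s - p) * T.L - 2 * acc * T.L - t' - itmC a.B0 A - χ * T.L - 3 * t)
      ≤ T.P.pr (fun ω => |itDot (T.fld p u ω) (itvEll T.quad (T.f0 p ω) (T.mrk i ω))| < T.δ ^ χ)
        + 3 * Real.exp (-t) + (acc * T.L + 1) / t' + 2 * acc := by
  have h := hA.t0
  have hqR : q ≤ pk.RQ := hqK.trans hKR
  have hF1 : (1 : ℝ) ≤ 16 * a.B0 ^ 2 + 2 := by nlinarith [sq_nonneg a.B0]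
  have hV1 : (1 : ℝ) ≤ 120 * a.B0 ^ 2 * A + 2 := by nlinarith [mul_nonneg (sq_nonneg a.B0) hA0]
  have hNF : (0 : ℝ) < (16 * a.B0 ^ 2 + 2) ^ 6 := by positivity
  have hNV : (0 : ℝ) < (120 * a.B0 ^ 2 * A + 2) ^ 6 := by positivity
  have hNU : (0 : ℝ) < 120 * a.B0 ^ 2 * A + 4 := by linarith
  have hdc : 0 < T.δ ^ (-χ) := Real.rpow_pos_of_pos h.δ0 _
  refine it_m_asm T.P (fun ω => T.δ ^ χ ≤ |itDot (T.fld p u ω) (itvEll T.quad (T.f0 p ω) (T.mrk i ω))|)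
    (T.rd p s [T.fld p u]) (T.Xn s) (pair (T.rd p q (V.map (T.fld p))) (T.base pk.M p))
    (pair (pair (T.Qn pk.RQ i) (T.Xi pk.M)) (pair (T.Xn p) T.Cs)) (pair (T.Xn p) T.Cs)
    (N₁ := (16 * a.B0 ^ 2 + 2) ^ 6 * (120 * a.B0 ^ 2 * A + 2) ^ 6)
    (N₂ := (16 * a.B0 ^ 2 + 2) ^ 6 * ((120 * a.B0 ^ 2 * A + 4) * T.δ ^ (-χ)))
    (t' := t') (c := a.m * (s - p) * T.L - 2 * acc * T.L) (by positivity) (by positivity) ?_ ?_ ?_ ?_ ?_ ?_
  · -- the conditioning is listed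
    have n1 := it_m_ang_N1 T a pk h hB hi hp ((hps.trans hsq).trans hqR)
      (fun ω => T.δ ^ χ ≤ |itDot (T.fld p u ω) (itvEll T.quad (T.f0 p ω) (T.mrk i ω))|)
    have n2 := it_m_nval_le T.P (it_m_ang_N2 T a pk h hB hi hp (hps.trans hsq) hq2 hqR hA0 V hV hkill
      (fun ω => T.δ ^ χ ≤ |itDot (T.fld p u ω) (itvEll T.quad (T.f0 p ω) (T.mrk i ω))|))
      (pow_le_pow_right₀ hV1 hlen)
    have n3 := ltk_nval_comp T.P _ _ _ _ hNV.le n1 n2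
    exact it_m_nval_with T.P n3 _ (fun b A => (b.1, (b.2, (A.2.2, A.1.2)))) (fun ω _ => rfl)
  · -- the angular name is listed
    have n1 := it_m_nval_ref T.P (A' := pair (T.rd p s [T.fld p u]) (pair (pair (T.Qn pk.RQ i) (T.Xi pk.M)) (pair (T.Xn p) T.Cs)))
      (it_m_ang_N1 T a pk h hB hi hp ((hps.trans hsq).trans hqR)
      (fun ω => T.δ ^ χ ≤ |itDot (T.fld p u ω) (itvEll T.quad (T.f0 p ω) (T.mrk i ω))|)) (fun ω ω' e => (Prod.mk.inj e).2)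
    have n2 := it_m_ang_N3 T a pk h hB hi hp hps (hsq.trans hq2) (hsq.trans hqR) hA0 hχ u hu
    have n3 := ltk_nval_comp T.P _ _ _ _ (by positivity) n1 n2
    exact it_m_nval_with T.P n3 _ (fun b _ => b.1) (fun ω _ => rfl)
  · exact le_of_eq (ent_pr_congr T.P fun ω _ => not_le)
  · refine (ltk_info_tail T.P (T.Xn s) (pair (T.Xn p) T.Cs) (pair (T.Qn pk.RQ i) (T.Xi pk.M)) ht').trans ?_
    exact div_le_div_of_nonneg_right (by linarith [it_m_fib_mi T a pk acc hA.ti h.δ0 h.δ1 hps (hsq.trans hqK) hi]) ht'.le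
  · refine le_trans (ent_pr_mono T.P fun ω _ hbad => ?_) (it_m_ang_win T a pk acc hA.ti h.δ0 h.δ1 hpG hsG hps)
    have := neg_abs_le (T.P.surC (T.Xn s) (pair (T.Xn p) T.Cs) ω - a.m * (s - p) * T.L)
    linarith
  · have e : Real.log ((16 * a.B0 ^ 2 + 2) ^ 6 * ((120 * a.B0 ^ 2 * A + 4) * T.δ ^ (-χ)))
        = χ * T.L + Real.log ((16 * a.B0 ^ 2 + 2) ^ 6 * (120 * a.B0 ^ 2 * A + 4)) := by
      rw [← mul_assoc]
      exact it_k_aux_log_cap h.δ0 χ _ (by positivity)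
    rw [e]
    unfold itmC
    linarith

end tan3

/-- `it_mode_ang` -/
theorem it_m_mode_ang (quad : Bool) (a : ItPar) (ha : a.Ok) (_hm : 0 < a.m) (A0 : ℝ) (n : ℕ) (hn : 0 < n) :
    ItLayer quad false false a (fun T pk p q η => ∀ i < pk.M, ∀ (u : ItSym) (V : List ItSym),
      u.Reg pk.M a.B0 A0 → (∀ v ∈ V, ItSym.Reg v pk.M a.B0 A0) → V.length ≤ 6 →
      (∀ v ∈ V, ∀ f Ξ, itDot (v f Ξ) (itvEll quad f (Ξ i)) = 0) →
      T.P.pr (fun ω => |itDot (T.fld p u ω) (itvEll quad (T.f0 p ω) (T.mrk i ω))| < T.δ ^ itChi p q n η) ≤ η / 2 →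
      ∀ k, 1 ≤ k → k ≤ n → T.LS pk.M p (itS p q n k) q [T.fld p u] (V.map (T.fld p)) a.m η) := by
  intro η hη
  refine ⟨1, one_pos, fun κ0 _ => ⟨1, one_pos, fun p q hp hpq hq2 => ?_⟩⟩
  have hB : 1 ≤ a.B0 := ha.2.2.2.2.2.2.2.2
  have hn' : (0 : ℝ) < n := Nat.cast_pos.2 hn
  have ht0 : 0 < (q - p) / n := div_pos (by linarith) hn'
  obtain ⟨acc0, hacc0, hnum⟩ := it_m_num η ((q - p) / n) (itmC a.B0 (max A0 0)) hη ht0
  refine ⟨itmPk p q n p, acc0, it_m_pk_pre hp hpq n hp.le, hacc0, ?_⟩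
  intro pk acc T hpk hle hacc hacc' hquad hA _ _ i hi u V hu hV hlen hkill hsep k hk hkn
  subst hquad
  obtain ⟨hqK, -, hpG, hsG⟩ := it_m_pk_mem hle
  obtain ⟨hs1, hs2⟩ := it_m_itS_sub hpq hn hk hkn
  obtain ⟨hL, n1, n2, n3, n4, n5⟩ := hnum acc T.δ hA.t0.δ0 hA.small hacc'
  have hps : p ≤ itS p q n k := by linarith
  have hχ : itChi p q n η = η * ((q - p) / n) / 4 := by
    unfold itChi; field_simp
  have hχ0 : 0 ≤ itChi p q n η := by rw [hχ]; positivity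
  have ht' : 0 < η * ((q - p) / n) * lg T.δ / 8 := by positivity
  have h := it_m_ang_at T a pk 1 κ0 acc hA hB hi hp.le hps hs2 (by linarith) hqK hpk.2.2.1.le hpG (hsG k hkn)
    (le_max_right A0 0) hχ0 u V (it_m_reg_mono hu (le_max_left _ _)) (fun v hv => it_m_reg_mono (hV v hv) (le_max_left _ _))
    hlen hkill (η * ((q - p) / n) * lg T.δ / 16) ht'
  have hLL : T.L = lg T.δ := rfl
  unfold Tan.LS
  have e0 : acc * lg T.δ ≤ η * ((q - p) / n) / 32 * lg T.δ := mul_le_mul_of_nonneg_right n5 hL.le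
  have e3 : 0 ≤ η * ((q - p) / n) * lg T.δ := by positivity
  refine le_trans (ent_pr_mono T.P fun ω _ hbad => ?_) (h.trans ?_)
  · refine lt_of_lt_of_le hbad ?_
    rw [hLL, hχ]
    have e2 : η * ((q - p) / n) * lg T.δ ≤ η * (itS p q n k - p) * lg T.δ :=
      mul_le_mul_of_nonneg_right (mul_le_mul_of_nonneg_left hs1 hη.le) hL.le
    nlinarith
  · rw [hLL]
    have e4 : (acc * lg T.δ + 1) / (η * ((q - p) / n) * lg T.δ / 8) ≤ (2 * acc * lg T.δ + 1) / (η * ((q - p) / n) * lg T.δ / 8) :=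
      div_le_div_of_nonneg_right (by nlinarith [mul_nonneg hacc.le hL.le]) ht'.le
    linarith

end Claimed.Agent.R256
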