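-- KEEP
import Claimed.Agent.R256.Int.ModeAng
import Claimed.Agent.R256.Int.Sym

/-!
# Row 256, Sec. 5, block WMODE: THE ANGULAR MODE ON A WEDGE LAYER      (helper267; prefix `it_wm_`)

`it_wm_mode` = `it_w_mode` of `Int/Meta.lean` VERBATIM (05 l.962-985).   On helper27's kit (`Int/ModeKit`, `ModeGeo`, `ModeAng`).
 `Yp = ((Q_i, Ξ), (X_p, C_*))` lists `F_p` (`it_m_ang_N1`); `(F_p, Yp)` lists the held readings `V_q` (`it_m_ang_N2`, `q ≤ 2p`) and the Heisenberg name `F_{p,z}` (`it_wm_N`: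
 the recentred coordinates are `⟨H, F⟩, ⟨J, F⟩, ⟨K, F⟩` with covectors frozen at the parent, they kill `ℓ_i`, `z ≤ 2p`); `(F_p, u_q, Yp)` lists `X_q` up to `δ^(-χ)` (`it_m_ang_N3`).
 Then `it_m_asm` : transfer, information tail from (fib), window from (ang).   The hypothesis `Hor` is not needed.
-/

set_option autoImplicit false

namespace Claimed.Agent.R256

open Claimed.Agent.R255
open Claimed.Agent.R255.FLaw (pair)
open scoped BigOperators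
open Classical

theorem it_wm_val_dot (w f f0 : ItPh) : itVal w f f0 = itDot w f - itDot w f0 := by
  unfold itVal itDot; ring

theorem it_wm_kill_H (f : ItPh) (Ξ : ℕ → ItMk) (i : ℕ) : itDot (itsH f Ξ) (itvEll true f (Ξ i)) = 0 := by
  simp only [itsH, itcH, itvEll, itDot, if_true]; ring

theorem it_wm_kill_J (f : ItPh) (Ξ : ℕ → ItMk) (i : ℕ) : itDot (itsJ f Ξ) (itvEll true f (Ξ i)) = 0 := by
  simp only [itsJ, itcJ, itvEll, itDot, if_true]; ring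

theorem it_wm_kill_K (f : ItPh) (Ξ : ℕ → ItMk) (i : ℕ) : itDot (itsK f Ξ) (itvEll true f (Ξ i)) = 0 := by
  simp only [itsK, itcK, itvEll, itDot, if_true]; ring

section tan

variable (T : Tan)

/-- the Heisenberg name is listed by the parent phase name and the fibre read -/
theorem it_wm_N (a : ItPar) (pk : ItPk) (h : T.Adm0 a pk) (hq : T.quad = true) (hB : 1 ≤ a.B0) {i : ℕ} (hi : i < pk.M) {p z A : ℝ}
    (hp : 0 ≤ p) (hpz : p ≤ z) (hz2 : z ≤ 2 * p) (hzR : z ≤ pk.RQ) (hA : 0 ≤ A)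
    (hH : itsH.Reg pk.M a.B0 A) (hJ : itsJ.Reg pk.M a.B0 A) (hK : itsK.Reg pk.M a.B0 A) (G : T.Ω → Prop) :
    T.P.NVal G (T.Hn p z)
      (pair (T.Fn p) (pair (pair (T.Qn pk.RQ i) (T.Xi pk.M)) (pair (T.Xn p) T.Cs))) ((120 * a.B0 ^ 2 * A + 2) ^ 3) := by
  have hzz : 0 < T.δ ^ z := Real.rpow_pos_of_pos h.δ0 z
  have hreg : ∀ w ∈ [itsH, itsJ, itsK], ItSym.Reg w pk.M a.B0 A := by
    intro w hw
    simp only [List.mem_cons, List.not_mem_nil, or_false] at hw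
    rcases hw with rfl | rfl | rfl
    exacts [hH, hJ, hK]
  have hkill : ∀ w ∈ [itsH, itsJ, itsK], ∀ f Ξ, itDot ((w : ItSym) f Ξ) (itvEll T.quad f (Ξ i)) = 0 := by
    intro w hw f Ξ
    rw [hq]
    simp only [List.mem_cons, List.not_mem_nil, or_false] at hw
    rcases hw with rfl | rfl | rfl
    exacts [it_wm_kill_H f Ξ i, it_wm_kill_J f Ξ i, it_wm_kill_K f Ξ i]
  have := it_m_nval_list T.P G (pair (T.Fn p) (pair (pair (T.Qn pk.RQ i) (T.Xi pk.M)) (pair (T.Xn p) T.Cs)))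
    [itsH, itsJ, itsK] (fun w ω => itDot (T.fld p w ω) (T.F ω)) (s := z)
    (R := 60 * a.B0 ^ 2 * A * T.δ ^ z) h.δ0 h.δ1 (hp.trans hpz) (by positivity) (by
      intro w hw ω ω' hω hω' _ _ hY
      simp only [pair, Prod.mk.injEq] at hY
      have hval := it_m_ang_val T a pk h hB hi hp hω hω' hY.2.1.1 hY.2.1.2 hY.1 w (hreg w hw)
      have hk : itDot (T.fld p w ω) (itvEll T.quad (T.f0 p ω) (T.mrk i ω)) = 0 := hkill w hw _ _
      rw [hk, mul_zero, sub_zero, it_wm_val_dot, it_wm_val_dot, ← it_m_fld_congr T w (hreg w hw) hY.1 hY.2.1.2,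
        ← it_m_f0_congr T hY.1] at hval
      have e : itDot (T.fld p w ω) (T.F ω) - itDot (T.fld p w ω) (T.F ω')
          = itDot (T.fld p w ω) (T.F ω) - itDot (T.fld p w ω) (T.f0 p ω)
            - (itDot (T.fld p w ω) (T.F ω') - itDot (T.fld p w ω) (T.f0 p ω)) := by ring
      show |itDot (T.fld p w ω) (T.F ω) - itDot (T.fld p w ω') (T.F ω')| ≤ _
      rw [← it_m_fld_congr T w (hreg w hw) hY.1 hY.2.1.2, e]
      refine hval.trans ?_
      have e1 : T.δ ^ pk.RQ ≤ T.δ ^ z := it_m_pow_le h.δ0 h.δ1 hzR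
      have e2 : T.δ ^ (2 * p) ≤ T.δ ^ z := it_m_pow_le h.δ0 h.δ1 hz2
      have hc : 0 ≤ 30 * a.B0 ^ 2 * A := by positivity
      nlinarith [mul_le_mul_of_nonneg_left e1 hc, mul_le_mul_of_nonneg_left e2 hc])
  have e : 2 * (60 * a.B0 ^ 2 * A * T.δ ^ z) * T.δ ^ (-z) + 2 = 120 * a.B0 ^ 2 * A + 2 := by
    have := it_m_pow_cancel h.δ0 z
    calc _ = 120 * a.B0 ^ 2 * A * (T.δ ^ z * T.δ ^ (-z)) + 2 := by ring
      _ = _ := by rw [this]; ring
  rw [e] at this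
  refine it_m_nval_with T.P this (T.Hn p z) (fun b A => (A.1.1, (b.getD 0 0, b.getD 1 0, b.getD 2 0))) (fun ω _ => ?_)
  have c1 : itDot (T.fld p itsH ω) (T.F ω) = (T.F ω).Y - 2 * trep T.δ p (T.F ω).X * (T.F ω).B := by
    simp only [Tan.fld, itsH, itcH, itDot, Tan.f0, itR]; ring
  have c2 : itDot (T.fld p itsJ ω) (T.F ω) = (T.F ω).N - trep T.δ p (T.F ω).P * (T.F ω).X := by
    simp only [Tan.fld, itsJ, itcJ, itDot, Tan.f0, itR]; ring
  have c3 : itDot (T.fld p itsK ω) (T.F ω) = (T.F ω).D - trep T.δ p (T.F ω).P * (T.F ω).B := by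
    simp only [Tan.fld, itsK, itcK, itDot, Tan.f0, itR]; ring
  simp only [List.map_cons, List.map_nil, List.getD_cons_zero, List.getD_cons_succ, c1, c2, c3, pair]
  rfl

end tan

/-- the constant loss of the transfer on a wedge layer -/
noncomputable def itwmC (B0 A : ℝ) : ℝ :=
  Real.log ((16 * B0 ^ 2 + 2) ^ 6 * ((120 * B0 ^ 2 * A + 2) ^ 3 * (120 * B0 ^ 2 * A + 2) ^ 3))
    + Real.log ((16 * B0 ^ 2 + 2) ^ 6 * (120 * B0 ^ 2 * A + 4))

theorem it_wm_eqns_cite : True := by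
  have := @itwmC.eq_1
  trivial

section tan3

variable (T : Tan)

/-- `it_w_mode` at fixed accuracy -/
theorem it_wm_at (a : ItPar) (pk : ItPk) (τ κ0 acc : ℝ) (hA : T.Adm a pk τ κ0 acc) (hq : T.quad = true) (hB : 1 ≤ a.B0)
    {i : ℕ} (hi : i < pk.M) {p q z A χ : ℝ} (hp : 0 ≤ p) (hpq : p ≤ q) (hqz : q ≤ z) (hz2 : z ≤ 2 * p) (hzK : z ≤ pk.K)
    (hKR : pk.K ≤ pk.RQ) (hpG : p ∈ pk.G) (hqG : q ∈ pk.G) (hA0 : 0 ≤ A) (hχ : 0 ≤ χ) (u : ItSym) (V : List ItSym)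
    (hu : u.Reg pk.M a.B0 A) (hV : ∀ v ∈ V, ItSym.Reg v pk.M a.B0 A) (hlen : V.length ≤ 3)
    (hH : itsH.Reg pk.M a.B0 A) (hJ : itsJ.Reg pk.M a.B0 A) (hK : itsK.Reg pk.M a.B0 A)
    (hkill : ∀ v ∈ V, ∀ f Ξ, itDot (v f Ξ) (itvEll T.quad f (Ξ i)) = 0) (t : ℝ) {t' : ℝ} (ht' : 0 < t') :
    T.P.pr (fun ω => T.P.surC (T.rd p q [T.fld p u]) (pair (T.rd p q (V.map (T.fld p))) (T.baseW pk.M p z)) ω
        < a.m * (q - p) * T.L - 2 * acc * T.L - t' - itwmC a.B0 A - χ * T.L - 3 * t)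
      ≤ T.P.pr (fun ω => |itDot (T.fld p u ω) (itvEll T.quad (T.f0 p ω) (T.mrk i ω))| < T.δ ^ χ)
        + 3 * Real.exp (-t) + (acc * T.L + 1) / t' + 2 * acc := by
  have h := hA.t0
  have hzR : z ≤ pk.RQ := hzK.trans hKR
  have hqR : q ≤ pk.RQ := hqz.trans hzR
  have hq2 : q ≤ 2 * p := hqz.trans hz2
  have hF1 : (1 : ℝ) ≤ 16 * a.B0 ^ 2 + 2 := by nlinarith [sq_nonneg a.B0]
  have hV1 : (1 : ℝ) ≤ 120 * a.B0 ^ 2 * A + 2 := by nlinarith [mul_nonneg (sq_nonneg a.B0) hA0]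
  have hNF : (0 : ℝ) < (16 * a.B0 ^ 2 + 2) ^ 6 := by positivity
  have hNV : (0 : ℝ) < (120 * a.B0 ^ 2 * A + 2) ^ 3 := by positivity
  have hNU : (0 : ℝ) < 120 * a.B0 ^ 2 * A + 4 := by linarith
  have hdc : 0 < T.δ ^ (-χ) := Real.rpow_pos_of_pos h.δ0 _
  refine it_m_asm T.P (fun ω => T.δ ^ χ ≤ |itDot (T.fld p u ω) (itvEll T.quad (T.f0 p ω) (T.mrk i ω))|)
    (T.rd p q [T.fld p u]) (T.Xn q) (pair (T.rd p q (V.map (T.fld p))) (T.baseW pk.M p z))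
    (pair (pair (T.Qn pk.RQ i) (T.Xi pk.M)) (pair (T.Xn p) T.Cs)) (pair (T.Xn p) T.Cs)
    (N₁ := (16 * a.B0 ^ 2 + 2) ^ 6 * ((120 * a.B0 ^ 2 * A + 2) ^ 3 * (120 * a.B0 ^ 2 * A + 2) ^ 3))
    (N₂ := (16 * a.B0 ^ 2 + 2) ^ 6 * ((120 * a.B0 ^ 2 * A + 4) * T.δ ^ (-χ)))
    (t' := t') (c := a.m * (q - p) * T.L - 2 * acc * T.L) (by positivity) (by positivity) ?_ ?_ ?_ ?_ ?_ ?_
  · -- the conditioning is listed
    have n1 := it_m_ang_N1 T a pk h hB hi hp (hpq.trans hqR)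
      (fun ω => T.δ ^ χ ≤ |itDot (T.fld p u ω) (itvEll T.quad (T.f0 p ω) (T.mrk i ω))|)
    have n2 := it_m_nval_le T.P (it_m_ang_N2 T a pk h hB hi hp hpq hq2 hqR hA0 V hV hkill
      (fun ω => T.δ ^ χ ≤ |itDot (T.fld p u ω) (itvEll T.quad (T.f0 p ω) (T.mrk i ω))|))
      (pow_le_pow_right₀ hV1 hlen)
    have n2' := it_m_nval_ref T.P (A' := pair (T.rd p q (V.map (T.fld p)))
        (pair (T.Fn p) (pair (pair (T.Qn pk.RQ i) (T.Xi pk.M)) (pair (T.Xn p) T.Cs))))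
      (it_wm_N T a pk h hq hB hi hp (hpq.trans hqz) hz2 hzR hA0 hH hJ hK
      (fun ω => T.δ ^ χ ≤ |itDot (T.fld p u ω) (itvEll T.quad (T.f0 p ω) (T.mrk i ω))|)) (fun ω ω' e => (Prod.mk.inj e).2)
    have n3 := ltk_nval_comp T.P _ _ _ _ hNV.le n2 n2'
    have n4 := ltk_nval_comp T.P _ _ _ _ (by positivity) n1 n3
    exact it_m_nval_with T.P n4 _ (fun b A => (b.1.2, (b.1.1, (A.2.2, A.1.2)))) (fun ω _ => rfl)
  · -- the angular name is listed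
    have n1 := it_m_nval_ref T.P (A' := pair (T.rd p q [T.fld p u]) (pair (pair (T.Qn pk.RQ i) (T.Xi pk.M)) (pair (T.Xn p) T.Cs)))
      (it_m_ang_N1 T a pk h hB hi hp (hpq.trans hqR)
      (fun ω => T.δ ^ χ ≤ |itDot (T.fld p u ω) (itvEll T.quad (T.f0 p ω) (T.mrk i ω))|)) (fun ω ω' e => (Prod.mk.inj e).2)
    have n2 := it_m_ang_N3 T a pk h hB hi hp hpq hq2 hqR hA0 hχ u hu
    have n3 := ltk_nval_comp T.P _ _ _ _ (by positivity) n1 n2
    exact it_m_nval_with T.P n3 _ (fun b _ => b.1) (fun ω _ => rfl)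
  · exact le_of_eq (ent_pr_congr T.P fun ω _ => not_le)
  · refine (ltk_info_tail T.P (T.Xn q) (pair (T.Xn p) T.Cs) (pair (T.Qn pk.RQ i) (T.Xi pk.M)) ht').trans ?_
    exact div_le_div_of_nonneg_right (by linarith [it_m_fib_mi T a pk acc hA.ti h.δ0 h.δ1 hpq (hqz.trans hzK) hi]) ht'.le
  · refine le_trans (ent_pr_mono T.P fun ω _ hbad => ?_) (it_m_ang_win T a pk acc hA.ti h.δ0 h.δ1 hpG hqG hpq)
    have := neg_abs_le (T.P.surC (T.Xn q) (pair (T.Xn p) T.Cs) ω - a.m * (q - p) * T.L)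
    linarith
  · have e : Real.log ((16 * a.B0 ^ 2 + 2) ^ 6 * ((120 * a.B0 ^ 2 * A + 4) * T.δ ^ (-χ)))
        = χ * T.L + Real.log ((16 * a.B0 ^ 2 + 2) ^ 6 * (120 * a.B0 ^ 2 * A + 4)) := by
      rw [← mul_assoc]
      exact it_k_aux_log_cap h.δ0 χ _ (by positivity)
    rw [e]
    unfold itwmC
    linarith

end tan3

/-- = `it_w_mode` -/
theorem it_wm_mode (a : ItPar) (ha : a.Ok) (hm : 0 < a.m) (A0 : ℝ) :
    ItTri true false false false a (fun T pk p q z η => ∀ i < pk.M, ∀ (u : ItSym) (V : List ItSym),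
      u.Reg pk.M a.B0 A0 → u.Hor → (∀ v ∈ V, ItSym.Reg v pk.M a.B0 A0 ∧ ItSym.Hor v) → V.length ≤ 3 →
      (∀ v ∈ V, ∀ f Ξ, itDot (v f Ξ) (itvEll true f (Ξ i)) = 0) →
      T.P.pr (fun ω => |itDot (T.fld p u ω) (itvEll true (T.f0 p ω) (T.mrk i ω))| < T.δ ^ (η * (q - p) / 4)) ≤ η / 2 →
      T.LSW pk.M p z q [T.fld p u] (V.map (T.fld p)) a.m η) := by
  intro η hη
  refine ⟨1, one_pos, fun κ0 _ => ⟨1, one_pos, fun p q z hp hpq hqz hz2 _ => ?_⟩⟩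
  have hB : 1 ≤ a.B0 := ha.2.2.2.2.2.2.2.2
  obtain ⟨Ac, hAc, hreg⟩ := it_s_regU_list [itsH, itsJ, itsK] 0 a.B0 (by
    intro U hU
    simp only [List.mem_cons, List.not_mem_nil, or_false] at hU
    rcases hU with rfl | rfl | rfl
    exacts [it_s_regU_H _, it_s_regU_J _, it_s_regU_K _])
  have ht0 : 0 < q - p := by linarith
  obtain ⟨acc0, hacc0, hnum⟩ := it_m_num η (q - p) (itwmC a.B0 (max A0 Ac)) hη ht0
  refine ⟨⟨0, z, z, 1, {p, q}, ∅⟩, acc0, ⟨one_pos, ?_⟩, hacc0, ?_⟩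
  · intro x hx
    simp only [Finset.mem_insert, Finset.mem_singleton] at hx
    rcases hx with rfl | rfl <;> linarith
  intro pk acc T hpk hle hacc hacc' hquad hA _ _ i hi u V hu _ hV hlen hkill hsep
  have hzK : z ≤ pk.K := hle.2.1
  have hG := hle.2.2.2.2
  have hpG : p ∈ pk.G := hG (by simp)
  have hqG : q ∈ pk.G := hG (by simp)
  obtain ⟨hL, n1, n2, n3, n4, n5⟩ := hnum acc T.δ hA.t0.δ0 hA.small hacc'
  have hχ0 : 0 ≤ η * (q - p) / 4 := by positivity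
  have ht' : 0 < η * (q - p) * lg T.δ / 8 := by positivity
  have hAm : 0 ≤ max A0 Ac := le_max_of_le_right hAc
  have h := it_wm_at T a pk 1 κ0 acc hA hquad hB hi hp.le hpq.le hqz hz2 hzK hpk.2.2.1.le hpG hqG hAm hχ0 u V
    (it_m_reg_mono hu (le_max_left _ _)) (fun v hv => it_m_reg_mono (hV v hv).1 (le_max_left _ _)) hlen
    (it_m_reg_mono (hreg itsH (by simp) pk.M (Nat.zero_le _)) (le_max_right _ _))
    (it_m_reg_mono (hreg itsJ (by simp) pk.M (Nat.zero_le _)) (le_max_right _ _))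
    (it_m_reg_mono (hreg itsK (by simp) pk.M (Nat.zero_le _)) (le_max_right _ _))
    (by rw [hquad]; exact hkill) (η * (q - p) * lg T.δ / 16) ht'
  rw [hquad] at h
  have hLL : T.L = lg T.δ := rfl
  unfold Tan.LSW
  have e0 : acc * lg T.δ ≤ η * (q - p) / 32 * lg T.δ := mul_le_mul_of_nonneg_right n5 hL.le
  have e3 : 0 ≤ η * (q - p) * lg T.δ := by positivity
  refine le_trans (ent_pr_mono T.P fun ω _ hbad => ?_) (h.trans ?_)
  · refine lt_of_lt_of_le hbad ?_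
    rw [hLL]
    nlinarith
  · rw [hLL]
    have e4 : (acc * lg T.δ + 1) / (η * (q - p) * lg T.δ / 8) ≤ (2 * acc * lg T.δ + 1) / (η * (q - p) * lg T.δ / 8) :=
      div_le_div_of_nonneg_right (by nlinarith [mul_nonneg hacc.le hL.le]) ht'.le
    linarith

end Claimed.Agent.R256
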