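import Claimed.Agent.R256.Int.Sym
import Claimed.Agent.R256.Int.MotExit
import Claimed.Agent.R256.Int.Boost
import Claimed.Agent.R256.Int.WMode
import Claimed.Agent.R256.Int.RadTan
import Claimed.Agent.R256.Int.RadPin
import Claimed.Agent.R256.Int.ModeCom

/-!
# Row 256, Sec. 5: THE META LEMMAS (tests) in layer language: STUBS      (chief helper196; prefix `it_`)

Definitions: `Int/Base.lean` (read its header: LAYOUT and PROTOCOL).   Every rate inequality of `Int/Rates.lean` is  chain rule (exact for `surC`)  +  rank counts (Kit)  +  the tests of this file.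
A reading is given by a SYMBOL `U : ItSym` (covector as a function of the frozen parent phase `f0` and of all stored marks); `T.fld p U` is its covector field on the layer with parent `p`.
`U.Reg M B0 A0` : depends on the marks `< M` only, bounded by `A0` and `A0`-Lipschitz on the box `B0 + 1` (all symbols of Sec. 5 are polynomials: `Int/Sym.lean`).
Prefix depths: `itS p q n k = p + (q - p) k / n`.   Separation exponent of a test on the mesh `n` with tolerance `η` : `itChi p q n η = η (q - p) / (4 n)`.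

 MODE   `it_mode_ang` (int:modes-geometric, `ℓ_i`), `it_mode_com` (`b_ij`, centre readings only), `it_ang_up` (angular rates are at most `m`)          block MODE (27)
 MOTION `it_mot_gen` (CORE: an innovation score of the marks, given parent + side + other records, passes to the reading), `it_mot_th` (`r_j` held; FULL depth only),
        `it_mot_thj` (`c ≥ 1`, joint parent), `it_mot_r` (`c < 1`, `θ_j` held, prefixes by the two-sided clause `mixr`), `it_mot_two` (two draws)         block MOT (177)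
 BOOST  `it_boost` (int:boost = FP on an ARBITRARY event `E`), `it_slope_time`                                                                        block BOOST (149, 243)
 RADIAL `it_mark_proj` (Kaufman on the mark plane, parent centred), `it_slope_rad` (radial slopes), `it_slope_pin` (pin products, scale alternatives)   block RAD (9; on Prj)
 WEDGE  `it_w_mode` (angular mode on a wedge layer, ANY `p < q ≤ z ≤ 2p`: the horizontal fibre is linear), `it_w_U` (the normal horizontal scalar has rate `d` on Whitney layers)   blocks WMODE, WU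
Motion vectors (eq. (trans)), at the target `f0`, leg `A = X_F - X_R` :  `itvTh` (`dθ_j`), `itvR` (`dr_j`).
CHANGES 21:15Z: (1) motion tests ask `KFree j` (no dependence on `𝔨_j`: the clauses `AdmM` say nothing given `𝔨_j`); (2) `it_mot_th` only at the full depth (`mixt` is one sided);
 (3) `it_boost` : `E` is any event of `Ω` (as `fp_ev`); 22:10Z (149): + hypothesis `al`, `be` depend on the marks `< pk.M` only; PROVED (`Int/Boost*.lean`); (4) new: `it_mot_gen`, `it_slope_pin`, `it_w_mode`, `it_w_U`.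
-/

set_option autoImplicit false

namespace Claimed.Agent.R256

open Claimed.Agent.R255
open Claimed.Agent.R255.FLaw (pair)
open scoped BigOperators
open Classical

/-! ## MODE (unit U5) -/

/-- ANGULAR MODE.  `V` kills `ℓ_i`, `u` sees it up to a subpower loss: `u` has lower score `m` at every prefix of the mesh, `V` held at the child depth.   OWNER helper196, EST 1500 lines (block BP-256-INT-MODE) -/
theorem it_mode_ang (quad : Bool) (a : ItPar) (ha : a.Ok) (hm : 0 < a.m) (A0 : ℝ) (n : ℕ) (hn : 0 < n) :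
    ItLayer quad false false a (fun T pk p q η => ∀ i < pk.M, ∀ (u : ItSym) (V : List ItSym),
      u.Reg pk.M a.B0 A0 → (∀ v ∈ V, ItSym.Reg v pk.M a.B0 A0) → V.length ≤ 6 →
      (∀ v ∈ V, ∀ f Ξ, itDot (v f Ξ) (itvEll quad f (Ξ i)) = 0) →
      T.P.pr (fun ω => |itDot (T.fld p u ω) (itvEll quad (T.f0 p ω) (T.mrk i ω))| < T.δ ^ itChi p q n η) ≤ η / 2 →
      ∀ k, 1 ≤ k → k ≤ n → T.LS pk.M p (itS p q n k) q [T.fld p u] (V.map (T.fld p)) a.m η) :=
  it_m_mode_ang quad a ha hm A0 n hn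

/-- COMMUTATOR MODE (quadratic).  Centre readings only.   OWNER helper196, EST 2500 lines (block BP-256-INT-MODE) -/
theorem it_mode_com (a : ItPar) (ha : a.Ok) (hm : 0 < a.m) (A0 : ℝ) (n : ℕ) (hn : 0 < n) :
    ItLayer true false false a (fun T pk p q η => ∀ i < pk.M, ∀ j < pk.M, i ≠ j → ∀ (u : ItSym) (V : List ItSym),
      u.Reg pk.M a.B0 A0 → u.Cen → (∀ v ∈ V, ItSym.Reg v pk.M a.B0 A0 ∧ ItSym.Cen v) → V.length ≤ 3 →
      (∀ v ∈ V, ∀ f Ξ, itCom (v f Ξ) (Ξ i) (Ξ j) = 0) →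
      T.P.pr (fun ω => |itCom (T.fld p u ω) (T.mrk i ω) (T.mrk j ω)| < T.δ ^ itChi p q n η) ≤ η / 2 →
      ∀ k, 1 ≤ k → k ≤ n → T.LS pk.M p (itS p q n k) q [T.fld p u] (V.map (T.fld p)) a.m η) :=
  it_m_mode_com a ha hm A0 n hn

/-- a conditional angular rate is at most `m` (any held readings)   OWNER helper196, EST 300 lines (block BP-256-INT-MODE) -/
theorem it_ang_up (quad : Bool) (a : ItPar) (ha : a.Ok) (n : ℕ) (hn : 0 < n) :
    ItLayer quad false false a (fun T pk p q η => ∀ V : List (T.Ω → ItPh),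
      ∀ k, 1 ≤ k → k ≤ n → T.US pk.M p (itS p q n k) q [fun _ => itcX] V a.m η) :=
  it_m_ang_up quad a ha n hn

/-! ## MOTION (unit U6).  `u` reads the innovation with the coefficient `A^e g`, `e ∈ {1, 2}`. -/

/-- CORE OF THE MOTION TESTS (int:mark-motion).  The held readings kill the full motion of `ξ_j`; `u` reads it with the gradient `A^e (c1, c2)`, `c1 c2` functions of the marks.
If the scalar innovation `T.inn j p c1 c2` has score `ρ` at the prefix depth, given the mark parent `ξ_{j,p}`, the side and the other records (a statement on the MARKS), then `u` has lower score `ρ`.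
   OWNER helper196, EST 1800 lines (block BP-256-INT-MOT) -/
theorem it_mot_gen (quad : Bool) (a : ItPar) (ha : a.Ok) (hm : 0 < a.m) (A0 ρ : ℝ) (hρ : 0 ≤ ρ) (hρ1 : ρ ≤ 1) (n : ℕ) (hn : 0 < n) :
    ItLayer quad false false a (fun T pk p q η => ∀ j < pk.M, ∀ (u : ItSym) (V : List ItSym) (e : ℕ) (c1 c2 : (ℕ → ItMk) → ℝ),
      u.Reg pk.M a.B0 A0 → u.KFree j → (∀ v ∈ V, ItSym.Reg v pk.M a.B0 A0 ∧ ItSym.KFree v j) → V.length ≤ 6 → (e = 1 ∨ e = 2) →
      (∀ v ∈ V, ∀ f Ξ A, itDot (v f Ξ) (itvTh quad f (Ξ j) A) = 0 ∧ itDot (v f Ξ) (itvR quad (Ξ j) A) = 0) →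
      (∀ f Ξ A, itDot (u f Ξ) (itvTh quad f (Ξ j) A) = A ^ e * c1 Ξ ∧ itDot (u f Ξ) (itvR quad (Ξ j) A) = A ^ e * c2 Ξ) →
      ∀ k, 1 ≤ k → k ≤ n →
      T.P.pr (fun ω => T.P.surC (fun ω' => tcell T.δ (itS p q n k) (T.inn j p c1 c2 ω')) (pair (T.xin j p) (pair T.Zs (T.XiE pk.M j))) ω
          < (ρ - η / 4) * (itS p q n k - p) * T.L) ≤ η / 4 →
      T.LS pk.M p (itS p q n k) q [T.fld p u] (V.map (T.fld p)) ρ η) :=
  it_o_mot_gen quad a ha hm A0 ρ hρ hρ1 n hn

/-- time innovation, `r_j` held at the child depth:  `c < 1` (rate `a_*`), or linear with `c > 1` (rate `d`; the pattern gives `q < c p`).  FULL DEPTH ONLY.   OWNER helper196, EST 700 lines (block BP-256-INT-MOT) -/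
theorem it_mot_th (quad : Bool) (a : ItPar) (ha : a.Ok) (hm : 0 < a.m) (hc : a.c < 1 ∨ (quad = false ∧ 1 < a.c)) (A0 : ℝ) :
    ItLayer quad false false a (fun T pk p q η => ∀ j < pk.M, ∀ (u : ItSym) (V : List ItSym) (e : ℕ) (g : ItPh → (ℕ → ItMk) → ℝ),
      u.Reg pk.M a.B0 A0 → u.KFree j → (∀ v ∈ V, ItSym.Reg v pk.M a.B0 A0 ∧ ItSym.KFree v j) → V.length ≤ 6 → (e = 1 ∨ e = 2) →
      (∀ v ∈ V, ∀ f Ξ A, itDot (v f Ξ) (itvTh quad f (Ξ j) A) = 0) →
      (∀ f Ξ A, itDot (u f Ξ) (itvTh quad f (Ξ j) A) = A ^ e * g f Ξ) →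
      T.P.pr (fun ω => |g (T.f0 p ω) (fun i => T.mrk i ω)| < T.δ ^ itChi p q 1 η) ≤ η / 2 →
      T.LS pk.M p q q [T.fld p u] (V.map (T.fld p)) a.rth η) :=
  it_o_mot_th quad a ha hm hc A0

/-- time innovation from the joint parent (`c ≥ 1`): the held readings kill the FULL motion; rate `d`.   OWNER helper196, EST 500 lines (block BP-256-INT-MOT) -/
theorem it_mot_thj (quad : Bool) (a : ItPar) (ha : a.Ok) (hm : 0 < a.m) (hc : 1 ≤ a.c) (A0 : ℝ) (n : ℕ) (hn : 0 < n) :
    ItLayer quad false false a (fun T pk p q η => ∀ j < pk.M, ∀ (u : ItSym) (V : List ItSym) (e : ℕ) (g : ItPh → (ℕ → ItMk) → ℝ),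
      u.Reg pk.M a.B0 A0 → u.KFree j → (∀ v ∈ V, ItSym.Reg v pk.M a.B0 A0 ∧ ItSym.KFree v j) → V.length ≤ 6 → (e = 1 ∨ e = 2) →
      (∀ v ∈ V, ∀ f Ξ A, itDot (v f Ξ) (itvTh quad f (Ξ j) A) = 0 ∧ itDot (v f Ξ) (itvR quad (Ξ j) A) = 0) →
      (∀ f Ξ A, itDot (u f Ξ) (itvTh quad f (Ξ j) A) = A ^ e * g f Ξ ∧ itDot (u f Ξ) (itvR quad (Ξ j) A) = 0) →
      T.P.pr (fun ω => |g (T.f0 p ω) (fun i => T.mrk i ω)| < T.δ ^ itChi p q n η) ≤ η / 2 →
      ∀ k, 1 ≤ k → k ≤ n → T.LS pk.M p (itS p q n k) q [T.fld p u] (V.map (T.fld p)) a.d η) :=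
  it_o_mot_thj quad a ha hm hc A0 n hn

/-- `r`-innovation, `θ_j` held at the child depth (`c < 1`): rate `ν`.  Prefixes: `sur(r_s|θ_q,r_p) = sur(r_q|θ_q,r_p) - sur(r_q|θ_q,r_s)` and `mixr` is two sided.   OWNER helper196, EST 700 lines (block BP-256-INT-MOT) -/
theorem it_mot_r (quad : Bool) (a : ItPar) (ha : a.Ok) (hm : 0 < a.m) (hc : a.c < 1) (A0 : ℝ) (n : ℕ) (hn : 0 < n) :
    ItLayer quad false false a (fun T pk p q η => ∀ j < pk.M, ∀ (u : ItSym) (V : List ItSym) (e : ℕ) (g : ItPh → (ℕ → ItMk) → ℝ),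
      u.Reg pk.M a.B0 A0 → u.KFree j → (∀ v ∈ V, ItSym.Reg v pk.M a.B0 A0 ∧ ItSym.KFree v j) → V.length ≤ 6 → (e = 1 ∨ e = 2) →
      (∀ v ∈ V, ∀ f Ξ A, itDot (v f Ξ) (itvR quad (Ξ j) A) = 0) →
      (∀ f Ξ A, itDot (u f Ξ) (itvR quad (Ξ j) A) = A ^ e * g f Ξ) →
      T.P.pr (fun ω => |g (T.f0 p ω) (fun i => T.mrk i ω)| < T.δ ^ itChi p q n η) ≤ η / 2 →
      ∀ k, 1 ≤ k → k ≤ n → T.LS pk.M p (itS p q n k) q [T.fld p u] (V.map (T.fld p)) a.ν η) :=
  it_o_mot_r quad a ha hm hc A0 n hn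

/-- TWO DRAWS (int:double), linear case: if `V` kills the `dθ_j`-motion (and the `dr_j`-motion when `full`), then `|(W_i, H) | V| ≥ 2d`.
`full = true` : `c = 1`, nothing held.   `full = false` : `r_j` held; `c < 1` with `ν = 0`, or `c > 1`.   OWNER helper196, EST 1500 lines (block BP-256-INT-MOT) -/
theorem it_mot_two (a : ItPar) (ha : a.Ok) (hm : 0 < a.m) (full : Bool)
    (hc : (full = true ∧ 1 ≤ a.c) ∨ (full = false ∧ ((a.c < 1 ∧ a.ν = 0) ∨ 1 < a.c))) (A0 : ℝ) :
    ItLayer false false false a (fun T pk p q η => ∀ i < pk.M, ∀ j < pk.M, ∀ V : List ItSym,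
      (∀ v ∈ V, ItSym.Reg v pk.M a.B0 A0 ∧ ItSym.KFree v j) → V.length ≤ 4 →
      (∀ v ∈ V, ∀ f Ξ A, itDot (v f Ξ) (itvTh false f (Ξ j) A) = 0 ∧ (full = true → itDot (v f Ξ) (itvR false (Ξ j) A) = 0)) →
      T.LS pk.M p q q [T.cW i, T.cH p] (V.map (T.fld p)) (2 * a.d) η) :=
  it_o_mot_two a ha hm full hc A0

/-! ## BOOST (unit U7) -/

/-- PROJECTION AMPLIFICATION (int:boost).  Source `(u1, u2)` and held readings `V` free of the record `j`; projection `w = al u2 - be u1`, slope `g = be / al`;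
`E` = ANY event of `Ω` (chart, witness of hereditary slopes, ...) on which `|be| ≤ A0 |al|` and `|al|` is subpower separated from zero;
residual `≥ Mr` of `u1` at the prefixes of the mesh, `w` and `V` held at the child depth; hereditary slopes of exponent `γ` on `E`.
Then on `E` the projection has lower score `min(1, γ + Mr)`.   (Two charts cover all directions; `E = True`, `al = 1` for time slopes.)   OWNER helper196, EST 1500 lines (block BP-256-INT-BOOST) -/
theorem it_boost (quad : Bool) (a : ItPar) (ha : a.Ok) (A0 Mr γ : ℝ) (hM : 0 < Mr) (hM1 : Mr ≤ 1) (hγ : 0 < γ) (hγ1 : γ ≤ 1)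
    (η : ℝ) (hη : 0 < η) : ∃ (n : ℕ) (η1 : ℝ), 0 < n ∧ 0 < η1 ∧
    ItLayerAt quad false false a (fun T pk p q => ∀ j < pk.M, ∀ (u1 u2 w : ItSym) (V : List ItSym) (al be : ItPh → (ℕ → ItMk) → ℝ)
        (E : T.Ω → Prop),
      u1.Reg pk.M a.B0 A0 → u2.Reg pk.M a.B0 A0 → w.Reg pk.M a.B0 A0 → (∀ v ∈ V, ItSym.Reg v pk.M a.B0 A0 ∧ ItSym.Free v j) → V.length ≤ 6 →
      u1.Free j → u2.Free j →
      (∀ ω, E ω → |be (T.f0 p ω) (fun i => T.mrk i ω)| ≤ A0 * |al (T.f0 p ω) (fun i => T.mrk i ω)|) →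
      (∀ f Ξ Ξ', (∀ i < pk.M, Ξ i = Ξ' i) → al f Ξ = al f Ξ' ∧ be f Ξ = be f Ξ') →
      (∀ f Ξ x, itDot (w f Ξ) x = al f Ξ * itDot (u2 f Ξ) x - be f Ξ * itDot (u1 f Ξ) x) →
      T.P.pr (fun ω => E ω ∧ |al (T.f0 p ω) (fun i => T.mrk i ω)| < T.δ ^ (η1 * (q - p))) ≤ η1 →
      (∀ k, 1 ≤ k → k ≤ n → T.LS pk.M p (itS p q n k) q [T.fld p u1] (T.fld p w :: V.map (T.fld p)) Mr η1) →
      T.Slope pk.M j p q n E (fun ω => be (T.f0 p ω) (fun i => T.mrk i ω) / al (T.f0 p ω) (fun i => T.mrk i ω)) γ η1 →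
      T.P.pr (fun ω => E ω ∧
        T.P.surC (T.rd p q [T.fld p w]) (pair (T.rd p q (V.map (T.fld p))) (T.base pk.M p)) ω
          < (min 1 (γ + Mr) - η) * (q - p) * T.L) ≤ η) :=
  it_b_boost quad a ha A0 Mr γ hM hM1 hγ hγ1 η hη

/-- the time marks are hereditary slopes of exponent `d`   OWNER helper196, EST 400 lines (block BP-256-INT-BOOST) -/
theorem it_slope_time (quad : Bool) (a : ItPar) (ha : a.Ok) (n : ℕ) (hn : 0 < n) :
    ItLayer quad false false a (fun T pk p q η => ∀ j < pk.M, T.Slope pk.M j p q n (fun _ => True) (fun ω => (T.mrk j ω).th) a.d η) :=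
  it_b_slope_time quad a ha n hn

/-! ## RADIAL (block RAD): statements on the marks only, from `Avoid` + `AdmM`  (R256/Prj: `pj_par_law` + `pj_coreK`, `pj_rad_law`, `pj_pin_law`) -/

/-- KAUFMAN ON THE MARK PLANE: on every short layer `(p, q)` of MARK depths the normal increment has lower score `d`, given the parent `ξ_{j,p}`, the side and all other records.
Common core of (cross-q), (e-q) and of the hereditary radial slopes.   OWNER helper196, EST 800 lines (block BP-256-INT-RAD) -/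
theorem it_mark_proj (quad : Bool) (a : ItPar) (ha : a.Ok) :
    ItLayer quad true false a (fun T pk p q η => ∀ i < pk.M, ∀ j < pk.M, i ≠ j →
      T.P.pr (fun ω => T.P.surC (fun ω' => tcell T.δ q (T.nInc i j p ω')) (pair (T.xin j p) (pair T.Zs (T.XiE pk.M j))) ω
        < (a.d - η) * (q - p) * T.L) ≤ η) :=
  it_r_mark_proj quad a ha

/-- HEREDITARY RADIAL SLOPES in the two charts (chain of `it_mark_proj` over geometric mark layers + (LP); the first mesh interval is paid by the tolerance)   OWNER helper196, EST 500 lines (block BP-256-INT-RAD) -/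
theorem it_slope_rad (quad : Bool) (a : ItPar) (ha : a.Ok) (n : ℕ) (hn : 0 < n) :
    ItLayer quad true false a (fun T pk p q η => ∀ i < pk.M, ∀ j < pk.M, i ≠ j →
      T.Slope pk.M j p q n (fun ω => |(T.mrk i ω).r - (T.mrk j ω).r| ≤ |(T.mrk i ω).th - (T.mrk j ω).th|)
          (fun ω => ((T.mrk i ω).r - (T.mrk j ω).r) / ((T.mrk i ω).th - (T.mrk j ω).th)) a.d η ∧
      T.Slope pk.M j p q n (fun ω => |(T.mrk i ω).th - (T.mrk j ω).th| ≤ |(T.mrk i ω).r - (T.mrk j ω).r|)
          (fun ω => ((T.mrk i ω).th - (T.mrk j ω).th) / ((T.mrk i ω).r - (T.mrk j ω).r)) a.d η) :=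
  it_r_slope_rad quad a ha n hn

/-- PIN PRODUCTS (linear case, crossing): off probability `η` the pin product `(θ_i - θ_j)(r_j - r_i)`, as a function of the record `j`, is a hereditary slope of exponent `d` on the mesh `n` of
`[0, (q - p) / 2^k]` for SOME `k ≤ N`  (`pj_pin_law`; the consumer tiles its layer by `2^k` sublayers and applies `it_boost` on the event `E_k = SlopeAt ..`).   OWNER helper196, EST 600 lines (block BP-256-INT-RAD) -/
theorem it_slope_pin (a : ItPar) (ha : a.Ok) (n : ℕ) (hn : 0 < n) (η : ℝ) (hη : 0 < η) : ∃ N : ℕ,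
    ItLayerAt false false true a (fun T pk p q => ∀ i < pk.M, ∀ j < pk.M, i ≠ j →
      T.P.pr (fun ω => ∀ k ≤ N, ¬ T.SlopeAt pk.M j ((q - p) / 2 ^ k) n (T.pin i j) a.d η ω) ≤ η) :=
  it_r_slope_pin a ha n hn η hη

/-! ## WEDGE LAYERS (05 l.953-1150): base `(F_{p,z}, 𝒟)`, horizontal readings from depth `p` to `q ≤ z ≤ 2p` -/

/-- ANGULAR MODE ON A WEDGE LAYER.  Horizontal symbols (coefficients = functions of the marks).  `(Q_i, X_p, 𝒟)` lists `F_{p,z}` (`O(1)` values: the recentred centre varies by `O(δ^{2p})` on the fibre),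
the fibre is LINEAR in the horizontal coordinates, so `V_q` is predicted exactly and `u_q` recovers `X_q`: NO shortness of the layer (also the binary layer `q = z = 2p`).
   OWNER helper196, EST 900 lines (block BP-256-INT-WMODE) -/
theorem it_w_mode (a : ItPar) (ha : a.Ok) (hm : 0 < a.m) (A0 : ℝ) :
    ItTri true false false false a (fun T pk p q z η => ∀ i < pk.M, ∀ (u : ItSym) (V : List ItSym),
      u.Reg pk.M a.B0 A0 → u.Hor → (∀ v ∈ V, ItSym.Reg v pk.M a.B0 A0 ∧ ItSym.Hor v) → V.length ≤ 3 →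
      (∀ v ∈ V, ∀ f Ξ, itDot (v f Ξ) (itvEll true f (Ξ i)) = 0) →
      T.P.pr (fun ω => |itDot (T.fld p u ω) (itvEll true (T.f0 p ω) (T.mrk i ω))| < T.δ ^ (η * (q - p) / 4)) ≤ η / 2 →
      T.LSW pk.M p z q [T.fld p u] (V.map (T.fld p)) a.m η) :=
  it_wm_mode a ha hm A0

/- `it_w_U` (normal horizontal scalar on Whitney layers) was REMOVED 22:35Z: no consumer; `it_e_q` is proved through `it_wd_kauf` of `Int/WedgeStep.lean` (helper49). -/

end Claimed.Agent.R256
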