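import Claimed.Agent.R256.Int.ModeKit

/-!
# Row 256, Sec. 5, block MODE, file 2: GEOMETRY OF ONE LEG      (architect helper27; prefix `it_m_`)

Paper free (04 (leg), 05 (int:angular-mode)).  Two phases with the same fibre read `Q_i` of depth `R` differ by the EXACT leg `itmLeg quad F μ Δ`, `Δ = X' - X`, up to `3 B0² δ^R`;
the leg is `F + Δ ℓ_i(F) + O(B0² Δ²)`.   `it_m_core` : the value of a frozen covector on the increment.
-/

set_option autoImplicit false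

namespace Claimed.Agent.R256

open Claimed.Agent.R255
open Claimed.Agent.R255.FLaw (pair)
open scoped BigOperators
open Classical

/-- scalar multiple of a tangent vector -/
def itSm (c : ℝ) (v : ItPh) : ItPh := ⟨c * v.X, c * v.B, c * v.P, c * v.Y, c * v.N, c * v.D⟩

/-- the exact leg along the fibre of `Q_i` -/
def itmLeg (quad : Bool) (f : ItPh) (μ : ItMk) (Δ : ℝ) : ItPh :=
  if quad then ⟨f.X + Δ, f.B - μ.th * Δ, f.P + 2 * μ.r * Δ, f.Y - μ.th * (2 * f.X * Δ + Δ ^ 2), f.N + (f.P * Δ + μ.r * Δ ^ 2),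
    f.D - μ.th * (f.P * Δ + μ.r * Δ ^ 2)⟩
  else ⟨f.X + Δ, f.B - μ.th * Δ, f.P, f.Y - μ.th * (2 * f.X * Δ + Δ ^ 2), f.N + μ.r * Δ, f.D - μ.th * (μ.r * Δ)⟩

theorem it_m_geo_eqns_cite : True := by
  have := @itSm.eq_1; have := @itmLeg.eq_1
  trivial

theorem it_m_dot_sub (w a b : ItPh) : itDot w (a.sub b) = itDot w a - itDot w b := by
  unfold itDot ItPh.sub; ring

theorem it_m_dot_sm (w v : ItPh) (c : ℝ) : itDot w (itSm c v) = c * itDot w v := by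
  unfold itDot itSm; ring

theorem it_m_nrm_sm (c : ℝ) (v : ItPh) : (itSm c v).nrm ≤ |c| * v.nrm := by
  obtain ⟨n1, n2, n3, n4, n5, n6⟩ := it_k_aux_nrm_le v
  have key : ∀ x : ℝ, |x| ≤ v.nrm → |c * x| ≤ |c| * v.nrm := fun x hx => by
    rw [abs_mul]; exact mul_le_mul_of_nonneg_left hx (abs_nonneg _)
  exact it_m_nrm_le (key _ n1) (key _ n2) (key _ n3) (key _ n4) (key _ n5) (key _ n6)

/-- equal fibre reads: the exact leg -/
theorem it_m_leg_exact (quad : Bool) {δ R B0 : ℝ} (h0 : 0 < δ) (hB : 1 ≤ B0) (F F' : ItPh) (μ : ItMk)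
    (hF' : F'.nrm ≤ B0) (hth : |μ.th| ≤ B0) (hlin : quad = false → F.P = 0 ∧ F'.P = 0)
    (hQ : itQ quad δ R F μ = itQ quad δ R F' μ) :
    (F'.sub (itmLeg quad F μ (F'.X - F.X))).nrm ≤ 3 * B0 ^ 2 * δ ^ R := by
  have he : 0 < δ ^ R := Real.rpow_pos_of_pos h0 R
  set e := δ ^ R with hedef
  have hX' : |F'.X| ≤ B0 := (it_k_aux_nrm_le F').1.trans hF'
  have hB2 : B0 ≤ B0 ^ 2 := by nlinarith
  have hK : e ≤ 3 * B0 ^ 2 * e := by nlinarith
  have hmul : ∀ x y : ℝ, |y| ≤ x → |μ.th * y| ≤ B0 * x := fun x y hy => by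
    rw [abs_mul]; exact mul_le_mul hth hy (abs_nonneg _) (by linarith)
  cases quad with
  | true =>
    simp only [itQ, if_true, Prod.mk.injEq] at hQ
    obtain ⟨⟨q1, q2, q3⟩, q4, q5⟩ := hQ
    obtain ⟨c1, c2, c3, c4, c5⟩ := lay_leg_quad F.X F.B F.P F.Y F.N F.D F'.X F'.B F'.P F'.Y F'.N F'.D μ.th μ.r e
      (it_m_cell_close h0 q1) (it_m_cell_close h0 q2) (it_m_cell_close h0 q3) (it_m_cell_close h0 q4) (it_m_cell_close h0 q5)
    have c5' : |F'.N - F.N - (F.P * (F'.X - F.X) + μ.r * (F'.X - F.X) ^ 2)| ≤ e * (1 + B0) :=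
      c5.trans (mul_le_mul_of_nonneg_left (by linarith) he.le)
    have c6 := hmul _ _ c5'
    simp only [itmLeg, if_true, ItPh.sub]
    refine it_m_nrm_le ?_ ?_ ?_ ?_ ?_ ?_
    · have : F'.X - (F.X + (F'.X - F.X)) = 0 := by ring
      rw [this, abs_zero]; positivity
    · have : F'.B - (F.B - μ.th * (F'.X - F.X)) = F'.B - F.B + μ.th * (F'.X - F.X) := by ring
      rw [this]; exact c1.trans hK
    · have : F'.P - (F.P + 2 * μ.r * (F'.X - F.X)) = F'.P - F.P - 2 * μ.r * (F'.X - F.X) := by ring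
      rw [this]; exact c4.trans hK
    · have : F'.Y - (F.Y - μ.th * (2 * F.X * (F'.X - F.X) + (F'.X - F.X) ^ 2))
          = F'.Y - F.Y + μ.th * (2 * F.X * (F'.X - F.X) + (F'.X - F.X) ^ 2) := by ring
      rw [this]; exact c2.trans hK
    · have : F'.N - (F.N + (F.P * (F'.X - F.X) + μ.r * (F'.X - F.X) ^ 2))
          = F'.N - F.N - (F.P * (F'.X - F.X) + μ.r * (F'.X - F.X) ^ 2) := by ring
      rw [this]; refine c5'.trans ?_
      nlinarith
    · have : F'.D - (F.D - μ.th * (F.P * (F'.X - F.X) + μ.r * (F'.X - F.X) ^ 2))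
          = (F'.D - F.D + μ.th * (F'.N - F.N)) - μ.th * (F'.N - F.N - (F.P * (F'.X - F.X) + μ.r * (F'.X - F.X) ^ 2)) := by ring
      rw [this]
      refine (abs_sub _ _).trans ((add_le_add c3 c6).trans ?_)
      nlinarith
  | false =>
    obtain ⟨p1, p2⟩ := hlin rfl
    simp only [itQ, Bool.false_eq_true, if_false, Prod.mk.injEq, true_and] at hQ
    obtain ⟨⟨q1, q2, q3⟩, q5⟩ := hQ
    obtain ⟨c1, c2, c3, c5⟩ := lay_leg_lin F.X F.B F.Y F.N F.D F'.X F'.B F'.Y F'.N F'.D μ.th μ.r e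
      (it_m_cell_close h0 q1) (it_m_cell_close h0 q2) (it_m_cell_close h0 q3) (it_m_cell_close h0 q5)
    have c6 := hmul _ _ c5
    simp only [itmLeg, Bool.false_eq_true, if_false, ItPh.sub]
    refine it_m_nrm_le ?_ ?_ ?_ ?_ ?_ ?_
    · have : F'.X - (F.X + (F'.X - F.X)) = 0 := by ring
      rw [this, abs_zero]; positivity
    · have : F'.B - (F.B - μ.th * (F'.X - F.X)) = F'.B - F.B + μ.th * (F'.X - F.X) := by ring
      rw [this]; exact c1.trans hK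
    · rw [p1, p2, sub_zero, abs_zero]; positivity
    · have : F'.Y - (F.Y - μ.th * (2 * F.X * (F'.X - F.X) + (F'.X - F.X) ^ 2))
          = F'.Y - F.Y + μ.th * (2 * F.X * (F'.X - F.X) + (F'.X - F.X) ^ 2) := by ring
      rw [this]; exact c2.trans hK
    · have : F'.N - (F.N + μ.r * (F'.X - F.X)) = F'.N - F.N - μ.r * (F'.X - F.X) := by ring
      rw [this]; exact c5.trans hK
    · have : F'.D - (F.D - μ.th * (μ.r * (F'.X - F.X)))
          = (F'.D - F.D + μ.th * (F'.N - F.N)) - μ.th * (F'.N - F.N - μ.r * (F'.X - F.X)) := by ring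
      rw [this]
      refine (abs_sub _ _).trans ((add_le_add c3 c6).trans ?_)
      nlinarith

/-- the leg is tangent to `ℓ_i` -/
theorem it_m_leg_lin (quad : Bool) {B0 : ℝ} (hB : 1 ≤ B0) (F : ItPh) (μ : ItMk) (hth : |μ.th| ≤ B0) (hr : |μ.r| ≤ B0) (Δ : ℝ) :
    (((itmLeg quad F μ Δ).sub F).sub (itSm Δ (itvEll quad F μ))).nrm ≤ B0 ^ 2 * Δ ^ 2 := by
  have hB2 : B0 ≤ B0 ^ 2 := by nlinarith
  have hD : 0 ≤ Δ ^ 2 := sq_nonneg _
  have h00 : (0 : ℝ) ≤ B0 ^ 2 * Δ ^ 2 := by positivity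
  have k1 : |μ.th * Δ ^ 2| ≤ B0 ^ 2 * Δ ^ 2 := by
    rw [abs_mul, abs_of_nonneg hD]; exact mul_le_mul_of_nonneg_right (hth.trans hB2) hD
  have k2 : |μ.r * Δ ^ 2| ≤ B0 ^ 2 * Δ ^ 2 := by
    rw [abs_mul, abs_of_nonneg hD]; exact mul_le_mul_of_nonneg_right (hr.trans hB2) hD
  have k3 : |μ.th * μ.r * Δ ^ 2| ≤ B0 ^ 2 * Δ ^ 2 := by
    rw [abs_mul, abs_mul, abs_of_nonneg hD]
    refine mul_le_mul_of_nonneg_right ?_ hD
    calc |μ.th| * |μ.r| ≤ B0 * B0 := mul_le_mul hth hr (abs_nonneg _) (by linarith)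
      _ = B0 ^ 2 := by ring
  cases quad with
  | true =>
    simp only [itmLeg, itvEll, itSm, if_true, ItPh.sub]
    refine it_m_nrm_le ?_ ?_ ?_ ?_ ?_ ?_
    · have : F.X + Δ - F.X - Δ * 1 = 0 := by ring
      rw [this, abs_zero]; exact h00
    · have : F.B - μ.th * Δ - F.B - Δ * -μ.th = 0 := by ring
      rw [this, abs_zero]; exact h00
    · have : F.P + 2 * μ.r * Δ - F.P - Δ * (2 * μ.r) = 0 := by ring
      rw [this, abs_zero]; exact h00
    · have : F.Y - μ.th * (2 * F.X * Δ + Δ ^ 2) - F.Y - Δ * (-2 * μ.th * F.X) = -(μ.th * Δ ^ 2) := by ring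
      rw [this, abs_neg]; exact k1
    · have : F.N + (F.P * Δ + μ.r * Δ ^ 2) - F.N - Δ * F.P = μ.r * Δ ^ 2 := by ring
      rw [this]; exact k2
    · have : F.D - μ.th * (F.P * Δ + μ.r * Δ ^ 2) - F.D - Δ * (-μ.th * F.P) = -(μ.th * μ.r * Δ ^ 2) := by ring
      rw [this, abs_neg]; exact k3
  | false =>
    simp only [itmLeg, itvEll, itSm, Bool.false_eq_true, if_false, ItPh.sub]
    refine it_m_nrm_le ?_ ?_ ?_ ?_ ?_ ?_
    · have : F.X + Δ - F.X - Δ * 1 = 0 := by ring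
      rw [this, abs_zero]; exact h00
    · have : F.B - μ.th * Δ - F.B - Δ * -μ.th = 0 := by ring
      rw [this, abs_zero]; exact h00
    · have : F.P - F.P - Δ * 0 = 0 := by ring
      rw [this, abs_zero]; exact h00
    · have : F.Y - μ.th * (2 * F.X * Δ + Δ ^ 2) - F.Y - Δ * (-2 * μ.th * F.X) = -(μ.th * Δ ^ 2) := by ring
      rw [this, abs_neg]; exact k1
    · have : F.N + μ.r * Δ - F.N - Δ * μ.r = 0 := by ring
      rw [this, abs_zero]; exact h00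
    · have : F.D - μ.th * (μ.r * Δ) - F.D - Δ * (-μ.th * μ.r) = 0 := by ring
      rw [this, abs_zero]; exact h00

/-- size of `ℓ_i` -/
theorem it_m_ell_nrm (quad : Bool) {B0 : ℝ} (hB : 1 ≤ B0) (F : ItPh) (μ : ItMk) (hF : F.nrm ≤ B0) (hth : |μ.th| ≤ B0)
    (hr : |μ.r| ≤ B0) : (itvEll quad F μ).nrm ≤ 2 * B0 ^ 2 := by
  obtain ⟨n1, -, n3, -, -, -⟩ := it_k_aux_nrm_le F
  have hB2 : B0 ≤ B0 ^ 2 := by nlinarith
  have hX := n1.trans hF
  have hP := n3.trans hF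
  have hm : ∀ x y : ℝ, |x| ≤ B0 → |y| ≤ B0 → |x * y| ≤ B0 ^ 2 := fun x y hx hy => by
    rw [abs_mul, sq]; exact mul_le_mul hx hy (abs_nonneg _) (by linarith)
  cases quad with
  | true =>
    simp only [itvEll, if_true]
    refine it_m_nrm_le ?_ ?_ ?_ ?_ ?_ ?_
    · rw [abs_one]; nlinarith
    · rw [abs_neg]; nlinarith
    · rw [abs_mul, abs_two]; nlinarith
    · have : -2 * μ.th * F.X = -(2 * (μ.th * F.X)) := by ring
      rw [this, abs_neg, abs_mul, abs_two]; linarith [hm _ _ hth hX]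
    · nlinarith
    · have : -μ.th * F.P = -(μ.th * F.P) := by ring
      rw [this, abs_neg]; nlinarith [hm _ _ hth hP]
  | false =>
    simp only [itvEll, Bool.false_eq_true, if_false]
    refine it_m_nrm_le ?_ ?_ ?_ ?_ ?_ ?_
    · rw [abs_one]; nlinarith
    · rw [abs_neg]; nlinarith
    · rw [abs_zero]; positivity
    · have : -2 * μ.th * F.X = -(2 * (μ.th * F.X)) := by ring
      rw [this, abs_neg, abs_mul, abs_two]; linarith [hm _ _ hth hX]
    · nlinarith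
    · have : -μ.th * μ.r = -(μ.th * μ.r) := by ring
      rw [this, abs_neg]; nlinarith [hm _ _ hth hr]

/-- `ℓ_i` is Lipschitz in the base point -/
theorem it_m_ell_lip (quad : Bool) {B0 : ℝ} (hB : 1 ≤ B0) (f g : ItPh) (μ : ItMk) (hth : |μ.th| ≤ B0) :
    ((itvEll quad f μ).sub (itvEll quad g μ)).nrm ≤ 2 * B0 * (f.sub g).nrm := by
  obtain ⟨n1', -, n3', -, -, -⟩ := it_k_aux_nrm_le (f.sub g)
  have hn := it_m_nrm_nonneg (f.sub g)
  have n1 : |f.X - g.X| ≤ (f.sub g).nrm := n1'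
  have n3 : |f.P - g.P| ≤ (f.sub g).nrm := n3'
  generalize (f.sub g).nrm = ρ at hn n1 n3
  have h00 : 0 ≤ 2 * B0 * ρ := by positivity
  have hm : ∀ y : ℝ, |y| ≤ ρ → |μ.th * y| ≤ B0 * ρ := fun y hy => by
    rw [abs_mul]; exact mul_le_mul hth hy (abs_nonneg _) (by linarith)
  cases quad with
  | true =>
    simp only [itvEll, if_true, ItPh.sub]
    refine it_m_nrm_le ?_ ?_ ?_ ?_ ?_ ?_ <;> dsimp only
    · rw [sub_self, abs_zero]; exact h00
    · rw [sub_self, abs_zero]; exact h00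
    · rw [sub_self, abs_zero]; exact h00
    · have : -2 * μ.th * f.X - -2 * μ.th * g.X = -(2 * (μ.th * (f.X - g.X))) := by ring
      rw [this, abs_neg, abs_mul, abs_two]; linarith [hm _ n1]
    · nlinarith
    · have : -μ.th * f.P - -μ.th * g.P = -(μ.th * (f.P - g.P)) := by ring
      rw [this, abs_neg]; nlinarith [hm _ n3]
  | false =>
    simp only [itvEll, Bool.false_eq_true, if_false, ItPh.sub]
    refine it_m_nrm_le ?_ ?_ ?_ ?_ ?_ ?_ <;> dsimp only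
    · rw [sub_self, abs_zero]; exact h00
    · rw [sub_self, abs_zero]; exact h00
    · rw [sub_self, abs_zero]; exact h00
    · have : -2 * μ.th * f.X - -2 * μ.th * g.X = -(2 * (μ.th * (f.X - g.X))) := by ring
      rw [this, abs_neg, abs_mul, abs_two]; linarith [hm _ n1]
    · rw [sub_self, abs_zero]; exact h00
    · rw [sub_self, abs_zero]; exact h00

theorem it_m_pow_two {δ : ℝ} (h0 : 0 < δ) (p : ℝ) : δ ^ (2 * p) = (δ ^ p) ^ 2 := by
  rw [mul_comm, Real.rpow_mul h0.le, ← Real.rpow_natCast]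
  norm_num

/-- the increment along a leg is `Δ ℓ_i(F)` up to `3 B0² (δ^R + Δ²)` -/
theorem it_m_leg_rem (quad : Bool) {δ R B0 : ℝ} (h0 : 0 < δ) (hB : 1 ≤ B0) (F F' : ItPh) (μ : ItMk)
    (hF' : F'.nrm ≤ B0) (hth : |μ.th| ≤ B0) (hr : |μ.r| ≤ B0) (hlin : quad = false → F.P = 0 ∧ F'.P = 0)
    (hQ : itQ quad δ R F μ = itQ quad δ R F' μ) :
    ((F'.sub F).sub (itSm (F'.X - F.X) (itvEll quad F μ))).nrm ≤ 3 * B0 ^ 2 * (δ ^ R + (F'.X - F.X) ^ 2) := by
  have e1 := it_m_leg_exact quad h0 hB F F' μ hF' hth hlin hQ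
  have e2 := it_m_leg_lin quad hB F μ hth hr (F'.X - F.X)
  have e3 := it_m_nrm_tri ((F'.sub F).sub (itSm (F'.X - F.X) (itvEll quad F μ)))
    (((itmLeg quad F μ (F'.X - F.X)).sub F).sub (itSm (F'.X - F.X) (itvEll quad F μ)))
  have e4 : ((F'.sub F).sub (itSm (F'.X - F.X) (itvEll quad F μ))).sub
      (((itmLeg quad F μ (F'.X - F.X)).sub F).sub (itSm (F'.X - F.X) (itvEll quad F μ)))
      = F'.sub (itmLeg quad F μ (F'.X - F.X)) := by
    simp only [ItPh.sub, ItPh.mk.injEq]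
    refine ⟨by ring, by ring, by ring, by ring, by ring, by ring⟩
  rw [e4] at e3
  have hD : 0 ≤ (F'.X - F.X) ^ 2 := sq_nonneg _
  have hB2 : 0 ≤ B0 ^ 2 := by positivity
  nlinarith [mul_nonneg hB2 hD]

/-- closeness of two phases on a short leg -/
theorem it_m_leg_close (quad : Bool) {δ R p B0 : ℝ} (h0 : 0 < δ) (h1 : δ < 1) (hB : 1 ≤ B0) (hp : 0 ≤ p) (hpR : p ≤ R)
    (F F' : ItPh) (μ : ItMk) (hF : F.nrm ≤ B0) (hF' : F'.nrm ≤ B0) (hth : |μ.th| ≤ B0) (hr : |μ.r| ≤ B0)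
    (hlin : quad = false → F.P = 0 ∧ F'.P = 0) (hQ : itQ quad δ R F μ = itQ quad δ R F' μ) (hX : |F'.X - F.X| ≤ δ ^ p) :
    (F'.sub F).nrm ≤ 8 * B0 ^ 2 * δ ^ p := by
  have e1 := it_m_leg_rem quad h0 hB F F' μ hF' hth hr hlin hQ
  have e2 := it_m_nrm_tri (F'.sub F) (itSm (F'.X - F.X) (itvEll quad F μ))
  have e3 := it_m_nrm_sm (F'.X - F.X) (itvEll quad F μ)
  have e4 := it_m_ell_nrm quad hB F μ hF hth hr
  have hpp : 0 < δ ^ p := Real.rpow_pos_of_pos h0 p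
  have hp1 : δ ^ p ≤ 1 := it_m_pow_le_one h0 h1 hp
  have hR : δ ^ R ≤ δ ^ p := it_m_pow_le h0 h1 hpR
  have hsq : (F'.X - F.X) ^ 2 ≤ δ ^ p := by
    have : (F'.X - F.X) ^ 2 ≤ (δ ^ p) ^ 2 := sq_le_sq' (by linarith [(abs_le.1 hX).1]) (abs_le.1 hX).2
    nlinarith
  have e5 : |F'.X - F.X| * (itvEll quad F μ).nrm ≤ δ ^ p * (2 * B0 ^ 2) :=
    mul_le_mul hX e4 (it_m_nrm_nonneg _) hpp.le
  have hB2 : 0 ≤ B0 ^ 2 := by positivity
  nlinarith [mul_le_mul_of_nonneg_left hR hB2, mul_le_mul_of_nonneg_left hsq hB2]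

/-- THE CORE: a covector frozen at the parent of `F` reads the increment as `Δ ⟨w, ℓ_i(f0)⟩` -/
theorem it_m_core (quad : Bool) {δ R p B0 A : ℝ} (h0 : 0 < δ) (hB : 1 ≤ B0) (F F' : ItPh) (μ : ItMk)
    (hF' : F'.nrm ≤ B0) (hth : |μ.th| ≤ B0) (hr : |μ.r| ≤ B0)
    (hlin : quad = false → F.P = 0 ∧ F'.P = 0) (hQ : itQ quad δ R F μ = itQ quad δ R F' μ) (hX : |F'.X - F.X| ≤ δ ^ p)
    (w : ItPh) (hw : w.nrm ≤ A) :
    |itDot w (F'.sub F) - (F'.X - F.X) * itDot w (itvEll quad (itR δ p F) μ)| ≤ 30 * B0 ^ 2 * A * (δ ^ R + δ ^ (2 * p)) := by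
  have e1 := it_m_leg_rem quad h0 hB F F' μ hF' hth hr hlin hQ
  have e2 := it_m_ell_lip quad hB F (itR δ p F) μ hth
  have e3 := it_m_itR_close h0 p F
  have hpp : 0 < δ ^ p := Real.rpow_pos_of_pos h0 p
  have hRR : 0 < δ ^ R := Real.rpow_pos_of_pos h0 R
  have hwn := it_m_nrm_nonneg w
  have hA : 0 ≤ A := hwn.trans hw
  rw [it_m_pow_two h0 p]
  have hsq : (F'.X - F.X) ^ 2 ≤ (δ ^ p) ^ 2 := sq_le_sq' (by linarith [(abs_le.1 hX).1]) (abs_le.1 hX).2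
  have hid : itDot w (F'.sub F) - (F'.X - F.X) * itDot w (itvEll quad (itR δ p F) μ)
      = itDot w ((F'.sub F).sub (itSm (F'.X - F.X) (itvEll quad F μ)))
        + (F'.X - F.X) * itDot w ((itvEll quad F μ).sub (itvEll quad (itR δ p F) μ)) := by
    simp only [it_m_dot_sub, it_m_dot_sm]; ring
  rw [hid]
  have d1 := it_m_dot_le w ((F'.sub F).sub (itSm (F'.X - F.X) (itvEll quad F μ)))
  have d2 := it_m_dot_le w ((itvEll quad F μ).sub (itvEll quad (itR δ p F) μ))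
  have hB2 : 0 ≤ B0 ^ 2 := by positivity
  have hBB : B0 ≤ B0 ^ 2 := by nlinarith
  -- first term
  have f1 : |itDot w ((F'.sub F).sub (itSm (F'.X - F.X) (itvEll quad F μ)))| ≤ 18 * B0 ^ 2 * A * (δ ^ R + (δ ^ p) ^ 2) := by
    have g1 : ((F'.sub F).sub (itSm (F'.X - F.X) (itvEll quad F μ))).nrm ≤ 3 * B0 ^ 2 * (δ ^ R + (δ ^ p) ^ 2) :=
      e1.trans (mul_le_mul_of_nonneg_left (by linarith) (by positivity))
    have g2 : w.nrm * ((F'.sub F).sub (itSm (F'.X - F.X) (itvEll quad F μ))).nrm ≤ A * (3 * B0 ^ 2 * (δ ^ R + (δ ^ p) ^ 2)) :=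
      mul_le_mul hw g1 (it_m_nrm_nonneg _) hA
    calc _ ≤ 6 * (A * (3 * B0 ^ 2 * (δ ^ R + (δ ^ p) ^ 2))) := d1.trans (by linarith)
      _ = _ := by ring
  -- second term
  have f2 : |(F'.X - F.X) * itDot w ((itvEll quad F μ).sub (itvEll quad (itR δ p F) μ))| ≤ 12 * B0 ^ 2 * A * (δ ^ p) ^ 2 := by
    have g1 : ((itvEll quad F μ).sub (itvEll quad (itR δ p F) μ)).nrm ≤ 2 * B0 ^ 2 * δ ^ p := by
      refine e2.trans ?_
      have : 2 * B0 * (F.sub (itR δ p F)).nrm ≤ 2 * B0 * δ ^ p := mul_le_mul_of_nonneg_left e3 (by linarith)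
      nlinarith
    have g2 : w.nrm * ((itvEll quad F μ).sub (itvEll quad (itR δ p F) μ)).nrm ≤ A * (2 * B0 ^ 2 * δ ^ p) :=
      mul_le_mul hw g1 (it_m_nrm_nonneg _) hA
    rw [abs_mul]
    calc _ ≤ δ ^ p * (6 * (A * (2 * B0 ^ 2 * δ ^ p))) :=
          mul_le_mul hX (d2.trans (by linarith)) (abs_nonneg _) hpp.le
      _ = _ := by ring
  refine (abs_add_le _ _).trans ((add_le_add f1 f2).trans ?_)
  have hAB : 0 ≤ B0 ^ 2 * A := by positivity
  nlinarith [mul_nonneg hAB hRR.le, mul_nonneg hAB (sq_nonneg (δ ^ p))]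

end Claimed.Agent.R256
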