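import Claimed.Agent.R256.Int.Kit
import Claimed.Agent.R256.Lay.Walk
import Claimed.Agent.R256.Lay.Sco

/-!
# Row 256, Sec. 5, block MODE (BP-256-INT-MODE), file 1: KIT      (architect helper27; prefix `it_m_`)

Paper free.  A. dyadic cells   B. lists (`NVal`) of cells, tuples of readings, phase names   C. norms and pairings of `ItPh`
D. THE ASSEMBLY LEMMA `it_m_asm` (transfer + information tail + window, one union bound)   E. largeness of `L`.
Consumers: `Int/ModeAng.lean` (`it_ang_up`, `it_mode_ang`), `Int/ModeCom.lean` (`it_mode_com`).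
-/

set_option autoImplicit false

namespace Claimed.Agent.R256

open Claimed.Agent.R255
open Claimed.Agent.R255.FLaw (pair)
open scoped BigOperators
open Classical

/-! ## A. cells -/

theorem it_m_cell_close {δ q a b : ℝ} (h0 : 0 < δ) (h : tcell δ q a = tcell δ q b) : |a - b| ≤ δ ^ q :=
  (it_k_aux_cell_dist h).trans (ig_msh_le δ q h0)

theorem it_m_trep_close {δ : ℝ} (h0 : 0 < δ) (q x : ℝ) : |x - trep δ q x| ≤ δ ^ q :=
  (it_k_aux_rep_dist δ q x).trans (ig_msh_le δ q h0)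

/-- recentring at a coarser representative shifts the cell by an integer -/
theorem it_m_cell_sub {δ p s : ℝ} (h0 : 0 < δ) (h1 : δ < 1) (hps : p ≤ s) (x y : ℝ) :
    tcell δ s (x - trep δ p y) = tcell δ s x - tcell δ p y * 2 ^ (tlev δ s - tlev δ p) := by
  have hl := ig_lev_mono δ p s h0 h1 hps
  unfold trep tcell
  have h2 : (2 : ℝ) ^ tlev δ s = 2 ^ (tlev δ s - tlev δ p) * 2 ^ tlev δ p := by
    rw [← pow_add, Nat.sub_add_cancel hl]
  have h3 : (x - (⌊y * 2 ^ tlev δ p⌋ : ℝ) / 2 ^ tlev δ p) * 2 ^ tlev δ s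
      = x * 2 ^ tlev δ s - ((⌊y * 2 ^ tlev δ p⌋ * 2 ^ (tlev δ s - tlev δ p) : ℤ) : ℝ) := by
    have hp : (2 : ℝ) ^ tlev δ p ≠ 0 := by positivity
    push_cast
    rw [sub_mul, h2]
    field_simp
  rw [h3, Int.floor_sub_intCast]

theorem it_m_cell_shift {δ p s : ℝ} (h0 : 0 < δ) (h1 : δ < 1) (hps : p ≤ s) (x x' y y' : ℝ)
    (h : tcell δ p y = tcell δ p y') :
    tcell δ s (x - trep δ p y) = tcell δ s (x' - trep δ p y') ↔ tcell δ s x = tcell δ s x' := by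
  rw [it_m_cell_sub h0 h1 hps, it_m_cell_sub h0 h1 hps, h]
  constructor
  · intro h'; linarith
  · intro h'; rw [h']

theorem it_m_trep_congr {δ p x y : ℝ} (h : tcell δ p x = tcell δ p y) : trep δ p x = trep δ p y := by
  unfold trep; rw [h]

theorem it_m_itR_congr {δ p : ℝ} {f g : ItPh} (h : itF δ p f = itF δ p g) : itR δ p f = itR δ p g := by
  unfold itF at h
  simp only [Prod.mk.injEq] at h
  obtain ⟨⟨a1, a2, a3⟩, a4, a5, a6⟩ := h
  unfold itR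
  rw [it_m_trep_congr a1, it_m_trep_congr a2, it_m_trep_congr a3, it_m_trep_congr a4, it_m_trep_congr a5, it_m_trep_congr a6]

/-- powers of `δ` -/
theorem it_m_pow_le {δ : ℝ} (h0 : 0 < δ) (h1 : δ < 1) {a b : ℝ} (h : a ≤ b) : δ ^ b ≤ δ ^ a :=
  Real.rpow_le_rpow_of_exponent_ge h0 h1.le h

theorem it_m_pow_le_one {δ : ℝ} (h0 : 0 < δ) (h1 : δ < 1) {a : ℝ} (h : 0 ≤ a) : δ ^ a ≤ 1 :=
  Real.rpow_le_one h0.le h1.le h

/-! ## B. lists -/

variable {Ω : Type} [Fintype Ω] {α β γ : Type}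

/-- a listed label may be completed by anything read off the conditioning (on the support) -/
theorem it_m_nval_with (P : FLaw Ω) {G : Ω → Prop} {B : Ω → β} {A : Ω → α} {N : ℝ} (h : P.NVal G B A N)
    (B' : Ω → γ) (f : β → α → γ) (hf : ∀ ω, P.p ω ≠ 0 → B' ω = f (B ω) (A ω)) : P.NVal G B' A N := by
  intro ω₀
  obtain ⟨S, hS, hm⟩ := h ω₀
  refine ⟨S.image (fun b => f b (A ω₀)), (Nat.cast_le.2 Finset.card_image_le).trans hS, ?_⟩
  intro ω hω hG hA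
  rw [hf ω hω, hA]
  exact Finset.mem_image_of_mem _ (hm ω hω hG hA)

/-- refinement of the conditioning -/
theorem it_m_nval_ref (P : FLaw Ω) {G : Ω → Prop} {B : Ω → β} {A : Ω → α} {A' : Ω → γ} {N : ℝ} (h : P.NVal G B A N)
    (hA : ∀ ω ω', A' ω = A' ω' → A ω = A ω') : P.NVal G B A' N :=
  ltk_nval_mono P h (fun _ h => h) hA ⟨id, fun _ => rfl⟩ le_rfl

theorem it_m_nval_le (P : FLaw Ω) {G : Ω → Prop} {B : Ω → β} {A : Ω → α} {N N' : ℝ} (h : P.NVal G B A N) (hN : N ≤ N') :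
    P.NVal G B A N' :=
  ltk_nval_mono P h (fun _ h => h) (fun _ _ h => h) ⟨id, fun _ => rfl⟩ hN

/-- cells of a scalar which is `R`-close on the fibres -/
theorem it_m_nval_cell (P : FLaw Ω) (G : Ω → Prop) (A : Ω → α) (v : Ω → ℝ) {δ s R : ℝ} (h0 : 0 < δ) (h1 : δ < 1)
    (hs : 0 ≤ s) (hR : 0 ≤ R)
    (h : ∀ ω ω', P.p ω ≠ 0 → P.p ω' ≠ 0 → G ω → G ω' → A ω = A ω' → |v ω - v ω'| ≤ R) :
    P.NVal G (fun ω => tcell δ s (v ω)) A (2 * R * δ ^ (-s) + 2) := by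
  have h2 := ltk_nval_close P G A v (tlev δ s) hR h
  refine it_m_nval_le P h2 ?_
  have h3 := ig_pow_lev_le δ s h0 h1 hs
  nlinarith [mul_le_mul_of_nonneg_left h3 hR]

/-- cells of a tuple of scalars -/
theorem it_m_nval_list {ι : Type} (P : FLaw Ω) (G : Ω → Prop) (A : Ω → α) (U : List ι) (val : ι → Ω → ℝ) {δ s R : ℝ}
    (h0 : 0 < δ) (h1 : δ < 1) (hs : 0 ≤ s) (hR : 0 ≤ R)
    (h : ∀ u ∈ U, ∀ ω ω', P.p ω ≠ 0 → P.p ω' ≠ 0 → G ω → G ω' → A ω = A ω' → |val u ω - val u ω'| ≤ R) :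
    P.NVal G (fun ω => U.map (fun u => tcell δ s (val u ω))) A ((2 * R * δ ^ (-s) + 2) ^ U.length) := by
  have hN : (0 : ℝ) ≤ 2 * R * δ ^ (-s) + 2 := by
    have := Real.rpow_pos_of_pos h0 (-s)
    positivity
  induction U with
  | nil =>
    intro ω₀
    exact ⟨{[]}, by simp, fun ω _ _ _ => by simp⟩
  | cons u U ih =>
    have ih' := ih (fun u' hu' => h u' (List.mem_cons_of_mem _ hu'))
    have hu := it_m_nval_cell P G A (val u) h0 h1 hs hR (h u (List.mem_cons_self ..))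
    have hu' : P.NVal G (fun ω => tcell δ s (val u ω)) (pair (fun ω => U.map (fun u => tcell δ s (val u ω))) A)
        (2 * R * δ ^ (-s) + 2) := it_m_nval_ref P hu (fun ω ω' e => (Prod.mk.inj e).2)
    have hc := ltk_nval_comp P G A _ _ hN ih' hu'
    have h' := it_m_nval_with P hc (fun ω => (u :: U).map (fun u => tcell δ s (val u ω))) (fun b _ => b.1 :: b.2)
      (fun ω _ => by simp [pair])
    simpa [pow_succ] using h'

/-- phase names of a phase which is `R`-close on the fibres -/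
theorem it_m_nval_itF (P : FLaw Ω) (G : Ω → Prop) (A : Ω → α) (Fv : Ω → ItPh) {δ p R : ℝ} (h0 : 0 < δ) (h1 : δ < 1)
    (hp : 0 ≤ p) (hR : 0 ≤ R)
    (h : ∀ ω ω', P.p ω ≠ 0 → P.p ω' ≠ 0 → G ω → G ω' → A ω = A ω' → ((Fv ω).sub (Fv ω')).nrm ≤ R) :
    P.NVal G (fun ω => itF δ p (Fv ω)) A ((2 * R * δ ^ (-p) + 2) ^ 6) := by
  have hl := it_m_nval_list P G A [ItPh.X, ItPh.B, ItPh.P, ItPh.Y, ItPh.N, ItPh.D] (fun c ω => c (Fv ω)) h0 h1 hp hR (by
    intro c hc ω ω' a1 a2 a3 a4 a5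
    obtain ⟨n1, n2, n3, n4, n5, n6⟩ := it_k_aux_nrm_le ((Fv ω).sub (Fv ω'))
    have hh := h ω ω' a1 a2 a3 a4 a5
    simp only [List.mem_cons, List.not_mem_nil, or_false] at hc
    rcases hc with rfl | rfl | rfl | rfl | rfl | rfl
    · exact n1.trans hh
    · exact n2.trans hh
    · exact n3.trans hh
    · exact n4.trans hh
    · exact n5.trans hh
    · exact n6.trans hh)
  refine it_m_nval_with P hl _ (fun l _ => ((l.getD 0 0, l.getD 1 0, l.getD 2 0), (l.getD 3 0, l.getD 4 0, l.getD 5 0)))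
    (fun ω _ => ?_)
  simp [itF]

/-! ## C. norms and pairings -/

theorem it_m_nrm_nonneg (f : ItPh) : 0 ≤ f.nrm := (abs_nonneg f.X).trans (it_k_aux_nrm_le f).1

theorem it_m_nrm_le {f : ItPh} {A : ℝ} (h1 : |f.X| ≤ A) (h2 : |f.B| ≤ A) (h3 : |f.P| ≤ A) (h4 : |f.Y| ≤ A) (h5 : |f.N| ≤ A)
    (h6 : |f.D| ≤ A) : f.nrm ≤ A := by
  unfold ItPh.nrm
  exact max_le (max_le (max_le h1 h2) (max_le h3 h4)) (max_le h5 h6)

theorem it_m_dot_le (u v : ItPh) : |itDot u v| ≤ 6 * (u.nrm * v.nrm) := by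
  obtain ⟨n1, n2, n3, n4, n5, n6⟩ := it_k_aux_nrm_le u
  obtain ⟨m1, m2, m3, m4, m5, m6⟩ := it_k_aux_nrm_le v
  have hu := it_m_nrm_nonneg u
  have t1 := it_k_aux_term n1 hu m1
  have t2 := it_k_aux_term n2 hu m2
  have t3 := it_k_aux_term n3 hu m3
  have t4 := it_k_aux_term n4 hu m4
  have t5 := it_k_aux_term n5 hu m5
  have t6 := it_k_aux_term n6 hu m6
  unfold itDot
  rw [abs_le] at t1 t2 t3 t4 t5 t6 ⊢
  constructor <;> linarith [t1.1, t2.1, t3.1, t4.1, t5.1, t6.1, t1.2, t2.2, t3.2, t4.2, t5.2, t6.2]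

theorem it_m_val_sub (w f g f0 : ItPh) : itVal w f f0 - itVal w g f0 = itDot w (f.sub g) := by
  unfold itVal itDot ItPh.sub
  ring

theorem it_m_itR_close {δ : ℝ} (h0 : 0 < δ) (p : ℝ) (f : ItPh) : (f.sub (itR δ p f)).nrm ≤ δ ^ p :=
  it_m_nrm_le (it_m_trep_close h0 p _) (it_m_trep_close h0 p _) (it_m_trep_close h0 p _) (it_m_trep_close h0 p _)
    (it_m_trep_close h0 p _) (it_m_trep_close h0 p _)

theorem it_m_nrm_tri (f g : ItPh) : f.nrm ≤ g.nrm + (f.sub g).nrm := by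
  obtain ⟨n1, n2, n3, n4, n5, n6⟩ := it_k_aux_nrm_le g
  obtain ⟨m1, m2, m3, m4, m5, m6⟩ := it_k_aux_nrm_le (f.sub g)
  simp only [ItPh.sub] at m1 m2 m3 m4 m5 m6
  have key : ∀ x y a b : ℝ, |y| ≤ a → |x - y| ≤ b → |x| ≤ a + b := by
    intro x y a b h1 h2
    have := abs_sub_abs_le_abs_sub x y
    linarith
  exact it_m_nrm_le (key _ _ _ _ n1 m1) (key _ _ _ _ n2 m2) (key _ _ _ _ n3 m3) (key _ _ _ _ n4 m4) (key _ _ _ _ n5 m5)
    (key _ _ _ _ n6 m6)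

theorem it_m_sub_comm (f g : ItPh) : (f.sub g).nrm = (g.sub f).nrm := by
  unfold ItPh.nrm ItPh.sub
  simp only [abs_sub_comm]

/-- the frozen parent stays in the box `B0 + 1` -/
theorem it_m_itR_box {δ : ℝ} (h0 : 0 < δ) (h1 : δ < 1) {p : ℝ} (hp : 0 ≤ p) {f : ItPh} {B0 : ℝ} (hf : f.nrm ≤ B0) :
    (itR δ p f).nrm ≤ B0 + 1 := by
  have h2 := it_m_nrm_tri (itR δ p f) f
  have h3 := it_m_itR_close h0 p f
  rw [it_m_sub_comm] at h3
  have h4 := it_m_pow_le_one h0 h1 hp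
  linarith

/-! ## D. the assembly lemma -/

/-- TRANSFER + INFORMATION TAIL + WINDOW.  `Tt` is scored given `Y`; `U` is scored given `Y0`; `Yp` refines `Y0`. -/
theorem it_m_asm {α₁ α₂ α₃ α₄ α₅ : Type} (P : FLaw Ω) (G : Ω → Prop) (Tt : Ω → α₁) (U : Ω → α₂) (Y : Ω → α₃) (Yp : Ω → α₄)
    (Y0 : Ω → α₅) {N₁ N₂ t t' c e1 e2 e3 tg : ℝ} (h1 : 0 < N₁) (h2 : 0 < N₂)
    (hY : P.NVal G Y Yp N₁) (hU : P.NVal G U (pair Tt Yp) N₂)
    (hG : P.pr (fun ω => ¬ G ω) ≤ e1)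
    (hI : P.pr (fun ω => P.surC U Yp ω + t' < P.surC U Y0 ω) ≤ e2)
    (hw : P.pr (fun ω => P.surC U Y0 ω < c) ≤ e3)
    (hb : tg ≤ c - t' - Real.log N₁ - Real.log N₂ - 3 * t) :
    P.pr (fun ω => P.surC Tt Y ω < tg) ≤ e1 + 3 * Real.exp (-t) + e2 + e3 := by
  have ht := ltk_transfer P G Tt U Y Yp h1 h2 hY hU t
  have hm : P.pr (fun ω => P.surC Tt Y ω < tg) ≤ P.pr (fun ω => ((¬ G ω ∨
      (G ω ∧ P.surC Tt Y ω < P.surC U Yp ω - Real.log N₁ - Real.log N₂ - 3 * t)) ∨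
      P.surC U Yp ω + t' < P.surC U Y0 ω) ∨ P.surC U Y0 ω < c) := by
    refine ent_pr_mono P fun ω _ hbad => ?_
    by_contra hcon
    push Not at hcon
    obtain ⟨⟨⟨g1, g2⟩, g3⟩, g4⟩ := hcon
    have := g2 g1
    linarith
  refine hm.trans ((ent_pr_or_le P _ _).trans ?_)
  refine add_le_add ((ent_pr_or_le P _ _).trans ?_) hw
  refine add_le_add ((ent_pr_or_le P _ _).trans ?_) hI
  exact add_le_add hG ht

/-! ## E. largeness of `L` -/

theorem it_m_L_large {δ acc L0 : ℝ} (h0 : 0 < δ) (h : δ < acc) (h' : acc ≤ Real.exp (-L0)) : L0 < lg δ := by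
  unfold lg
  rw [one_div, Real.log_inv]
  have h2 : Real.log δ < -L0 := by
    have h3 : δ < Real.exp (-L0) := lt_of_lt_of_le h h'
    calc Real.log δ < Real.log (Real.exp (-L0)) := Real.log_lt_log h0 h3
      _ = -L0 := Real.log_exp _
  linarith

theorem it_m_exp_le {x : ℝ} (hx : 0 < x) : Real.exp (-x) ≤ 1 / x := by
  rw [Real.exp_neg, ← one_div]
  exact one_div_le_one_div_of_le hx (by linarith [Real.add_one_le_exp x])

theorem it_m_log_pow {δ : ℝ} (h0 : 0 < δ) (g : ℝ) : Real.log (δ ^ (-g)) = g * lg δ := by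
  unfold lg
  rw [Real.log_rpow h0, one_div, Real.log_inv]
  ring

/-! ## F. the angular windows and the fibre budget -/

theorem it_m_mi_prefix {δ' : Type} (P : FLaw Ω) (A : Ω → α) (B : Ω → β) (C : Ω → γ) (f : α → δ') :
    P.miC A B (pair (fun ω => f (A ω)) C) ≤ P.miC A B C := by
  rw [it_k_aux_miC_congr P A A B B (pair (fun ω => f (A ω)) C) (pair C (fun ω => f (A ω))) (fun _ _ => Iff.rfl)
    (fun _ _ => Iff.rfl) (fun ω ω' => by simp only [pair, Prod.mk.injEq]; tauto)]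
  exact lay_mi_prefix P A B C f

theorem it_m_mi_first {α' : Type} (P : FLaw Ω) (A : Ω → α) (A' : Ω → α') (B : Ω → β) (C : Ω → γ)
    (h : ∀ ω ω', A ω = A ω' → A' ω = A' ω') : P.miC A' B C ≤ P.miC A B C := by
  rw [ent_miC_comm P A' B C, ent_miC_comm P A B C]
  exact ent_miC_mono P B A A' C (fun ω ω' _ _ e _ => h ω ω' e)

section tan

variable (T : Tan)

theorem it_m_Xn_fun (h0 : 0 < T.δ) (h1 : T.δ < 1) {p s : ℝ} (hps : p ≤ s) :
    ∀ ω, T.Xn p ω = (fun z : ℤ => z / (2 : ℤ) ^ (tlev T.δ s - tlev T.δ p)) (T.Xn s ω) :=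
  fun ω => ig_cell_nest T.δ p s (T.F ω).X h0 h1 hps

/-- increments of the angular name: two sided window -/
theorem it_m_ang_win (a : ItPar) (pk : ItPk) (acc : ℝ) (hI : T.AdmI a pk acc) (h0 : 0 < T.δ) (h1 : T.δ < 1) {p s : ℝ}
    (hp : p ∈ pk.G) (hs : s ∈ pk.G) (hps : p ≤ s) :
    T.P.pr (fun ω => 2 * acc * T.L < |T.P.surC (T.Xn s) (pair (T.Xn p) T.Cs) ω - a.m * (s - p) * T.L|) ≤ 2 * acc := by
  have e1 := hI.ang p hp
  have e2 := hI.ang s hs
  refine le_trans (le_trans (ent_pr_mono T.P fun ω hω hbad => ?_) (ent_pr_or_le T.P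
    (fun ω => acc * T.L < |T.P.surC (T.Xn p) T.Cs ω - a.m * p * T.L|)
    (fun ω => acc * T.L < |T.P.surC (T.Xn s) T.Cs ω - a.m * s * T.L|))) (by linarith [add_le_add e1 e2])
  by_contra hcon
  push Not at hcon
  obtain ⟨c1, c2⟩ := hcon
  have hch := ent_surC_chain T.P (T.Xn p) (T.Xn s) T.Cs hω
  have hcg : T.P.surC (pair (T.Xn p) (T.Xn s)) T.Cs ω = T.P.surC (T.Xn s) T.Cs ω := by
    refine ent_surC_congr T.P _ _ _ _ ω (fun _ _ => Iff.rfl) (fun ω' _ _ => ?_)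
    simp only [pair, Prod.mk.injEq]
    constructor
    · exact fun h => h.2
    · intro h
      exact ⟨by rw [it_m_Xn_fun T h0 h1 hps ω', it_m_Xn_fun T h0 h1 hps ω, h], h⟩
  have hEq : T.P.surC (T.Xn s) (pair (T.Xn p) T.Cs) ω - a.m * (s - p) * T.L
      = (T.P.surC (T.Xn s) T.Cs ω - a.m * s * T.L) - (T.P.surC (T.Xn p) T.Cs ω - a.m * p * T.L) := by
    rw [← hcg, hch]; ring
  rw [hEq] at hbad
  have := abs_sub (T.P.surC (T.Xn s) T.Cs ω - a.m * s * T.L) (T.P.surC (T.Xn p) T.Cs ω - a.m * p * T.L)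
  linarith

/-- the fibre budget at a prefix, with a retained parent -/
theorem it_m_fib_mi (a : ItPar) (pk : ItPk) (acc : ℝ) (hI : T.AdmI a pk acc) (h0 : 0 < T.δ) (h1 : T.δ < 1) {p s : ℝ}
    (hps : p ≤ s) (hsK : s ≤ pk.K) {i : ℕ} (hi : i < pk.M) :
    T.P.miC (T.Xn s) (pair (T.Qn pk.RQ i) (T.Xi pk.M)) (pair (T.Xn p) T.Cs) ≤ acc * T.L := by
  have e1 : T.P.miC (T.Xn s) (pair (T.Qn pk.RQ i) (T.Xi pk.M)) (pair (T.Xn p) T.Cs)
      ≤ T.P.miC (T.Xn s) (pair (T.Qn pk.RQ i) (T.Xi pk.M)) T.Cs := by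
    have := it_m_mi_prefix T.P (T.Xn s) (pair (T.Qn pk.RQ i) (T.Xi pk.M)) T.Cs
      (fun z : ℤ => z / (2 : ℤ) ^ (tlev T.δ s - tlev T.δ p))
    have hfun : T.Xn p = fun ω => (fun z : ℤ => z / (2 : ℤ) ^ (tlev T.δ s - tlev T.δ p)) (T.Xn s ω) :=
      funext (it_m_Xn_fun T h0 h1 hps)
    rw [hfun]
    exact this
  have e2 : T.P.miC (T.Xn s) (pair (T.Qn pk.RQ i) (T.Xi pk.M)) T.Cs
      ≤ T.P.miC (T.Xn pk.K) (pair (T.Qn pk.RQ i) (T.Xi pk.M)) T.Cs :=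
    it_m_mi_first T.P _ _ _ _ (fun ω ω' e => by
      rw [it_m_Xn_fun T h0 h1 hsK ω, it_m_Xn_fun T h0 h1 hsK ω', e])
  exact e1.trans (e2.trans (hI.fib i hi))

end tan

/-- the package requirement of the block MODE: the mesh of prefixes, the parent, one more depth -/
noncomputable def itmPk (p q : ℝ) (n : ℕ) (x : ℝ) : ItPk :=
  ⟨0, q, q, 1, insert x (insert p ((Finset.range (n + 1)).image (fun k => itS p q n k))), ∅⟩

theorem it_m_kit_eqns_cite : True := by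
  have := @itmPk.eq_1
  trivial

theorem it_m_itS_sub {p q : ℝ} (hpq : p < q) {n k : ℕ} (hn : 0 < n) (hk : 1 ≤ k) (hkn : k ≤ n) :
    (q - p) / n ≤ itS p q n k - p ∧ itS p q n k ≤ q := by
  have hn' : (0 : ℝ) < n := Nat.cast_pos.2 hn
  have hk' : (1 : ℝ) ≤ k := by exact_mod_cast hk
  have hkn' : (k : ℝ) ≤ n := by exact_mod_cast hkn
  unfold itS
  constructor
  · rw [add_sub_cancel_left]
    exact div_le_div_of_nonneg_right (by nlinarith) hn'.le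
  · have : (q - p) * k / n ≤ q - p := by
      rw [div_le_iff₀ hn']
      nlinarith
    linarith

theorem it_m_pk_pre {p q : ℝ} (hp : 0 < p) (hpq : p < q) (n : ℕ) {x : ℝ} (hx : 0 ≤ x) : (itmPk p q n x).Pre := by
  refine ⟨one_pos, fun y hy => ?_⟩
  simp only [itmPk, Finset.mem_insert, Finset.mem_image, Finset.mem_range] at hy
  rcases hy with rfl | rfl | ⟨k, -, rfl⟩
  · exact hx
  · exact hp.le
  · unfold itS
    have : 0 ≤ (q - p) * k / n := by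
      apply div_nonneg (mul_nonneg (by linarith) (Nat.cast_nonneg _)) (Nat.cast_nonneg _)
    linarith

theorem it_m_pk_mem {p q : ℝ} {n : ℕ} {x : ℝ} {pk : ItPk} (h : (itmPk p q n x).le pk) :
    q ≤ pk.K ∧ x ∈ pk.G ∧ p ∈ pk.G ∧ ∀ k, k ≤ n → itS p q n k ∈ pk.G := by
  obtain ⟨-, hK, -, -, hG⟩ := h
  refine ⟨hK, hG (by simp [itmPk]), hG (by simp [itmPk]), fun k hk => hG ?_⟩
  simp only [itmPk, Finset.mem_insert, Finset.mem_image, Finset.mem_range]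
  exact Or.inr (Or.inr ⟨k, by omega, rfl⟩)

end Claimed.Agent.R256
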