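import Claimed.Agent.R256.Int.Sym
import Claimed.Agent.R256.Lay.Walk

/-!
# Row 256, Sec. 5, block MOT (Lemma int:mark-motion, 05 l.670-785; int:double, l.896-950): DEFINITIONS      (architect helper177; prefix `it_o_`)

EXITS (file `Int/MotExit.lean`): the five motion tests `it_mot_gen`, `it_mot_th`, `it_mot_thj`, `it_mot_r`, `it_mot_two` of `Int/Meta.lean`.

## The proof in one page   (`j` = moving record, `M = pk.M`, `K = pk.K`, `RQ = pk.RQ`, layer `p < s ≤ q ≤ 2p`, `q ≤ K < RQ`)
Law `S = T.Sj RQ M j nd` on `T.St nd = Ω × (Fin nd → Ω)` : target `x.1 ~ P`, and `nd ∈ {1, 2}` draws `x.2 s`, conditionally i.i.d. given the kept data `𝔅 = (Q_j, 𝒟)` (R255 `FLaw.star`).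
On the support all marks `< M`, `C_*` and the five fibre cells of depth `RQ` agree at `x.1` and `x.2 s`.   `F = T.F x.1`, `R_s = T.F (x.2 s)`.
 (A) FREEZE + RECORD REMOVAL, on `P` (`it_o_freeze`, file MotFrz):  coefficients are frozen at `Ξ̃ = T.XiF j p` (record `j` replaced by `(θ_{j,p}, r_{j,p}, 0)`), the phase at its representative of depth `K`;
     lists of bounded size (`ltk_transfer`);   then the fine record is removed from the conditioning by (vb) (`ltk_info_tail` + `it_o_mi_fun`):  `base = (F_p, C, Ξ)` becomes `baseR = (F_p, C, Ξ_{-j}, ξ_{j,p})`.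
 (B) CORE, on `S` (`it_o_core`, file MotGeo):  with the angular names `aux = (X_F^*, (X_{R_s}^*)_s)` of depth `K` adjoined, the label
     `cndH = (Z_{R_{s0}}, aux, Ξ_{-j}, ξ_{j,p}, H)` (`H` = a held label of the marks, e.g. the other scalar at depth `y`) READS `F_p` and every held reading whose first order term `T.dif` is fixed by the label,
     and together with the tested reading it READS the scalar innovation `ι` at depth `s - χ` (`δ^χ` = lower bound of the coefficient).   ABSTRACT in `ι`, `H`:  `ι = θ_j` or `r_j` (`it_o_dif_mov`), `ι = T.inn j p c1 c2` (`it_o_dif_gen`).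
     Only geometric input: the EXPANSION `it_o_expand` (leg formulas + Taylor, error `δ^K + δ^RQ + δ^{2p}`).
 (C) INNOVATION (file MotInfo):  `sur_S(ι_{s'} | cndH) ≥ sur_P(ι_{s'} | Zs, Ξ_{-j}, ξ_{j,p}, H)(x.2 s0) - t'` off `(nd acc L + 1)/t'`  (`it_o_innov_gen`: (int:motion-independence));
     for a mover the other records are removed by conditional independence and `j` is exchanged with `0` (`it_o_innov_mov`).
 (D) SEPARATION, on `S` (`it_o_sepA`, `it_o_sepAA`, file MotInfo):  `|A_s|`, `|A_1 - A_2| ≥ δ^χ`  (`ltk_sep`, (fib), (ang), `m > 0`).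
 (E) ASSEMBLY for one datum: `it_o_one` (abstract), `it_o_one_mov`, `it_o_one_gen` (file MotOne), `it_o_two` (file MotTwo);  quantifier pattern + the innovation clauses of `AdmM`: file MotExit.
-/

set_option autoImplicit false

namespace Claimed.Agent.R256

open Claimed.Agent.R255
open Claimed.Agent.R255.FLaw (pair)
open scoped BigOperators
open Classical

/-- THE LEG MAP: the target phase as a function of the resampled phase `R`, the leg `A = X_F - X_R` and the mark `(θ, r)` of the shared fibre (05 l.712-727) -/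
def itLegO (quad : Bool) (R : ItPh) (A : ℝ) (μ : ItMk) : ItPh :=
  if quad then ⟨R.X + A, R.B - μ.th * A, R.P + 2 * μ.r * A, R.Y - μ.th * (2 * R.X * A + A ^ 2), R.N + R.P * A + μ.r * A ^ 2,
      R.D - μ.th * (R.P * A + μ.r * A ^ 2)⟩
  else ⟨R.X + A, R.B - μ.th * A, 0, R.Y - μ.th * (2 * R.X * A + A ^ 2), R.N + μ.r * A, R.D - μ.th * μ.r * A⟩

/-- the mark frozen at depth `p` -/
noncomputable def itFz (δ p : ℝ) (μ : ItMk) : ItMk := ⟨trep δ p μ.th, trep δ p μ.r, 0⟩

/-- the motion vector of the moving scalar: `mv = true` : `θ_j` moves;  `mv = false` : `r_j` moves -/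
def itvMv (mv quad : Bool) (f0 : ItPh) (μ : ItMk) (A : ℝ) : ItPh := if mv then itvTh quad f0 μ A else itvR quad μ A

/-- the moving scalar -/
def ItMk.mv (μ : ItMk) (mv : Bool) : ℝ := if mv then μ.th else μ.r

/-- `v + t u` -/
def ItPh.axpy (t : ℝ) (u v : ItPh) : ItPh := ⟨v.X + t * u.X, v.B + t * u.B, v.P + t * u.P, v.Y + t * u.Y, v.N + t * u.N, v.D + t * u.D⟩

namespace Tan

variable (T : Tan)

/-- name of depth `q` of the moving scalar of the record `i` -/
noncomputable def mvn (mv : Bool) (i : ℕ) (q : ℝ) : T.Ω → ℤ := fun ω => tcell T.δ q ((T.mrk i ω).mv mv)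

/-- all marks, the record `j` frozen at depth `p` -/
noncomputable def XiF (j : ℕ) (p : ℝ) : T.Ω → ℕ → ItMk := fun ω i => if i = j then itFz T.δ p (T.mrk j ω) else T.mrk i ω

/-- the frozen covector field of a symbol -/
noncomputable def fldF (j : ℕ) (p : ℝ) (U : ItSym) : T.Ω → ItPh := fun ω => U (T.f0 p ω) (T.XiF j p ω)

/-- names of depth `s` of a tuple of readings of the representative of depth `K` of the phase -/
noncomputable def rdF (K p s : ℝ) (U : List (T.Ω → ItPh)) : T.Ω → List ℤ :=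
  fun ω => U.map fun u => tcell T.δ s (itVal (u ω) (itR T.δ K (T.F ω)) (T.f0 p ω))

/-- the reduced conditioning `(F_p, C_*, Ξ_{-j}, ξ_{j,p})` -/
noncomputable def baseR (M j : ℕ) (p : ℝ) :
    T.Ω → ((ℤ × ℤ × ℤ) × (ℤ × ℤ × ℤ)) × (T.γ × ((Fin M → ItMk) × (ℤ × ℤ))) :=
  fun ω => (T.Fn p ω, (T.Cs ω, (T.XiE M j ω, T.xin j p ω)))

/-- the kept data `𝔅 = (Q_j, 𝒟)` of the resampling -/
noncomputable def Bj (RQ : ℝ) (M j : ℕ) : T.Ω → ((ℤ × ℤ × ℤ) × (ℤ × ℤ)) × (T.γ × (Fin M → ItMk)) := pair (T.Qn RQ j) (T.Dd M)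

/-- sample space of the target and `nd` draws -/
abbrev St (nd : ℕ) : Type := T.Ω × (Fin nd → T.Ω)

/-- THE LAW of the target and `nd` draws from the kernel with the same `(Q_j, 𝒟)` -/
noncomputable def Sj (RQ : ℝ) (M j nd : ℕ) : FLaw (T.St nd) := T.P.star (T.Bj RQ M j) nd

/-- the auxiliary angular names `(X_F^*, (X_{R_s}^*)_s)` of depth `K` -/
noncomputable def aux (K : ℝ) (nd : ℕ) : T.St nd → ℤ × (Fin nd → ℤ) := fun x => (T.Xn K x.1, fun s => T.Xn K (x.2 s))

/-- the leg `Ā_s = X_F^* - X_{R_s}^*`, a function of `aux` -/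
noncomputable def legA (K : ℝ) {nd : ℕ} (s : Fin nd) : T.St nd → ℝ :=
  fun x => trep T.δ K (T.F x.1).X - trep T.δ K (T.F (x.2 s)).X

/-- readings on `S` : covector fields on `S`, phase of the target -/
noncomputable def rdS (K p s : ℝ) {nd : ℕ} (U : List (T.St nd → ItPh)) : T.St nd → List ℤ :=
  fun x => U.map fun u => tcell T.δ s (itVal (u x) (itR T.δ K (T.F x.1)) (T.f0 p x.1))

/-- the data on which a covector field on `S` may depend -/
noncomputable def parS (M j : ℕ) (K p : ℝ) (nd : ℕ) :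
    T.St nd → ((ℤ × ℤ × ℤ) × (ℤ × ℤ × ℤ)) × ((Fin M → ItMk) × ((ℤ × ℤ) × (ℤ × (Fin nd → ℤ)))) :=
  fun x => (T.Fn p x.1, (T.XiE M j x.1, (T.xin j p x.1, T.aux K nd x)))

/-- conditioning of the tested reading on `S` : held readings at depth `q`, reduced base, auxiliary names -/
noncomputable def cndS (M j : ℕ) (K p q : ℝ) {nd : ℕ} (V : List (T.St nd → ItPh)) :
    T.St nd → List ℤ × ((((ℤ × ℤ × ℤ) × (ℤ × ℤ × ℤ)) × (T.γ × ((Fin M → ItMk) × (ℤ × ℤ)))) × (ℤ × (Fin nd → ℤ))) :=
  fun x => (T.rdS K p q V x, (T.baseR M j p x.1, T.aux K nd x))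

/-- conditioning of the innovation on `S` : side of the draw `s0`, auxiliary names, the other records, the parent of the record `j`, and a held label `H` of the marks (e.g. the other scalar at depth `y`) -/
noncomputable def cndH {β : Type} (M j : ℕ) (K p : ℝ) {nd : ℕ} (s0 : Fin nd) (H : T.Ω → β) :
    T.St nd → T.ζ × ((ℤ × (Fin nd → ℤ)) × ((Fin M → ItMk) × ((ℤ × ℤ) × β))) :=
  fun x => (T.Zs (x.2 s0), (T.aux K nd x, (T.XiE M j x.1, (T.xin j p x.1, H x.1))))

/-- the same conditioning on `P` (no auxiliary names) -/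
noncomputable def cndP {β : Type} (M j : ℕ) (p : ℝ) (H : T.Ω → β) : T.Ω → T.ζ × ((Fin M → ItMk) × ((ℤ × ℤ) × β)) :=
  fun ω => (T.Zs ω, (T.XiE M j ω, (T.xin j p ω, H ω)))

/-- the motion vector at a point of `S` : frozen target, frozen mark, leg of the draw `s0` -/
noncomputable def mot (mv : Bool) (j : ℕ) (K p : ℝ) {nd : ℕ} (s0 : Fin nd) : T.St nd → ItPh :=
  fun x => itvMv mv T.quad (T.f0 p x.1) (itFz T.δ p (T.mrk j x.1)) (T.legA K s0 x)

/-- the first order term of the reading `w` in the increments of the record `j` beyond its parent of depth `p` -/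
noncomputable def dif (j : ℕ) (K p : ℝ) {nd : ℕ} (s0 : Fin nd) (w : T.St nd → ItPh) : T.St nd → ℝ := fun x =>
  ((T.mrk j x.1).th - trep T.δ p (T.mrk j x.1).th) * itDot (w x) (T.mot true j K p s0 x)
    + ((T.mrk j x.1).r - trep T.δ p (T.mrk j x.1).r) * itDot (w x) (T.mot false j K p s0 x)

/-- INNOVATION CLAUSE for the record `0` : mover at depth `s`, its parent at depth `p`, the other scalar at depth `y` -/
def Inn (mv : Bool) (p s y c0 ε : ℝ) : Prop :=
  T.P.pr (fun ω => T.P.surC (T.mvn mv 0 s) (pair T.Zs (pair (T.mvn mv 0 p) (T.mvn (!mv) 0 y))) ω < c0) ≤ ε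

end Tan

theorem it_o_eqns_cite : True := by
  have := @itLegO.eq_1; have := @itFz.eq_1; have := @itvMv.eq_1; have := @ItMk.mv.eq_1; have := @ItPh.axpy.eq_1
  have := @Tan.mvn.eq_1; have := @Tan.XiF.eq_1; have := @Tan.fldF.eq_1; have := @Tan.rdF.eq_1; have := @Tan.baseR.eq_1; have := @Tan.Bj.eq_1
  have := @Tan.Sj.eq_1; have := @Tan.aux.eq_1; have := @Tan.legA.eq_1; have := @Tan.rdS.eq_1; have := @Tan.parS.eq_1; have := @Tan.cndS.eq_1
  have := @Tan.cndH.eq_1; have := @Tan.cndP.eq_1; have := @Tan.mot.eq_1; have := @Tan.dif.eq_1; have := @Tan.Inn.eq_1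
  trivial

end Claimed.Agent.R256
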