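import Claimed.Agent.R256.Int.MotKit

/-!
# Row 256, Sec. 5, block MOT: (A) FREEZE + RECORD REMOVAL, on the law `P`      (architect helper177; prefix `it_o_`)

05 l.729-736: "First freeze every coefficient involving the moving mark ... With the full record known, translate at `F_p` to compare the original and frozen readings.  (vb) then removes the remaining fine record."
 A1 `it_o_frz_close`  original and frozen values differ by `C msh q`
 A2 `it_o_frz_nval`   the two list statements           A3 `it_o_frz_mi`  `I(frozen tested ; Ξ | frozen held, baseR) ≤ acc L`           A4 `it_o_freeze`  assembly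
 A5 `it_o_frz_g`      the coefficient `g` at the frozen marks
RULE: provers edit only the body of their theorem + auxiliary lemmas directly above it (prefix `it_o_aux_`); statements are frozen (defects -> helper177).
-/

set_option autoImplicit false

namespace Claimed.Agent.R256

open Claimed.Agent.R255
open Claimed.Agent.R255.FLaw (pair)
open scoped BigOperators
open Classical

theorem it_o_aux_msh_le_one (δ q : ℝ) : msh δ q ≤ 1 := by
  unfold msh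
  rw [div_le_one (by positivity)]
  exact one_le_pow₀ (by norm_num)

theorem it_o_aux_trep_bd (δ p : ℝ) {x B : ℝ} (hx : |x| ≤ B) : |trep δ p x| ≤ B + 1 := by
  have h1 := it_k_aux_rep_dist δ p x
  have h2 := it_o_aux_msh_le_one δ p
  rw [abs_le] at h1 hx ⊢
  constructor <;> linarith [h1.1, h1.2, hx.1, hx.2]

theorem it_o_aux_itR_box (δ p : ℝ) {f : ItPh} {B : ℝ} (hf : f.nrm ≤ B) : (itR δ p f).nrm ≤ B + 1 := by
  obtain ⟨n1, n2, n3, n4, n5, n6⟩ := it_k_aux_nrm_le f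
  rw [it_s_nrm_le]
  exact ⟨it_o_aux_trep_bd δ p (n1.trans hf), it_o_aux_trep_bd δ p (n2.trans hf), it_o_aux_trep_bd δ p (n3.trans hf),
    it_o_aux_trep_bd δ p (n4.trans hf), it_o_aux_trep_bd δ p (n5.trans hf), it_o_aux_trep_bd δ p (n6.trans hf)⟩

theorem it_o_aux_box_mrk (T : Tan) (a : ItPar) (pk : ItPk) (h0 : T.Adm0 a pk) (ω : T.Ω) (hω : T.P.p ω ≠ 0) :
    itBoxM pk.M (a.B0 + 1) (fun i => T.mrk i ω) := by
  intro i hi
  obtain ⟨b1, b2, b3⟩ := h0.bdM ω hω i hi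
  exact ⟨by linarith, by linarith, by linarith⟩

theorem it_o_aux_box_XiF (T : Tan) (a : ItPar) (ha : a.Ok) (pk : ItPk) (h0 : T.Adm0 a pk) (j : ℕ) (hj : j < pk.M) (p : ℝ) (ω : T.Ω)
    (hω : T.P.p ω ≠ 0) : itBoxM pk.M (a.B0 + 1) (T.XiF j p ω) := by
  have hB : 1 ≤ a.B0 := ha.2.2.2.2.2.2.2.2
  intro i hi
  unfold Tan.XiF
  by_cases hij : i = j
  · rw [if_pos hij]
    obtain ⟨b1, b2, b3⟩ := h0.bdM ω hω j hj
    refine ⟨it_o_aux_trep_bd _ _ b1, it_o_aux_trep_bd _ _ b2, ?_⟩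
    simp only [itFz, abs_zero]
    linarith
  · rw [if_neg hij]
    obtain ⟨b1, b2, b3⟩ := h0.bdM ω hω i hi
    exact ⟨by linarith, by linarith, by linarith⟩

/-- the original and the frozen covector -/
theorem it_o_aux_fld_close (T : Tan) (a : ItPar) (ha : a.Ok) (pk : ItPk) (h0 : T.Adm0 a pk) (A0 : ℝ) (j : ℕ) (hj : j < pk.M)
    (u : ItSym) (hu : u.Reg pk.M a.B0 A0) (hk : u.KFree j) (p : ℝ) (ω : T.Ω) (hω : T.P.p ω ≠ 0) :
    ((T.fld p u ω).sub (T.fldF j p u ω)).nrm ≤ A0 * msh T.δ p := by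
  have hB : 1 ≤ a.B0 := ha.2.2.2.2.2.2.2.2
  have hm := ig_msh_pos T.δ p
  obtain ⟨Ξ', hΞ'⟩ : ∃ Ξ' : ℕ → ItMk, Ξ' = fun i => if i = j then ⟨(T.mrk j ω).th, (T.mrk j ω).r, 0⟩ else T.mrk i ω := ⟨_, rfl⟩
  have e1 : T.fld p u ω = u (T.f0 p ω) Ξ' := by
    unfold Tan.fld
    refine hk _ _ _ (fun i hi => ?_) ?_ ?_
    · rw [hΞ']
      simp only [if_neg hi]
    · rw [hΞ']
      simp
    · rw [hΞ']
      simp
  have hf0 : (T.f0 p ω).nrm ≤ a.B0 + 1 := it_o_aux_itR_box _ _ (h0.bdF ω hω)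
  have hb1 : itBoxM pk.M (a.B0 + 1) Ξ' := by
    intro i hi
    rw [hΞ']
    by_cases hij : i = j
    · simp only [if_pos hij]
      obtain ⟨b1, b2, b3⟩ := h0.bdM ω hω j hj
      refine ⟨by linarith, by linarith, ?_⟩
      rw [abs_zero]
      linarith
    · simp only [if_neg hij]
      obtain ⟨b1, b2, b3⟩ := h0.bdM ω hω i hi
      exact ⟨by linarith, by linarith, by linarith⟩
  have hb2 := it_o_aux_box_XiF T a ha pk h0 j hj p ω hω
  have hn : itNearM pk.M (msh T.δ p) Ξ' (T.XiF j p ω) := by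
    intro i hi
    rw [hΞ']
    unfold Tan.XiF
    by_cases hij : i = j
    · simp only [if_pos hij, itFz, sub_self, abs_zero]
      exact ⟨it_k_aux_rep_dist _ _ _, it_k_aux_rep_dist _ _ _, hm.le⟩
    · simp only [if_neg hij, sub_self, abs_zero]
      exact ⟨hm.le, hm.le, hm.le⟩
  have hs : ((T.f0 p ω).sub (T.f0 p ω)).nrm ≤ msh T.δ p := by
    rw [it_s_nrm_le]
    simp only [ItPh.sub, sub_self, abs_zero]
    exact ⟨hm.le, hm.le, hm.le, hm.le, hm.le, hm.le⟩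
  rw [e1]
  exact hu.lip _ _ _ _ _ hf0 hf0 hb1 hb2 hs hn

theorem it_o_aux_fldF_bd (T : Tan) (a : ItPar) (ha : a.Ok) (pk : ItPk) (h0 : T.Adm0 a pk) (A0 : ℝ) (j : ℕ) (hj : j < pk.M)
    (u : ItSym) (hu : u.Reg pk.M a.B0 A0) (p : ℝ) (ω : T.Ω) (hω : T.P.p ω ≠ 0) : (T.fldF j p u ω).nrm ≤ A0 :=
  hu.bd _ _ (it_o_aux_itR_box _ _ (h0.bdF ω hω)) (it_o_aux_box_XiF T a ha pk h0 j hj p ω hω)

theorem it_o_aux_dot_bd {u v : ItPh} {A m : ℝ} (hA : 0 ≤ A) (hu : u.nrm ≤ A) (hv : v.nrm ≤ m) : |itDot u v| ≤ 6 * A * m := by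
  obtain ⟨n1, n2, n3, n4, n5, n6⟩ := it_k_aux_nrm_le u
  obtain ⟨m1, m2, m3, m4, m5, m6⟩ := it_k_aux_nrm_le v
  unfold itDot
  have t1 := it_k_aux_term (n1.trans hu) hA (m1.trans hv)
  have t2 := it_k_aux_term (n2.trans hu) hA (m2.trans hv)
  have t3 := it_k_aux_term (n3.trans hu) hA (m3.trans hv)
  have t4 := it_k_aux_term (n4.trans hu) hA (m4.trans hv)
  have t5 := it_k_aux_term (n5.trans hu) hA (m5.trans hv)
  have t6 := it_k_aux_term (n6.trans hu) hA (m6.trans hv)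
  rw [abs_le] at t1 t2 t3 t4 t5 t6
  exact abs_le.2 ⟨by linarith [t1.1, t2.1, t3.1, t4.1, t5.1, t6.1], by linarith [t1.2, t2.2, t3.2, t4.2, t5.2, t6.2]⟩

theorem it_o_aux_sub_itR (δ p : ℝ) (f : ItPh) : (f.sub (itR δ p f)).nrm ≤ msh δ p := by
  rw [it_s_nrm_le]
  exact ⟨it_k_aux_rep_dist _ _ _, it_k_aux_rep_dist _ _ _, it_k_aux_rep_dist _ _ _, it_k_aux_rep_dist _ _ _, it_k_aux_rep_dist _ _ _,
    it_k_aux_rep_dist _ _ _⟩

theorem it_o_aux_msh_sq {δ : ℝ} (h0 : 0 < δ) (h1 : δ < 1) {p q : ℝ} (hq : 0 ≤ q) (hq2 : q ≤ 2 * p) : msh δ p * msh δ p ≤ 2 * msh δ q := by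
  have a1 := ig_msh_le δ p h0
  have a2 := ig_le_msh δ q h0 h1 hq
  have a3 := ig_msh_pos δ p
  have a4 : δ ^ p * δ ^ p = δ ^ (2 * p) := by
    rw [← Real.rpow_add h0]
    ring_nf
  have a5 : δ ^ (2 * p) ≤ δ ^ q := Real.rpow_le_rpow_of_exponent_ge h0 h1.le hq2
  have a6 : msh δ p * msh δ p ≤ δ ^ p * δ ^ p := mul_le_mul a1 a1 a3.le (a3.le.trans a1)
  linarith

/-- LEAF A1.  On the support `|F| ≤ B0`, marks `≤ B0`, so `f0`, `Ξ`, `Ξ̃` lie in the box `B0 + 1` (`msh ≤ 1`).   `u f0 Ξ = u f0 Ξ'`, `Ξ'` = `Ξ` with `𝔨_j := 0` (`KFree`); `itNearM M (msh p) Ξ' Ξ̃`; `Reg.lip` (with `f = f'`):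
`|u - ũ| ≤ A0 msh p`.   `itVal u F f0 - itVal ũ Fh f0 = itVal (u - ũ) F f0 + ⟨ũ, F - Fh⟩`, bounded by `6 A0 msh p ^ 2 + 6 A0 msh K ≤ 18 A0 msh q`.   OWNER open (L-256-INT-MOT-A1), EST 250 lines -/
theorem it_o_frz_close (T : Tan) (a : ItPar) (ha : a.Ok) (pk : ItPk) (hpk : pk.Ok) (h0 : T.Adm0 a pk) (A0 : ℝ) (hA0 : 1 ≤ A0) (j : ℕ) (hj : j < pk.M)
    (u : ItSym) (hu : u.Reg pk.M a.B0 A0) (hk : u.KFree j) (p q : ℝ) (hp : 0 < p) (hq2 : q ≤ 2 * p) (hqK : q ≤ pk.K) (hq : 0 ≤ q)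
    (ω : T.Ω) (hω : T.P.p ω ≠ 0) :
    |itVal (T.fld p u ω) (T.F ω) (T.f0 p ω) - itVal (T.fldF j p u ω) (itR T.δ pk.K (T.F ω)) (T.f0 p ω)| ≤ 18 * A0 * msh T.δ q := by
  have hA : 0 ≤ A0 := by linarith
  have hm := ig_msh_pos T.δ p
  have c1 := it_o_aux_fld_close T a ha pk h0 A0 j hj u hu hk p ω hω
  have c2 := it_o_aux_fldF_bd T a ha pk h0 A0 j hj u hu p ω hω
  have e : itVal (T.fld p u ω) (T.F ω) (T.f0 p ω) - itVal (T.fldF j p u ω) (itR T.δ pk.K (T.F ω)) (T.f0 p ω)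
      = itDot ((T.fld p u ω).sub (T.fldF j p u ω)) ((T.F ω).sub (itR T.δ p (T.F ω)))
        + itDot (T.fldF j p u ω) ((T.F ω).sub (itR T.δ pk.K (T.F ω))) := by
    simp only [itVal, itDot, ItPh.sub, Tan.f0]
    ring
  have d1 := it_o_aux_dot_bd (mul_nonneg hA hm.le) c1 (it_o_aux_sub_itR T.δ p (T.F ω))
  have d2 := it_o_aux_dot_bd hA c2 (it_o_aux_sub_itR T.δ pk.K (T.F ω))
  have s1 := it_o_aux_msh_sq h0.δ0 h0.δ1 hq hq2
  have s2 := ig_msh_anti T.δ q pk.K h0.δ0 h0.δ1 hqK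
  rw [e]
  refine (abs_add_le _ _).trans ?_
  have t1 : 6 * (A0 * msh T.δ p) * msh T.δ p ≤ 12 * A0 * msh T.δ q := by nlinarith
  have t2 : 6 * A0 * msh T.δ pk.K ≤ 6 * A0 * msh T.δ q := by nlinarith
  linarith

theorem it_o_aux_nval_adj {Ω α β γ : Type} [Fintype Ω] (P : FLaw Ω) (G : Ω → Prop) (B : Ω → β) (A : Ω → α) (C : Ω → γ) {N : ℝ}
    (h : P.NVal G B (pair A C) N) : P.NVal G (pair B C) (pair A C) N := by
  intro ω₀
  obtain ⟨S, hS, hmem⟩ := h ω₀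
  refine ⟨S.image fun b => (b, C ω₀), (Nat.cast_le.2 Finset.card_image_le).trans hS, fun ω hω hG hA => ?_⟩
  refine Finset.mem_image.2 ⟨B ω, hmem ω hω hG hA, ?_⟩
  simp only [pair, Prod.mk.injEq] at hA ⊢
  exact ⟨trivial, hA.2.symm⟩

theorem it_o_aux_rd_map (T : Tan) (p s : ℝ) (U : List ItSym) :
    T.rd p s (U.map (T.fld p)) = fun ω => U.map fun u => tcell T.δ s (itVal (T.fld p u ω) (T.F ω) (T.f0 p ω)) := by
  funext ω
  simp only [Tan.rd, List.map_map]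
  rfl

theorem it_o_aux_rdF_map (T : Tan) (j : ℕ) (K p s : ℝ) (U : List ItSym) :
    T.rdF K p s (U.map (T.fldF j p)) = fun ω => U.map fun u => tcell T.δ s (itVal (T.fldF j p u ω) (itR T.δ K (T.F ω)) (T.f0 p ω)) := by
  funext ω
  simp only [Tan.rdF, List.map_map]
  rfl

theorem it_o_aux_tri {x x' y y' c m : ℝ} (h1 : |x - y| ≤ c) (h2 : |x' - y'| ≤ c) (h3 : |y - y'| ≤ m) : |x - x'| ≤ 2 * c + m := by
  rw [abs_le] at h1 h2 h3 ⊢
  constructor <;> linarith [h1.1, h1.2, h2.1, h2.2, h3.1, h3.2]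

/-- LEAF A2.  (i) `(frozen held, base)` reads `(held, base)`;  (ii) `(tested, frozen held, base)` reads the frozen tested tuple.   Two points of the support with the same `base` have the same covectors (original and frozen);
same cell of one value => the other values differ by `≤ (36 A0 + 1) msh` (A1 twice + `it_k_aux_cell_dist`); `it_o_nval_list`, then adjoin `base` (`ltk_nval_mono` / definition of `NVal`).   OWNER open (L-256-INT-MOT-A2), EST 300 lines -/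
theorem it_o_frz_nval (T : Tan) (a : ItPar) (ha : a.Ok) (pk : ItPk) (hpk : pk.Ok) (h0 : T.Adm0 a pk) (A0 : ℝ) (hA0 : 1 ≤ A0) (j : ℕ) (hj : j < pk.M)
    (U V : List ItSym) (hU : ∀ u ∈ U ++ V, ItSym.Reg u pk.M a.B0 A0 ∧ ItSym.KFree u j) (p s q : ℝ) (hp : 0 < p) (hps : p ≤ s) (hsq : s ≤ q)
    (hq2 : q ≤ 2 * p) (hqK : q ≤ pk.K) :
    T.P.NVal (fun _ => True) (pair (T.rd p q (V.map (T.fld p))) (T.base pk.M p))
        (pair (T.rdF pk.K p q (V.map (T.fldF j p))) (T.base pk.M p)) ((36 * A0 + 3) ^ V.length) ∧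
      T.P.NVal (fun _ => True) (T.rdF pk.K p s (U.map (T.fldF j p)))
        (pair (T.rd p s (U.map (T.fld p))) (pair (T.rdF pk.K p q (V.map (T.fldF j p))) (T.base pk.M p))) ((36 * A0 + 3) ^ U.length) := by
  have e3 : (36 * A0 + 3 : ℝ) = (36 * A0 + 1) + 2 := by ring
  have hN : (0 : ℝ) ≤ 36 * A0 + 1 := by linarith
  constructor
  · refine it_o_aux_nval_adj T.P _ _ _ _ ?_
    rw [it_o_aux_rd_map, e3]
    refine it_o_nval_list T.P _ _ T.δ q (36 * A0 + 1) hN V (fun u ω => itVal (T.fld p u ω) (T.F ω) (T.f0 p ω)) ?_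
    intro u hu ω ω' hω hω' _ _ hA
    obtain ⟨r1, r2⟩ := hU u (List.mem_append_right _ hu)
    have c1 := it_o_frz_close T a ha pk hpk h0 A0 hA0 j hj u r1 r2 p q hp hq2 hqK (by linarith) ω hω
    have c2 := it_o_frz_close T a ha pk hpk h0 A0 hA0 j hj u r1 r2 p q hp hq2 hqK (by linarith) ω' hω'
    rw [it_o_aux_rdF_map] at hA
    simp only [pair, Prod.mk.injEq] at hA
    have c3 := it_k_aux_cell_dist (List.map_inj_left.1 hA.1 u hu)
    have := it_o_aux_tri c1 c2 c3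
    linarith
  · rw [it_o_aux_rdF_map T j pk.K p s U, e3]
    refine it_o_nval_list T.P _ _ T.δ s (36 * A0 + 1) hN U
      (fun u ω => itVal (T.fldF j p u ω) (itR T.δ pk.K (T.F ω)) (T.f0 p ω)) ?_
    intro u hu ω ω' hω hω' _ _ hA
    obtain ⟨r1, r2⟩ := hU u (List.mem_append_left _ hu)
    have c1 := it_o_frz_close T a ha pk hpk h0 A0 hA0 j hj u r1 r2 p s hp (by linarith) (by linarith) (by linarith) ω hω
    have c2 := it_o_frz_close T a ha pk hpk h0 A0 hA0 j hj u r1 r2 p s hp (by linarith) (by linarith) (by linarith) ω' hω'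
    rw [it_o_aux_rd_map] at hA
    simp only [pair, Prod.mk.injEq] at hA
    have c3 := it_k_aux_cell_dist (List.map_inj_left.1 hA.1 u hu)
    rw [abs_sub_comm] at c1 c2
    have := it_o_aux_tri c1 c2 c3
    linarith

theorem it_o_aux_trep_fun {δ q x y : ℝ} (h : tcell δ q x = tcell δ q y) : trep δ q x = trep δ q y := by
  unfold trep
  rw [h]

theorem it_o_aux_itR_fun {δ q : ℝ} {f g : ItPh} (h : itF δ q f = itF δ q g) : itR δ q f = itR δ q g := by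
  simp only [itF, Prod.mk.injEq] at h
  obtain ⟨⟨a1, a2, a3⟩, b1, b2, b3⟩ := h
  unfold itR
  rw [it_o_aux_trep_fun a1, it_o_aux_trep_fun a2, it_o_aux_trep_fun a3, it_o_aux_trep_fun b1, it_o_aux_trep_fun b2, it_o_aux_trep_fun b3]

/-- the frozen marks `< M` are functions of `(Ξ_{-j}, ξ_{j,p})` -/
theorem it_o_aux_XiF_fun (T : Tan) (M j : ℕ) (p : ℝ) {ω ω' : T.Ω} (h1 : T.XiE M j ω = T.XiE M j ω') (h2 : T.xin j p ω = T.xin j p ω') :
    ∀ i < M, T.XiF j p ω i = T.XiF j p ω' i := by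
  intro i hi
  unfold Tan.XiF
  by_cases hij : i = j
  · rw [if_pos hij, if_pos hij]
    simp only [Tan.xin, itXi, Prod.mk.injEq] at h2
    unfold itFz
    rw [it_o_aux_trep_fun h2.1, it_o_aux_trep_fun h2.2]
  · rw [if_neg hij, if_neg hij]
    have := congrFun h1 ⟨i, hi⟩
    simpa only [Tan.XiE, if_neg hij] using this

/-- the frozen readings are functions of `(F_K, Ξ_{-j}, ξ_{j,p})` -/
theorem it_o_aux_rdF_fun (T : Tan) (a : ItPar) (pk : ItPk) (h0 : T.Adm0 a pk) (A0 : ℝ) (j : ℕ) (U : List ItSym)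
    (hU : ∀ u ∈ U, ItSym.Reg u pk.M a.B0 A0) (p s : ℝ) (hpK : p ≤ pk.K) {ω ω' : T.Ω} (hF : T.Fn pk.K ω = T.Fn pk.K ω')
    (h1 : T.XiE pk.M j ω = T.XiE pk.M j ω') (h2 : T.xin j p ω = T.xin j p ω') :
    T.rdF pk.K p s (U.map (T.fldF j p)) ω = T.rdF pk.K p s (U.map (T.fldF j p)) ω' := by
  rw [it_o_aux_rdF_map]
  have e1 : itR T.δ pk.K (T.F ω) = itR T.δ pk.K (T.F ω') := it_o_aux_itR_fun hF
  have e2 : T.f0 p ω = T.f0 p ω' := it_o_aux_itR_fun (it_k_aux_Fn_nest T h0.δ0 h0.δ1 hpK hF)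
  refine List.map_inj_left.2 fun u hu => ?_
  have e3 : T.fldF j p u ω = T.fldF j p u ω' := by
    unfold Tan.fldF
    rw [e2]
    exact (hU u hu).dep _ _ _ (it_o_aux_XiF_fun T pk.M j p h1 h2)
  rw [e1, e2, e3]

/-- LEAF A3.  `it_o_mi_fun` with `A = F_K`, `B = Ξ`, `C = C_*`, `W = (Ξ_{-j}, ξ_{j,p})`, `X` = frozen tested tuple, `Y` = (frozen held tuple, `F_p`); reshape the conditioning with `it_k_aux_miC_congr`; `AdmI.vb`.
`F_p`, `f0`, `itR δ K F` are functions of `F_K` (`it_k_aux_Fn_nest`, `trep = tcell / 2^lev`);  `u f0 Ξ̃` depends on `Ξ̃ i`, `i < M`, only (`Reg.dep`), and those are functions of `W`.   OWNER open (L-256-INT-MOT-A3), EST 250 lines -/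
theorem it_o_frz_mi (T : Tan) (a : ItPar) (pk : ItPk) (hpk : pk.Ok) (acc : ℝ) (h0 : T.Adm0 a pk) (hI : T.AdmI a pk acc) (A0 : ℝ) (j : ℕ) (hj : j < pk.M)
    (U V : List ItSym) (hU : ∀ u ∈ U ++ V, ItSym.Reg u pk.M a.B0 A0) (p s q : ℝ) (hpK : p ≤ pk.K) :
    T.P.miC (T.rdF pk.K p s (U.map (T.fldF j p))) (T.Xi pk.M) (pair (T.rdF pk.K p q (V.map (T.fldF j p))) (T.baseR pk.M j p)) ≤ acc * T.L := by
  have h1 := it_o_mi_fun T.P (T.Fn pk.K) (T.Xi pk.M) T.Cs (pair (T.XiE pk.M j) (T.xin j p)) (T.rdF pk.K p s (U.map (T.fldF j p)))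
    (pair (T.rdF pk.K p q (V.map (T.fldF j p))) (T.Fn p)) (fun ω ω' h => by
      simp only [pair, Prod.mk.injEq]
      constructor
      · funext i
        have := congrFun h i
        simp only [Tan.Xi] at this
        simp only [Tan.XiE, this]
      · have := congrFun h ⟨j, hj⟩
        simp only [Tan.Xi] at this
        simp only [Tan.xin, this]) (fun ω ω' hA hW => by
      simp only [pair, Prod.mk.injEq] at hW
      exact it_o_aux_rdF_fun T a pk h0 A0 j U (fun u hu => hU u (List.mem_append_left _ hu)) p s hpK hA hW.1 hW.2) (fun ω ω' hA hW => by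
      simp only [pair, Prod.mk.injEq] at hW ⊢
      exact ⟨it_o_aux_rdF_fun T a pk h0 A0 j V (fun u hu => hU u (List.mem_append_right _ hu)) p q hpK hA hW.1 hW.2,
        it_k_aux_Fn_nest T h0.δ0 h0.δ1 hpK hA⟩)
  have h2 : T.P.miC (T.rdF pk.K p s (U.map (T.fldF j p))) (T.Xi pk.M) (pair (T.rdF pk.K p q (V.map (T.fldF j p))) (T.baseR pk.M j p))
      = T.P.miC (T.rdF pk.K p s (U.map (T.fldF j p))) (T.Xi pk.M)
        (pair (pair (T.rdF pk.K p q (V.map (T.fldF j p))) (T.Fn p)) (pair T.Cs (pair (T.XiE pk.M j) (T.xin j p)))) :=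
    it_k_aux_miC_congr T.P _ _ _ _ _ _ (fun _ _ => Iff.rfl) (fun _ _ => Iff.rfl) fun ω ω' => by
      simp only [pair, Tan.baseR, Prod.mk.injEq]
      tauto
  rw [h2]
  exact h1.trans hI.vb

/-- LEAF A4 = STAGE (A).   `ltk_transfer` (with A2) gives `sur(U_s | V_q, base) ≥ sur(Û_s | V̂_q, base) - (|U| + |V|) log(36 A0 + 3) - 3t`;   `(V̂_q, base)` and `(Ξ, (V̂_q, baseR))` generate the same partition (`ent_surC_congr`);
`ltk_info_tail` with `Z = Ξ` and A3;   `it_o_pr_union`.   OWNER open (L-256-INT-MOT-A4), EST 200 lines -/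
theorem it_o_freeze (T : Tan) (a : ItPar) (ha : a.Ok) (pk : ItPk) (hpk : pk.Ok) (acc : ℝ) (h0 : T.Adm0 a pk) (hI : T.AdmI a pk acc) (A0 : ℝ) (hA0 : 1 ≤ A0)
    (j : ℕ) (hj : j < pk.M) (U V : List ItSym) (hU : ∀ u ∈ U ++ V, ItSym.Reg u pk.M a.B0 A0 ∧ ItSym.KFree u j) (p s q t t' : ℝ) (hp : 0 < p)
    (hps : p ≤ s) (hsq : s ≤ q) (hq2 : q ≤ 2 * p) (hqK : q ≤ pk.K) (ht' : 0 < t') :
    T.P.pr (fun ω => T.P.surC (T.rd p s (U.map (T.fld p))) (pair (T.rd p q (V.map (T.fld p))) (T.base pk.M p)) ω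
      < T.P.surC (T.rdF pk.K p s (U.map (T.fldF j p))) (pair (T.rdF pk.K p q (V.map (T.fldF j p))) (T.baseR pk.M j p)) ω
        - (U.length + V.length) * Real.log (36 * A0 + 3) - 3 * t - t') ≤ 3 * Real.exp (-t) + (acc * T.L + 1) / t' := by
  obtain ⟨n1, n2⟩ := it_o_frz_nval T a ha pk hpk h0 A0 hA0 j hj U V hU p s q hp hps hsq hq2 hqK
  have hpos : (0 : ℝ) < 36 * A0 + 3 := by linarith
  have b1 := ltk_transfer T.P (fun _ => True) (T.rd p s (U.map (T.fld p))) (T.rdF pk.K p s (U.map (T.fldF j p)))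
    (pair (T.rd p q (V.map (T.fld p))) (T.base pk.M p)) (pair (T.rdF pk.K p q (V.map (T.fldF j p))) (T.base pk.M p))
    (pow_pos hpos _) (pow_pos hpos _) n1 n2 t
  have b2 := ltk_info_tail T.P (T.rdF pk.K p s (U.map (T.fldF j p))) (pair (T.rdF pk.K p q (V.map (T.fldF j p))) (T.baseR pk.M j p))
    (T.Xi pk.M) ht'
  have b3 := it_o_frz_mi T a pk hpk acc h0 hI A0 j hj U V (fun u hu => (hU u hu).1) p s q (by linarith)
  have b2' := b2.trans (div_le_div_of_nonneg_right (by linarith) ht'.le : _ ≤ (acc * T.L + 1) / t')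
  refine (it_o_bad_cons T.P b1 (it_o_bad_cons T.P b2' (it_o_bad_nil T.P fun ω hω hE => ?_))).trans (by linarith)
  obtain ⟨⟨hE, g1⟩, g2⟩ := hE
  have g1' := not_lt.1 fun h => g1 ⟨trivial, h⟩
  have g2' := not_lt.1 g2
  have e : T.P.surC (T.rdF pk.K p s (U.map (T.fldF j p))) (pair (T.Xi pk.M) (pair (T.rdF pk.K p q (V.map (T.fldF j p))) (T.baseR pk.M j p))) ω
      = T.P.surC (T.rdF pk.K p s (U.map (T.fldF j p))) (pair (T.rdF pk.K p q (V.map (T.fldF j p))) (T.base pk.M p)) ω := by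
    refine ent_surC_congr T.P _ _ _ _ ω (fun ω' _ => ?_) (fun _ _ _ => Iff.rfl)
    simp only [pair, Tan.baseR, Tan.base, Tan.Dd, Prod.mk.injEq]
    constructor
    · rintro ⟨x1, x2, x3, x4, -, -⟩
      exact ⟨x2, x3, x4, x1⟩
    · rintro ⟨x2, x3, x4, x1⟩
      refine ⟨x1, x2, x3, x4, ?_, ?_⟩
      · funext i
        have := congrFun x1 i
        simp only [Tan.Xi] at this
        simp only [Tan.XiE, this]
      · have := congrFun x1 ⟨j, hj⟩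
        simp only [Tan.Xi] at this
        simp only [Tan.xin, this]
  rw [Real.log_pow, Real.log_pow] at g1'
  rw [e] at g2'
  nlinarith

theorem it_o_aux_mv_bd {mv quad : Bool} {f : ItPh} {μ : ItMk} {B : ℝ} (hB : 1 ≤ B) (hf : f.nrm ≤ B + 1) (h1 : |μ.th| ≤ B + 1) (h2 : |μ.r| ≤ B + 1) :
    (itvMv mv quad f μ 1).nrm ≤ 2 * B + 3 := by
  obtain ⟨n1, n2, n3, n4, n5, n6⟩ := it_k_aux_nrm_le f
  have x1 := abs_le.1 (n1.trans hf)
  have x3 := abs_le.1 (n3.trans hf)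
  rw [abs_le] at h1 h2
  rw [it_s_nrm_le]
  cases mv <;> cases quad <;> simp only [itvMv, itvTh, itvR, if_true, if_false, Bool.false_eq_true] <;>
    refine ⟨?_, ?_, ?_, ?_, ?_, ?_⟩ <;> rw [abs_le] <;> constructor <;> linarith [x1.1, x1.2, x3.1, x3.2, h1.1, h1.2, h2.1, h2.2]

theorem it_o_aux_mv_close {mv quad : Bool} {f : ItPh} {μ μ' : ItMk} {m : ℝ} (hm : 0 ≤ m) (h1 : |μ.th - μ'.th| ≤ m) (h2 : |μ.r - μ'.r| ≤ m) :
    ((itvMv mv quad f μ 1).sub (itvMv mv quad f μ' 1)).nrm ≤ m := by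
  rw [abs_le] at h1 h2
  rw [it_s_nrm_le]
  cases mv <;> cases quad <;> simp only [itvMv, itvTh, itvR, ItPh.sub, if_true, if_false, Bool.false_eq_true] <;>
    refine ⟨?_, ?_, ?_, ?_, ?_, ?_⟩ <;> rw [abs_le] <;> constructor <;> linarith [h1.1, h1.2, h2.1, h2.2]

/-- LEAF A5.  The coefficient at the frozen marks.  `g f Ξ = ⟨u f Ξ, itvMv mv quad f (Ξ j) 1⟩` (put `A = 1`), so `g` does not read `𝔨_j` and is Lipschitz on the box:
`|g f0 Ξ - g f0 Ξ̃| ≤ C msh p`, `C = C(A0, B0)`.   OWNER open (L-256-INT-MOT-A5), EST 200 lines -/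
theorem it_o_frz_g (a : ItPar) (ha : a.Ok) (A0 : ℝ) (hA0 : 1 ≤ A0) : ∃ C : ℝ, 1 ≤ C ∧ ∀ (T : Tan) (pk : ItPk), pk.Ok → T.Adm0 a pk → ∀ j < pk.M,
    ∀ (mv : Bool) (u : ItSym) (e : ℕ) (g : ItPh → (ℕ → ItMk) → ℝ), u.Reg pk.M a.B0 A0 → u.KFree j →
    (∀ f Ξ A, itDot (u f Ξ) (itvMv mv T.quad f (Ξ j) A) = A ^ e * g f Ξ) → ∀ p : ℝ, 0 < p → ∀ ω, T.P.p ω ≠ 0 →
    |g (T.f0 p ω) (fun i => T.mrk i ω) - g (T.f0 p ω) (T.XiF j p ω)| ≤ C * msh T.δ p := by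
  have hB : 1 ≤ a.B0 := ha.2.2.2.2.2.2.2.2
  have hA : 0 ≤ A0 := by linarith
  refine ⟨6 * A0 * (2 * a.B0 + 3) + 6 * A0, by nlinarith, fun T pk hpk h0 j hj mv u e g hu hk hg p hp ω hω => ?_⟩
  have hm := ig_msh_pos T.δ p
  have g1 := hg (T.f0 p ω) (fun i => T.mrk i ω) 1
  have g2 := hg (T.f0 p ω) (T.XiF j p ω) 1
  rw [one_pow, one_mul] at g1 g2
  have ej : T.XiF j p ω j = itFz T.δ p (T.mrk j ω) := by simp [Tan.XiF]
  rw [ej] at g2
  obtain ⟨b1, b2, b3⟩ := h0.bdM ω hω j hj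
  have hf0 : (T.f0 p ω).nrm ≤ a.B0 + 1 := it_o_aux_itR_box _ _ (h0.bdF ω hω)
  have c1 := it_o_aux_fld_close T a ha pk h0 A0 j hj u hu hk p ω hω
  have c2 := it_o_aux_fldF_bd T a ha pk h0 A0 j hj u hu p ω hω
  have v1 : (itvMv mv T.quad (T.f0 p ω) (T.mrk j ω) 1).nrm ≤ 2 * a.B0 + 3 := it_o_aux_mv_bd hB hf0 (by linarith) (by linarith)
  have v2 : ((itvMv mv T.quad (T.f0 p ω) (T.mrk j ω) 1).sub (itvMv mv T.quad (T.f0 p ω) (itFz T.δ p (T.mrk j ω)) 1)).nrm ≤ msh T.δ p :=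
    it_o_aux_mv_close hm.le (it_k_aux_rep_dist _ _ _) (it_k_aux_rep_dist _ _ _)
  have d1 := it_o_aux_dot_bd (mul_nonneg hA hm.le) c1 v1
  have d2 := it_o_aux_dot_bd hA c2 v2
  have e0 : g (T.f0 p ω) (fun i => T.mrk i ω) - g (T.f0 p ω) (T.XiF j p ω)
      = itDot ((T.fld p u ω).sub (T.fldF j p u ω)) (itvMv mv T.quad (T.f0 p ω) (T.mrk j ω) 1)
        + itDot (T.fldF j p u ω) ((itvMv mv T.quad (T.f0 p ω) (T.mrk j ω) 1).sub (itvMv mv T.quad (T.f0 p ω) (itFz T.δ p (T.mrk j ω)) 1)) := by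
    rw [← g1, ← g2]
    simp only [itDot, ItPh.sub, Tan.fld, Tan.fldF]
    ring
  rw [e0]
  refine (abs_add_le _ _).trans ?_
  nlinarith

end Claimed.Agent.R256
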