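import Claimed.Agent.R256.Int.MotKit

/-!
# Row 256, Sec. 5, block MOT: GEOMETRY (leg formulas, Taylor expansion of the target in the moving mark) and the CORE      (architect helper177; prefix `it_o_`)

Everything here is DETERMINISTIC on the support of `S = T.Sj pk.RQ pk.M j nd` except the last step (`ltk_transfer`).
 G0 `it_o_leg`      equal fibre cells of depth `RQ`  =>  `F = itLegO R A μ` up to `(1 + B0)^2 msh RQ`            (`lay_leg_quad`, `lay_leg_lin`)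
 G1 `it_o_exp_alg`  pure real algebra: the expansion, error `C |c| (e2 + e1^2)`
 G2 `it_o_expand`   the expansion at a point of the support:  value = (function of the label) + `T.dif` + error;   `it_o_mot_bd`
 B2 `it_o_read_F`   `cndH` reads `F_p`          B3 `it_o_read_V`  `(F_p, cndH)` reads the held readings          B4 `it_o_read_mv`  `(tested reading, F_p, cndH)` reads the innovation `ι` at depth `s - χ`
 B5 `it_o_core`     the score comparison, ABSTRACT in the innovation `ι : Ω → ℝ` and in the held label `H` of the marks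
 I1 `it_o_dif_mov`  instance `ι = θ_j` or `r_j`, `H` = the other scalar at depth `y`          I2 `it_o_dif_gen`  instance `ι = T.inn j p c1 c2`
RULE: provers edit only the body of their theorem + auxiliary lemmas directly above it (prefix `it_o_aux_`); statements are frozen (defects -> helper177).
-/

set_option autoImplicit false

namespace Claimed.Agent.R256

open Claimed.Agent.R255
open Claimed.Agent.R255.FLaw (pair)
open scoped BigOperators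
open Classical

/-- admissible covector field on `S` : a function of `(F_p, Ξ_{-j}, ξ_{j,p}, aux)`, bounded by `A1` on the support -/
structure Tan.Fld (T : Tan) (pk : ItPk) (j nd : ℕ) (p A1 : ℝ) (w : T.St nd → ItPh) : Prop where
  dep : ∀ x x', T.parS pk.M j pk.K p nd x = T.parS pk.M j pk.K p nd x' → w x = w x'
  bd : ∀ x, (T.Sj pk.RQ pk.M j nd).p x ≠ 0 → (w x).nrm ≤ A1

/-- LEAF G0.  On the support the five (four) cells of `T.Qn RQ j` agree at `x.1` and `x.2 s` and the marks agree (`it_o_supp`); `it_k_aux_cell_dist` gives the hypotheses of `lay_leg_quad` / `lay_leg_lin` with `e = msh δ RQ`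
(primes = target `x.1`).  `D` : `|F.D - R.D + θ (F.N - R.N)| ≤ e` and the `N`-line give `e + B0 e (1 + B0)`.  Linear case: `P = 0` by `Adm0.lin0`.   OWNER open (L-256-INT-MOT-G0), EST 150 lines -/
theorem it_o_leg (T : Tan) (a : ItPar) (ha : a.Ok) (pk : ItPk) (h0 : T.Adm0 a pk) (j : ℕ) (hj : j < pk.M) (nd : ℕ) (s : Fin nd)
    (x : T.St nd) (hx : (T.Sj pk.RQ pk.M j nd).p x ≠ 0) :
    ((T.F x.1).sub (itLegO T.quad (T.F (x.2 s)) ((T.F x.1).X - (T.F (x.2 s)).X) (T.mrk j x.1))).nrm ≤ (1 + a.B0) ^ 2 * msh T.δ pk.RQ := by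
  obtain ⟨hc, hd0, hd1, hm0, hm1, hν0, hν1, he0, hB0⟩ := id ha
  have aadd : ∀ {x y a b : ℝ}, |x| ≤ a → |y| ≤ b → |x + y| ≤ a + b := fun h1 h2 => (abs_add_le _ _).trans (add_le_add h1 h2)
  have amul : ∀ {x y a b : ℝ}, |x| ≤ a → |y| ≤ b → |x * y| ≤ a * b := fun {x y a b} h1 h2 => by
    rw [abs_mul]
    exact mul_le_mul h1 h2 (abs_nonneg _) ((abs_nonneg _).trans h1)
  have aneg : ∀ {x a : ℝ}, |x| ≤ a → |-x| ≤ a := fun h => by rwa [abs_neg]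
  obtain ⟨hp1, hs⟩ := it_o_supp T _ _ _ _ x hx
  obtain ⟨hp2, -, hmk, hQ⟩ := hs s
  have hmk := hmk j hj
  obtain ⟨e, he⟩ : ∃ e, e = msh T.δ pk.RQ := ⟨_, rfl⟩
  have he0' : 0 < e := he ▸ ig_msh_pos _ _
  rw [← he]
  have bX : |(T.F x.1).X| ≤ a.B0 := (it_k_aux_nrm_le (T.F x.1)).1.trans (h0.bdF _ hp1)
  have bth : |(T.mrk j x.1).th| ≤ a.B0 := (h0.bdM _ hp1 j hj).1
  simp only [Tan.Qn, itQ, hmk, Prod.mk.injEq] at hQ
  obtain ⟨⟨q1, q2, q3⟩, q4, q5⟩ := hQ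
  have d1 := it_k_aux_cell_dist q1
  have d2 := it_k_aux_cell_dist q2
  have d3 := it_k_aux_cell_dist q3
  rw [← he] at d1 d2 d3
  have hP0 : T.quad = false → (T.F x.1).P = 0 := fun h => h0.lin0 h _
  clear hx hp1 hp2 hs hmk
  generalize T.F x.1 = F at *
  generalize T.F (x.2 s) = R at *
  generalize T.mrk j x.1 = μ at *
  have hx1 : 0 ≤ e * a.B0 := by positivity
  have hx2 : 0 ≤ e * a.B0 ^ 2 := by positivity
  have hBe : e ≤ (1 + a.B0) ^ 2 * e := by nlinarith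
  have hBe2 : e * (1 + a.B0) ≤ (1 + a.B0) ^ 2 * e := by nlinarith
  have hBe3 : e + a.B0 * (e * (1 + a.B0)) ≤ (1 + a.B0) ^ 2 * e := by nlinarith
  have hBe4 : e + a.B0 * e ≤ (1 + a.B0) ^ 2 * e := by nlinarith
  have h00 : (0 : ℝ) ≤ (1 + a.B0) ^ 2 * e := by positivity
  by_cases hq : T.quad = true
  · rw [hq] at q4 q5 ⊢
    simp only [if_true] at q4 q5
    have d4 := it_k_aux_cell_dist q4
    have d5 := it_k_aux_cell_dist q5
    rw [← he] at d4 d5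
    obtain ⟨l1, l2, l3, l4, l5⟩ := lay_leg_quad R.X R.B R.P R.Y R.N R.D F.X F.B F.P F.Y F.N F.D μ.th μ.r e d1 d2 d3 d4 d5
    have l5' : |(F.N - R.N) - (R.P * (F.X - R.X) + μ.r * (F.X - R.X) ^ 2)| ≤ e * (1 + a.B0) :=
      l5.trans (mul_le_mul_of_nonneg_left (by linarith) he0'.le)
    simp only [ItPh.nrm, ItPh.sub, itLegO, if_true, max_le_iff]
    refine ⟨⟨⟨?_, ?_⟩, ?_, ?_⟩, ?_, ?_⟩
    · have : F.X - (R.X + (F.X - R.X)) = 0 := by ring
      rw [this, abs_zero]; exact h00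
    · have : F.B - (R.B - μ.th * (F.X - R.X)) = (F.B - R.B) + μ.th * (F.X - R.X) := by ring
      rw [this]; exact l1.trans hBe
    · have : F.P - (R.P + 2 * μ.r * (F.X - R.X)) = (F.P - R.P) - 2 * μ.r * (F.X - R.X) := by ring
      rw [this]; exact l4.trans hBe
    · have : F.Y - (R.Y - μ.th * (2 * R.X * (F.X - R.X) + (F.X - R.X) ^ 2))
          = (F.Y - R.Y) + μ.th * (2 * R.X * (F.X - R.X) + (F.X - R.X) ^ 2) := by ring
      rw [this]; exact l2.trans hBe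
    · have : F.N - (R.N + R.P * (F.X - R.X) + μ.r * (F.X - R.X) ^ 2)
          = (F.N - R.N) - (R.P * (F.X - R.X) + μ.r * (F.X - R.X) ^ 2) := by ring
      rw [this]; exact l5'.trans hBe2
    · have : F.D - (R.D - μ.th * (R.P * (F.X - R.X) + μ.r * (F.X - R.X) ^ 2))
          = ((F.D - R.D) + μ.th * (F.N - R.N)) + -(μ.th * ((F.N - R.N) - (R.P * (F.X - R.X) + μ.r * (F.X - R.X) ^ 2))) := by ring
      rw [this]
      exact (aadd l3 (aneg (amul bth l5'))).trans hBe3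
  · have hq' : T.quad = false := by simpa using hq
    have hP : F.P = 0 := hP0 hq'
    rw [hq'] at q5 ⊢
    simp only [Bool.false_eq_true, if_false] at q5
    have d5 := it_k_aux_cell_dist q5
    rw [← he] at d5
    obtain ⟨l1, l2, l3, l4⟩ := lay_leg_lin R.X R.B R.Y R.N R.D F.X F.B F.Y F.N F.D μ.th μ.r e d1 d2 d3 d5
    simp only [ItPh.nrm, ItPh.sub, itLegO, Bool.false_eq_true, if_false, max_le_iff]
    refine ⟨⟨⟨?_, ?_⟩, ?_, ?_⟩, ?_, ?_⟩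
    · have : F.X - (R.X + (F.X - R.X)) = 0 := by ring
      rw [this, abs_zero]; exact h00
    · have : F.B - (R.B - μ.th * (F.X - R.X)) = (F.B - R.B) + μ.th * (F.X - R.X) := by ring
      rw [this]; exact l1.trans hBe
    · rw [hP, sub_zero, abs_zero]; exact h00
    · have : F.Y - (R.Y - μ.th * (2 * R.X * (F.X - R.X) + (F.X - R.X) ^ 2))
          = (F.Y - R.Y) + μ.th * (2 * R.X * (F.X - R.X) + (F.X - R.X) ^ 2) := by ring
      rw [this]; exact l2.trans hBe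
    · have : F.N - (R.N + μ.r * (F.X - R.X)) = (F.N - R.N) - μ.r * (F.X - R.X) := by ring
      rw [this]; exact l4.trans hBe
    · have : F.D - (R.D - μ.th * μ.r * (F.X - R.X))
          = ((F.D - R.D) + μ.th * (F.N - R.N)) + -(μ.th * ((F.N - R.N) - μ.r * (F.X - R.X))) := by ring
      rw [this]
      exact (aadd l3 (aneg (amul bth l4))).trans hBe4

theorem it_o_aux_add {x y a b : ℝ} (h1 : |x| ≤ a) (h2 : |y| ≤ b) : |x + y| ≤ a + b := (abs_add_le x y).trans (add_le_add h1 h2)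

theorem it_o_aux_mul {x y a b : ℝ} (h1 : |x| ≤ a) (h2 : |y| ≤ b) : |x * y| ≤ a * b := by
  rw [abs_mul]
  exact mul_le_mul h1 h2 (abs_nonneg _) ((abs_nonneg _).trans h1)

theorem it_o_aux_neg {x a : ℝ} (h : |x| ≤ a) : |-x| ≤ a := by rwa [abs_neg]

theorem it_o_aux_six (c : ItPh) {E1 E2 E3 E4 E5 E6 b : ℝ} (h1 : |E1| ≤ b) (h2 : |E2| ≤ b) (h3 : |E3| ≤ b) (h4 : |E4| ≤ b) (h5 : |E5| ≤ b) (h6 : |E6| ≤ b) :
    |c.X * E1 + c.B * E2 + c.P * E3 + c.Y * E4 + c.N * E5 + c.D * E6| ≤ 6 * c.nrm * b := by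
  obtain ⟨n1, n2, n3, n4, n5, n6⟩ := it_k_aux_nrm_le c
  refine (it_o_aux_add (it_o_aux_add (it_o_aux_add (it_o_aux_add (it_o_aux_add (it_o_aux_mul n1 h1) (it_o_aux_mul n2 h2)) (it_o_aux_mul n3 h3))
    (it_o_aux_mul n4 h4)) (it_o_aux_mul n5 h5)) (it_o_aux_mul n6 h6)).trans (le_of_eq ?_)
  ring

/-- the coordinates `X, B, Y` (the same in both cases) -/
theorem it_o_aux_XBY {B0 FX FB FY hX hB hY fX RX RB RY th th1 Ab e1 e2 e3 : ℝ} (hB0 : 1 ≤ B0) (bFX : |FX| ≤ B0) (bRX : |RX| ≤ B0) (bth : |th| ≤ B0)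
    (he1' : e1 ≤ 1) (he2 : 0 ≤ e2) (he2' : e2 ≤ 1) (he3 : 0 ≤ e3)
    (a1X : |FX - fX| ≤ e1) (a2X : |FX - hX| ≤ e2) (a2B : |FB - hB| ≤ e2) (a2Y : |FY - hY| ≤ e2) (dth : |th - th1| ≤ e1) (dA : |(FX - RX) - Ab| ≤ e2)
    (a3B : |FB - (RB - th * (FX - RX))| ≤ e3) (a3Y : |FY - (RY - th * (2 * RX * (FX - RX) + (FX - RX) ^ 2))| ≤ e3) :
    |hX - (RX + Ab)| ≤ 40 * B0 ^ 3 * (e2 + e3 + e1 ^ 2) ∧ |hB - (RB - th1 * Ab) - (th - th1) * (-Ab)| ≤ 40 * B0 ^ 3 * (e2 + e3 + e1 ^ 2) ∧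
      |hY - (RY - th1 * (2 * RX * Ab + Ab ^ 2)) - (th - th1) * (Ab ^ 2 - 2 * fX * Ab)| ≤ 40 * B0 ^ 3 * (e2 + e3 + e1 ^ 2) := by
  have hB00 : 0 ≤ B0 := by linarith
  have p1 : 1 ≤ B0 ^ 3 := one_le_pow₀ hB0
  have p2 : B0 ≤ B0 ^ 3 := le_self_pow₀ hB0 (by norm_num)
  have p3 : B0 ^ 2 ≤ B0 ^ 3 := pow_le_pow_right₀ hB0 (by norm_num)
  have hs1 : 0 ≤ e1 ^ 2 := sq_nonneg _
  have bA : |FX - RX| ≤ 2 * B0 := by
    have := it_o_aux_add bFX (it_o_aux_neg bRX)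
    rw [← sub_eq_add_neg] at this
    linarith
  have bAb : |Ab| ≤ 3 * B0 := by
    have e : Ab = (FX - RX) + -((FX - RX) - Ab) := by ring
    rw [e]
    exact (it_o_aux_add bA (it_o_aux_neg dA)).trans (by linarith)
  have s12 : |(th - th1) * ((FX - RX) - Ab)| ≤ e2 := (it_o_aux_mul dth dA).trans (by nlinarith)
  have s11 : |(th - th1) * (FX - fX)| ≤ e1 ^ 2 := (it_o_aux_mul dth a1X).trans (by nlinarith)
  have two : |(2 : ℝ)| ≤ 2 := by norm_num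
  refine ⟨?_, ?_, ?_⟩
  · have e : hX - (RX + Ab) = -(FX - hX) + ((FX - RX) - Ab) := by ring
    rw [e]
    refine (it_o_aux_add (it_o_aux_neg a2X) dA).trans ?_
    nlinarith
  · have e : hB - (RB - th1 * Ab) - (th - th1) * (-Ab) = -(FB - hB) + (FB - (RB - th * (FX - RX))) + -(th * ((FX - RX) - Ab)) := by ring
    rw [e]
    refine (it_o_aux_add (it_o_aux_add (it_o_aux_neg a2B) a3B) (it_o_aux_neg (it_o_aux_mul bth dA))).trans ?_
    nlinarith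
  · have e : hY - (RY - th1 * (2 * RX * Ab + Ab ^ 2)) - (th - th1) * (Ab ^ 2 - 2 * fX * Ab)
        = -(FY - hY) + (FY - (RY - th * (2 * RX * (FX - RX) + (FX - RX) ^ 2))) + -(((FX - RX) - Ab) * (th * (2 * RX + ((FX - RX) + Ab))))
          + ((th - th1) * ((FX - RX) - Ab)) * (2 * Ab) + -(((th - th1) * (FX - fX)) * (2 * Ab)) := by ring
    rw [e]
    refine (it_o_aux_add (it_o_aux_add (it_o_aux_add (it_o_aux_add (it_o_aux_neg a2Y) a3Y)
      (it_o_aux_neg (it_o_aux_mul dA (it_o_aux_mul bth (it_o_aux_add (it_o_aux_mul two bRX) (it_o_aux_add bA bAb))))))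
      (it_o_aux_mul s12 (it_o_aux_mul two bAb))) (it_o_aux_neg (it_o_aux_mul s11 (it_o_aux_mul two bAb)))).trans ?_
    nlinarith [mul_le_mul_of_nonneg_left p1 he2, mul_le_mul_of_nonneg_left p2 he2, mul_le_mul_of_nonneg_left p3 he2, mul_le_mul_of_nonneg_left p1 he3,
      mul_le_mul_of_nonneg_left p2 hs1, mul_nonneg he2 (pow_nonneg hB00 3), mul_nonneg he3 (pow_nonneg hB00 3), mul_nonneg hs1 (pow_nonneg hB00 3)]

/-- the coordinates `P, N, D`, quadratic case -/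
theorem it_o_aux_PNDq {B0 FX FP FN FD hP hN hD fP RX RP RN RD th r th1 r1 Ab e1 e2 e3 : ℝ} (hB0 : 1 ≤ B0) (bFX : |FX| ≤ B0) (bRX : |RX| ≤ B0) (bRP : |RP| ≤ B0)
    (bth : |th| ≤ B0) (br : |r| ≤ B0) (he1' : e1 ≤ 1) (he2 : 0 ≤ e2) (he2' : e2 ≤ 1) (he3 : 0 ≤ e3)
    (a1P : |FP - fP| ≤ e1) (a2P : |FP - hP| ≤ e2) (a2N : |FN - hN| ≤ e2) (a2D : |FD - hD| ≤ e2) (dth : |th - th1| ≤ e1) (dr : |r - r1| ≤ e1)
    (dA : |(FX - RX) - Ab| ≤ e2) (a3P : |FP - (RP + 2 * r * (FX - RX))| ≤ e3) (a3N : |FN - (RN + RP * (FX - RX) + r * (FX - RX) ^ 2)| ≤ e3)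
    (a3D : |FD - (RD - th * (RP * (FX - RX) + r * (FX - RX) ^ 2))| ≤ e3) :
    |hP - (RP + 2 * r1 * Ab) - (r - r1) * (2 * Ab)| ≤ 40 * B0 ^ 3 * (e2 + e3 + e1 ^ 2) ∧
      |hN - (RN + RP * Ab + r1 * Ab ^ 2) - (r - r1) * Ab ^ 2| ≤ 40 * B0 ^ 3 * (e2 + e3 + e1 ^ 2) ∧
      |hD - (RD - th1 * (RP * Ab + r1 * Ab ^ 2)) - (th - th1) * (Ab ^ 2 * r1 - fP * Ab) - (r - r1) * (-th1 * Ab ^ 2)| ≤ 40 * B0 ^ 3 * (e2 + e3 + e1 ^ 2) := by
  have hB00 : 0 ≤ B0 := by linarith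
  have p1 : 1 ≤ B0 ^ 3 := one_le_pow₀ hB0
  have p2 : B0 ≤ B0 ^ 3 := le_self_pow₀ hB0 (by norm_num)
  have p3 : B0 ^ 2 ≤ B0 ^ 3 := pow_le_pow_right₀ hB0 (by norm_num)
  have hs1 : 0 ≤ e1 ^ 2 := sq_nonneg _
  have he1 : 0 ≤ e1 := (abs_nonneg _).trans dth
  have bA : |FX - RX| ≤ 2 * B0 := by
    have := it_o_aux_add bFX (it_o_aux_neg bRX)
    rw [← sub_eq_add_neg] at this
    linarith
  have bAb : |Ab| ≤ 3 * B0 := by
    have e : Ab = (FX - RX) + -((FX - RX) - Ab) := by ring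
    rw [e]
    exact (it_o_aux_add bA (it_o_aux_neg dA)).trans (by linarith)
  have s12 : |(th - th1) * ((FX - RX) - Ab)| ≤ e2 := (it_o_aux_mul dth dA).trans (by nlinarith)
  have s11 : |(th - th1) * (FP - fP)| ≤ e1 ^ 2 := (it_o_aux_mul dth a1P).trans (by nlinarith)
  have s13 : |(th - th1) * (FP - (RP + 2 * r * (FX - RX)))| ≤ e3 := (it_o_aux_mul dth a3P).trans (by nlinarith)
  have s1r : |(th - th1) * (r - r1)| ≤ e1 ^ 2 := (it_o_aux_mul dth dr).trans (by nlinarith)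
  have two : |(2 : ℝ)| ≤ 2 := by norm_num
  have facts := And.intro (mul_le_mul_of_nonneg_left p1 he2) (And.intro (mul_le_mul_of_nonneg_left p2 he2) (mul_le_mul_of_nonneg_left p3 he2))
  have facts3 := And.intro (mul_le_mul_of_nonneg_left p1 he3) (And.intro (mul_le_mul_of_nonneg_left p2 he3) (mul_le_mul_of_nonneg_left p3 he3))
  have facts1 := And.intro (mul_le_mul_of_nonneg_left p1 hs1) (And.intro (mul_le_mul_of_nonneg_left p2 hs1) (mul_le_mul_of_nonneg_left p3 hs1))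
  have n2 := mul_nonneg he2 (pow_nonneg hB00 3)
  have n3 := mul_nonneg he3 (pow_nonneg hB00 3)
  have n1 := mul_nonneg hs1 (pow_nonneg hB00 3)
  refine ⟨?_, ?_, ?_⟩
  · have e : hP - (RP + 2 * r1 * Ab) - (r - r1) * (2 * Ab) = -(FP - hP) + (FP - (RP + 2 * r * (FX - RX))) + ((FX - RX) - Ab) * (2 * r) := by ring
    rw [e]
    refine (it_o_aux_add (it_o_aux_add (it_o_aux_neg a2P) a3P) (it_o_aux_mul dA (it_o_aux_mul two br))).trans ?_
    linarith [facts.1, facts.2.1, facts.2.2, facts3.1, facts3.2.1, facts3.2.2, facts1.1, facts1.2.1, facts1.2.2, n1, n2, n3]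
  · have e : hN - (RN + RP * Ab + r1 * Ab ^ 2) - (r - r1) * Ab ^ 2
        = -(FN - hN) + (FN - (RN + RP * (FX - RX) + r * (FX - RX) ^ 2)) + ((FX - RX) - Ab) * (RP + r * ((FX - RX) + Ab)) := by ring
    rw [e]
    refine (it_o_aux_add (it_o_aux_add (it_o_aux_neg a2N) a3N) (it_o_aux_mul dA (it_o_aux_add bRP (it_o_aux_mul br (it_o_aux_add bA bAb))))).trans ?_
    linarith [facts.1, facts.2.1, facts.2.2, facts3.1, facts3.2.1, facts3.2.2, facts1.1, facts1.2.1, facts1.2.2, n1, n2, n3]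
  · have e : hD - (RD - th1 * (RP * Ab + r1 * Ab ^ 2)) - (th - th1) * (Ab ^ 2 * r1 - fP * Ab) - (r - r1) * (-th1 * Ab ^ 2)
        = -(FD - hD) + (FD - (RD - th * (RP * (FX - RX) + r * (FX - RX) ^ 2))) + -(((FX - RX) - Ab) * (th * (RP + r * ((FX - RX) + Ab))))
          + -(((th - th1) * (FP - fP)) * Ab) + ((th - th1) * (FP - (RP + 2 * r * (FX - RX)))) * Ab + ((th - th1) * ((FX - RX) - Ab)) * (2 * (r * Ab))
          + ((th - th1) * (r - r1)) * (Ab * Ab) := by ring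
    rw [e]
    refine (it_o_aux_add (it_o_aux_add (it_o_aux_add (it_o_aux_add (it_o_aux_add (it_o_aux_add (it_o_aux_neg a2D) a3D)
      (it_o_aux_neg (it_o_aux_mul dA (it_o_aux_mul bth (it_o_aux_add bRP (it_o_aux_mul br (it_o_aux_add bA bAb)))))))
      (it_o_aux_neg (it_o_aux_mul s11 bAb))) (it_o_aux_mul s13 bAb)) (it_o_aux_mul s12 (it_o_aux_mul two (it_o_aux_mul br bAb))))
      (it_o_aux_mul s1r (it_o_aux_mul bAb bAb))).trans ?_
    linarith [facts.1, facts.2.1, facts.2.2, facts3.1, facts3.2.1, facts3.2.2, facts1.1, facts1.2.1, facts1.2.2, n1, n2, n3]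

/-- the coordinates `P, N, D`, linear case -/
theorem it_o_aux_PNDl {B0 FX FP FN FD hP hN hD RX RN RD th r th1 r1 Ab e1 e2 e3 : ℝ} (hB0 : 1 ≤ B0) (bFX : |FX| ≤ B0) (bRX : |RX| ≤ B0)
    (bth : |th| ≤ B0) (br : |r| ≤ B0) (he2 : 0 ≤ e2) (he2' : e2 ≤ 1) (he3 : 0 ≤ e3)
    (a2P : |FP - hP| ≤ e2) (a2N : |FN - hN| ≤ e2) (a2D : |FD - hD| ≤ e2) (dth : |th - th1| ≤ e1) (dr : |r - r1| ≤ e1)
    (dA : |(FX - RX) - Ab| ≤ e2) (a3P : |FP - 0| ≤ e3) (a3N : |FN - (RN + r * (FX - RX))| ≤ e3)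
    (a3D : |FD - (RD - th * r * (FX - RX))| ≤ e3) :
    |hP - 0| ≤ 40 * B0 ^ 3 * (e2 + e3 + e1 ^ 2) ∧
      |hN - (RN + r1 * Ab) - (r - r1) * Ab| ≤ 40 * B0 ^ 3 * (e2 + e3 + e1 ^ 2) ∧
      |hD - (RD - th1 * r1 * Ab) - (th - th1) * (-r1 * Ab) - (r - r1) * (-th1 * Ab)| ≤ 40 * B0 ^ 3 * (e2 + e3 + e1 ^ 2) := by
  have hB00 : 0 ≤ B0 := by linarith
  have p1 : 1 ≤ B0 ^ 3 := one_le_pow₀ hB0
  have p2 : B0 ≤ B0 ^ 3 := le_self_pow₀ hB0 (by norm_num)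
  have p3 : B0 ^ 2 ≤ B0 ^ 3 := pow_le_pow_right₀ hB0 (by norm_num)
  have hs1 : 0 ≤ e1 ^ 2 := sq_nonneg _
  have he1 : 0 ≤ e1 := (abs_nonneg _).trans dth
  have bA : |FX - RX| ≤ 2 * B0 := by
    have := it_o_aux_add bFX (it_o_aux_neg bRX)
    rw [← sub_eq_add_neg] at this
    linarith
  have bAb : |Ab| ≤ 3 * B0 := by
    have e : Ab = (FX - RX) + -((FX - RX) - Ab) := by ring
    rw [e]
    exact (it_o_aux_add bA (it_o_aux_neg dA)).trans (by linarith)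
  have s1r : |(th - th1) * (r - r1)| ≤ e1 ^ 2 := (it_o_aux_mul dth dr).trans (by nlinarith)
  have facts := And.intro (mul_le_mul_of_nonneg_left p1 he2) (And.intro (mul_le_mul_of_nonneg_left p2 he2) (mul_le_mul_of_nonneg_left p3 he2))
  have facts3 := And.intro (mul_le_mul_of_nonneg_left p1 he3) (And.intro (mul_le_mul_of_nonneg_left p2 he3) (mul_le_mul_of_nonneg_left p3 he3))
  have facts1 := And.intro (mul_le_mul_of_nonneg_left p1 hs1) (And.intro (mul_le_mul_of_nonneg_left p2 hs1) (mul_le_mul_of_nonneg_left p3 hs1))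
  have n2 := mul_nonneg he2 (pow_nonneg hB00 3)
  have n3 := mul_nonneg he3 (pow_nonneg hB00 3)
  have n1 := mul_nonneg hs1 (pow_nonneg hB00 3)
  refine ⟨?_, ?_, ?_⟩
  · have e : hP - 0 = -(FP - hP) + (FP - 0) := by ring
    rw [e]
    refine (it_o_aux_add (it_o_aux_neg a2P) a3P).trans ?_
    linarith [facts.1, facts.2.1, facts.2.2, facts3.1, facts3.2.1, facts3.2.2, facts1.1, facts1.2.1, facts1.2.2, n1, n2, n3]
  · have e : hN - (RN + r1 * Ab) - (r - r1) * Ab = -(FN - hN) + (FN - (RN + r * (FX - RX))) + ((FX - RX) - Ab) * r := by ring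
    rw [e]
    refine (it_o_aux_add (it_o_aux_add (it_o_aux_neg a2N) a3N) (it_o_aux_mul dA br)).trans ?_
    linarith [facts.1, facts.2.1, facts.2.2, facts3.1, facts3.2.1, facts3.2.2, facts1.1, facts1.2.1, facts1.2.2, n1, n2, n3]
  · have e : hD - (RD - th1 * r1 * Ab) - (th - th1) * (-r1 * Ab) - (r - r1) * (-th1 * Ab)
        = -(FD - hD) + (FD - (RD - th * r * (FX - RX))) + -(((FX - RX) - Ab) * (th * r)) + -(((th - th1) * (r - r1)) * Ab) := by ring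
    rw [e]
    refine (it_o_aux_add (it_o_aux_add (it_o_aux_add (it_o_aux_neg a2D) a3D) (it_o_aux_neg (it_o_aux_mul dA (it_o_aux_mul bth br))))
      (it_o_aux_neg (it_o_aux_mul s1r bAb))).trans ?_
    linarith [facts.1, facts.2.1, facts.2.2, facts3.1, facts3.2.1, facts3.2.2, facts1.1, facts1.2.1, facts1.2.2, n1, n2, n3]

/-- LEAF G1 (pure real algebra, both cases).   `Fh` = representative of `F` (error `e2`), `f0` = parent (error `e1`), `μ1` = frozen mark (error `e1`), `Ab` = approximate leg (error `e2`), `e3` = error of the leg formulas (enters linearly, no upper bound).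
Coordinatewise:  `Fh - F`, `itLegO R A μ - itLegO R Ab μ` are `O(e2)`, `F - itLegO R A μ = O(e3)`;   EXACT identity
`itLegO R Ab μ - itLegO R Ab μ1 = dθ T1 + dr (itvR quad μ1 Ab) - dθ dr Ab^k e_D` (`k = 2` quadratic, `1` linear),  `T1 = (0, -Ab, 0, -(2 R.X Ab + Ab^2), 0, -(R.P Ab + μ1.r Ab^2) | -μ1.r Ab)`;
`T1 - itvTh quad f0 μ1 Ab = (0,0,0, 2 Ab (f0.X - R.X - Ab), 0, Ab (f0.P - R.P - 2 μ1.r Ab) | 0) = O(e1 + e2)`  (use the `X` and `P` lines of `hleg`).   OWNER open (L-256-INT-MOT-G1), EST 300 lines -/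
theorem it_o_exp_alg (B0 : ℝ) (hB : 1 ≤ B0) : ∃ C : ℝ, 1 ≤ C ∧ ∀ (quad : Bool) (F Fh f0 R c : ItPh) (μ μ1 : ItMk) (Ab e1 e2 e3 : ℝ),
    F.nrm ≤ B0 → R.nrm ≤ B0 → |μ.th| ≤ B0 → |μ.r| ≤ B0 → 0 ≤ e1 → e1 ≤ 1 → 0 ≤ e2 → e2 ≤ 1 → 0 ≤ e3 →
    (F.sub f0).nrm ≤ e1 → (F.sub Fh).nrm ≤ e2 → |μ.th - μ1.th| ≤ e1 → |μ.r - μ1.r| ≤ e1 → |(F.X - R.X) - Ab| ≤ e2 →
    (F.sub (itLegO quad R (F.X - R.X) μ)).nrm ≤ e3 →
    |itVal c Fh f0 - (itDot c ((itLegO quad R Ab μ1).sub f0) + (μ.th - μ1.th) * itDot c (itvTh quad f0 μ1 Ab)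
        + (μ.r - μ1.r) * itDot c (itvR quad μ1 Ab))| ≤ C * c.nrm * (e2 + e3 + e1 ^ 2) := by
  have p1 : 1 ≤ B0 ^ 3 := one_le_pow₀ hB
  refine ⟨240 * B0 ^ 3, by linarith, ?_⟩
  intro quad F Fh f0 R c μ μ1 Ab e1 e2 e3 hF hR bth br he1 he1' he2 he2' he3 h1 h2 dth dr dA hleg
  obtain ⟨bFX, -, -, -, -, -⟩ := it_k_aux_nrm_le F
  obtain ⟨bRX, -, bRP, -, -, -⟩ := it_k_aux_nrm_le R
  obtain ⟨a1X, -, a1P, -, -, -⟩ := it_k_aux_nrm_le (F.sub f0)
  obtain ⟨a2X, a2B, a2P, a2Y, a2N, a2D⟩ := it_k_aux_nrm_le (F.sub Fh)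
  obtain ⟨-, a3B, a3P, a3Y, a3N, a3D⟩ := it_k_aux_nrm_le (F.sub (itLegO quad R (F.X - R.X) μ))
  have fin : ∀ E1 E2 E3 E4 E5 E6 : ℝ, |E1| ≤ 40 * B0 ^ 3 * (e2 + e3 + e1 ^ 2) → |E2| ≤ 40 * B0 ^ 3 * (e2 + e3 + e1 ^ 2) → |E3| ≤ 40 * B0 ^ 3 * (e2 + e3 + e1 ^ 2) →
      |E4| ≤ 40 * B0 ^ 3 * (e2 + e3 + e1 ^ 2) → |E5| ≤ 40 * B0 ^ 3 * (e2 + e3 + e1 ^ 2) → |E6| ≤ 40 * B0 ^ 3 * (e2 + e3 + e1 ^ 2) →
      |c.X * E1 + c.B * E2 + c.P * E3 + c.Y * E4 + c.N * E5 + c.D * E6| ≤ 240 * B0 ^ 3 * c.nrm * (e2 + e3 + e1 ^ 2) := by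
    intro E1 E2 E3 E4 E5 E6 g1 g2 g3 g4 g5 g6
    refine (it_o_aux_six c g1 g2 g3 g4 g5 g6).trans (le_of_eq ?_)
    ring
  cases quad
  · obtain ⟨g1, g2, g4⟩ := it_o_aux_XBY (fX := f0.X) (hX := Fh.X) (hB := Fh.B) (hY := Fh.Y) (RB := R.B) (RY := R.Y) (th1 := μ1.th) hB (bFX.trans hF) (bRX.trans hR) bth he1' he2 he2' he3
      (a1X.trans h1) (a2X.trans h2) (a2B.trans h2) (a2Y.trans h2) dth dA (a3B.trans hleg) (a3Y.trans hleg)
    obtain ⟨g3, g5, g6⟩ := it_o_aux_PNDl (hP := Fh.P) (hN := Fh.N) (hD := Fh.D) (RN := R.N) (RD := R.D) (th1 := μ1.th) (r1 := μ1.r) hB (bFX.trans hF) (bRX.trans hR) bth br he2 he2' he3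
      (a2P.trans h2) (a2N.trans h2) (a2D.trans h2) dth dr dA (a3P.trans hleg) (a3N.trans hleg) (a3D.trans hleg)
    refine le_trans (le_of_eq ?_) (fin _ _ _ _ _ _ g1 g2 g3 g4 g5 g6)
    congr 1
    simp only [itVal, itDot, ItPh.sub, itLegO, itvTh, itvR, Bool.false_eq_true, if_false]
    ring
  · obtain ⟨g1, g2, g4⟩ := it_o_aux_XBY (fX := f0.X) (hX := Fh.X) (hB := Fh.B) (hY := Fh.Y) (RB := R.B) (RY := R.Y) (th1 := μ1.th) hB (bFX.trans hF) (bRX.trans hR) bth he1' he2 he2' he3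
      (a1X.trans h1) (a2X.trans h2) (a2B.trans h2) (a2Y.trans h2) dth dA (a3B.trans hleg) (a3Y.trans hleg)
    obtain ⟨g3, g5, g6⟩ := it_o_aux_PNDq (fP := f0.P) (hP := Fh.P) (hN := Fh.N) (hD := Fh.D) (RN := R.N) (RD := R.D) (th1 := μ1.th) (r1 := μ1.r) hB (bFX.trans hF) (bRX.trans hR)
      (bRP.trans hR) bth br he1' he2 he2' he3
      (a1P.trans h1) (a2P.trans h2) (a2N.trans h2) (a2D.trans h2) dth dr dA (a3P.trans hleg) (a3N.trans hleg) (a3D.trans hleg)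
    refine le_trans (le_of_eq ?_) (fin _ _ _ _ _ _ g1 g2 g3 g4 g5 g6)
    congr 1
    simp only [itVal, itDot, ItPh.sub, itLegO, itvTh, itvR, if_true]
    ring

open Claimed.Agent.R256
open Claimed.Agent.R255
open Claimed.Agent.R255.FLaw (pair)
open scoped BigOperators
open Classical

theorem it_o_auxg_msh_le_one (δ q : ℝ) : msh δ q ≤ 1 := by
  unfold msh
  rw [div_le_one (by positivity)]
  exact one_le_pow₀ (by norm_num)

theorem it_o_auxg_sub_rep (δ p : ℝ) (f : ItPh) : (f.sub (itR δ p f)).nrm ≤ msh δ p := by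
  rw [it_s_nrm_le]
  exact ⟨it_k_aux_rep_dist _ _ _, it_k_aux_rep_dist _ _ _, it_k_aux_rep_dist _ _ _, it_k_aux_rep_dist _ _ _, it_k_aux_rep_dist _ _ _,
    it_k_aux_rep_dist _ _ _⟩

/-- the approximate leg -/
theorem it_o_auxg_leg_close (δ K x y : ℝ) : |(x - y) - (trep δ K x - trep δ K y)| ≤ msh δ K := by
  have a1 := ig_trep_le δ K x
  have a2 := ig_lt_trep δ K x
  have b1 := ig_trep_le δ K y
  have b2 := ig_lt_trep δ K y
  rw [abs_le]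
  constructor <;> linarith

/-- LEAF G2.  The expansion at a point of the support: `it_o_exp_alg` with `e1 = msh δ p`, `e2 = msh δ K` (`msh ≤ 1` at depths `≥ 0`: `ig_msh_anti`, `ig_msh_zero`; `|A - legA| ≤ msh K`: both `x - trep x ∈ [0, msh)`), `e3 = (1 + B0)^2 msh δ RQ`, `it_o_leg`,
`it_k_aux_rep_dist`, `Adm0.bdF`, `Adm0.bdM`.   (`T.mot true = itvTh ..`, `T.mot false = itvR ..` by `rfl` / `simp [Tan.mot, itvMv]`.)   OWNER open (L-256-INT-MOT-G2), EST 200 lines -/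
theorem it_o_expand (a : ItPar) (ha : a.Ok) : ∃ C : ℝ, 1 ≤ C ∧ ∀ (T : Tan) (pk : ItPk), pk.Ok → T.Adm0 a pk → ∀ j < pk.M,
    ∀ (nd : ℕ) (s0 : Fin nd) (p : ℝ), 0 ≤ p → ∀ x, (T.Sj pk.RQ pk.M j nd).p x ≠ 0 → ∀ w : T.St nd → ItPh,
    |itVal (w x) (itR T.δ pk.K (T.F x.1)) (T.f0 p x.1)
      - (itDot (w x) ((itLegO T.quad (T.F (x.2 s0)) (T.legA pk.K s0 x) (itFz T.δ p (T.mrk j x.1))).sub (T.f0 p x.1)) + T.dif j pk.K p s0 w x)|
      ≤ C * (w x).nrm * (msh T.δ pk.K + msh T.δ pk.RQ + msh T.δ p ^ 2) := by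
  have hB0 : 1 ≤ a.B0 := ha.2.2.2.2.2.2.2.2
  obtain ⟨C0, hC0, H⟩ := it_o_exp_alg a.B0 hB0
  have hb2 : 1 ≤ (1 + a.B0) ^ 2 := one_le_pow₀ (by linarith)
  refine ⟨C0 * (1 + a.B0) ^ 2, by nlinarith, ?_⟩
  intro T pk _ h0 j hj nd s0 p _ x hx w
  obtain ⟨hx1, hx2⟩ := it_o_supp T pk.RQ pk.M j nd x hx
  have hbM := h0.bdM x.1 hx1 j hj
  have key := H T.quad (T.F x.1) (itR T.δ pk.K (T.F x.1)) (T.f0 p x.1) (T.F (x.2 s0)) (w x) (T.mrk j x.1) (itFz T.δ p (T.mrk j x.1))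
    (T.legA pk.K s0 x) (msh T.δ p) (msh T.δ pk.K) ((1 + a.B0) ^ 2 * msh T.δ pk.RQ) (h0.bdF x.1 hx1) (h0.bdF _ (hx2 s0).1) hbM.1 hbM.2.1
    (ig_msh_pos _ _).le (it_o_auxg_msh_le_one _ _) (ig_msh_pos _ _).le (it_o_auxg_msh_le_one _ _)
    (mul_nonneg (by positivity) (ig_msh_pos _ _).le) (it_o_auxg_sub_rep _ _ _) (it_o_auxg_sub_rep _ _ _) (it_k_aux_rep_dist _ _ _)
    (it_k_aux_rep_dist _ _ _) (it_o_auxg_leg_close _ _ _ _) (it_o_leg T a ha pk h0 j hj nd s0 x hx)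
  have e : itDot (w x) ((itLegO T.quad (T.F (x.2 s0)) (T.legA pk.K s0 x) (itFz T.δ p (T.mrk j x.1))).sub (T.f0 p x.1)) + T.dif j pk.K p s0 w x
      = itDot (w x) ((itLegO T.quad (T.F (x.2 s0)) (T.legA pk.K s0 x) (itFz T.δ p (T.mrk j x.1))).sub (T.f0 p x.1))
        + ((T.mrk j x.1).th - (itFz T.δ p (T.mrk j x.1)).th) * itDot (w x) (itvTh T.quad (T.f0 p x.1) (itFz T.δ p (T.mrk j x.1)) (T.legA pk.K s0 x))
        + ((T.mrk j x.1).r - (itFz T.δ p (T.mrk j x.1)).r) * itDot (w x) (itvR T.quad (itFz T.δ p (T.mrk j x.1)) (T.legA pk.K s0 x)) := by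
    rw [add_assoc]
    rfl
  rw [e]
  refine key.trans ?_
  have hn := it_s_nrm_nonneg (w x)
  have m1 := (ig_msh_pos T.δ pk.K).le
  have m2 := (ig_msh_pos T.δ pk.RQ).le
  have m3 : 0 ≤ msh T.δ p ^ 2 := sq_nonneg _
  have h1 : msh T.δ pk.K + (1 + a.B0) ^ 2 * msh T.δ pk.RQ + msh T.δ p ^ 2
      ≤ (1 + a.B0) ^ 2 * (msh T.δ pk.K + msh T.δ pk.RQ + msh T.δ p ^ 2) := by nlinarith
  calc C0 * (w x).nrm * (msh T.δ pk.K + (1 + a.B0) ^ 2 * msh T.δ pk.RQ + msh T.δ p ^ 2)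
      ≤ C0 * (w x).nrm * ((1 + a.B0) ^ 2 * (msh T.δ pk.K + msh T.δ pk.RQ + msh T.δ p ^ 2)) :=
        mul_le_mul_of_nonneg_left h1 (by positivity)
    _ = _ := by ring

theorem it_o_auxg_trep_abs (δ p x : ℝ) : |trep δ p x| ≤ |x| + 1 := by
  have e1 := ig_trep_le δ p x
  have e2 := ig_lt_trep δ p x
  have e3 := it_o_auxg_msh_le_one δ p
  rw [abs_le]
  constructor
  · have := neg_abs_le x
    linarith
  · have := le_abs_self x
    linarith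

theorem it_o_auxg_mv_bd (mv quad : Bool) (f : ItPh) (μ : ItMk) (A b : ℝ) (hb : 1 ≤ b) (hA : |A| ≤ b) (hX : |f.X| ≤ b) (hP : |f.P| ≤ b)
    (hth : |μ.th| ≤ b) (hr : |μ.r| ≤ b) : (itvMv mv quad f μ A).nrm ≤ 3 * b ^ 3 := by
  have hb0 : 0 ≤ b := by linarith
  have p2 : b ≤ b ^ 3 := le_self_pow₀ hb (by norm_num)
  have p3 : b ^ 2 ≤ b ^ 3 := pow_le_pow_right₀ hb (by norm_num)
  have z : |(0 : ℝ)| ≤ 3 * b ^ 3 := by rw [abs_zero]; positivity
  have two : |(2 : ℝ)| ≤ 2 := by norm_num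
  have hA2 : |A ^ 2| ≤ b * b := by rw [sq]; exact it_o_aux_mul hA hA
  rw [it_s_nrm_le]
  cases mv <;> cases quad <;> simp only [itvMv, itvTh, itvR, if_true, Bool.false_eq_true, if_false]
  · refine ⟨z, z, z, z, hA.trans (by linarith), (it_o_aux_mul (it_o_aux_neg hth) hA).trans (by nlinarith)⟩
  · refine ⟨z, z, (it_o_aux_mul two hA).trans (by nlinarith), z, hA2.trans (by nlinarith),
      (it_o_aux_mul (it_o_aux_neg hth) hA2).trans (by nlinarith)⟩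
  · refine ⟨z, (it_o_aux_neg hA).trans (by linarith), z, ?_, z, (it_o_aux_mul (it_o_aux_neg hr) hA).trans (by nlinarith)⟩
    rw [sub_eq_add_neg]
    exact (it_o_aux_add hA2 (it_o_aux_neg (it_o_aux_mul (it_o_aux_mul two hX) hA))).trans (by nlinarith)
  · refine ⟨z, (it_o_aux_neg hA).trans (by linarith), z, ?_, z, ?_⟩
    · rw [sub_eq_add_neg]
      exact (it_o_aux_add hA2 (it_o_aux_neg (it_o_aux_mul (it_o_aux_mul two hX) hA))).trans (by nlinarith)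
    · rw [sub_eq_add_neg]
      exact (it_o_aux_add (it_o_aux_mul hA2 hr) (it_o_aux_neg (it_o_aux_mul hP hA))).trans (by nlinarith)

/-- the motion vectors are bounded on the support (`|legA| ≤ 2 B0 + 1`, `|f0| ≤ B0 + 1`, frozen mark `≤ B0 + 1`)   OWNER open (L-256-INT-MOT-G2), EST 60 lines -/
theorem it_o_mot_bd (a : ItPar) (ha : a.Ok) : ∃ C : ℝ, 1 ≤ C ∧ ∀ (T : Tan) (pk : ItPk), pk.Ok → T.Adm0 a pk → ∀ j < pk.M,
    ∀ (nd : ℕ) (s0 : Fin nd) (mv : Bool) (p : ℝ), 0 ≤ p → ∀ x, (T.Sj pk.RQ pk.M j nd).p x ≠ 0 → (T.mot mv j pk.K p s0 x).nrm ≤ C := by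
  have hB0 : 1 ≤ a.B0 := ha.2.2.2.2.2.2.2.2
  have hb : 1 ≤ 2 * a.B0 + 2 := by linarith
  refine ⟨3 * (2 * a.B0 + 2) ^ 3, by have := one_le_pow₀ hb (n := 3); linarith, ?_⟩
  intro T pk _ h0 j hj nd s0 mv p hp x hx
  obtain ⟨hx1, hx2⟩ := it_o_supp T pk.RQ pk.M j nd x hx
  have hbM := h0.bdM x.1 hx1 j hj
  have hF := (it_s_nrm_le _ _).1 (h0.bdF x.1 hx1)
  have hR := (it_s_nrm_le _ _).1 (h0.bdF _ (hx2 s0).1)
  refine it_o_auxg_mv_bd mv T.quad (T.f0 p x.1) (itFz T.δ p (T.mrk j x.1)) (T.legA pk.K s0 x) _ hb ?_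
    ((it_o_auxg_trep_abs T.δ p _).trans (by linarith [hF.1])) ((it_o_auxg_trep_abs T.δ p _).trans (by linarith [hF.2.2.1])) ?_ ?_
  · have h1 := it_o_auxg_leg_close T.δ pk.K (T.F x.1).X (T.F (x.2 s0)).X
    have h2 := it_o_auxg_msh_le_one T.δ pk.K
    have e : T.legA pk.K s0 x = ((T.F x.1).X + -(T.F (x.2 s0)).X)
        + -(((T.F x.1).X - (T.F (x.2 s0)).X) - (trep T.δ pk.K (T.F x.1).X - trep T.δ pk.K (T.F (x.2 s0)).X)) := by
      unfold Tan.legA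
      ring
    rw [e]
    exact (it_o_aux_add (it_o_aux_add hF.1 (it_o_aux_neg hR.1)) (it_o_aux_neg h1)).trans (by linarith)
  · exact (it_o_auxg_trep_abs T.δ p _).trans (by linarith [hbM.1])
  · exact (it_o_auxg_trep_abs T.δ p _).trans (by linarith [hbM.2.1])

theorem it_o_auxg_trep_eq {δ q x y : ℝ} (h : tcell δ q x = tcell δ q y) : trep δ q x = trep δ q y := by
  unfold trep
  rw [h]

theorem it_o_auxg_f0_eq (T : Tan) (p : ℝ) (ω ω' : T.Ω) (h1 : T.Fn p ω = T.Fn p ω') : T.f0 p ω = T.f0 p ω' := by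
  simp only [Tan.Fn, itF, Prod.mk.injEq] at h1
  obtain ⟨⟨a1, a2, a3⟩, a4, a5, a6⟩ := h1
  simp only [Tan.f0, itR, trep, a1, a2, a3, a4, a5, a6]

/-- two points with the same `(F_p, cndH)` have the same parameters, the same resampled phase, leg, frozen mark, parent phase, motion vectors.   OWNER open (L-256-INT-MOT-B2), EST 80 lines -/
theorem it_o_same (T : Tan) (a : ItPar) (pk : ItPk) (h0 : T.Adm0 a pk) (j nd : ℕ) (s0 : Fin nd) {β : Type} (H : T.Ω → β) (p : ℝ) (x x' : T.St nd)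
    (h : T.cndH pk.M j pk.K p s0 H x = T.cndH pk.M j pk.K p s0 H x') :
    T.F (x.2 s0) = T.F (x'.2 s0) ∧ (∀ s, T.legA pk.K s x = T.legA pk.K s x') ∧ itFz T.δ p (T.mrk j x.1) = itFz T.δ p (T.mrk j x'.1) ∧
      (T.Fn p x.1 = T.Fn p x'.1 → T.parS pk.M j pk.K p nd x = T.parS pk.M j pk.K p nd x' ∧ T.f0 p x.1 = T.f0 p x'.1 ∧
        ∀ mv s, T.mot mv j pk.K p s x = T.mot mv j pk.K p s x') := by
  simp only [Tan.cndH, Prod.mk.injEq] at h
  obtain ⟨hZ, haux, hE, hxi, -⟩ := h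
  have haux' := haux
  simp only [Tan.aux, Prod.mk.injEq] at haux'
  obtain ⟨hX1, hX2⟩ := haux'
  have hleg : ∀ s, T.legA pk.K s x = T.legA pk.K s x' := by
    intro s
    unfold Tan.legA
    rw [it_o_auxg_trep_eq (show tcell T.δ pk.K (T.F x.1).X = tcell T.δ pk.K (T.F x'.1).X from hX1),
      it_o_auxg_trep_eq (show tcell T.δ pk.K (T.F (x.2 s)).X = tcell T.δ pk.K (T.F (x'.2 s)).X from congrFun hX2 s)]
  have hfz : itFz T.δ p (T.mrk j x.1) = itFz T.δ p (T.mrk j x'.1) := by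
    have hxi' := hxi
    simp only [Tan.xin, itXi, Prod.mk.injEq] at hxi'
    unfold itFz
    rw [it_o_auxg_trep_eq hxi'.1, it_o_auxg_trep_eq hxi'.2]
  refine ⟨h0.side_F _ _ hZ, hleg, hfz, fun hF => ?_⟩
  have hf0 := it_o_auxg_f0_eq T p _ _ hF
  refine ⟨?_, hf0, fun mv s => ?_⟩
  · simp only [Tan.parS, hF, hE, hxi, haux]
  · unfold Tan.mot
    rw [hf0, hfz, hleg s]

open Claimed.Agent.R256
open Claimed.Agent.R255
open Claimed.Agent.R255.FLaw (pair)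
open scoped BigOperators
open Classical

theorem it_o_auxg_dot_le (c v : ItPh) : |itDot c v| ≤ 6 * c.nrm * v.nrm := by
  obtain ⟨n1, n2, n3, n4, n5, n6⟩ := it_k_aux_nrm_le v
  exact it_o_aux_six c n1 n2 n3 n4 n5 n6

theorem it_o_auxg_tri (f g h : ItPh) : (f.sub h).nrm ≤ (f.sub g).nrm + (g.sub h).nrm := by
  obtain ⟨n1, n2, n3, n4, n5, n6⟩ := it_k_aux_nrm_le (f.sub g)
  obtain ⟨m1, m2, m3, m4, m5, m6⟩ := it_k_aux_nrm_le (g.sub h)
  rw [it_s_nrm_le]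
  simp only [ItPh.sub] at n1 n2 n3 n4 n5 n6 m1 m2 m3 m4 m5 m6 ⊢
  refine ⟨?_, ?_, ?_, ?_, ?_, ?_⟩
  · have e : f.X - h.X = (f.X - g.X) + (g.X - h.X) := by ring
    rw [e]; exact it_o_aux_add n1 m1
  · have e : f.B - h.B = (f.B - g.B) + (g.B - h.B) := by ring
    rw [e]; exact it_o_aux_add n2 m2
  · have e : f.P - h.P = (f.P - g.P) + (g.P - h.P) := by ring
    rw [e]; exact it_o_aux_add n3 m3
  · have e : f.Y - h.Y = (f.Y - g.Y) + (g.Y - h.Y) := by ring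
    rw [e]; exact it_o_aux_add n4 m4
  · have e : f.N - h.N = (f.N - g.N) + (g.N - h.N) := by ring
    rw [e]; exact it_o_aux_add n5 m5
  · have e : f.D - h.D = (f.D - g.D) + (g.D - h.D) := by ring
    rw [e]; exact it_o_aux_add n6 m6

theorem it_o_auxg_symm (f g : ItPh) : (f.sub g).nrm = (g.sub f).nrm := by
  simp only [ItPh.nrm, ItPh.sub, abs_sub_comm]

/-- the first order term is `O(msh p)` -/
theorem it_o_auxg_dif_bd (T : Tan) (j : ℕ) (K p : ℝ) {nd : ℕ} (s0 : Fin nd) (w : T.St nd → ItPh) (x : T.St nd) (Cm : ℝ)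
    (hm : ∀ mv, (T.mot mv j K p s0 x).nrm ≤ Cm) : |T.dif j K p s0 w x| ≤ 12 * Cm * (w x).nrm * msh T.δ p := by
  have hn := it_s_nrm_nonneg (w x)
  have d : ∀ mv, |itDot (w x) (T.mot mv j K p s0 x)| ≤ 6 * (w x).nrm * Cm := fun mv =>
    (it_o_auxg_dot_le _ _).trans (mul_le_mul_of_nonneg_left (hm mv) (by positivity))
  unfold Tan.dif
  refine (it_o_aux_add (it_o_aux_mul (it_k_aux_rep_dist _ _ _) (d true)) (it_o_aux_mul (it_k_aux_rep_dist _ _ _) (d false))).trans (le_of_eq ?_)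
  ring

/-- the three errors at a depth `q ≤ min (K, 2p)` -/
theorem it_o_auxg_err {δ K RQ p q : ℝ} (h0 : 0 < δ) (h1 : δ < 1) (hq : 0 ≤ q) (hqK : q ≤ K) (hKR : K ≤ RQ) (hq2 : q ≤ 2 * p) :
    msh δ K + msh δ RQ + msh δ p ^ 2 ≤ 4 * msh δ q := by
  have e1 := ig_msh_anti δ q K h0 h1 hqK
  have e2 := ig_msh_anti δ q RQ h0 h1 (hqK.trans hKR)
  have e3 : msh δ p ^ 2 ≤ 2 * msh δ q := by
    have a1 := ig_msh_le δ p h0
    have a2 : msh δ p ^ 2 ≤ (δ ^ p) ^ 2 := pow_le_pow_left₀ (ig_msh_pos _ _).le a1 2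
    have a3 : (δ ^ p) ^ 2 = δ ^ (2 * p) := by
      rw [← Real.rpow_natCast, ← Real.rpow_mul h0.le]
      congr 1
      push_cast
      ring
    have a4 : δ ^ (2 * p) ≤ δ ^ q := Real.rpow_le_rpow_of_exponent_ge h0 h1.le hq2
    have a5 := ig_le_msh δ q h0 h1 hq
    linarith
  linarith

/-- the target lies within `N msh p` of a point read by the label -/
theorem it_o_auxg_point (a : ItPar) (ha : a.Ok) : ∃ N : ℝ, 0 ≤ N ∧ ∀ (T : Tan) (pk : ItPk), pk.Ok → T.Adm0 a pk → ∀ j < pk.M,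
    ∀ (nd : ℕ) (s0 : Fin nd) (p : ℝ), 0 ≤ p → p ≤ pk.K → ∀ x, (T.Sj pk.RQ pk.M j nd).p x ≠ 0 →
    ((T.F x.1).sub (itLegO T.quad (T.F (x.2 s0)) (T.legA pk.K s0 x) (itFz T.δ p (T.mrk j x.1)))).nrm ≤ N * msh T.δ p := by
  obtain ⟨C, hC, HE⟩ := it_o_expand a ha
  obtain ⟨Cm, hCm, HM⟩ := it_o_mot_bd a ha
  refine ⟨1 + (3 * C + 12 * Cm), by positivity, ?_⟩
  intro T pk hpk h0 j hj nd s0 p hp hpK x hx
  set L := itLegO T.quad (T.F (x.2 s0)) (T.legA pk.K s0 x) (itFz T.δ p (T.mrk j x.1)) with hL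
  set Fh := itR T.δ pk.K (T.F x.1) with hFh
  have hmp := ig_msh_pos T.δ p
  have m1 := ig_msh_anti T.δ p pk.K h0.δ0 h0.δ1 hpK
  have m2 := ig_msh_anti T.δ p pk.RQ h0.δ0 h0.δ1 (hpK.trans hpk.2.2.1.le)
  have m3 : msh T.δ p ^ 2 ≤ msh T.δ p := by
    have := it_o_auxg_msh_le_one T.δ p
    nlinarith
  have key : ∀ c : ItPh, c.nrm ≤ 1 → |itDot c (Fh.sub L)| ≤ (3 * C + 12 * Cm) * msh T.δ p := by
    intro c hc
    have hc0 := it_s_nrm_nonneg c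
    have h1 := HE T pk hpk h0 j hj nd s0 p hp x hx (fun _ => c)
    have h2 := it_o_auxg_dif_bd T j pk.K p s0 (fun _ => c) x Cm (fun mv => HM T pk hpk h0 j hj nd s0 mv p hp x hx)
    have e : itDot c (Fh.sub L) = (itVal c Fh (T.f0 p x.1) - (itDot c (L.sub (T.f0 p x.1)) + T.dif j pk.K p s0 (fun _ => c) x))
        + T.dif j pk.K p s0 (fun _ => c) x := by
      simp only [itVal, itDot, ItPh.sub]
      ring
    rw [e]
    refine (it_o_aux_add h1 h2).trans ?_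
    have b1 : C * c.nrm * (msh T.δ pk.K + msh T.δ pk.RQ + msh T.δ p ^ 2) ≤ C * 1 * (3 * msh T.δ p) :=
      mul_le_mul (mul_le_mul_of_nonneg_left hc (by linarith)) (by linarith)
        (by have := ig_msh_pos T.δ pk.K; have := ig_msh_pos T.δ pk.RQ; positivity) (by linarith)
    have b2 : 12 * Cm * c.nrm * msh T.δ p ≤ 12 * Cm * 1 * msh T.δ p :=
      mul_le_mul_of_nonneg_right (mul_le_mul_of_nonneg_left hc (by linarith)) hmp.le
    linarith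
  have hFL : (Fh.sub L).nrm ≤ (3 * C + 12 * Cm) * msh T.δ p := by
    rw [it_s_nrm_le]
    have k1 := key itcX (by rw [it_s_nrm_le]; simp [itcX])
    have k2 := key itcB (by rw [it_s_nrm_le]; simp [itcB])
    have k3 := key itcP (by rw [it_s_nrm_le]; simp [itcP])
    have k4 := key itcY (by rw [it_s_nrm_le]; simp [itcY])
    have k5 := key itcN (by rw [it_s_nrm_le]; simp [itcN])
    have k6 := key itcD (by rw [it_s_nrm_le]; simp [itcD])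
    simp only [itDot, itcX, itcB, itcP, itcY, itcN, itcD, one_mul, zero_mul, add_zero, zero_add] at k1 k2 k3 k4 k5 k6
    exact ⟨k1, k2, k3, k4, k5, k6⟩
  have h3 := it_o_auxg_sub_rep T.δ pk.K (T.F x.1)
  refine (it_o_auxg_tri (T.F x.1) Fh L).trans ?_
  linarith

/-- LEAF B2.  Two points of the support with the same `cndH` have the same `R`, `legA`, frozen mark (`it_o_same`); by `it_o_expand` with the six constant coordinate fields (`it_k_aux_valX` ...; the `f0`-terms cancel: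
`itVal c Fh f0 - itDot c (L.sub f0) = itDot c (Fh.sub L)`), `|T.dif| ≤ 2 msh p * 6 C` (`it_o_mot_bd`, `it_k_aux_rep_dist`) both `F` lie within `C' msh p` of the same point.   Then `it_o_nval_F`.   OWNER open (L-256-INT-MOT-B2), EST 250 lines -/
theorem it_o_read_F (a : ItPar) (ha : a.Ok) : ∃ C : ℝ, 1 ≤ C ∧ ∀ (T : Tan) (pk : ItPk), pk.Ok → T.Adm0 a pk → ∀ j < pk.M,
    ∀ (nd : ℕ) (s0 : Fin nd) (β : Type) (H : T.Ω → β) (p : ℝ), 0 < p → p ≤ pk.K →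
    (T.Sj pk.RQ pk.M j nd).NVal (fun _ => True) (fun x => T.Fn p x.1) (T.cndH pk.M j pk.K p s0 H) C := by
  obtain ⟨N, hN, HP⟩ := it_o_auxg_point a ha
  refine ⟨(2 * N + 2) ^ 6, one_le_pow₀ (by linarith), ?_⟩
  intro T pk hpk h0 j hj nd s0 β H p hp hpK
  refine it_o_nval_F (T.Sj pk.RQ pk.M j nd) (fun _ => True) (T.cndH pk.M j pk.K p s0 H) T.δ p (2 * N) (by positivity) (fun x => T.F x.1) ?_
  intro x x' hx hx' _ _ hA
  obtain ⟨e1, e2, e3, -⟩ := it_o_same T a pk h0 j nd s0 H p x x' hA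
  have b1 := HP T pk hpk h0 j hj nd s0 p hp.le hpK x hx
  have b2 := HP T pk hpk h0 j hj nd s0 p hp.le hpK x' hx'
  rw [← e1, ← e2 s0, ← e3, it_o_auxg_symm] at b2
  refine (it_o_auxg_tri _ (itLegO T.quad (T.F (x.2 s0)) (T.legA pk.K s0 x) (itFz T.δ p (T.mrk j x.1))) _).trans ?_
  linarith

/-- two points with the same `(F_p, cndH)` : the values differ by the difference of the first order terms, up to the errors -/
theorem it_o_auxg_two (a : ItPar) (ha : a.Ok) : ∃ C : ℝ, 1 ≤ C ∧ ∀ (T : Tan) (pk : ItPk), pk.Ok → T.Adm0 a pk → ∀ j < pk.M,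
    ∀ (nd : ℕ) (s0 : Fin nd) (β : Type) (H : T.Ω → β) (p A1 : ℝ), 0 ≤ p → ∀ w : T.St nd → ItPh, T.Fld pk j nd p A1 w →
    ∀ x x', (T.Sj pk.RQ pk.M j nd).p x ≠ 0 → (T.Sj pk.RQ pk.M j nd).p x' ≠ 0 → T.Fn p x.1 = T.Fn p x'.1 →
      T.cndH pk.M j pk.K p s0 H x = T.cndH pk.M j pk.K p s0 H x' →
      |(itVal (w x) (itR T.δ pk.K (T.F x.1)) (T.f0 p x.1) - itVal (w x') (itR T.δ pk.K (T.F x'.1)) (T.f0 p x'.1))
        - (T.dif j pk.K p s0 w x - T.dif j pk.K p s0 w x')| ≤ 2 * C * A1 * (msh T.δ pk.K + msh T.δ pk.RQ + msh T.δ p ^ 2) := by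
  obtain ⟨C, hC, HE⟩ := it_o_expand a ha
  refine ⟨C, hC, ?_⟩
  intro T pk hpk h0 j hj nd s0 β H p A1 hp w hw x x' hx hx' hF hA
  obtain ⟨e1, e2, e3, e4⟩ := it_o_same T a pk h0 j nd s0 H p x x' hA
  obtain ⟨f1, f2, -⟩ := e4 hF
  have hww := hw.dep x x' f1
  have b1 := HE T pk hpk h0 j hj nd s0 p hp x hx w
  have b2 := HE T pk hpk h0 j hj nd s0 p hp x' hx' w
  rw [← e1, ← e2 s0, ← e3, ← f2, ← hww] at b2
  have herr : 0 ≤ msh T.δ pk.K + msh T.δ pk.RQ + msh T.δ p ^ 2 := by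
    have := ig_msh_pos T.δ pk.K
    have := ig_msh_pos T.δ pk.RQ
    positivity
  have c1 : C * (w x).nrm * (msh T.δ pk.K + msh T.δ pk.RQ + msh T.δ p ^ 2) ≤ C * A1 * (msh T.δ pk.K + msh T.δ pk.RQ + msh T.δ p ^ 2) :=
    mul_le_mul_of_nonneg_right (mul_le_mul_of_nonneg_left (hw.bd x hx) (by linarith)) herr
  rw [← hww, ← f2]
  set M0 := itDot (w x) ((itLegO T.quad (T.F (x.2 s0)) (T.legA pk.K s0 x) (itFz T.δ p (T.mrk j x.1))).sub (T.f0 p x.1)) with hM0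
  have e : (itVal (w x) (itR T.δ pk.K (T.F x.1)) (T.f0 p x.1) - itVal (w x) (itR T.δ pk.K (T.F x'.1)) (T.f0 p x.1))
        - (T.dif j pk.K p s0 w x - T.dif j pk.K p s0 w x')
      = (itVal (w x) (itR T.δ pk.K (T.F x.1)) (T.f0 p x.1) - (M0 + T.dif j pk.K p s0 w x))
        + -(itVal (w x) (itR T.δ pk.K (T.F x'.1)) (T.f0 p x.1) - (M0 + T.dif j pk.K p s0 w x')) := by ring
  rw [e]
  refine (it_o_aux_add b1 (it_o_aux_neg b2)).trans ?_
  linarith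

/-- LEAF B3.  Two points of the support with the same `(F_p, cndH)` : same `parS`, hence the same covector `v x` (`Fld.dep`), the same `f0`, `R`, `legA`, frozen mark (`it_o_same`).  By `it_o_expand` the two values differ by
`dif v x - dif v x' + O(A1 (msh K + msh RQ + msh p ^ 2))`, and `|dif v x - dif v x'| ≤ A2 msh q` by hypothesis.
`msh K, msh RQ ≤ msh q`, `msh p ^ 2 ≤ δ^(2p) ≤ δ^q ≤ 2 msh q` (`ig_msh_le`, `ig_le_msh`, `ig_msh_anti`).   Then `it_o_nval_list`.   OWNER open (L-256-INT-MOT-B3), EST 250 lines -/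
theorem it_o_read_V (a : ItPar) (ha : a.Ok) (A1 A2 : ℝ) (hA1 : 1 ≤ A1) (hA2 : 0 ≤ A2) : ∃ C : ℝ, 1 ≤ C ∧ ∀ (T : Tan) (pk : ItPk), pk.Ok →
    T.Adm0 a pk → ∀ j < pk.M, ∀ (nd : ℕ) (s0 : Fin nd) (β : Type) (H : T.Ω → β) (p q : ℝ), 0 < p → p ≤ q → q ≤ 2 * p → q ≤ pk.K →
    ∀ V : List (T.St nd → ItPh), (∀ v ∈ V, T.Fld pk j nd p A1 v) →
    (∀ v ∈ V, ∀ x x', (T.Sj pk.RQ pk.M j nd).p x ≠ 0 → (T.Sj pk.RQ pk.M j nd).p x' ≠ 0 → T.Fn p x.1 = T.Fn p x'.1 →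
      T.cndH pk.M j pk.K p s0 H x = T.cndH pk.M j pk.K p s0 H x' → |T.dif j pk.K p s0 v x - T.dif j pk.K p s0 v x'| ≤ A2 * msh T.δ q) →
    (T.Sj pk.RQ pk.M j nd).NVal (fun _ => True) (T.rdS pk.K p q V) (pair (fun x => T.Fn p x.1) (T.cndH pk.M j pk.K p s0 H))
      (C ^ V.length) := by
  obtain ⟨C, hC, H2⟩ := it_o_auxg_two a ha
  refine ⟨(8 * C * A1 + A2) + 2, by nlinarith, ?_⟩
  intro T pk hpk h0 j hj nd s0 β H p q hp hpq hq2 hqK V hV hdif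
  refine it_o_nval_list (T.Sj pk.RQ pk.M j nd) (fun _ => True) (pair (fun x => T.Fn p x.1) (T.cndH pk.M j pk.K p s0 H)) T.δ q
    (8 * C * A1 + A2) (by positivity) V (fun v x => itVal (v x) (itR T.δ pk.K (T.F x.1)) (T.f0 p x.1)) ?_
  intro v hv x x' hx hx' _ _ hA
  have hF : T.Fn p x.1 = T.Fn p x'.1 := congrArg Prod.fst hA
  have hH : T.cndH pk.M j pk.K p s0 H x = T.cndH pk.M j pk.K p s0 H x' := congrArg Prod.snd hA
  have b1 := H2 T pk hpk h0 j hj nd s0 β H p A1 hp.le v (hV v hv) x x' hx hx' hF hH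
  have b2 := hdif v hv x x' hx hx' hF hH
  have b3 := it_o_auxg_err (K := pk.K) (RQ := pk.RQ) (p := p) (q := q) h0.δ0 h0.δ1 (hp.le.trans hpq) hqK hpk.2.2.1.le hq2
  have b4 : 2 * C * A1 * (msh T.δ pk.K + msh T.δ pk.RQ + msh T.δ p ^ 2) ≤ 2 * C * A1 * (4 * msh T.δ q) :=
    mul_le_mul_of_nonneg_left b3 (by positivity)
  have e : itVal (v x) (itR T.δ pk.K (T.F x.1)) (T.f0 p x.1) - itVal (v x') (itR T.δ pk.K (T.F x'.1)) (T.f0 p x'.1)
      = ((itVal (v x) (itR T.δ pk.K (T.F x.1)) (T.f0 p x.1) - itVal (v x') (itR T.δ pk.K (T.F x'.1)) (T.f0 p x'.1))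
        - (T.dif j pk.K p s0 v x - T.dif j pk.K p s0 v x')) + (T.dif j pk.K p s0 v x - T.dif j pk.K p s0 v x') := by ring
  rw [e]
  refine (it_o_aux_add b1 b2).trans ?_
  linarith

/-- LEAF B4.  Two points of the support in `G` with the same tested cell of depth `s` and the same `(F_p, cndH)` : as in B3 the values differ by `dif c x - dif c x' + O(A1 C msh s)` and by at most `msh s` (`it_k_aux_cell_dist`).
So `δ^χ |ι - ι'| ≤ C' msh s`, `|ι - ι'| ≤ C' δ^(s - χ) ≤ 2 C' msh (s - χ)`;  `ltk_nval_close` (`tcell δ u x = ⌊x * 2 ^ tlev δ u⌋`).   OWNER open (L-256-INT-MOT-B4), EST 250 lines -/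
theorem it_o_read_mv (a : ItPar) (ha : a.Ok) (A1 A2 : ℝ) (hA1 : 1 ≤ A1) (hA2 : 0 ≤ A2) : ∃ C : ℝ, 1 ≤ C ∧ ∀ (T : Tan) (pk : ItPk), pk.Ok →
    T.Adm0 a pk → ∀ j < pk.M, ∀ (nd : ℕ) (s0 : Fin nd) (β : Type) (H : T.Ω → β) (ι : T.Ω → ℝ) (p s χ : ℝ), 0 < p → 0 ≤ χ → p ≤ s - χ →
    s ≤ 2 * p → s ≤ pk.K → ∀ (c : T.St nd → ItPh) (G : T.St nd → Prop), T.Fld pk j nd p A1 c →
    (∀ x x', (T.Sj pk.RQ pk.M j nd).p x ≠ 0 → (T.Sj pk.RQ pk.M j nd).p x' ≠ 0 → G x → G x' → T.Fn p x.1 = T.Fn p x'.1 →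
      T.cndH pk.M j pk.K p s0 H x = T.cndH pk.M j pk.K p s0 H x' →
      T.δ ^ χ * |ι x.1 - ι x'.1| ≤ |T.dif j pk.K p s0 c x - T.dif j pk.K p s0 c x'| + A2 * msh T.δ s) →
    (T.Sj pk.RQ pk.M j nd).NVal G (fun x => tcell T.δ (s - χ) (ι x.1))
      (pair (T.rdS pk.K p s [c]) (pair (fun x => T.Fn p x.1) (T.cndH pk.M j pk.K p s0 H))) C := by
  obtain ⟨C, hC, H2⟩ := it_o_auxg_two a ha
  refine ⟨2 * (1 + 8 * C * A1 + A2) + 2, by nlinarith, ?_⟩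
  intro T pk hpk h0 j hj nd s0 β H ι p s χ hp hχ hps hs2 hsK c G hc hι
  have hs0 : 0 ≤ s := by linarith
  have hmu := ig_msh_pos T.δ (s - χ)
  have hnv := ltk_nval_close (T.Sj pk.RQ pk.M j nd) G (pair (T.rdS pk.K p s [c]) (pair (fun x => T.Fn p x.1) (T.cndH pk.M j pk.K p s0 H)))
    (fun x => ι x.1) (tlev T.δ (s - χ)) (R := 2 * (1 + 8 * C * A1 + A2) * msh T.δ (s - χ)) (by positivity) ?_
  · have e : 2 * (1 + 8 * C * A1 + A2) * msh T.δ (s - χ) * 2 ^ tlev T.δ (s - χ) + 2 = 2 * (1 + 8 * C * A1 + A2) + 2 := by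
      unfold msh
      field_simp
    rw [e] at hnv
    exact hnv
  · intro x x' hx hx' hG hG' hA
    have hT : T.rdS pk.K p s [c] x = T.rdS pk.K p s [c] x' := congrArg Prod.fst hA
    have hF : T.Fn p x.1 = T.Fn p x'.1 := congrArg Prod.fst (congrArg Prod.snd hA)
    have hH : T.cndH pk.M j pk.K p s0 H x = T.cndH pk.M j pk.K p s0 H x' := congrArg Prod.snd (congrArg Prod.snd hA)
    simp only [Tan.rdS, List.map_cons, List.map_nil, List.cons.injEq, and_true] at hT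
    have b0 := it_k_aux_cell_dist hT
    have b1 := H2 T pk hpk h0 j hj nd s0 β H p A1 hp.le c hc x x' hx hx' hF hH
    have b2 := hι x x' hx hx' hG hG' hF hH
    have b3 := it_o_auxg_err (K := pk.K) (RQ := pk.RQ) (p := p) (q := s) h0.δ0 h0.δ1 hs0 hsK hpk.2.2.1.le hs2
    have b4 : 2 * C * A1 * (msh T.δ pk.K + msh T.δ pk.RQ + msh T.δ p ^ 2) ≤ 2 * C * A1 * (4 * msh T.δ s) :=
      mul_le_mul_of_nonneg_left b3 (by positivity)
    have b5 : |T.dif j pk.K p s0 c x - T.dif j pk.K p s0 c x'| ≤ (1 + 8 * C * A1) * msh T.δ s := by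
      have e : T.dif j pk.K p s0 c x - T.dif j pk.K p s0 c x'
          = (itVal (c x) (itR T.δ pk.K (T.F x.1)) (T.f0 p x.1) - itVal (c x') (itR T.δ pk.K (T.F x'.1)) (T.f0 p x'.1))
            + -((itVal (c x) (itR T.δ pk.K (T.F x.1)) (T.f0 p x.1) - itVal (c x') (itR T.δ pk.K (T.F x'.1)) (T.f0 p x'.1))
              - (T.dif j pk.K p s0 c x - T.dif j pk.K p s0 c x')) := by ring
      rw [e]
      refine (it_o_aux_add b0 (it_o_aux_neg b1)).trans ?_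
      linarith
    have b6 : T.δ ^ χ * |ι x.1 - ι x'.1| ≤ (1 + 8 * C * A1 + A2) * T.δ ^ s := by
      have := ig_msh_le T.δ s h0.δ0
      have h7 : (1 + 8 * C * A1 + A2) * msh T.δ s ≤ (1 + 8 * C * A1 + A2) * T.δ ^ s :=
        mul_le_mul_of_nonneg_left this (by positivity)
      linarith
    have hδχ : 0 < T.δ ^ χ := Real.rpow_pos_of_pos h0.δ0 _
    have b7 : |ι x.1 - ι x'.1| ≤ (1 + 8 * C * A1 + A2) * T.δ ^ (s - χ) := by
      rw [Real.rpow_sub h0.δ0, ← mul_div_assoc, le_div_iff₀ hδχ, mul_comm]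
      exact b6
    have b8 := ig_le_msh T.δ (s - χ) h0.δ0 h0.δ1 (by linarith)
    have b9 : (1 + 8 * C * A1 + A2) * T.δ ^ (s - χ) ≤ (1 + 8 * C * A1 + A2) * (2 * msh T.δ (s - χ)) :=
      mul_le_mul_of_nonneg_left b8 (by positivity)
    linarith

/-- LEAF B5 = THE CORE.   `ltk_transfer` on `S` with `T = rdS s [c]`, `Y = cndS V`, `U = ι at depth s - χ`, `Y' = cndH`.
`Y'` reads `Y` : B2, B3, `ltk_nval_comp`; `C_*` is a function of `Zs (x.2 s0)` on the support (`it_o_supp`, `Adm0.side_C`), the other components of `Y` are components of `Y'`  (`ltk_nval_mono` needs honest functions: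
list `(rdS V, F_p)` first, then note that on a fibre of `cndH` the label `cndS` is determined by `(rdS V, F_p)`: argue directly with the definition of `NVal`, image of the list).
`(T, Y')` reads `U` : B2 (monotone in the reader), B4, `ltk_nval_comp`, drop `F_p`.   Constants: `N1 = C2 C3^|V|`, `N2 = C2 C4`; take `C = max` of the three.   OWNER open (L-256-INT-MOT-B5), EST 250 lines -/
theorem it_o_core (a : ItPar) (ha : a.Ok) (A1 A2 : ℝ) (hA1 : 1 ≤ A1) (hA2 : 0 ≤ A2) : ∃ C : ℝ, 1 ≤ C ∧ ∀ (T : Tan) (pk : ItPk), pk.Ok →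
    T.Adm0 a pk → ∀ j < pk.M, ∀ (nd : ℕ) (s0 : Fin nd) (β : Type) (H : T.Ω → β) (ι : T.Ω → ℝ) (p s q χ t : ℝ), 0 < p → 0 ≤ χ → p ≤ s - χ →
    s ≤ q → q ≤ 2 * p → q ≤ pk.K →
    ∀ (c : T.St nd → ItPh) (V : List (T.St nd → ItPh)) (G : T.St nd → Prop), (∀ w ∈ c :: V, T.Fld pk j nd p A1 w) →
    (∀ v ∈ V, ∀ x x', (T.Sj pk.RQ pk.M j nd).p x ≠ 0 → (T.Sj pk.RQ pk.M j nd).p x' ≠ 0 → T.Fn p x.1 = T.Fn p x'.1 →
      T.cndH pk.M j pk.K p s0 H x = T.cndH pk.M j pk.K p s0 H x' → |T.dif j pk.K p s0 v x - T.dif j pk.K p s0 v x'| ≤ A2 * msh T.δ q) →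
    (∀ x x', (T.Sj pk.RQ pk.M j nd).p x ≠ 0 → (T.Sj pk.RQ pk.M j nd).p x' ≠ 0 → G x → G x' → T.Fn p x.1 = T.Fn p x'.1 →
      T.cndH pk.M j pk.K p s0 H x = T.cndH pk.M j pk.K p s0 H x' →
      T.δ ^ χ * |ι x.1 - ι x'.1| ≤ |T.dif j pk.K p s0 c x - T.dif j pk.K p s0 c x'| + A2 * msh T.δ s) →
    (T.Sj pk.RQ pk.M j nd).pr (fun x => G x ∧
      (T.Sj pk.RQ pk.M j nd).surC (T.rdS pk.K p s [c]) (T.cndS pk.M j pk.K p q V) x
        < (T.Sj pk.RQ pk.M j nd).surC (fun x => tcell T.δ (s - χ) (ι x.1)) (T.cndH pk.M j pk.K p s0 H) x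
          - (V.length + 3) * Real.log C - 3 * t) ≤ 3 * Real.exp (-t) := by
  obtain ⟨C2, hC2, H2⟩ := it_o_read_F a ha
  obtain ⟨C3, hC3, H3⟩ := it_o_read_V a ha A1 A2 hA1 hA2
  obtain ⟨C4, hC4, H4⟩ := it_o_read_mv a ha A1 A2 hA1 hA2
  refine ⟨max C2 (max C3 C4), hC2.trans (le_max_left _ _), ?_⟩
  intro T pk hpk h0 j hj nd s0 β H ι p s q χ t hp hχ hps hsq hq2 hqK c V G hFld hV hι
  set C := max C2 (max C3 C4) with hCdef
  have hC2C : C2 ≤ C := le_max_left _ _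
  have hC3C : C3 ≤ C := (le_max_left _ _).trans (le_max_right _ _)
  have hC4C : C4 ≤ C := (le_max_right _ _).trans (le_max_right _ _)
  have hpq : p ≤ q := by linarith
  have hpK : p ≤ pk.K := hpq.trans hqK
  set S := T.Sj pk.RQ pk.M j nd with hS
  have r2 := H2 T pk hpk h0 j hj nd s0 β H p hp hpK
  have r3 := H3 T pk hpk h0 j hj nd s0 β H p q hp hpq hq2 hqK V (fun v hv => hFld v (List.mem_cons_of_mem _ hv)) hV
  have r4 := H4 T pk hpk h0 j hj nd s0 β H ι p s χ hp hχ hps (hsq.trans hq2) (hsq.trans hqK) c G (hFld c List.mem_cons_self) hι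
  rw [← hS] at r2 r3 r4
  have hC3p : 1 ≤ C3 ^ V.length := one_le_pow₀ hC3
  -- `Y'` reads `Y`
  have r23 := ltk_nval_comp S (fun _ => True) (T.cndH pk.M j pk.K p s0 H) (fun x => T.Fn p x.1) (T.rdS pk.K p q V)
    (by positivity) r2 r3
  have hY : S.NVal G (T.cndS pk.M j pk.K p q V) (T.cndH pk.M j pk.K p s0 H) (C2 * C3 ^ V.length) := by
    intro x₀
    obtain ⟨L, hL, hmem⟩ := r23 x₀
    refine ⟨L.image fun lf => (lf.1, ((lf.2, (T.Cs (x₀.2 s0), (T.XiE pk.M j x₀.1, T.xin j p x₀.1))), T.aux pk.K nd x₀)), ?_, ?_⟩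
    · have h1 : ((L.image fun lf => (lf.1, ((lf.2, (T.Cs (x₀.2 s0), (T.XiE pk.M j x₀.1, T.xin j p x₀.1))), T.aux pk.K nd x₀))).card : ℝ)
          ≤ (L.card : ℝ) := by exact_mod_cast Finset.card_image_le
      exact h1.trans hL
    · intro x hx _ hA
      rw [Finset.mem_image]
      refine ⟨_, hmem x hx trivial hA, ?_⟩
      have hA' := hA
      simp only [Tan.cndH, Prod.mk.injEq] at hA'
      obtain ⟨e1, e2, e3, e4, -⟩ := hA'
      have e5 : T.Cs x.1 = T.Cs (x₀.2 s0) := by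
        rw [← ((it_o_supp T _ _ _ _ x hx).2 s0).2.1]
        exact h0.side_C _ _ e1
      simp only [Tan.cndS, Tan.baseR, pair, e2, e3, e4, e5]
  -- `(T, Y')` reads `U`
  have r2' : S.NVal G (fun x => T.Fn p x.1) (pair (T.rdS pk.K p s [c]) (T.cndH pk.M j pk.K p s0 H)) C2 :=
    ltk_nval_mono S r2 (fun _ _ => trivial) (fun x x' h => congrArg Prod.snd h) ⟨id, fun _ => rfl⟩ le_rfl
  have r4' : S.NVal G (fun x => tcell T.δ (s - χ) (ι x.1))
      (pair (fun x => T.Fn p x.1) (pair (T.rdS pk.K p s [c]) (T.cndH pk.M j pk.K p s0 H))) C4 :=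
    ltk_nval_mono S r4 (fun _ h => h) (fun x x' h => by
      simp only [pair, Prod.mk.injEq] at h ⊢
      exact ⟨h.2.1, h.1, h.2.2⟩) ⟨id, fun _ => rfl⟩ le_rfl
  have r24 := ltk_nval_comp S G (pair (T.rdS pk.K p s [c]) (T.cndH pk.M j pk.K p s0 H)) (fun x => T.Fn p x.1)
    (fun x => tcell T.δ (s - χ) (ι x.1)) (by linarith) r2' r4'
  have hU : S.NVal G (fun x => tcell T.δ (s - χ) (ι x.1)) (pair (T.rdS pk.K p s [c]) (T.cndH pk.M j pk.K p s0 H)) (C2 * C4) :=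
    ltk_nval_mono S r24 (fun _ h => h) (fun _ _ h => h) ⟨Prod.fst, fun _ => rfl⟩ le_rfl
  have main := ltk_transfer S G (T.rdS pk.K p s [c]) (fun x => tcell T.δ (s - χ) (ι x.1)) (T.cndS pk.M j pk.K p q V)
    (T.cndH pk.M j pk.K p s0 H) (N₁ := C2 * C3 ^ V.length) (N₂ := C2 * C4) (by positivity) (by positivity) hY hU t
  refine (ent_pr_mono S fun x _ hx => ?_).trans main
  refine ⟨hx.1, hx.2.trans_le ?_⟩
  have hC1 : 1 ≤ C := hC2.trans hC2C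
  have l0 : 0 ≤ Real.log C := Real.log_nonneg hC1
  have l2 : Real.log C2 ≤ Real.log C := Real.log_le_log (by linarith) hC2C
  have l3 : Real.log C3 ≤ Real.log C := Real.log_le_log (by linarith) hC3C
  have l4 : Real.log C4 ≤ Real.log C := Real.log_le_log (by linarith) hC4C
  have e1 : Real.log (C2 * C3 ^ V.length) = Real.log C2 + V.length * Real.log C3 := by
    rw [Real.log_mul (by positivity) (by positivity), Real.log_pow]
  have e2 : Real.log (C2 * C4) = Real.log C2 + Real.log C4 := Real.log_mul (by positivity) (by positivity)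
  have l5 : (V.length : ℝ) * Real.log C3 ≤ V.length * Real.log C := mul_le_mul_of_nonneg_left l3 (Nat.cast_nonneg _)
  rw [e1, e2]
  nlinarith

theorem it_o_aux_i1_dot {w v : ItPh} {A c : ℝ} (hw : w.nrm ≤ A) (hv : v.nrm ≤ c) : |itDot w v| ≤ 6 * (A * c) := by
  obtain ⟨n1, n2, n3, n4, n5, n6⟩ := it_k_aux_nrm_le w
  obtain ⟨m1, m2, m3, m4, m5, m6⟩ := it_k_aux_nrm_le v
  have hA : 0 ≤ A := ((abs_nonneg w.X).trans n1).trans hw
  have t1 := it_k_aux_term (n1.trans hw) hA (m1.trans hv)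
  have t2 := it_k_aux_term (n2.trans hw) hA (m2.trans hv)
  have t3 := it_k_aux_term (n3.trans hw) hA (m3.trans hv)
  have t4 := it_k_aux_term (n4.trans hw) hA (m4.trans hv)
  have t5 := it_k_aux_term (n5.trans hw) hA (m5.trans hv)
  have t6 := it_k_aux_term (n6.trans hw) hA (m6.trans hv)
  unfold itDot
  rw [abs_le] at t1 t2 t3 t4 t5 t6 ⊢
  constructor <;> linarith [t1.1, t2.1, t3.1, t4.1, t5.1, t6.1, t1.2, t2.2, t3.2, t4.2, t5.2, t6.2]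

/-- LEAF I1 (instance: one scalar moves, the other is held at depth `y`).   Same `(F_p, cndH)` => same `w x`, same motion vectors (`it_o_same`, `Fld.dep`), same parents `trep p θ`, `trep p r`.   So
`dif w x - dif w x' = (m - m') ⟨w, mot mv⟩ + (o - o') ⟨w, mot !mv⟩`;  the last term is `0`, or `|o - o'| ≤ msh y ≤ msh q` (`it_k_aux_cell_dist`, `ig_msh_anti`) times `6 A1 C` (`it_o_mot_bd`).   OWNER open (L-256-INT-MOT-I1), EST 200 lines -/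
theorem it_o_dif_mov (a : ItPar) (ha : a.Ok) (A1 : ℝ) (hA1 : 1 ≤ A1) : ∃ A2 : ℝ, 0 ≤ A2 ∧ ∀ (T : Tan) (pk : ItPk), pk.Ok → T.Adm0 a pk → ∀ j < pk.M,
    ∀ (nd : ℕ) (s0 : Fin nd) (mv : Bool) (p q y : ℝ), 0 < p → ∀ w : T.St nd → ItPh, T.Fld pk j nd p A1 w →
    (q ≤ y ∨ ∀ x, (T.Sj pk.RQ pk.M j nd).p x ≠ 0 → itDot (w x) (T.mot (!mv) j pk.K p s0 x) = 0) →
    ∀ x x', (T.Sj pk.RQ pk.M j nd).p x ≠ 0 → (T.Sj pk.RQ pk.M j nd).p x' ≠ 0 → T.Fn p x.1 = T.Fn p x'.1 →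
      T.cndH pk.M j pk.K p s0 (T.mvn (!mv) j y) x = T.cndH pk.M j pk.K p s0 (T.mvn (!mv) j y) x' →
      |(T.dif j pk.K p s0 w x - T.dif j pk.K p s0 w x')
        - ((T.mrk j x.1).mv mv - (T.mrk j x'.1).mv mv) * itDot (w x) (T.mot mv j pk.K p s0 x)| ≤ A2 * msh T.δ q := by
  obtain ⟨C, hC1, hC⟩ := it_o_mot_bd a ha
  refine ⟨6 * (A1 * C), by positivity, ?_⟩
  intro T pk hpk h0 j hj nd s0 mv p q y hp w hw hor x x' hx hx' hFn hcnd
  obtain ⟨-, -, hfz, hrest⟩ := it_o_same T a pk h0 j nd s0 (T.mvn (!mv) j y) p x x' hcnd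
  obtain ⟨hpar, -, hmot⟩ := hrest hFn
  have hwx : w x = w x' := hw.dep x x' hpar
  have hth : trep T.δ p (T.mrk j x.1).th = trep T.δ p (T.mrk j x'.1).th := congrArg ItMk.th hfz
  have hr : trep T.δ p (T.mrk j x.1).r = trep T.δ p (T.mrk j x'.1).r := congrArg ItMk.r hfz
  have hH : T.mvn (!mv) j y x.1 = T.mvn (!mv) j y x'.1 := congrArg (fun z => z.2.2.2.2) hcnd
  have hmsh : 0 < msh T.δ q := ig_msh_pos _ _
  -- the exact identity
  have hid : (T.dif j pk.K p s0 w x - T.dif j pk.K p s0 w x')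
        - ((T.mrk j x.1).mv mv - (T.mrk j x'.1).mv mv) * itDot (w x) (T.mot mv j pk.K p s0 x)
      = ((T.mrk j x.1).mv (!mv) - (T.mrk j x'.1).mv (!mv)) * itDot (w x) (T.mot (!mv) j pk.K p s0 x) := by
    unfold Tan.dif
    rw [← hwx, ← hmot true s0, ← hmot false s0, ← hth, ← hr]
    cases mv
    · simp only [ItMk.mv, Bool.not_false, if_true, Bool.false_eq_true, if_false]
      ring
    · simp only [ItMk.mv, Bool.not_true, if_true, Bool.false_eq_true, if_false]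
      ring
  rw [hid]
  rcases hor with hqy | hzero
  · have hd : |(T.mrk j x.1).mv (!mv) - (T.mrk j x'.1).mv (!mv)| ≤ msh T.δ q :=
      (it_k_aux_cell_dist hH).trans (ig_msh_anti T.δ q y h0.δ0 h0.δ1 hqy)
    have hdot : |itDot (w x) (T.mot (!mv) j pk.K p s0 x)| ≤ 6 * (A1 * C) :=
      it_o_aux_i1_dot (hw.bd x hx) (hC T pk hpk h0 j hj nd s0 (!mv) p hp.le x hx)
    rw [abs_mul, mul_comm]
    exact mul_le_mul hdot hd (abs_nonneg _) (by positivity)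
  · rw [hzero x hx, mul_zero, abs_zero]
    positivity

/-- LEAF I2 (instance: general scalar innovation).   `c1 Ξ = ⟨u f Ξ, itvTh quad f (Ξ j) 1⟩` (put `A = 1`), so `c1`, `c2` do not read `𝔨_j` (`KFree`; the motion vectors do not contain `𝔨`): `c1 (T.XiF j p ω) = c1 (T.mkP j p ω)`.
Then unfold `T.dif`, `T.mot`, `T.inn`, `T.fldF` (`T.XiF j p ω j = itFz ..`) and use `h` at `A = legA`.   OWNER open (L-256-INT-MOT-I2), EST 100 lines -/
theorem it_o_dif_gen (T : Tan) (j : ℕ) (K p : ℝ) (nd : ℕ) (s0 : Fin nd) (u : ItSym) (hk : u.KFree j) (e : ℕ) (c1 c2 : (ℕ → ItMk) → ℝ)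
    (h : ∀ f Ξ A, itDot (u f Ξ) (itvTh T.quad f (Ξ j) A) = A ^ e * c1 Ξ ∧ itDot (u f Ξ) (itvR T.quad (Ξ j) A) = A ^ e * c2 Ξ) (x : T.St nd) :
    T.dif j K p s0 (fun x => T.fldF j p u x.1) x = T.legA K s0 x ^ e * T.inn j p c1 c2 x.1 := by
  have hXj : T.XiF j p x.1 j = itFz T.δ p (T.mrk j x.1) := by simp [Tan.XiF]
  have hPj : T.mkP j p x.1 j = ⟨trep T.δ p (T.mrk j x.1).th, trep T.δ p (T.mrk j x.1).r, (T.mrk j x.1).k⟩ := by simp [Tan.mkP]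
  have hu : ∀ f, u f (T.XiF j p x.1) = u f (T.mkP j p x.1) := fun f =>
    hk f _ _ (fun i hi => by simp [Tan.XiF, Tan.mkP, hi]) (by rw [hXj, hPj]; rfl) (by rw [hXj, hPj]; rfl)
  have hc1 : c1 (T.XiF j p x.1) = c1 (T.mkP j p x.1) := by
    have a1 := (h (T.f0 p x.1) (T.XiF j p x.1) 1).1
    have a2 := (h (T.f0 p x.1) (T.mkP j p x.1) 1).1
    rw [one_pow, one_mul] at a1 a2
    rw [← a1, ← a2, hu, hXj, hPj]
    rfl
  have hc2 : c2 (T.XiF j p x.1) = c2 (T.mkP j p x.1) := by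
    have a1 := (h (T.f0 p x.1) (T.XiF j p x.1) 1).2
    have a2 := (h (T.f0 p x.1) (T.mkP j p x.1) 1).2
    rw [one_pow, one_mul] at a1 a2
    rw [← a1, ← a2, hu, hXj, hPj]
    rfl
  have b1 := (h (T.f0 p x.1) (T.XiF j p x.1) (T.legA K s0 x)).1
  have b2 := (h (T.f0 p x.1) (T.XiF j p x.1) (T.legA K s0 x)).2
  rw [hXj] at b1 b2
  show ((T.mrk j x.1).th - trep T.δ p (T.mrk j x.1).th) *
        itDot (u (T.f0 p x.1) (T.XiF j p x.1)) (itvTh T.quad (T.f0 p x.1) (itFz T.δ p (T.mrk j x.1)) (T.legA K s0 x))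
      + ((T.mrk j x.1).r - trep T.δ p (T.mrk j x.1).r) *
        itDot (u (T.f0 p x.1) (T.XiF j p x.1)) (itvR T.quad (itFz T.δ p (T.mrk j x.1)) (T.legA K s0 x))
    = T.legA K s0 x ^ e * (c1 (T.mkP j p x.1) * ((T.mrk j x.1).th - trep T.δ p (T.mrk j x.1).th)
        + c2 (T.mkP j p x.1) * ((T.mrk j x.1).r - trep T.δ p (T.mrk j x.1).r))
  rw [b1, b2, hc1, hc2]
  ring

/-- LEAF I2b.  The innovation is a function of the stored marks `< M` : `c1 Ξ = ⟨u f Ξ, itvTh quad f (Ξ j) 1⟩` and `Reg.dep` (`T.mkP j p ω i`, `i < M`, is a function of `T.Xi M ω`).   PROVED (helper177) -/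
theorem it_o_inn_dep (T : Tan) (M : ℕ) (B0 A0 : ℝ) (j : ℕ) (hj : j < M) (u : ItSym) (hu : u.Reg M B0 A0) (e : ℕ) (c1 c2 : (ℕ → ItMk) → ℝ)
    (h : ∀ f Ξ A, itDot (u f Ξ) (itvTh T.quad f (Ξ j) A) = A ^ e * c1 Ξ ∧ itDot (u f Ξ) (itvR T.quad (Ξ j) A) = A ^ e * c2 Ξ) (p : ℝ)
    (ω ω' : T.Ω) (hX : T.Xi M ω = T.Xi M ω') : T.inn j p c1 c2 ω = T.inn j p c1 c2 ω' := by
  have hm : ∀ i < M, T.mrk i ω = T.mrk i ω' := fun i hi => congrFun hX ⟨i, hi⟩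
  have hmj := hm j hj
  have hP : ∀ i < M, T.mkP j p ω i = T.mkP j p ω' i := by
    intro i hi
    unfold Tan.mkP
    by_cases hij : i = j
    · simp only [hij, if_true, hmj]
    · simp only [hij, if_false, hm i hi]
  have hPj : T.mkP j p ω j = T.mkP j p ω' j := hP j hj
  let f : ItPh := ⟨0, 0, 0, 0, 0, 0⟩
  have hu' : u f (T.mkP j p ω) = u f (T.mkP j p ω') := hu.dep f _ _ hP
  have a1 := (h f (T.mkP j p ω) 1).1
  have a2 := (h f (T.mkP j p ω) 1).2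
  have b1 := (h f (T.mkP j p ω') 1).1
  have b2 := (h f (T.mkP j p ω') 1).2
  rw [one_pow, one_mul] at a1 a2 b1 b2
  have e1 : c1 (T.mkP j p ω) = c1 (T.mkP j p ω') := by rw [← a1, ← b1, hu', hPj]
  have e2 : c2 (T.mkP j p ω) = c2 (T.mkP j p ω') := by rw [← a2, ← b2, hu', hPj]
  unfold Tan.inn
  rw [e1, e2, hmj]

end Claimed.Agent.R256
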