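import Claimed.Agent.R256.Int.MotKit

/-!
# Row 256, Sec. 5, block MOT: (C) INNOVATION and (D) SEPARATION, on the law `S`      (architect helper177; prefix `it_o_`)

05 l.745-783 ((int:motion-independence); "`(Z_{R_s}, Ξ)` has the original marked marginal, so the replicas are conditionally independent there and the stated mark innovation law applies").
 C1 `it_o_indep`    `I(ξ_j ; Ξ_{-j} | Zs) = 0`                      C2 `it_o_rec0`   the innovation clause passes from the record `0` to the record `j`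
 C3 `it_o_aux_mi`, `it_o_aux_mi_sw`   (int:motion-independence), seen from the target / from the draw `s0`
 C4 `it_o_innov_gen` STAGE (C), abstract;  C5 `it_o_innov_mov` movers;  C6 `it_o_cap_drop` capacity            D1 `it_o_sepA`, D2 `it_o_sepAA`   STAGE (D)
RULE: provers edit only the body of their theorem + auxiliary lemmas directly above it (prefix `it_o_aux_`); statements are frozen (defects -> helper177).
-/

set_option autoImplicit false

namespace Claimed.Agent.R256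

open Claimed.Agent.R255
open Claimed.Agent.R255.FLaw (pair)
open scoped BigOperators
open Classical

variable (T : Tan)

/-- copy of `it_r_ci` (Int/RadTan.lean, helper9's block), to keep the two blocks independent -/
theorem it_o_aux_ci (a : ItPar) (pk : ItPk) (h : T.Adm0 a pk) (j : ℕ) (hj : j < pk.M) :
    T.P.CI (T.mrk j) (T.XiE pk.M j) T.Zs := by
  intro u v z
  obtain ⟨π, hπ⟩ : ∃ π, π = T.P.pr (fun ω => T.Zs ω = z) := ⟨_, rfl⟩
  rw [← hπ]
  have hπ0 : 0 ≤ π := hπ ▸ ent_pr_nonneg _ _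
  rcases hπ0.eq_or_lt with h0 | hpos
  · have e1 : T.P.pr (fun ω => T.mrk j ω = u ∧ T.Zs ω = z) = 0 := by
      refine le_antisymm ?_ (ent_pr_nonneg _ _)
      rw [h0, hπ]
      exact ent_pr_mono _ fun ω _ hh => hh.2
    rw [e1, ← h0]; ring
  by_cases hv : v ⟨j, hj⟩ = ⟨0, 0, 0⟩
  swap
  · have hne : ∀ ω, T.XiE pk.M j ω ≠ v := by
      intro ω he
      apply hv
      rw [← he]
      simp [Tan.XiE]
    have z1 : T.P.pr (fun ω => T.mrk j ω = u ∧ T.XiE pk.M j ω = v ∧ T.Zs ω = z) = 0 :=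
      ent_pr_eq_zero T.P fun ω _ hh => hne ω hh.2.1
    have z2 : T.P.pr (fun ω => T.XiE pk.M j ω = v ∧ T.Zs ω = z) = 0 :=
      ent_pr_eq_zero T.P fun ω _ hh => hne ω hh.1
    rw [z1, z2]
    ring
  obtain ⟨m, hm⟩ : ∃ m : Fin pk.M → ItMk → ℝ, m = fun (i : Fin pk.M) y => T.P.pr (fun ω => T.Zs ω = z ∧ T.mrk i ω = y) := ⟨_, rfl⟩
  obtain ⟨C, hC⟩ : ∃ C, C = ∏ i ∈ ({(⟨j, hj⟩ : Fin pk.M)} : Finset (Fin pk.M))ᶜ, m i (v i) := ⟨_, rfl⟩
  have hA : ∀ w, T.P.pr (fun ω => T.mrk j ω = w ∧ T.XiE pk.M j ω = v ∧ T.Zs ω = z) * π ^ pk.M = π * (m ⟨j, hj⟩ w * C) := by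
    intro w
    have hi := h.indep z (Function.update v ⟨j, hj⟩ w)
    rw [← hπ] at hi
    have e1 : T.P.pr (fun ω => T.mrk j ω = w ∧ T.XiE pk.M j ω = v ∧ T.Zs ω = z)
        = T.P.pr (fun ω => T.Zs ω = z ∧ ∀ i : Fin pk.M, T.mrk i ω = Function.update v ⟨j, hj⟩ w i) := by
      refine ent_pr_congr T.P fun ω _ => ?_
      constructor
      · rintro ⟨h1, h2, h3⟩
        refine ⟨h3, fun i => ?_⟩
        by_cases hij : i = ⟨j, hj⟩
        · subst hij
          simpa using h1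
        · rw [Function.update_of_ne hij, ← h2]
          have : (i : ℕ) ≠ j := fun e => hij (Fin.ext e)
          simp [Tan.XiE, this]
      · rintro ⟨h3, h2⟩
        refine ⟨by simpa using h2 ⟨j, hj⟩, ?_, h3⟩
        funext i
        by_cases hij : i = ⟨j, hj⟩
        · subst hij
          rw [hv]
          simp [Tan.XiE]
        · have : (i : ℕ) ≠ j := fun e => hij (Fin.ext e)
          have h4 := h2 i
          rw [Function.update_of_ne hij] at h4
          simp [Tan.XiE, this, h4]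
    rw [e1, hi]
    congr 1
    rw [Fintype.prod_eq_mul_prod_compl (⟨j, hj⟩ : Fin pk.M), hC, hm]
    congr 1
    · simp
    · refine Finset.prod_congr rfl fun i hi' => ?_
      have hij : i ≠ ⟨j, hj⟩ := by simpa using hi'
      rw [Function.update_of_ne hij]
  obtain ⟨S, hS⟩ : ∃ S : Finset ItMk, S = Finset.univ.image (T.mrk j) := ⟨_, rfl⟩
  have hmem : ∀ ω, T.mrk j ω ∈ S := fun ω => hS ▸ Finset.mem_image_of_mem _ (Finset.mem_univ _)
  have hB : T.P.pr (fun ω => T.XiE pk.M j ω = v ∧ T.Zs ω = z) * π ^ pk.M = π * (π * C) := by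
    rw [ent_pr_sum_values T.P _ (T.mrk j) S (fun ω _ _ => hmem ω), Finset.sum_mul]
    have e2 : π = ∑ w ∈ S, m ⟨j, hj⟩ w := by
      rw [hπ, ent_pr_sum_values T.P _ (T.mrk j) S (fun ω _ _ => hmem ω), hm]
    have e3 : ∀ w ∈ S, T.P.pr (fun ω => (T.XiE pk.M j ω = v ∧ T.Zs ω = z) ∧ T.mrk j ω = w) * π ^ pk.M
        = π * (m ⟨j, hj⟩ w * C) := by
      intro w _
      rw [← hA w]
      congr 1
      exact ent_pr_congr T.P fun ω _ => ⟨fun hh => ⟨hh.2, hh.1.1, hh.1.2⟩, fun hh => ⟨⟨hh.2.1, hh.2.2⟩, hh.1⟩⟩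
    rw [Finset.sum_congr rfl e3, ← Finset.mul_sum, ← Finset.sum_mul, ← e2]
  have hpM : π ^ pk.M ≠ 0 := (pow_pos hpos _).ne'
  have e4 : T.P.pr (fun ω => T.mrk j ω = u ∧ T.Zs ω = z) = m ⟨j, hj⟩ u := by
    rw [hm]
    exact ent_pr_congr T.P fun ω _ => ⟨fun hh => ⟨hh.2, hh.1⟩, fun hh => ⟨hh.2, hh.1⟩⟩
  rw [e4]
  apply mul_right_cancel₀ hpM
  have a1 := hA u
  calc T.P.pr (fun ω => T.mrk j ω = u ∧ T.XiE pk.M j ω = v ∧ T.Zs ω = z) * π * π ^ pk.M
      = (T.P.pr (fun ω => T.mrk j ω = u ∧ T.XiE pk.M j ω = v ∧ T.Zs ω = z) * π ^ pk.M) * π := by ring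
    _ = m ⟨j, hj⟩ u * (π * (π * C)) := by rw [a1]; ring
    _ = m ⟨j, hj⟩ u * T.P.pr (fun ω => T.XiE pk.M j ω = v ∧ T.Zs ω = z) * π ^ pk.M := by rw [← hB]; ring

/-- LEAF C1.  `ent_ci_iff` : show `CI (mrk j) (XiE M j) Zs`.  Sum `Adm0.indep` over the values of the records that are not fixed (`ent_pr_sum_values`), or: for fixed `z` of positive mass the conditional law of `Ξ` is the product of its marginals;
`pr(Zs = z, mrk j = x, XiE = e) pr(Zs = z) = pr(Zs = z, mrk j = x) pr(Zs = z, XiE = e)`.   (helper9 proves the same fact in Int/RadKit: whoever is first, the other cites.)   OWNER open (L-256-INT-MOT-C1), EST 250 lines -/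
theorem it_o_indep (a : ItPar) (pk : ItPk) (h0 : T.Adm0 a pk) (j : ℕ) (hj : j < pk.M) :
    T.P.miC (T.mrk j) (T.XiE pk.M j) T.Zs = 0 := by
  exact (ent_ci_iff T.P _ _ _).1 (it_o_aux_ci T a pk h0 j hj)

/-- LEAF C2.  `(Zs, mrk j)` and `(Zs, mrk 0)` have the same law (`Adm0.ident`); `it_o_sur_transfer`.   OWNER open (L-256-INT-MOT-C2), EST 80 lines -/
theorem it_o_rec0 (a : ItPar) (pk : ItPk) (hpk : pk.Ok) (h0 : T.Adm0 a pk) (j : ℕ) (hj : j < pk.M) (mv : Bool) (p s y c0 : ℝ) :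
    T.P.pr (fun ω => T.P.surC (T.mvn mv j s) (pair T.Zs (pair (T.mvn mv j p) (T.mvn (!mv) j y))) ω < c0)
      = T.P.pr (fun ω => T.P.surC (T.mvn mv 0 s) (pair T.Zs (pair (T.mvn mv 0 p) (T.mvn (!mv) 0 y))) ω < c0) := by
  exact it_o_sur_transfer T.P (fun ω => (T.Zs ω, T.mrk j ω)) (fun ω => (T.Zs ω, T.mrk 0 ω)) (fun w => by
      obtain ⟨z, x⟩ := w
      simp only [Prod.mk.injEq]
      exact h0.ident z x j hj 0 (by omega))
    (fun w => tcell T.δ s (w.2.mv mv)) (fun w => (w.1, (tcell T.δ p (w.2.mv mv), tcell T.δ y (w.2.mv (!mv))))) c0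

/-- LEAF C3a = (int:motion-independence).  `lay_star_motion` with `G = T.Bj`, `C = Cs`, `c = fun b => b.2.1`, `X = Xn K`;  `miC (Xn K) (Bj) Cs ≤ miC (Xn K) (pair (Qn RQ j) (Xi M)) Cs` (`ent_miC_mono`); `AdmI.fib`.
OWNER open (L-256-INT-MOT-C3), EST 80 lines -/
theorem it_o_aux_mi (a : ItPar) (pk : ItPk) (acc : ℝ) (hI : T.AdmI a pk acc) (j : ℕ) (hj : j < pk.M) (nd : ℕ) :
    (T.Sj pk.RQ pk.M j nd).miC (fun x => fun s : Fin nd => T.Xn pk.K (x.2 s)) (fun x => x.1) (fun x => T.Cs x.1) ≤ nd * (acc * T.L) := by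
  have h1 := lay_star_motion T.P (T.Bj pk.RQ pk.M j) T.Cs (fun b => b.2.1) (fun y => rfl) (T.Xn pk.K) nd
  have h2 : T.P.miC (T.Xn pk.K) (T.Bj pk.RQ pk.M j) T.Cs ≤ T.P.miC (T.Xn pk.K) (pair (T.Qn pk.RQ j) (T.Xi pk.M)) T.Cs :=
    ent_miC_mono T.P _ _ _ _ fun ω ω' _ _ c d => by
      simp only [pair, Prod.mk.injEq, Tan.Bj, Tan.Dd] at c ⊢
      exact ⟨c.1, d, c.2⟩
  have h3 := hI.fib j hj
  have h4 : (nd : ℝ) * T.P.miC (T.Xn pk.K) (T.Bj pk.RQ pk.M j) T.Cs ≤ nd * (acc * T.L) :=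
    mul_le_mul_of_nonneg_left (h2.trans h3) (Nat.cast_nonneg _)
  exact h1.trans h4

/-- `miC` depends only on the partitions of the support -/
theorem it_o_aux_miC_supp {Ω : Type} [Fintype Ω] (P : FLaw Ω) {α α' β β' γ γ' : Type} (X : Ω → α) (X' : Ω → α')
    (Y : Ω → β) (Y' : Ω → β') (Z : Ω → γ) (Z' : Ω → γ') (hX : ∀ ω ω', P.p ω ≠ 0 → P.p ω' ≠ 0 → (X ω = X ω' ↔ X' ω = X' ω'))
    (hY : ∀ ω ω', P.p ω ≠ 0 → P.p ω' ≠ 0 → (Y ω = Y ω' ↔ Y' ω = Y' ω'))
    (hZ : ∀ ω ω', P.p ω ≠ 0 → P.p ω' ≠ 0 → (Z ω = Z ω' ↔ Z' ω = Z' ω')) :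
    P.miC X Y Z = P.miC X' Y' Z' := by
  unfold FLaw.miC
  rw [ent_congr_ker P (pair X Z) (pair X' Z') fun ω ω' a b => by simp only [FLaw.pair, Prod.mk.injEq, hX ω ω' a b, hZ ω ω' a b],
    ent_congr_ker P (pair Y Z) (pair Y' Z') fun ω ω' a b => by simp only [FLaw.pair, Prod.mk.injEq, hY ω ω' a b, hZ ω ω' a b],
    ent_congr_ker P (pair (pair X Y) Z) (pair (pair X' Y') Z') fun ω ω' a b => by
      simp only [FLaw.pair, Prod.mk.injEq, hX ω ω' a b, hY ω ω' a b, hZ ω ω' a b],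
    ent_congr_ker P Z Z' hZ]

/-- LEAF C3b.  The same seen from the draw `s0` : `S = S.map φ`, `φ` = exchange of `x.1` and `x.2 s0` (`it_o_star_swap`), `ent_map_miC`, then C3a (`ent_miC_comm`; `Cs (x.2 s0) = Cs x.1` on the support: `it_k_aux_miC_congr`).
OWNER open (L-256-INT-MOT-C3), EST 120 lines -/
theorem it_o_aux_mi_sw (a : ItPar) (pk : ItPk) (acc : ℝ) (hI : T.AdmI a pk acc) (j : ℕ) (hj : j < pk.M) (nd : ℕ) (s0 : Fin nd) :
    (T.Sj pk.RQ pk.M j nd).miC (fun x => x.2 s0) (fun x => fun s : Fin nd => T.Xn pk.K (if s = s0 then x.1 else x.2 s)) (fun x => T.Cs x.1)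
      ≤ nd * (acc * T.L) := by
  have h1 := it_o_aux_mi T a pk acc hI j hj nd
  have h2 := ent_map_miC (T.Sj pk.RQ pk.M j nd) (fun x => (x.2 s0, Function.update x.2 s0 x.1))
    (fun x => fun s : Fin nd => T.Xn pk.K (x.2 s)) (fun x => x.1) (fun x => T.Cs x.1)
  have h3 : (T.Sj pk.RQ pk.M j nd).map (fun x => (x.2 s0, Function.update x.2 s0 x.1)) = T.Sj pk.RQ pk.M j nd :=
    it_o_star_swap T.P _ nd s0
  rw [h3] at h2
  rw [h2, ent_miC_comm] at h1
  refine le_trans (le_of_eq ?_) h1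
  refine it_o_aux_miC_supp _ _ _ _ _ _ _ (fun _ _ _ _ => Iff.rfl) (fun x x' _ _ => ?_) (fun x x' hx hx' => ?_)
  · simp only [Function.update_apply]
  · simp only
    rw [((it_o_supp T _ _ _ _ x hx).2 s0).2.1, ((it_o_supp T _ _ _ _ x' hx').2 s0).2.1]

/-- LEAF C4a = STAGE (C), abstract in the tested label `X` and the held label `H` (functions of the stored marks).
1. `ltk_info_tail` on `S` : `Y = (Zs (x.2 s0), (Ξ_{-j}, (ξ_{j,p}, H)))`, `Z = aux`; reshape `cndH` by `ent_surC_congr`.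
2. information `I(X ; aux | Y) ≤ nd acc L` : `it_o_mi_innov` with `m = Xi M x.1`, `E = fun _ => ()`, `Z = Zs (x.2 s0)`, `C = Cs x.1`, `a1 = aux`, `a2 = fun s => Xn K (if s = s0 then x.1 else x.2 s)`, `W = (Ξ_{-j}, ξ_{j,p}, H)`
   (`miC m (const) Z = 0`; drop / adjoin the constant by `ent_miC_mono`, `it_k_aux_miC_congr`);   `(Zs (x.2 s0), Xi M x.1)` is a function of `x.2 s0` on the support (`it_o_supp`; `ent_miC_mono` after `ent_miC_comm`), then C3b.
3. `sur_S(X x.1 | Zs (x.2 s0), (Ξ_{-j}, ξ_{j,p}, H)(x.1)) = sur_P(X | cndP)(x.2 s0)` : the marks `< M` agree on the support (`hX`, `hH`), `ent_surC_congr`, `it_o_draw_sur`.      4. `it_o_draw_pr`, `hinn`, `it_o_bad_cons`.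
OWNER open (L-256-INT-MOT-C4), EST 350 lines -/
theorem it_o_innov_gen (a : ItPar) (pk : ItPk) (hpk : pk.Ok) (acc : ℝ) (h0 : T.Adm0 a pk) (hI : T.AdmI a pk acc) (j : ℕ) (hj : j < pk.M) (nd : ℕ)
    (s0 : Fin nd) {α β : Type} (X : T.Ω → α) (H : T.Ω → β) (hX : ∀ ω ω', T.Xi pk.M ω = T.Xi pk.M ω' → X ω = X ω')
    (hH : ∀ ω ω', T.Xi pk.M ω = T.Xi pk.M ω' → H ω = H ω') (p c0 ε t' : ℝ) (ht' : 0 < t')
    (hinn : T.P.pr (fun ω => T.P.surC X (T.cndP pk.M j p H) ω < c0) ≤ ε) :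
    (T.Sj pk.RQ pk.M j nd).pr (fun x => (T.Sj pk.RQ pk.M j nd).surC (fun x => X x.1) (T.cndH pk.M j pk.K p s0 H) x < c0 - t')
      ≤ ε + (nd * (acc * T.L) + 1) / t' := by
  obtain ⟨S, hS⟩ : ∃ S, S = T.Sj pk.RQ pk.M j nd := ⟨_, rfl⟩
  rw [← hS]
  -- functions of the stored marks
  have hE : ∀ ω ω', T.Xi pk.M ω = T.Xi pk.M ω' → T.XiE pk.M j ω = T.XiE pk.M j ω' := by
    intro ω ω' h
    funext i
    have := congrFun h i
    simp only [Tan.Xi] at this
    simp only [Tan.XiE, this]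
  have hx : ∀ ω ω', T.Xi pk.M ω = T.Xi pk.M ω' → T.xin j p ω = T.xin j p ω' := by
    intro ω ω' h
    have := congrFun h ⟨j, hj⟩
    simp only [Tan.Xi] at this
    simp only [Tan.xin, this]
  -- the marks agree on the support
  have hsup : ∀ x, S.p x ≠ 0 → T.Xi pk.M (x.2 s0) = T.Xi pk.M x.1 ∧ T.Cs (x.2 s0) = T.Cs x.1 := by
    intro x hx'
    rw [hS] at hx'
    have := (it_o_supp T _ _ _ _ x hx').2 s0
    exact ⟨funext fun i => this.2.2.1 i i.2, this.2.1⟩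
  obtain ⟨W, hW⟩ : ∃ W : T.St nd → (Fin pk.M → ItMk) × ((ℤ × ℤ) × β),
      W = fun x => (T.XiE pk.M j x.1, (T.xin j p x.1, H x.1)) := ⟨_, rfl⟩
  obtain ⟨Z, hZ⟩ : ∃ Z : T.St nd → T.ζ, Z = fun x => T.Zs (x.2 s0) := ⟨_, rfl⟩
  -- 1. the tail
  have b1 := ltk_info_tail S (fun x => X x.1) (pair Z W) (T.aux pk.K nd) ht'
  -- 2. the information
  have hmi : S.miC (fun x => X x.1) (T.aux pk.K nd) (pair Z W) ≤ nd * (acc * T.L) := by
    have i1 := it_o_mi_innov S (fun x => T.Xi pk.M x.1) (fun _ => ()) Z (fun x => T.Cs x.1) (T.aux pk.K nd)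
      (fun x => fun s : Fin nd => T.Xn pk.K (if s = s0 then x.1 else x.2 s)) (fun x => X x.1) W
      (fun x x' a b c => by
        rw [hZ] at c
        rw [← (hsup x a).2, ← (hsup x' b).2]
        exact h0.side_C _ _ c)
      (fun x x' a b c d => by
        rw [hZ] at c
        have hF := h0.side_F _ _ c
        simp only [Tan.aux, Prod.mk.injEq]
        refine ⟨by simpa using congrFun d s0, funext fun s => ?_⟩
        by_cases hs : s = s0
        · subst hs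
          simp only [Tan.Xn, hF]
        · simpa [hs] using congrFun d s)
      (fun x x' c => hX _ _ c)
      (fun x x' c => by
        rw [hW]
        simp only [Prod.mk.injEq]
        exact ⟨hE _ _ c, hx _ _ c, hH _ _ c⟩)
    have i2 : S.miC (fun x => X x.1) (T.aux pk.K nd) (pair Z W)
        ≤ S.miC (fun x => X x.1) (pair (T.aux pk.K nd) (fun _ => ())) (pair Z W) :=
      ent_miC_mono S _ _ _ _ fun x x' _ _ c _ => (Prod.ext_iff.1 c).1
    have i3 : S.miC (fun x => T.Xi pk.M x.1) (fun _ => ()) Z = 0 := by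
      refine le_antisymm ?_ (ent_miC_nonneg _ _ _ _)
      refine (ent_miC_le_right S _ _ _).trans (le_of_eq ?_)
      exact ent_entC_eq_zero S _ _ fun _ _ _ _ _ => rfl
    have i4 : S.miC (pair Z (pair (fun x => T.Xi pk.M x.1) (fun _ => ())))
          (fun x => fun s : Fin nd => T.Xn pk.K (if s = s0 then x.1 else x.2 s)) (fun x => T.Cs x.1)
        ≤ S.miC (fun x => x.2 s0) (fun x => fun s : Fin nd => T.Xn pk.K (if s = s0 then x.1 else x.2 s)) (fun x => T.Cs x.1) := by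
      rw [ent_miC_comm S (pair Z _), ent_miC_comm S (fun x => x.2 s0)]
      refine ent_miC_mono S _ _ _ _ fun x x' a b c _ => ?_
      have c' : x.2 s0 = x'.2 s0 := c
      simp only [pair, Prod.mk.injEq, and_true]
      rw [hZ]
      refine ⟨by simp only [c'], ?_⟩
      rw [← (hsup x a).1, ← (hsup x' b).1, c']
    have i5 := it_o_aux_mi_sw T a pk acc hI j hj nd s0
    rw [← hS] at i5
    linarith
  have b1' : (S.miC (fun x => X x.1) (T.aux pk.K nd) (pair Z W) + 1) / t' ≤ (nd * (acc * T.L) + 1) / t' :=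
    div_le_div_of_nonneg_right (by linarith) ht'.le
  -- 3. the surprise without the auxiliary names
  have hsur : ∀ x, S.p x ≠ 0 → S.surC (fun x => X x.1) (pair Z W) x = T.P.surC X (T.cndP pk.M j p H) (x.2 s0) := by
    intro x hx'
    have e1 : S.surC (fun x => X x.1) (pair Z W) x
        = S.surC (fun x => X (x.2 s0)) (fun x => T.cndP pk.M j p H (x.2 s0)) x := by
      have key : ∀ y, S.p y ≠ 0 → pair Z W y = T.cndP pk.M j p H (y.2 s0) := by
        intro y hy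
        have h1 := (hsup y hy).1
        rw [hZ, hW]
        simp only [pair, Tan.cndP, Prod.mk.injEq, true_and]
        exact ⟨(hE _ _ h1).symm, (hx _ _ h1).symm, (hH _ _ h1).symm⟩
      refine ent_surC_congr S _ _ _ _ x (fun y hy => ?_) (fun y hy _ => ?_)
      · rw [key y hy, key x hx']
      · rw [hX _ _ (hsup y hy).1, hX _ _ (hsup x hx').1]
    rw [e1, hS]
    exact it_o_draw_sur T pk.RQ pk.M j nd s0 X (T.cndP pk.M j p H) x
  -- reshape `cndH`
  have hre : ∀ x, S.surC (fun x => X x.1) (T.cndH pk.M j pk.K p s0 H) x = S.surC (fun x => X x.1) (pair (T.aux pk.K nd) (pair Z W)) x := by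
    intro x
    refine ent_surC_congr S _ _ _ _ x (fun y _ => ?_) (fun _ _ _ => Iff.rfl)
    rw [hZ, hW]
    simp only [pair, Tan.cndH, Prod.mk.injEq]
    tauto
  -- 4. assembly
  have b2 : S.pr (fun x => T.P.surC X (T.cndP pk.M j p H) (x.2 s0) < c0) ≤ ε := by
    rw [hS, it_o_draw_pr T pk.RQ pk.M j nd s0 (fun ω => T.P.surC X (T.cndP pk.M j p H) ω < c0)]
    exact hinn
  have b3 := ent_pr_or_le S (fun x => T.P.surC X (T.cndP pk.M j p H) (x.2 s0) < c0)
    (fun x => S.surC (fun x => X x.1) (pair (T.aux pk.K nd) (pair Z W)) x + t' < S.surC (fun x => X x.1) (pair Z W) x)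
  have b4 : S.pr (fun x => S.surC (fun x => X x.1) (T.cndH pk.M j pk.K p s0 H) x < c0 - t')
      ≤ S.pr (fun x => T.P.surC X (T.cndP pk.M j p H) (x.2 s0) < c0 ∨
        S.surC (fun x => X x.1) (pair (T.aux pk.K nd) (pair Z W)) x + t' < S.surC (fun x => X x.1) (pair Z W) x) := by
    refine ent_pr_mono S fun x hx' hb => ?_
    rw [hre x] at hb
    rw [hsur x hx']
    by_cases hc : T.P.surC X (T.cndP pk.M j p H) (x.2 s0) < c0
    · exact Or.inl hc
    · right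
      push Not at hc
      linarith
  linarith

/-- LEAF C4b (on `P`): for a mover the other records are removed and `j` is exchanged with `0`.
`ltk_info_tail` with `X = mvn mv j s`, `Z = Ξ_{-j}`, `Y = (Zs, (ξ_{j,p}, other_y))`;  `I(X ; Ξ_{-j} | Y) ≤ I(mrk j ; Ξ_{-j} | Zs) = 0` (`ent_miC_mono` after `ent_miC_comm`, `lay_mi_prefix`, C1);
`(Zs, ξ_{j,p}, other_y)` and `(Zs, mover_p, other_y)` generate the same partition (`other_p` is a function of `other_y`: `it_k_aux_cell_nest`, `p ≤ y`); C2; `hinn`.   OWNER open (L-256-INT-MOT-C5), EST 250 lines -/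
theorem it_o_innov_mov (a : ItPar) (pk : ItPk) (hpk : pk.Ok) (h0 : T.Adm0 a pk) (j : ℕ) (hj : j < pk.M) (mv : Bool) (p s y c0 ε t' : ℝ)
    (hpy : p ≤ y) (ht' : 0 < t') (hinn : T.Inn mv p s y c0 ε) :
    T.P.pr (fun ω => T.P.surC (T.mvn mv j s) (T.cndP pk.M j p (T.mvn (!mv) j y)) ω < c0 - t') ≤ ε + 1 / t' := by
  -- the information vanishes
  have hmi : T.P.miC (T.mvn mv j s) (T.XiE pk.M j) (pair T.Zs (pair (T.xin j p) (T.mvn (!mv) j y))) = 0 := by
    refine le_antisymm ?_ (ent_miC_nonneg _ _ _ _)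
    have s1 := it_o_aux_mi_mono1 T.P (T.mrk j) (T.mvn mv j s) (T.XiE pk.M j) (pair T.Zs (pair (T.xin j p) (T.mvn (!mv) j y)))
      fun ω ω' _ _ c _ => by
        show tcell T.δ s ((T.mrk j ω).mv mv) = tcell T.δ s ((T.mrk j ω').mv mv)
        rw [c]
    have s2 := lay_mi_prefix T.P (T.mrk j) (T.XiE pk.M j) T.Zs (fun μ : ItMk => (itXi T.δ p μ, tcell T.δ y (μ.mv (!mv))))
    have s3 := it_o_indep T a pk h0 j hj
    rw [s3] at s2
    exact s1.trans s2
  have htail := ltk_info_tail T.P (T.mvn mv j s) (pair T.Zs (pair (T.xin j p) (T.mvn (!mv) j y))) (T.XiE pk.M j) ht'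
  rw [hmi, zero_add] at htail
  have hrec : T.P.pr (fun ω => T.P.surC (T.mvn mv j s) (pair T.Zs (pair (T.mvn mv j p) (T.mvn (!mv) j y))) ω < c0) ≤ ε := by
    rw [it_o_rec0 T a pk hpk h0 j hj mv p s y c0]
    exact hinn
  -- reshaping
  have e1 : ∀ ω, T.P.surC (T.mvn mv j s) (pair (T.XiE pk.M j) (pair T.Zs (pair (T.xin j p) (T.mvn (!mv) j y)))) ω
      = T.P.surC (T.mvn mv j s) (T.cndP pk.M j p (T.mvn (!mv) j y)) ω := fun ω =>
    ent_surC_congr T.P _ _ _ _ ω (fun ω' _ => by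
      simp only [pair, Tan.cndP, Prod.mk.injEq]
      tauto) (fun _ _ _ => Iff.rfl)
  have e2 : ∀ ω, T.P.surC (T.mvn mv j s) (pair T.Zs (pair (T.xin j p) (T.mvn (!mv) j y))) ω
      = T.P.surC (T.mvn mv j s) (pair T.Zs (pair (T.mvn mv j p) (T.mvn (!mv) j y))) ω := fun ω =>
    ent_surC_congr T.P _ _ _ _ ω (fun ω' _ => by
      have hn : T.mvn (!mv) j y ω' = T.mvn (!mv) j y ω → T.mvn (!mv) j p ω' = T.mvn (!mv) j p ω :=
        fun hh => it_k_aux_cell_nest h0.δ0 h0.δ1 hpy hh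
      cases mv
      · simp only [pair, Tan.xin, itXi, Tan.mvn, ItMk.mv, Prod.mk.injEq] at hn ⊢
        simp at hn ⊢
        tauto
      · simp only [pair, Tan.xin, itXi, Tan.mvn, ItMk.mv, Prod.mk.injEq] at hn ⊢
        simp at hn ⊢
        tauto) (fun _ _ _ => Iff.rfl)
  have := it_o_bad_cons T.P (E := fun ω => T.P.surC (T.mvn mv j s) (T.cndP pk.M j p (T.mvn (!mv) j y)) ω < c0 - t') hrec
    (b := 1 / t') (le_trans (ent_pr_mono T.P fun ω _ hE => by
      obtain ⟨h1, h2⟩ := hE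
      rw [e1, e2]
      push Not at h2
      linarith) htail)
  exact this

/-- LEAF C6 (capacity; paper free).  `sur(ι_s | Y) = sur(ι_{s'} | Y) + sur(ι_s | ι_{s'}, Y)` (`ent_surC_chain`; `ι_{s'}` is a function of `ι_s`: `it_k_aux_cell_nest`), and a cell of depth `s'` contains `2^(tlev s - tlev s') ≤ 2 δ^(-(s - s'))`
cells of depth `s` (`ig_cell_nest`, `ig_rel_nonneg`, `ig_ratio_le`): `ltk_tail_on`; `it_k_aux_log_cap`.   OWNER open (L-256-INT-MOT-C6), EST 150 lines -/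
theorem it_o_cap_drop {Ω β : Type} [Fintype Ω] (P : FLaw Ω) (δ : ℝ) (h0 : 0 < δ) (h1 : δ < 1) (ι : Ω → ℝ) (Y : Ω → β) (s' s t : ℝ) (hs : s' ≤ s) :
    P.pr (fun ω => P.surC (fun ω' => tcell δ s' (ι ω')) Y ω
      < P.surC (fun ω' => tcell δ s (ι ω')) Y ω - ((s - s') * lg δ + Real.log 2) - t) ≤ Real.exp (-t) := by
  obtain ⟨A, hA⟩ : ∃ A : Ω → ℤ, A = fun ω' => tcell δ s' (ι ω') := ⟨_, rfl⟩
  obtain ⟨B, hB⟩ : ∃ B : Ω → ℤ, B = fun ω' => tcell δ s (ι ω') := ⟨_, rfl⟩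
  rw [← hA, ← hB]
  obtain ⟨d, hd⟩ : ∃ d : ℕ, d = tlev δ s - tlev δ s' := ⟨_, rfl⟩
  have hN : (0 : ℝ) < 2 * δ ^ (-(s - s')) := mul_pos (by norm_num) (Real.rpow_pos_of_pos h0 _)
  have hcard : (2 : ℝ) ^ d ≤ 2 * δ ^ (-(s - s')) := by
    have := ig_ratio_le δ s' (s - s') h0 h1 (by linarith)
    rw [show s' + (s - s') = s by ring] at this
    rw [hd]
    exact this
  have hnv : P.NVal (fun _ => True) B (pair A Y) (2 * δ ^ (-(s - s'))) := by
    intro ω₀
    refine ⟨(Finset.range (2 ^ d)).image (fun k : ℕ => A ω₀ * 2 ^ d + (k : ℤ)), ?_, ?_⟩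
    · refine le_trans ?_ hcard
      have := Finset.card_image_le (s := Finset.range (2 ^ d)) (f := fun k : ℕ => A ω₀ * 2 ^ d + (k : ℤ))
      rw [Finset.card_range] at this
      exact_mod_cast this
    · intro ω _ _ hAY
      have hAA : A ω = A ω₀ := (Prod.mk.inj hAY).1
      have hr := ig_rel_nonneg δ s' s (ι ω) h0 h1 hs
      rw [← hd] at hr
      have e1 : tcell δ s (ι ω) = B ω := by rw [hB]
      have e2 : tcell δ s' (ι ω) = A ω := by rw [hA]
      rw [e1, e2, hAA] at hr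
      have r1 : (0 : ℤ) ≤ B ω - A ω₀ * 2 ^ d := by exact_mod_cast hr.1
      have r2 : B ω - A ω₀ * 2 ^ d < 2 ^ d := by exact_mod_cast hr.2
      refine Finset.mem_image.2 ⟨(B ω - A ω₀ * 2 ^ d).toNat, Finset.mem_range.2 ?_, ?_⟩
      · zify
        rw [Int.toNat_of_nonneg r1]
        exact r2
      · rw [Int.toNat_of_nonneg r1]
        ring
  have htail := ltk_tail_on P (fun _ => True) B (pair A Y) hN hnv t
  refine le_trans (ent_pr_mono P fun ω hω hE => ?_) htail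
  refine ⟨trivial, ?_⟩
  have hch := ent_surC_chain P A B Y hω
  have hcg : P.surC (pair A B) Y ω = P.surC B Y ω :=
    ent_surC_congr P _ _ _ _ ω (fun _ _ => Iff.rfl) (fun ω' _ _ => by
      simp only [pair, Prod.mk.injEq]
      refine ⟨fun h => h.2, fun h => ⟨?_, h⟩⟩
      rw [hB] at h
      rw [hA]
      exact it_k_aux_cell_nest h0 h1 hs h)
  rw [it_k_aux_log_cap h0 _ _ (by norm_num : (0 : ℝ) < 2)]
  linarith

/-- LEAF D1.  `ltk_sep` on `S` : `E = {|legA| < δ^χ}`, `U = Xn χ x.1`, `V = Xn χ (x.2 s0)`, `Y = Cs x.1`.   On `E` : `|X_F - X_R| < δ^χ + msh K ≤ 4 msh χ`, so `V` lists `U` (at most `11` values).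
`I(U;V|Y) ≤ nd acc L` : C3a + `ent_miC_mono` twice (`Xn χ` is a function of `Xn K`, `χ ≤ K`).   `sur_S(U|Y) = sur_P(Xn χ | Cs)(x.1)` (`it_o_lift_sur`), `AdmI.ang` at `q = χ`.   OWNER open (L-256-INT-MOT-D1), EST 300 lines -/
theorem it_o_sepA (a : ItPar) (pk : ItPk) (hpk : pk.Ok) (acc : ℝ) (h0 : T.Adm0 a pk) (hI : T.AdmI a pk acc) (j : ℕ) (hj : j < pk.M) (nd : ℕ)
    (s0 : Fin nd) (χ t t' : ℝ) (hχ : χ ∈ pk.G) (ht' : 0 < t') (hst : Real.log 11 + t + t' < (a.m * χ - acc) * T.L) :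
    (T.Sj pk.RQ pk.M j nd).pr (fun x => |T.legA pk.K s0 x| < T.δ ^ χ) ≤ Real.exp (-t) + (nd * (acc * T.L) + 1) / t' + acc := by
  have hδ0 := h0.δ0
  have hδ1 := h0.δ1
  obtain ⟨hχ0, hχK⟩ := hpk.2.2.2.2.2.2 χ hχ
  have hm := ig_msh_pos T.δ χ
  have hmK : msh T.δ pk.K ≤ msh T.δ χ := ig_msh_anti T.δ χ pk.K hδ0 hδ1 hχK
  have hδm : T.δ ^ χ ≤ 2 * msh T.δ χ := ig_le_msh T.δ χ hδ0 hδ1 hχ0
  refine ltk_sep (T.Sj pk.RQ pk.M j nd) _ (fun x => T.Xn χ x.1) (fun x => T.Xn χ (x.2 s0)) (fun x => T.Cs x.1)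
    (n := 11) (I := nd * (acc * T.L)) (s := (a.m * χ - acc) * T.L) (τ := acc) (t := t) (t' := t') (by norm_num) ht' ?_ ?_ ?_ hst
  · -- the list
    have hcl : ∀ x : T.St nd, |T.legA pk.K s0 x| < T.δ ^ χ → |(T.F x.1).X - (T.F (x.2 s0)).X| ≤ 4 * msh T.δ χ := by
      intro x hx
      have a1 := it_k_aux_rep_dist T.δ pk.K (T.F x.1).X
      have a2 := it_k_aux_rep_dist T.δ pk.K (T.F (x.2 s0)).X
      unfold Tan.legA at hx
      rw [abs_lt] at hx
      rw [abs_le] at a1 a2 ⊢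
      constructor <;> linarith [hx.1, hx.2, a1.1, a1.2, a2.1, a2.2]
    have h := ltk_nval_close (T.Sj pk.RQ pk.M j nd) (fun x => |T.legA pk.K s0 x| < T.δ ^ χ)
      (pair (fun x => T.Xn χ (x.2 s0)) (fun x => T.Cs x.1)) (fun x => (T.F x.1).X) (tlev T.δ χ) (R := 9 * msh T.δ χ)
      (by positivity) (fun x x' _ _ hE hE' hA => by
        simp only [pair, Prod.mk.injEq] at hA
        have b1 := hcl x hE
        have b2 := hcl x' hE'
        have b3 : |(T.F (x.2 s0)).X - (T.F (x'.2 s0)).X| ≤ msh T.δ χ := it_k_aux_cell_dist hA.1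
        rw [abs_le] at b1 b2 b3 ⊢
        constructor <;> linarith [b1.1, b1.2, b2.1, b2.2, b3.1, b3.2])
    have e : 9 * msh T.δ χ * 2 ^ (tlev T.δ χ) + 2 = 11 := by
      unfold msh
      field_simp
      norm_num
    rw [e] at h
    exact h
  · -- the information
    have c1 := it_o_aux_mi T a pk acc hI j hj nd
    have c2 : (T.Sj pk.RQ pk.M j nd).miC (fun x => T.Xn χ (x.2 s0)) (fun x => T.Xn χ x.1) (fun x => T.Cs x.1)
        ≤ (T.Sj pk.RQ pk.M j nd).miC (fun x => T.Xn χ (x.2 s0)) (fun x => x.1) (fun x => T.Cs x.1) :=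
      ent_miC_mono _ _ _ _ _ fun x x' _ _ c _ => by
        have c' : x.1 = x'.1 := c
        show T.Xn χ x.1 = T.Xn χ x'.1
        rw [c']
    have c3 : (T.Sj pk.RQ pk.M j nd).miC (fun x => x.1) (fun x => T.Xn χ (x.2 s0)) (fun x => T.Cs x.1)
        ≤ (T.Sj pk.RQ pk.M j nd).miC (fun x => x.1) (fun x => fun s : Fin nd => T.Xn pk.K (x.2 s)) (fun x => T.Cs x.1) :=
      ent_miC_mono _ _ _ _ _ fun x x' _ _ c _ => by
        have c' : T.Xn pk.K (x.2 s0) = T.Xn pk.K (x'.2 s0) := congrFun c s0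
        exact it_k_aux_cell_nest hδ0 hδ1 hχK c'
    rw [ent_miC_comm] at c3 c1
    rw [ent_miC_comm]
    linarith
  · -- the surprise
    have d1 : (T.Sj pk.RQ pk.M j nd).pr (fun x => (T.Sj pk.RQ pk.M j nd).surC (fun x => T.Xn χ x.1) (fun x => T.Cs x.1) x
          < (a.m * χ - acc) * T.L)
        = T.P.pr (fun ω => T.P.surC (T.Xn χ) T.Cs ω < (a.m * χ - acc) * T.L) := by
      rw [← it_o_lift_pr T pk.RQ pk.M j nd]
      refine ent_pr_congr _ fun x _ => ?_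
      rw [it_o_lift_sur]
    rw [d1]
    refine le_trans (ent_pr_mono T.P fun ω _ hω => ?_) (hI.ang χ hχ)
    rw [lt_abs]
    right
    linarith

/-- LEAF D2.  `legA s1 - legA s2 = trep K X_{R_2} - trep K X_{R_1}`.   By `it_o_star_swap` (exchange of `x.1` and `x.2 s1`) the event has the probability of `{|legA s2| < δ^χ}`; D1.   OWNER open (L-256-INT-MOT-D2), EST 120 lines -/
theorem it_o_sepAA (a : ItPar) (pk : ItPk) (hpk : pk.Ok) (acc : ℝ) (h0 : T.Adm0 a pk) (hI : T.AdmI a pk acc) (j : ℕ) (hj : j < pk.M) (nd : ℕ)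
    (s1 s2 : Fin nd) (h12 : s1 ≠ s2) (χ t t' : ℝ) (hχ : χ ∈ pk.G) (ht' : 0 < t') (hst : Real.log 11 + t + t' < (a.m * χ - acc) * T.L) :
    (T.Sj pk.RQ pk.M j nd).pr (fun x => |T.legA pk.K s1 x - T.legA pk.K s2 x| < T.δ ^ χ)
      ≤ Real.exp (-t) + (nd * (acc * T.L) + 1) / t' + acc := by
  have h1 := it_o_sepA T a pk hpk acc h0 hI j hj nd s2 χ t t' hχ ht' hst
  have h2 := ent_map_pr (T.Sj pk.RQ pk.M j nd) (fun x => (x.2 s1, Function.update x.2 s1 x.1))
    (fun x => |T.legA pk.K s2 x| < T.δ ^ χ)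
  have h3 : (T.Sj pk.RQ pk.M j nd).map (fun x => (x.2 s1, Function.update x.2 s1 x.1)) = T.Sj pk.RQ pk.M j nd :=
    it_o_star_swap T.P _ nd s1
  rw [h3] at h2
  rw [h2] at h1
  refine le_trans (le_of_eq (ent_pr_congr _ fun x _ => ?_)) h1
  unfold Tan.legA
  simp only
  rw [Function.update_of_ne (Ne.symm h12)]
  have e : trep T.δ pk.K (T.F x.1).X - trep T.δ pk.K (T.F (x.2 s1)).X - (trep T.δ pk.K (T.F x.1).X - trep T.δ pk.K (T.F (x.2 s2)).X)
      = -(trep T.δ pk.K (T.F (x.2 s1)).X - trep T.δ pk.K (T.F (x.2 s2)).X) := by ring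
  rw [e, abs_neg]

end Claimed.Agent.R256
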