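import Claimed.Agent.R256.Int.MotDefs

/-!
# Row 256, Sec. 5, block MOT: PAPER-FREE KIT      (architect helper177; prefix `it_o_`)

Finite probability on `FLaw` (R255/Ent/Basic `ent_*`, R256/LT/Kit `ltk_*`, R256/Lay/Walk `lay_star_*`, R256/Int/Kit `it_k_aux_*`).  No geometry, no paper.
 K1 `it_o_star_swap`   the star law is invariant under the exchange of the target with one draw (ALL coordinates, not only the pair marginal `lay_star_exch`)
 K2 `it_o_mi_fun`      record removal: functions of `(A, g B)` carry at most `I(A ; B | C)` about `B` once `g B` is held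
 K3 `it_o_mi_innov`    information bound behind the innovation step
 K4 `it_o_sur_transfer` surprises of two observations with the same law have the same distribution
 K5 `it_o_nval_list`, `it_o_nval_F`   metric readings of tuples
 K6 `it_o_pr_union`    union bound over a list of bad events
RULE: provers edit only the body of their theorem + auxiliary lemmas directly above it (prefix `it_o_aux_`); statements are frozen (defects -> helper177).
-/

set_option autoImplicit false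

namespace Claimed.Agent.R256

open Claimed.Agent.R255
open Claimed.Agent.R255.FLaw (pair)
open scoped BigOperators
open Classical

/-- first marginal of the star law -/
theorem it_o_star_fst {Ω γ : Type} [Fintype Ω] (R : FLaw Ω) (G : Ω → γ) (M : ℕ) : (R.star G M).map Prod.fst = R := by
  rw [lay_star_eq_ext]
  exact ent_ext_map_fst R _

/-- every draw has the original law -/
theorem it_o_star_snd {Ω γ : Type} [Fintype Ω] (R : FLaw Ω) (G : Ω → γ) (M : ℕ) (s : Fin M) :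
    (R.star G M).map (fun x => x.2 s) = R := by
  have h := congrArg (fun Q : FLaw (Ω × Ω) => Q.map Prod.fst) (lay_star_exch R G M s)
  simp only [lay_wk_map_map] at h
  exact h.trans (it_o_star_fst R G M)

/-- the symmetric two-point weight of the star law -/
theorem it_o_aux_star_two {Ω γ : Type} [Fintype Ω] (R : FLaw Ω) (G : Ω → γ) (a b : Ω) :
    R.p a * (R.isoPm.cond G (G a)).w b = if G b = G a then R.p a * R.p b / R.isoPm.pr G (G a) else 0 := by
  by_cases ha : R.p a = 0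
  · rw [ha]
    simp
  · rw [RW.en_cp_cond_w R.isoPm G (G a) (RW.en_cp_pr_ne_zero R.isoPm G a ha)]
    by_cases h : G b = G a
    · rw [if_pos h, if_pos h]
      show R.p a * (R.p b / _) = _
      ring
    · rw [if_neg h, if_neg h, mul_zero]

/-- LEAF K1.  `S.p (ω, b) = R.p ω ∏_s R.p (b s) / pr(G = G ω)^M` if all `G (b s) = G ω`, else `0` (`iso_star_p_eq`, `RW.en_cp_cond_w`): symmetric in the `M + 1` points.
The map is an involution, so `(S.map φ).p y = S.p (φ y)`.   OWNER open (L-256-INT-MOT-K1), EST 150 lines -/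
theorem it_o_star_swap {Ω γ : Type} [Fintype Ω] (R : FLaw Ω) (G : Ω → γ) (M : ℕ) (s : Fin M) :
    (R.star G M).map (fun x => (x.2 s, Function.update x.2 s x.1)) = R.star G M := by
  refine ent_law_ext _ _ fun y => ?_
  have hinv : ∀ x : Ω × (Fin M → Ω), ((x.2 s, Function.update x.2 s x.1) = y ↔ x = (y.2 s, Function.update y.2 s y.1)) := by
    intro x
    constructor
    · rintro rfl
      ext1
      · simp
      · simp
    · rintro rfl
      ext1
      · simp
      · simp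
  have h1 : ((R.star G M).map (fun x => (x.2 s, Function.update x.2 s x.1))).p y
      = (R.star G M).p (y.2 s, Function.update y.2 s y.1) := by
    show (R.star G M).pr (fun x => (x.2 s, Function.update x.2 s x.1) = y) = _
    unfold FLaw.pr
    simp only [hinv]
    rw [Finset.sum_ite_eq' Finset.univ]
    simp
  rw [h1, iso_star_p_eq, iso_star_p_eq]
  obtain ⟨a, f⟩ := y
  simp only
  rw [← Finset.mul_prod_erase Finset.univ _ (Finset.mem_univ s), ← Finset.mul_prod_erase Finset.univ _ (Finset.mem_univ s),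
    Function.update_self, ← mul_assoc, ← mul_assoc, it_o_aux_star_two, it_o_aux_star_two]
  by_cases h : G (f s) = G a
  · rw [if_pos h, if_pos h.symm, h]
    congr 1
    · ring
    · refine Finset.prod_congr rfl fun i hi => ?_
      rw [Function.update_of_ne (Finset.ne_of_mem_erase hi)]
  · rw [if_neg h, if_neg (fun h' => h h'.symm), zero_mul, zero_mul]

/-- conditioning on one more function of `(B, C)` does not increase `I(A ; B | C)` -/
theorem it_o_aux_mi_cond {Ω α β γ δ : Type} [Fintype Ω] (P : FLaw Ω) (A : Ω → α) (B : Ω → β) (C : Ω → γ) (W : Ω → δ)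
    (hW : ∀ ω ω', P.p ω ≠ 0 → P.p ω' ≠ 0 → B ω = B ω' → C ω = C ω' → W ω = W ω') :
    P.miC A B (pair C W) ≤ P.miC A B C := by
  have h1 := ent_miC_chain P A B W C
  have h2 := ent_miC_mono P A B (pair B W) C fun ω ω' a b c d => by
    simp only [pair, Prod.mk.injEq]
    exact ⟨c, hW ω ω' a b c d⟩
  have h3 := ent_miC_nonneg P A W C
  have h4 : P.miC A B (pair C W) = P.miC A B (pair W C) :=
    it_k_aux_miC_congr P _ _ _ _ _ _ (fun _ _ => Iff.rfl) (fun _ _ => Iff.rfl) fun ω ω' => by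
      simp only [pair, Prod.mk.injEq]
      exact and_comm
  linarith

/-- monotonicity in the first slot -/
theorem it_o_aux_mi_mono1 {Ω α α' β γ : Type} [Fintype Ω] (P : FLaw Ω) (A : Ω → α) (A' : Ω → α') (B : Ω → β) (C : Ω → γ)
    (h : ∀ ω ω', P.p ω ≠ 0 → P.p ω' ≠ 0 → A ω = A ω' → C ω = C ω' → A' ω = A' ω') :
    P.miC A' B C ≤ P.miC A B C := by
  rw [ent_miC_comm P A' B C, ent_miC_comm P A B C]
  exact ent_miC_mono P B A A' C h

/-- moving a held variable into the first slot -/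
theorem it_o_aux_mi_absorb {Ω α β γ δ : Type} [Fintype Ω] (P : FLaw Ω) (X : Ω → α) (B : Ω → β) (Y : Ω → δ) (Z : Ω → γ) :
    P.miC X B (pair Y Z) ≤ P.miC (pair X Y) B Z := by
  have h1 := ent_miC_chain P B X Y Z
  have h2 := ent_miC_nonneg P B Y Z
  rw [ent_miC_comm P X B (pair Y Z), ent_miC_comm P (pair X Y) B Z]
  linarith

/-- LEAF K2 (record removal).  `I(X ; B | Y, C, W) ≤ I((X, Y) ; B | C, W) ≤ I(A ; B | C, W) ≤ I(A ; B | C)`:
`ent_miC_chain` + `ent_miC_nonneg`, `ent_miC_mono` (after `ent_miC_comm`), `lay_mi_prefix` (with the roles of `A`, `B` exchanged; `it_k_aux_factor` turns `hW` into a function).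
OWNER open (L-256-INT-MOT-K2), EST 120 lines -/
theorem it_o_mi_fun {Ω α β γ δ α' β' : Type} [Fintype Ω] (P : FLaw Ω) (A : Ω → α) (B : Ω → β) (C : Ω → γ) (W : Ω → δ)
    (X : Ω → α') (Y : Ω → β') (hW : ∀ ω ω', B ω = B ω' → W ω = W ω')
    (hX : ∀ ω ω', A ω = A ω' → W ω = W ω' → X ω = X ω') (hY : ∀ ω ω', A ω = A ω' → W ω = W ω' → Y ω = Y ω') :
    P.miC X B (pair Y (pair C W)) ≤ P.miC A B C := by
  have s1 := it_o_aux_mi_absorb P X B Y (pair C W)
  have s2 := it_o_aux_mi_mono1 P A (pair X Y) B (pair C W) fun ω ω' _ _ c d => by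
    simp only [pair, Prod.mk.injEq] at d ⊢
    exact ⟨hX ω ω' c d.2, hY ω ω' c d.2⟩
  have s3 := it_o_aux_mi_cond P A B C W fun ω ω' _ _ c _ => hW ω ω' c
  linarith

/-- LEAF K3 (information bound of the innovation step).  `m` = moving record, `E` = the other records, `Z` = side of the draw, `C` = root (a function of `Z`),
`X`, `W` functions of `m`;  `a1` = auxiliary names, a function of `(Z, a2)`.
`I(X;(a1,E)|Z,W) ≤ I(m;(a1,E)|Z,W) ≤ I(m;(a1,E)|Z) ≤ I(m;(a2,E)|Z) = I(m;E|Z) + I(m;a2|E,Z)`,  `I(m;a2|E,Z) ≤ I((m,E);a2|Z) ≤ I((Z,(m,E));a2|C)`.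
OWNER open (L-256-INT-MOT-K3), EST 200 lines -/
theorem it_o_mi_innov {Ω α β γ κ δ δ' α' β' : Type} [Fintype Ω] (P : FLaw Ω) (m : Ω → α) (E : Ω → β) (Z : Ω → γ) (C : Ω → κ)
    (a1 : Ω → δ) (a2 : Ω → δ') (X : Ω → α') (W : Ω → β')
    (hC : ∀ ω ω', P.p ω ≠ 0 → P.p ω' ≠ 0 → Z ω = Z ω' → C ω = C ω')
    (ha : ∀ ω ω', P.p ω ≠ 0 → P.p ω' ≠ 0 → Z ω = Z ω' → a2 ω = a2 ω' → a1 ω = a1 ω')
    (hX : ∀ ω ω', m ω = m ω' → X ω = X ω') (hW : ∀ ω ω', m ω = m ω' → W ω = W ω') :
    P.miC X (pair a1 E) (pair Z W) ≤ P.miC m E Z + P.miC (pair Z (pair m E)) a2 C := by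
  have s1 := it_o_aux_mi_mono1 P m X (pair a1 E) (pair Z W) fun ω ω' _ _ c _ => hX ω ω' c
  have s2 : P.miC m (pair a1 E) (pair Z W) ≤ P.miC m (pair a1 E) Z := by
    rw [ent_miC_comm P m (pair a1 E) (pair Z W), ent_miC_comm P m (pair a1 E) Z]
    exact it_o_aux_mi_cond P (pair a1 E) m Z W fun ω ω' _ _ c _ => hW ω ω' c
  have s3 := ent_miC_mono P m (pair a2 E) (pair a1 E) Z fun ω ω' a b c d => by
    simp only [pair, Prod.mk.injEq] at c ⊢
    exact ⟨ha ω ω' a b d c.1, c.2⟩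
  have s4 := ent_miC_chain P m a2 E Z
  have s5 := it_o_aux_mi_absorb P m a2 E Z
  -- `I((m,E);a2|Z) ≤ I((Z,(m,E));a2|C)`
  have s6 : P.miC (pair m E) a2 Z ≤ P.miC (pair Z (pair m E)) a2 C := by
    have t1 := it_o_aux_mi_absorb P (pair m E) a2 Z C
    have t2 : P.miC (pair m E) a2 Z = P.miC (pair m E) a2 (pair Z C) := by
      unfold FLaw.miC
      have e : ∀ {τ : Type} (U : Ω → τ), P.ent (pair U Z) = P.ent (pair U (pair Z C)) := by
        intro τ U
        refine ent_congr_ker P _ _ fun ω ω' a b => ?_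
        simp only [pair, Prod.mk.injEq]
        exact ⟨fun h => ⟨h.1, h.2, hC ω ω' a b h.2⟩, fun h => ⟨h.1, h.2.1⟩⟩
      have e' : P.ent Z = P.ent (pair Z C) := by
        refine ent_congr_ker P _ _ fun ω ω' a b => ?_
        simp only [pair, Prod.mk.injEq]
        exact ⟨fun h => ⟨h, hC ω ω' a b h⟩, fun h => h.1⟩
      rw [e, e, e, e']
    have t3 : P.miC (pair (pair m E) Z) a2 C = P.miC (pair Z (pair m E)) a2 C :=
      it_k_aux_miC_congr P _ _ _ _ _ _ (fun ω ω' => by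
        simp only [pair, Prod.mk.injEq]
        exact and_comm) (fun _ _ => Iff.rfl) (fun _ _ => Iff.rfl)
    linarith
  linarith

/-- LEAF K4.  `surC (g ∘ W) (g' ∘ W) ω = σ (W ω)` with `σ w = - log (pr(g W = g w, g' W = g' w) / pr(g' W = g' w))`; the same `σ` for `W'` (`it_k_aux_pr_transfer`), then `it_k_aux_pr_transfer` once more.
OWNER open (L-256-INT-MOT-K4), EST 80 lines -/
theorem it_o_sur_transfer {Ω α β γ : Type} [Fintype Ω] (P : FLaw Ω) (W W' : Ω → α)
    (hW : ∀ w, P.pr (fun ω => W ω = w) = P.pr (fun ω => W' ω = w)) (g : α → β) (g' : α → γ) (c : ℝ) :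
    P.pr (fun ω => P.surC (fun ω' => g (W ω')) (fun ω' => g' (W ω')) ω < c)
      = P.pr (fun ω => P.surC (fun ω' => g (W' ω')) (fun ω' => g' (W' ω')) ω < c) := by
  have h1 : ∀ ω, P.surC (fun ω' => g (W' ω')) (fun ω' => g' (W' ω')) ω
      = - Real.log (P.pr (fun ω' => (g (W ω'), g' (W ω')) = (g (W' ω), g' (W' ω))) / P.pr (fun ω' => g' (W ω') = g' (W' ω))) := by
    intro ω
    rw [it_k_aux_pr_transfer P W W' hW (fun w => (g w, g' w) = (g (W' ω), g' (W' ω))),
      it_k_aux_pr_transfer P W W' hW (fun w => g' w = g' (W' ω))]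
    rfl
  simp only [h1]
  exact it_k_aux_pr_transfer P W W' hW (fun w => - Real.log (P.pr (fun ω' => (g (W ω'), g' (W ω')) = (g w, g' w))
    / P.pr (fun ω' => g' (W ω') = g' w)) < c)

/-- LEAF K5a.  Metric reading of a tuple: induction on the list as in `it_k_aux_lin_nval` (`ltk_nval_close` with `n = tlev δ q`, `msh δ q * 2 ^ tlev δ q = 1`; `ltk_nval_comp`, `ltk_nval_mono`).
OWNER open (L-256-INT-MOT-K5), EST 90 lines -/
theorem it_o_nval_list {Ω α ι : Type} [Fintype Ω] (P : FLaw Ω) (G : Ω → Prop) (A : Ω → α) (δ q N : ℝ) (hN : 0 ≤ N) (L : List ι)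
    (val : ι → Ω → ℝ)
    (h : ∀ i ∈ L, ∀ ω ω', P.p ω ≠ 0 → P.p ω' ≠ 0 → G ω → G ω' → A ω = A ω' → |val i ω - val i ω'| ≤ N * msh δ q) :
    P.NVal G (fun ω => L.map fun i => tcell δ q (val i ω)) A ((N + 2) ^ L.length) := by
  have hpos : (0 : ℝ) ≤ N + 2 := by linarith
  have hm := ig_msh_pos δ q
  induction L with
  | nil =>
    intro ω₀
    exact ⟨{[]}, by simp, fun ω _ _ _ => by simp⟩
  | cons i L ih =>
    have h1 := ih fun v hv => h v (List.mem_cons_of_mem _ hv)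
    have h2 := ltk_nval_close P G A (val i) (tlev δ q) (R := N * msh δ q) (mul_nonneg hN hm.le) (h i List.mem_cons_self)
    have e : N * msh δ q * 2 ^ (tlev δ q) + 2 = N + 2 := by
      unfold msh
      field_simp
    rw [e] at h2
    have h3 : P.NVal G (fun ω => tcell δ q (val i ω)) (pair (fun ω => L.map fun i => tcell δ q (val i ω)) A) (N + 2) :=
      ltk_nval_mono P h2 (fun _ h => h) (fun ω ω' h => (Prod.ext_iff.1 h).2) ⟨id, fun _ => rfl⟩ le_rfl
    have h4 := ltk_nval_comp P G _ _ _ hpos h1 h3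
    refine ltk_nval_mono P h4 (fun _ h => h) (fun _ _ h => h) ⟨fun x => x.1 :: x.2, fun ω => ?_⟩ ?_
    · simp [FLaw.pair]
    · rw [List.length_cons, pow_succ]

/-- LEAF K5b.  Metric reading of a phase name (`it_o_nval_list` for the six coordinates + `ltk_nval_mono`).   OWNER open (L-256-INT-MOT-K5), EST 60 lines -/
theorem it_o_nval_F {Ω α : Type} [Fintype Ω] (P : FLaw Ω) (G : Ω → Prop) (A : Ω → α) (δ q N : ℝ) (hN : 0 ≤ N) (f : Ω → ItPh)
    (h : ∀ ω ω', P.p ω ≠ 0 → P.p ω' ≠ 0 → G ω → G ω' → A ω = A ω' → ((f ω).sub (f ω')).nrm ≤ N * msh δ q) :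
    P.NVal G (fun ω => itF δ q (f ω)) A ((N + 2) ^ 6) := by
  have h1 := it_o_nval_list P G A δ q N hN [0, 1, 2, 3, 4, 5]
    (fun (i : ℕ) ω => if i = 0 then (f ω).X else if i = 1 then (f ω).B else if i = 2 then (f ω).P else if i = 3 then (f ω).Y
      else if i = 4 then (f ω).N else (f ω).D) (fun i hi ω ω' a b c d e => by
      have hh := h ω ω' a b c d e
      unfold ItPh.nrm ItPh.sub at hh
      simp only [max_le_iff] at hh
      obtain ⟨⟨⟨x1, x2⟩, x3, x4⟩, x5, x6⟩ := hh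
      simp only [List.mem_cons, List.not_mem_nil, or_false] at hi
      rcases hi with rfl | rfl | rfl | rfl | rfl | rfl <;> simpa)
  refine ltk_nval_mono P h1 (fun _ h => h) (fun _ _ h => h)
    ⟨fun l => ((l.getD 0 0, l.getD 1 0, l.getD 2 0), (l.getD 3 0, l.getD 4 0, l.getD 5 0)), fun ω => ?_⟩ ?_
  · simp [itF]
  · simp

/-- K6. union bound over a list of bad events -/
theorem it_o_pr_union {Ω : Type} [Fintype Ω] (P : FLaw Ω) (E : Ω → Prop) (Es : List (Ω → Prop))
    (h : ∀ ω, P.p ω ≠ 0 → E ω → ∃ e ∈ Es, e ω) : P.pr E ≤ (Es.map P.pr).sum := by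
  induction Es generalizing E with
  | nil =>
    have : P.pr E = 0 := ent_pr_eq_zero P fun ω hω hE => by
      obtain ⟨e, he, -⟩ := h ω hω hE
      simp at he
    simp [this]
  | cons e Es ih =>
    have h1 : P.pr E ≤ P.pr (fun ω => e ω ∨ (E ω ∧ ¬ e ω)) := ent_pr_mono P fun ω _ hE => by
      by_cases he : e ω
      · exact Or.inl he
      · exact Or.inr ⟨hE, he⟩
    have h2 := ent_pr_or_le P e (fun ω => E ω ∧ ¬ e ω)
    have h3 := ih (fun ω => E ω ∧ ¬ e ω) fun ω hω hE => by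
      obtain ⟨e', he', hh⟩ := h ω hω hE.1
      rcases List.mem_cons.1 he' with rfl | he'
      · exact absurd hh hE.2
      · exact ⟨e', he', hh⟩
    simp only [List.map_cons, List.sum_cons]
    linarith

/-- union bound, one bad event at a time: `refine (it_o_bad_cons S b1 (it_o_bad_cons S b2 (it_o_bad_nil S fun x hx hE => ?_))).trans ?_` -/
theorem it_o_bad_cons {Ω : Type} [Fintype Ω] (P : FLaw Ω) {E E1 : Ω → Prop} {b1 b : ℝ} (h1 : P.pr E1 ≤ b1)
    (h : P.pr (fun ω => E ω ∧ ¬ E1 ω) ≤ b) : P.pr E ≤ b1 + b := by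
  have h2 : P.pr E ≤ P.pr (fun ω => E1 ω ∨ (E ω ∧ ¬ E1 ω)) := ent_pr_mono P fun ω _ hE => by
    by_cases he : E1 ω
    · exact Or.inl he
    · exact Or.inr ⟨hE, he⟩
  have h3 := ent_pr_or_le P E1 (fun ω => E ω ∧ ¬ E1 ω)
  linarith

theorem it_o_bad_nil {Ω : Type} [Fintype Ω] (P : FLaw Ω) {E : Ω → Prop} (h : ∀ ω, P.p ω ≠ 0 → E ω → False) : P.pr E ≤ 0 :=
  le_of_eq (ent_pr_eq_zero P h)

/-! ## the law `S` of a tangent datum -/

variable (T : Tan)

theorem it_o_lift_pr (RQ : ℝ) (M j nd : ℕ) (E : T.Ω → Prop) : (T.Sj RQ M j nd).pr (fun x => E x.1) = T.P.pr E := by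
  have h := ent_map_pr (T.Sj RQ M j nd) Prod.fst E
  rw [Tan.Sj, it_o_star_fst] at h
  exact h.symm

theorem it_o_lift_sur {α β : Type} (RQ : ℝ) (M j nd : ℕ) (X : T.Ω → α) (Y : T.Ω → β) (x : T.St nd) :
    (T.Sj RQ M j nd).surC (fun x => X x.1) (fun x => Y x.1) x = T.P.surC X Y x.1 := by
  have h := ent_map_surC (T.Sj RQ M j nd) Prod.fst X Y x
  rw [Tan.Sj, it_o_star_fst] at h
  exact h.symm

theorem it_o_lift_miC {α β γ : Type} (RQ : ℝ) (M j nd : ℕ) (X : T.Ω → α) (Y : T.Ω → β) (Z : T.Ω → γ) :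
    (T.Sj RQ M j nd).miC (fun x => X x.1) (fun x => Y x.1) (fun x => Z x.1) = T.P.miC X Y Z := by
  have h := ent_map_miC (T.Sj RQ M j nd) Prod.fst X Y Z
  rw [Tan.Sj, it_o_star_fst] at h
  exact h.symm

theorem it_o_draw_pr (RQ : ℝ) (M j nd : ℕ) (s : Fin nd) (E : T.Ω → Prop) : (T.Sj RQ M j nd).pr (fun x => E (x.2 s)) = T.P.pr E := by
  have h := ent_map_pr (T.Sj RQ M j nd) (fun x => x.2 s) E
  rw [Tan.Sj, it_o_star_snd] at h
  exact h.symm

theorem it_o_draw_sur {α β : Type} (RQ : ℝ) (M j nd : ℕ) (s : Fin nd) (X : T.Ω → α) (Y : T.Ω → β) (x : T.St nd) :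
    (T.Sj RQ M j nd).surC (fun x => X (x.2 s)) (fun x => Y (x.2 s)) x = T.P.surC X Y (x.2 s) := by
  have h := ent_map_surC (T.Sj RQ M j nd) (fun x => x.2 s) X Y x
  rw [Tan.Sj, it_o_star_snd] at h
  exact h.symm

theorem it_o_draw_miC {α β γ : Type} (RQ : ℝ) (M j nd : ℕ) (s : Fin nd) (X : T.Ω → α) (Y : T.Ω → β) (Z : T.Ω → γ) :
    (T.Sj RQ M j nd).miC (fun x => X (x.2 s)) (fun x => Y (x.2 s)) (fun x => Z (x.2 s)) = T.P.miC X Y Z := by
  have h := ent_map_miC (T.Sj RQ M j nd) (fun x => x.2 s) X Y Z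
  rw [Tan.Sj, it_o_star_snd] at h
  exact h.symm

/-- the support of `S` -/
theorem it_o_supp (RQ : ℝ) (M j nd : ℕ) (x : T.St nd) (hx : (T.Sj RQ M j nd).p x ≠ 0) :
    T.P.p x.1 ≠ 0 ∧ ∀ s, T.P.p (x.2 s) ≠ 0 ∧ T.Cs (x.2 s) = T.Cs x.1 ∧ (∀ i < M, T.mrk i (x.2 s) = T.mrk i x.1) ∧
      T.Qn RQ j (x.2 s) = T.Qn RQ j x.1 := by
  have h := iso_star_supp T.P (T.Bj RQ M j) nd x (lt_of_le_of_ne ((T.Sj RQ M j nd).nonneg x) (Ne.symm hx))
  refine ⟨h.1.ne', fun s => ?_⟩
  obtain ⟨h1, h2⟩ := h.2 s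
  simp only [Tan.Bj, FLaw.pair, Tan.Dd, Prod.mk.injEq] at h2
  exact ⟨h1.ne', h2.2.1, fun i hi => congrFun h2.2.2 ⟨i, hi⟩, h2.1⟩

end Claimed.Agent.R256
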