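import Claimed.Agent.R256.Int.MotTwo

/-!
# Row 256, Sec. 5, block MOT: from one datum to the quantifier pattern `ItLayer`      (architect helper177; prefix `it_o_`)

 `it_o_book`        bookkeeping of the accuracy: every smallness condition has the form `Kc ≤ c1 L`, `acc ≤ θ`, `exp (-(c1 L)) ≤ θ`, `(acc L + 1) / (c1 L) ≤ θ`
 `ItInn`            PATTERN of an innovation clause of the marks (record `0`) on short layers, at finitely many tested depths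
 `it_o_inn_time`, `it_o_inn_mixt`, `it_o_inn_mixr`    the clauses of `AdmM` in this pattern
 `it_o_g_pass`      the separation of the coefficient `g` passes to the frozen marks
 `it_o_layer_mov`   one-draw test with a mover, in the pattern           `it_o_layer_two`  two-draw test           `it_o_layer_gen`  general innovation
CONSTANTS used in all three wrappers, on the layer `(p, q)` with mesh `n` and tolerance `η` :   `Δ = (q - p) / n`,  `χ = itChi p q n η = η Δ / 4`,  `χA = χ / 8`,  `χg = 5 χ / 4`,  `c1 = m η Δ / 256`,  `t = t' = c1 L`.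
RULE: provers edit only the body of their theorem + auxiliary lemmas directly above it (prefix `it_o_aux_`); statements are frozen (defects -> helper177).
-/

set_option autoImplicit false

namespace Claimed.Agent.R256

open Claimed.Agent.R255
open Claimed.Agent.R255.FLaw (pair)
open scoped BigOperators
open Classical

/-- LEAF L0 (pure reals).  `acc0 = min (θ c1 / 2) (min θ (exp (-(max Kc (max (log (1/θ)) (max (2/θ) 1)) / c1))))`.   Then `c1 L ≥ max ..`, `exp (-(c1 L)) ≤ θ`, `(acc L + 1)/(c1 L) = acc / c1 + 1 / (c1 L) ≤ θ/2 + θ/2`.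
OWNER open (L-256-INT-MOT-L0), EST 100 lines -/
theorem it_o_book (c1 θ Kc : ℝ) (hc1 : 0 < c1) (hθ : 0 < θ) : ∃ acc0 : ℝ, 0 < acc0 ∧ ∀ acc L : ℝ, 0 < acc → acc ≤ acc0 → Real.log (1 / acc) ≤ L →
    0 < L ∧ Kc ≤ c1 * L ∧ acc ≤ θ ∧ Real.exp (-(c1 * L)) ≤ θ ∧ (acc * L + 1) / (c1 * L) ≤ θ := by
  obtain ⟨m, hm⟩ : ∃ m : ℝ, m = max Kc (max (Real.log (1 / θ)) (max (2 / θ) 1)) := ⟨_, rfl⟩
  have m1 : Kc ≤ m := hm ▸ le_max_left _ _
  have m2 : Real.log (1 / θ) ≤ m := hm ▸ le_max_of_le_right (le_max_left _ _)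
  have m3 : 2 / θ ≤ m := hm ▸ le_max_of_le_right (le_max_of_le_right (le_max_left _ _))
  have m4 : 1 ≤ m := hm ▸ le_max_of_le_right (le_max_of_le_right (le_max_right _ _))
  refine ⟨min (θ * c1 / 2) (min θ (Real.exp (-(m / c1)))), lt_min (by positivity) (lt_min hθ (Real.exp_pos _)), fun acc L hacc hle hL => ?_⟩
  have a1 : acc ≤ θ * c1 / 2 := hle.trans (min_le_left _ _)
  have a2 : acc ≤ θ := hle.trans ((min_le_right _ _).trans (min_le_left _ _))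
  have a3 : acc ≤ Real.exp (-(m / c1)) := hle.trans ((min_le_right _ _).trans (min_le_right _ _))
  have l1 : m / c1 ≤ L := by
    refine le_trans ?_ hL
    rw [one_div, Real.log_inv, le_neg]
    have := Real.log_le_log hacc a3
    rwa [Real.log_exp] at this
  have l2 : m ≤ c1 * L := by
    rw [div_le_iff₀ hc1] at l1
    linarith
  have hcL : 0 < c1 * L := by linarith
  have hL0 : 0 < L := by
    by_contra hcon
    push Not at hcon
    nlinarith
  refine ⟨hL0, m1.trans l2, a2, ?_, ?_⟩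
  · have : Real.exp (-(c1 * L)) ≤ Real.exp (-Real.log (1 / θ)) := Real.exp_le_exp.2 (by linarith)
    rwa [one_div, Real.log_inv, neg_neg, Real.exp_log hθ] at this
  · rw [div_le_iff₀ hcL]
    have t1 : 2 ≤ θ * (c1 * L) := by
      have := m3.trans l2
      rw [div_le_iff₀ hθ] at this
      linarith
    have t2 : acc * L ≤ θ * c1 / 2 * L := mul_le_mul_of_nonneg_right a1 hL0.le
    nlinarith

/-- `δ^x = exp (-(x L))` -/
theorem it_o_rpow_L (T : Tan) (h0 : 0 < T.δ) (x : ℝ) : T.δ ^ x = Real.exp (-(x * T.L)) := by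
  rw [Real.rpow_def_of_pos h0, Tan.L, lg, one_div, Real.log_inv]
  congr 1
  ring

/-- a lower score with a nonpositive threshold is trivial -/
theorem it_o_LS_triv (T : Tan) (M : ℕ) (p s q : ℝ) (U V : List (T.Ω → ItPh)) (ρ η : ℝ) (hη : 0 ≤ η) (h : (ρ - η) * (s - p) * T.L ≤ 0) :
    T.LS M p s q U V ρ η := by
  unfold Tan.LS
  refine le_trans (le_of_eq (ent_pr_eq_zero _ fun ω hω hlt => ?_)) hη
  have := ent_surC_nonneg T.P (T.rd p s U) (pair (T.rd p q V) (T.base M p)) hω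
  linarith

/-- PATTERN of an innovation clause: on every short layer, for finitely many tested depths `s' ∈ D ⊆ (p, q]` and every prefix `s = itS p q n k ≥ s'` :
`pr { sur(mover_{s'} | Zs, mover_p, other_{yf p q}) < (ρ (s - p) - (s - s') - ε (q - p)) L } ≤ ε`   (record `0`). -/
def ItInn (quad : Bool) (a : ItPar) (mv : Bool) (ρ : ℝ) (yf : ℝ → ℝ → ℝ) (n : ℕ) : Prop :=
  ∀ ε : ℝ, 0 < ε → ∃ τ : ℝ, 0 < τ ∧ ∀ κ0 : ℝ, 0 < κ0 → ∃ κ1 : ℝ, 0 < κ1 ∧ ∀ p q : ℝ, 0 < p → p < q → q ≤ (1 + κ1) * p →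
    ∀ D : Finset ℝ, (∀ s ∈ D, p < s ∧ s ≤ q) →
    ∃ (pk0 : ItPk) (acc0 : ℝ), pk0.Pre ∧ 0 < acc0 ∧ ∀ (pk : ItPk) (acc : ℝ) (T : Tan), pk.Ok → pk0.le pk → 0 < acc → acc ≤ acc0 →
      T.quad = quad → T.Adm a pk τ κ0 acc → ∀ k, 1 ≤ k → k ≤ n → ∀ s ∈ D, s ≤ itS p q n k →
        T.Inn mv p s (yf p q) ((ρ * (itS p q n k - p) - (itS p q n k - s) - ε * (q - p)) * T.L) ε

theorem it_o_lay_eqns_cite : True := by
  have := @ItInn.eq_1
  trivial

theorem it_o_aux_mvn_t (T : Tan) (i : ℕ) (q : ℝ) : T.mvn true i q = T.thn i q := by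
  funext ω
  simp [Tan.mvn, Tan.thn, ItMk.mv]

theorem it_o_aux_mvn_f (T : Tan) (i : ℕ) (q : ℝ) : T.mvn false i q = T.rn i q := by
  funext ω
  simp [Tan.mvn, Tan.rn, ItMk.mv]

/-- LEAF L1 (`AdmM.time`).   `τ = 1`, `κ1 = 1`, `pk0 = ⟨0, 0, 0, 1, insert p D, ∅⟩`, `acc0 = min ε (ε (q - p))`.   `T.mvn true 0 s = T.thn 0 s`, `T.mvn (!true) 0 y = T.rn 0 y` (unfold `Tan.mvn`, `ItMk.mv`), `T.rdep a p = yf p q` (`T.quad = quad`).
`d (s' - p) ≥ d (s - p) - (s - s')` since `d ≤ 1`;  `ent_pr_mono`.   OWNER open (L-256-INT-MOT-L1), EST 120 lines -/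
theorem it_o_inn_time (quad : Bool) (a : ItPar) (ha : a.Ok) (n : ℕ) :
    ItInn quad a true a.d (fun p _ => if quad then min 1 a.c * p else a.c * p) n := by
  intro ε hε
  refine ⟨1, one_pos, fun κ0 _ => ⟨1, one_pos, fun p q hp hpq _ D hD => ?_⟩⟩
  refine ⟨⟨0, 0, 0, 1, insert p D, ∅⟩, min ε (ε * (q - p)), ⟨one_pos, fun x hx => ?_⟩, lt_min hε (mul_pos hε (by linarith)),
    fun pk acc T hpk hle hacc hacc0 hquad hadm k _ _ s hs hsS => ?_⟩
  · rcases Finset.mem_insert.1 hx with rfl | hx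
    · exact hp.le
    · exact (hp.trans (hD x hx).1).le
  have hG : insert p D ⊆ pk.G := hle.2.2.2.2
  have hL := it_cb_L_pos T hadm.t0.δ0 hadm.t0.δ1
  have h1 := hadm.tm.time p (hG (Finset.mem_insert_self _ _)) s (hG (Finset.mem_insert_of_mem hs)) (hD s hs).1
  have hd1 : a.d ≤ 1 := ha.2.2.1
  have a1 : acc ≤ ε := hacc0.trans (min_le_left _ _)
  have a2 : acc ≤ ε * (q - p) := hacc0.trans (min_le_right _ _)
  unfold Tan.Inn
  rw [it_o_aux_mvn_t, it_o_aux_mvn_t]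
  have e : T.mvn (!true) 0 (if quad = true then min 1 a.c * p else a.c * p) = T.rn 0 (T.rdep a p) := by
    rw [Bool.not_true, it_o_aux_mvn_f, Tan.rdep, hquad]
  simp only [e]
  refine le_trans (ent_pr_mono T.P fun ω _ hlt => lt_of_lt_of_le hlt ?_) (h1.trans a1)
  refine mul_le_mul_of_nonneg_right ?_ hL.le
  nlinarith

/-- LEAF L2 (`AdmM.mixt` + capacity; FULL depth only, `n = 1`, `itS p q 1 1 = q`).   `τ = ε / 4`, `κ1 = κ0`, `G ∋ p, q`.   `it_o_cap_drop` with `ι = θ_0`, `Y = (Zs, (θ_p, r_q))`, `t = ε (q - p) L / 4`: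
`sur(θ_{s'} | Y) ≥ sur(θ_q | Y) - (q - s') L - log 2 - t`;   `mixt` at `(p, q)`;   accuracy by `it_o_book` (`c1 = ε (q - p) / 4`, `θ = min (ε / 2) c1`, `Kc = log 2`; `L ≥ log (1/acc)`: `it_cb_L_ge`).   OWNER open (L-256-INT-MOT-L2), EST 200 lines -/
theorem it_o_inn_mixt (quad : Bool) (a : ItPar) (ha : a.Ok) (hc : a.c < 1) : ItInn quad a true a.as (fun _ q => q) 1 := by
  intro ε hε
  refine ⟨ε / 4, by positivity, fun κ0 hκ0 => ⟨κ0, hκ0, fun p q hp hpq hq D hD => ?_⟩⟩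
  have hc1 : 0 < ε * (q - p) / 4 := by
    have : 0 < q - p := by linarith
    positivity
  obtain ⟨acc0, hacc0, H⟩ := it_o_book (ε * (q - p) / 4) (min (ε / 2) (ε * (q - p) / 4)) (Real.log 2) hc1 (lt_min (by positivity) hc1)
  refine ⟨⟨0, 0, 0, 1, {p, q}, ∅⟩, acc0, ⟨one_pos, fun x hx => ?_⟩, hacc0, fun pk acc T hpk hle hacc hacc1 hquad hadm k hk1 hk2 s hs hsS => ?_⟩
  · simp only [Finset.mem_insert, Finset.mem_singleton] at hx
    rcases hx with rfl | rfl <;> linarith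
  have hG : ({p, q} : Finset ℝ) ⊆ pk.G := hle.2.2.2.2
  obtain ⟨hL, b1, b2, b3, -⟩ := H acc T.L hacc hacc1 (it_cb_L_ge T acc hadm.t0.δ0 hadm.small)
  have hk : k = 1 := le_antisymm hk2 hk1
  have eS : itS p q 1 k = q := by
    rw [hk]
    simp [itS]
  rw [eS] at hsS ⊢
  have h1 := hadm.tm.mixt hc p (hG (by simp)) q (hG (by simp)) hp hpq (by linarith)
  have h2 := it_o_cap_drop T.P T.δ hadm.t0.δ0 hadm.t0.δ1 (fun ω => (T.mrk 0 ω).th) (pair T.Zs (pair (T.thn 0 p) (T.rn 0 q))) s q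
    (ε * (q - p) / 4 * T.L) hsS
  unfold Tan.Inn
  rw [it_o_aux_mvn_t, it_o_aux_mvn_t, Bool.not_true, it_o_aux_mvn_f]
  refine (it_o_bad_cons T.P h1 (it_o_bad_cons T.P h2 (it_o_bad_nil T.P fun ω hω hE => ?_))).trans ?_
  · obtain ⟨⟨hE, g1⟩, g2⟩ := hE
    have g1' := not_lt.1 g1
    have g2' := not_lt.1 g2
    have e1 : (fun ω' => tcell T.δ s (T.mrk 0 ω').th) = T.thn 0 s := rfl
    have e2 : (fun ω' => tcell T.δ q (T.mrk 0 ω').th) = T.thn 0 q := rfl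
    rw [e1, e2] at g2'
    have e3 : lg T.δ = T.L := rfl
    rw [e3] at g2'
    have a2 : acc * T.L ≤ ε * (q - p) / 4 * T.L := mul_le_mul_of_nonneg_right (b2.trans (min_le_right _ _)) hL.le
    unfold ItPar.as at hE
    nlinarith
  · have := b2.trans (min_le_left _ _)
    have := b3.trans (min_le_left _ _)
    linarith

theorem it_o_aux_abs_lo {x y c : ℝ} (h : ¬ c < |x - y|) : y - c ≤ x ∧ x ≤ y + c := by
  have := abs_le.1 (not_lt.1 h)
  constructor <;> linarith [this.1, this.2]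

/-- LEAF L3 (`AdmM.mixr`, two sided).   `τ = ε / 4`, `κ1 = κ0`, `G ⊇ {p, q} ∪ D`.   For `s' < q` :  `sur(r_q | Zs, θ_q, r_p) = sur(r_{s'} | Zs, θ_q, r_p) + sur(r_q | Zs, θ_q, r_{s'})` (`ent_surC_chain`, `ent_surC_congr`, `it_k_aux_cell_nest`),
lower bound of `mixr` on `(p, q)`, upper bound on `(s', q)` (`q - s' ≤ κ0 s'`);  for `s' = q` only the first.   `ν (s' - p) ≥ ν (s - p) - (s - s')` since `ν ≤ 1`.   `acc0 = min (ε / 2) (ε (q - p) / 4)`.   OWNER open (L-256-INT-MOT-L3), EST 250 lines -/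
theorem it_o_inn_mixr (quad : Bool) (a : ItPar) (ha : a.Ok) (hc : a.c < 1) (n : ℕ) : ItInn quad a false a.ν (fun _ q => q) n := by
  intro ε hε
  refine ⟨ε / 4, by positivity, fun κ0 hκ0 => ⟨κ0, hκ0, fun p q hp hpq hq D hD => ?_⟩⟩
  have hqp : 0 < q - p := by linarith
  refine ⟨⟨0, 0, 0, 1, insert p (insert q D), ∅⟩, min (ε / 2) (ε * (q - p) / 4), ⟨one_pos, fun x hx => ?_⟩, lt_min (by positivity) (by positivity),
    fun pk acc T hpk hle hacc hacc1 hquad hadm k hk1 hk2 s hs hsS => ?_⟩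
  · simp only [Finset.mem_insert] at hx
    rcases hx with rfl | rfl | hx
    · exact hp.le
    · linarith
    · exact (hp.trans (hD x hx).1).le
  have hG : insert p (insert q D) ⊆ pk.G := hle.2.2.2.2
  have hL := it_cb_L_pos T hadm.t0.δ0 hadm.t0.δ1
  have hν1 : a.ν ≤ 1 := ha.2.2.2.2.2.2.1
  have a1 : acc ≤ ε / 2 := hacc1.trans (min_le_left _ _)
  have a2 : acc ≤ ε * (q - p) / 4 := hacc1.trans (min_le_right _ _)
  obtain ⟨hps, hsq⟩ := hD s hs
  have hpG : p ∈ pk.G := hG (by simp)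
  have hqG : q ∈ pk.G := hG (by simp)
  have hsG : s ∈ pk.G := hG (by simp [hs])
  have h1 := hadm.tm.mixr hc p hpG q hqG hp hpq (by linarith)
  unfold Tan.Inn
  rw [it_o_aux_mvn_f, it_o_aux_mvn_f, Bool.not_false, it_o_aux_mvn_t]
  have hcomm : ∀ (x y : ℝ) (ω : T.Ω), T.P.surC (T.rn 0 x) (pair T.Zs (pair (T.rn 0 y) (T.thn 0 q))) ω
      = T.P.surC (T.rn 0 x) (pair T.Zs (pair (T.thn 0 q) (T.rn 0 y))) ω := fun x y ω =>
    ent_surC_congr T.P _ _ _ _ ω (fun ω' _ => by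
      simp only [pair, Prod.mk.injEq]
      tauto) (fun _ _ _ => Iff.rfl)
  simp only [hcomm]
  have hthr : (a.ν * (itS p q n k - p) - (itS p q n k - s) - ε * (q - p)) * T.L ≤ (a.ν * (s - p) - ε * (q - p)) * T.L := by
    refine mul_le_mul_of_nonneg_right ?_ hL.le
    nlinarith
  rcases hsq.lt_or_eq with hsq' | rfl
  · have h2 := hadm.tm.mixr hc s hsG q hqG (hp.trans hps) hsq' (by nlinarith)
    refine (it_o_bad_cons T.P h1 (it_o_bad_cons T.P h2 (it_o_bad_nil T.P fun ω hω hE => ?_))).trans (by linarith)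
    obtain ⟨⟨hE, g1⟩, g2⟩ := hE
    have g1' := (it_o_aux_abs_lo g1).1
    have g2' := (it_o_aux_abs_lo g2).2
    have ch := ent_surC_chain T.P (T.rn 0 s) (T.rn 0 q) (pair T.Zs (pair (T.thn 0 q) (T.rn 0 p))) hω
    have c1 : T.P.surC (pair (T.rn 0 s) (T.rn 0 q)) (pair T.Zs (pair (T.thn 0 q) (T.rn 0 p))) ω
        = T.P.surC (T.rn 0 q) (pair T.Zs (pair (T.thn 0 q) (T.rn 0 p))) ω :=
      ent_surC_congr T.P _ _ _ _ ω (fun _ _ => Iff.rfl) (fun ω' _ _ => by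
        simp only [pair, Prod.mk.injEq]
        exact ⟨fun x => x.2, fun x => ⟨it_k_aux_cell_nest hadm.t0.δ0 hadm.t0.δ1 hsq x, x⟩⟩)
    have c2 : T.P.surC (T.rn 0 q) (pair (T.rn 0 s) (pair T.Zs (pair (T.thn 0 q) (T.rn 0 p)))) ω
        = T.P.surC (T.rn 0 q) (pair T.Zs (pair (T.thn 0 q) (T.rn 0 s))) ω :=
      ent_surC_congr T.P _ _ _ _ ω (fun ω' _ => by
        simp only [pair, Prod.mk.injEq]
        exact ⟨fun x => ⟨x.2.1, x.2.2.1, x.1⟩, fun x => ⟨x.2.2, x.1, x.2.1, it_k_aux_cell_nest hadm.t0.δ0 hadm.t0.δ1 hps.le x.2.2⟩⟩)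
        (fun _ _ _ => Iff.rfl)
    rw [c1, c2] at ch
    have hE' := lt_of_lt_of_le hE hthr
    have a2' : acc * T.L ≤ ε * (q - p) / 4 * T.L := mul_le_mul_of_nonneg_right a2 hL.le
    have a3 : ε / 4 * (q - s) * T.L ≤ ε / 4 * (q - p) * T.L := by
      refine mul_le_mul_of_nonneg_right ?_ hL.le
      nlinarith
    nlinarith
  · refine (it_o_bad_cons T.P h1 (it_o_bad_nil T.P fun ω hω hE => ?_)).trans (by linarith)
    obtain ⟨hE, g1⟩ := hE
    have g1' := (it_o_aux_abs_lo g1).1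
    have hE' := lt_of_lt_of_le hE hthr
    have a2' : acc * T.L ≤ ε * (s - p) / 4 * T.L := mul_le_mul_of_nonneg_right a2 hL.le
    have : 0 < ε * (s - p) * T.L := by positivity
    nlinarith

/-- LEAF L4.  `|g̃| ≥ |g| - Cg msh p ≥ δ^χ - Cg δ^p` on the support (`hfrz` = conclusion of `it_o_frz_g`, `ig_msh_le`);  `Cg δ^p ≤ δ^χ / 2` by `h1`, `δ^χg ≤ δ^χ / 2` by `h2` (`it_o_rpow_L`, `Real.exp_le_exp`, `Real.exp_log`).   OWNER open (L-256-INT-MOT-L4), EST 100 lines -/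
theorem it_o_g_pass (T : Tan) (h0 : 0 < T.δ) (j : ℕ) (g : ItPh → (ℕ → ItMk) → ℝ) (p χ χg Cg : ℝ) (hCg : 1 ≤ Cg)
    (hfrz : ∀ ω, T.P.p ω ≠ 0 → |g (T.f0 p ω) (fun i => T.mrk i ω) - g (T.f0 p ω) (T.XiF j p ω)| ≤ Cg * msh T.δ p)
    (h1 : Real.log (2 * Cg) ≤ (p - χ) * T.L) (h2 : Real.log 2 ≤ (χg - χ) * T.L) :
    T.P.pr (fun ω => |g (T.f0 p ω) (T.XiF j p ω)| < T.δ ^ χg) ≤ T.P.pr (fun ω => |g (T.f0 p ω) (fun i => T.mrk i ω)| < T.δ ^ χ) := by
  have hC : 0 < 2 * Cg := by linarith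
  have e1 : 2 * Cg * T.δ ^ p ≤ T.δ ^ χ := by
    rw [it_o_rpow_L T h0, it_o_rpow_L T h0]
    have : 2 * Cg ≤ Real.exp ((p - χ) * T.L) := by
      have := Real.exp_le_exp.2 h1
      rwa [Real.exp_log hC] at this
    calc 2 * Cg * Real.exp (-(p * T.L)) ≤ Real.exp ((p - χ) * T.L) * Real.exp (-(p * T.L)) :=
          mul_le_mul_of_nonneg_right this (Real.exp_pos _).le
      _ = Real.exp (-(χ * T.L)) := by
          rw [← Real.exp_add]
          congr 1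
          ring
  have e2 : 2 * T.δ ^ χg ≤ T.δ ^ χ := by
    rw [it_o_rpow_L T h0, it_o_rpow_L T h0]
    have : 2 ≤ Real.exp ((χg - χ) * T.L) := by
      have := Real.exp_le_exp.2 h2
      rwa [Real.exp_log (by norm_num)] at this
    calc 2 * Real.exp (-(χg * T.L)) ≤ Real.exp ((χg - χ) * T.L) * Real.exp (-(χg * T.L)) :=
          mul_le_mul_of_nonneg_right this (Real.exp_pos _).le
      _ = Real.exp (-(χ * T.L)) := by
          rw [← Real.exp_add]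
          congr 1
          ring
  refine ent_pr_mono T.P fun ω hω hlt => ?_
  have f1 := hfrz ω hω
  have f2 : Cg * msh T.δ p ≤ Cg * T.δ ^ p := mul_le_mul_of_nonneg_left (ig_msh_le T.δ p h0) (by linarith)
  have f3 := abs_sub_abs_le_abs_sub (g (T.f0 p ω) (fun i => T.mrk i ω)) (g (T.f0 p ω) (T.XiF j p ω))
  linarith

/-- geometry of the mesh: `itS p q n k - p = k Δ` -/
theorem it_o_aux_itS_sub (p q : ℝ) (n k : ℕ) : itS p q n k - p = k * ((q - p) / n) := by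
  unfold itS
  ring

theorem it_o_aux_itS_bd (p q : ℝ) (hpq : p < q) (n k : ℕ) (hn : 0 < n) (hk1 : 1 ≤ k) (hkn : k ≤ n) :
    (q - p) / n ≤ itS p q n k - p ∧ itS p q n k ≤ q := by
  have hn' : (0 : ℝ) < n := Nat.cast_pos.2 hn
  have hΔ : 0 < (q - p) / n := div_pos (by linarith) hn'
  have h1 : (1 : ℝ) ≤ k := by exact_mod_cast hk1
  have h2 : (k : ℝ) ≤ n := by exact_mod_cast hkn
  rw [it_o_aux_itS_sub]
  refine ⟨by nlinarith, ?_⟩
  have h3 : itS p q n k = p + k * ((q - p) / n) := by rw [← it_o_aux_itS_sub]; ring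
  have h4 : (n : ℝ) * ((q - p) / n) = q - p := by field_simp
  rw [h3]
  nlinarith

/-- threshold arithmetic of the one-draw wrappers -/
theorem it_o_aux_thr (ρ η sp Δ X E c1 L lC v : ℝ) (hL : 0 < L) (hη : 0 < η) (hΔ : Δ ≤ sp) (hXE : X + E + 11 * c1 ≤ η * Δ)
    (hlC : 16 * lC ≤ c1 * L) (hlC0 : 0 ≤ lC) (hv : v ≤ 6) :
    (ρ - η) * sp * L ≤ (ρ * sp - X - E) * L - (2 * v + 4) * lC - 7 * (c1 * L) - 3 * (c1 * L) := by
  have h1 : (2 * v + 4) * lC ≤ 16 * lC := mul_le_mul_of_nonneg_right (by linarith) hlC0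
  have h2 : η * Δ ≤ η * sp := mul_le_mul_of_nonneg_left hΔ hη.le
  have h3 : 0 ≤ (η * sp - X - E - 11 * c1) * L := mul_nonneg (by linarith) hL.le
  nlinarith

/-- LEAF L5 = ONE-DRAW TEST WITH A MOVER, in the pattern.   `full = true` : all readings kill the motion of the other scalar;  `full = false` : the other scalar is held at the depth `yf p q ≥ q`.
PLAN.  Fix `η`; `ε = η / (8 n)`; `τ`, `κ1'` from `hInn ε`; `κ1 = min κ1' (min κy 1)`.   On the layer: constants of the header; `D` = the depths `itS p q n k - (e χA + χg)`, `k ≤ n`, `e ∈ {1, 2}`, that are `> p` (`Finset.image` + `filter`);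
`pk0 = pk0'.sup ⟨0, 0, 0, 1, {χA, q}, ∅⟩` (so `χA ∈ pk.G`, `q ≤ pk.K` by `pk.Ok`);   `A0' = max A0 1` (`it_s_reg_mono`);  `C`, `Cg` from `it_o_one_mov`, `it_o_frz_g` (chosen BEFORE `T`);
`acc0 = min acc0' (it_o_book c1 (min (η / 64) c1) (max (16 log C) (max (log 11 + 1) (log (2 Cg)))))`.
For `T` : if `ρ ≤ η` use `it_o_LS_triv`.   Else `η < 1`, `e χA + χg ≤ 3 χ / 2 = 3 η Δ / 8 < s - p`.   `it_o_g_pass` (`p - χ ≥ c1`, `χg - χ = χ / 4 ≥ c1`), `it_o_one_mov` with `c0 = (ρ (s - p) - (e χA + χg) - ε (q - p)) L`, `εg = η / 2`, `t = t' = c1 L`.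
Threshold: `η (s - p) ≥ η Δ ≥ 3 η Δ / 8 + η Δ / 8 + 11 c1`.   Probability: `η / 8 + η / 2 + 13 η / 64 ≤ η`.   Separation: `log 11 + 2 c1 L < (m χA - acc) L`, `m χA = 8 c1`.   OWNER open (L-256-INT-MOT-L5), EST 400 lines -/
theorem it_o_layer_mov (quad : Bool) (a : ItPar) (ha : a.Ok) (hm : 0 < a.m) (mv full : Bool) (ρ : ℝ) (hρ : 0 ≤ ρ) (hρ1 : ρ ≤ 1) (A0 : ℝ) (n : ℕ) (hn : 0 < n)
    (yf : ℝ → ℝ → ℝ) (κy : ℝ) (hκy : 0 < κy)
    (hy : ∀ p q : ℝ, 0 < p → p < q → q ≤ (1 + κy) * p → p ≤ yf p q ∧ (full = false → q ≤ yf p q)) (hInn : ItInn quad a mv ρ yf n) :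
    ItLayer quad false false a (fun T pk p q η => ∀ j < pk.M, ∀ (u : ItSym) (V : List ItSym) (e : ℕ) (g : ItPh → (ℕ → ItMk) → ℝ),
      u.Reg pk.M a.B0 A0 → u.KFree j → (∀ v ∈ V, ItSym.Reg v pk.M a.B0 A0 ∧ ItSym.KFree v j) → V.length ≤ 6 → (e = 1 ∨ e = 2) →
      (∀ v ∈ V, ∀ f Ξ A, itDot (v f Ξ) (itvMv mv quad f (Ξ j) A) = 0) →
      (full = true → ∀ w ∈ u :: V, ∀ f Ξ A, itDot (w f Ξ) (itvMv (!mv) quad f (Ξ j) A) = 0) →
      (∀ f Ξ A, itDot (u f Ξ) (itvMv mv quad f (Ξ j) A) = A ^ e * g f Ξ) →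
      T.P.pr (fun ω => |g (T.f0 p ω) (fun i => T.mrk i ω)| < T.δ ^ itChi p q n η) ≤ η / 2 →
      ∀ k, 1 ≤ k → k ≤ n → T.LS pk.M p (itS p q n k) q [T.fld p u] (V.map (T.fld p)) ρ η) := by
  obtain ⟨C, hC, one⟩ := it_o_one_mov a ha (max A0 1) (le_max_right _ _)
  obtain ⟨Cg, hCg, frz⟩ := it_o_frz_g a ha (max A0 1) (le_max_right _ _)
  have hm1 : a.m ≤ 1 := ha.2.2.2.2.1
  have hn' : (0 : ℝ) < n := Nat.cast_pos.2 hn
  have hn1 : (1 : ℝ) ≤ n := by exact_mod_cast hn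
  intro η hη
  have hε : 0 < η / (8 * n) := by positivity
  obtain ⟨τ, hτ, H⟩ := hInn (η / (8 * n)) hε
  refine ⟨τ, hτ, fun κ0 hκ0 => ?_⟩
  obtain ⟨κ1', hκ1', H⟩ := H κ0 hκ0
  refine ⟨min κ1' (min κy 1), lt_min hκ1' (lt_min hκy one_pos), fun p q hp hpq hq => ?_⟩
  have hq1 : q ≤ (1 + κ1') * p := hq.trans (mul_le_mul_of_nonneg_right (by linarith [min_le_left κ1' (min κy 1)]) hp.le)
  have hq2 : q ≤ (1 + κy) * p :=
    hq.trans (mul_le_mul_of_nonneg_right (by linarith [(min_le_right κ1' (min κy 1)).trans (min_le_left κy 1)]) hp.le)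
  have hq3 : q ≤ 2 * p := by
    have := hq.trans (mul_le_mul_of_nonneg_right
      (by linarith [(min_le_right κ1' (min κy 1)).trans (min_le_right κy 1)] : 1 + min κ1' (min κy 1) ≤ 2) hp.le)
    exact this
  obtain ⟨Δ, hΔ⟩ : ∃ Δ : ℝ, Δ = (q - p) / n := ⟨_, rfl⟩
  have hΔ0 : 0 < Δ := by rw [hΔ]; exact div_pos (by linarith) hn'
  have hΔq : Δ ≤ q - p := by rw [hΔ]; exact div_le_self (by linarith) hn1
  have hnΔ : (n : ℝ) * Δ = q - p := by rw [hΔ]; field_simp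
  obtain ⟨χA, hχA⟩ : ∃ χA : ℝ, χA = η * Δ / 32 := ⟨_, rfl⟩
  obtain ⟨χg, hχg⟩ : ∃ χg : ℝ, χg = 5 * η * Δ / 16 := ⟨_, rfl⟩
  obtain ⟨c1, hc1⟩ : ∃ c1 : ℝ, c1 = a.m * η * Δ / 256 := ⟨_, rfl⟩
  have hηΔ : 0 < η * Δ := mul_pos hη hΔ0
  have hχA0 : 0 < χA := by rw [hχA]; positivity
  have hχg0 : 0 < χg := by rw [hχg]; positivity
  have hc10 : 0 < c1 := by rw [hc1]; positivity
  have hc1le : 256 * c1 ≤ η * Δ := by
    rw [hc1]
    have : a.m * (η * Δ) ≤ 1 * (η * Δ) := mul_le_mul_of_nonneg_right hm1 hηΔ.le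
    linarith
  have hχ : itChi p q n η = η * Δ / 4 := by
    rw [itChi, hΔ]
    field_simp
  obtain ⟨D, hDdef⟩ : ∃ D : Finset ℝ, D = (((Finset.range (n + 1)) ×ˢ ({1, 2} : Finset ℕ)).image
      (fun x : ℕ × ℕ => itS p q n x.1 - ((x.2 : ℝ) * χA + χg))).filter (fun s => p < s) := ⟨_, rfl⟩
  have hD : ∀ s ∈ D, p < s ∧ s ≤ q := by
    intro s hs
    rw [hDdef, Finset.mem_filter, Finset.mem_image] at hs
    obtain ⟨⟨x, hx, rfl⟩, hps⟩ := hs
    refine ⟨hps, ?_⟩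
    rw [Finset.mem_product, Finset.mem_range] at hx
    have h1 : (x.1 : ℝ) ≤ n := by exact_mod_cast Nat.lt_succ_iff.1 hx.1
    have h2 := it_o_aux_itS_sub p q n x.1
    rw [← hΔ] at h2
    have h3 : (x.1 : ℝ) * Δ ≤ n * Δ := mul_le_mul_of_nonneg_right h1 hΔ0.le
    have h4 : 0 ≤ (x.2 : ℝ) * χA := mul_nonneg (Nat.cast_nonneg _) hχA0.le
    linarith
  obtain ⟨pk0', acc0', hpre', hacc0', H⟩ := H p q hp hpq hq1 D hD
  obtain ⟨accb, haccb, book⟩ := it_o_book c1 (min (η / 64) c1)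
    (max (16 * Real.log C) (max (Real.log 11 + 1) (Real.log (2 * Cg)))) hc10 (lt_min (by positivity) hc10)
  refine ⟨pk0'.sup ⟨0, 0, 0, 1, {χA, q}, ∅⟩, min acc0' accb, it_cb_sup_pre hpre' ⟨one_pos, fun x hx => ?_⟩, lt_min hacc0' haccb, ?_⟩
  · simp only [Finset.mem_insert, Finset.mem_singleton] at hx
    rcases hx with rfl | rfl
    · exact hχA0.le
    · linarith
  intro pk acc T hpk hle hacc hacc0 hquad hAdm _ _ j hj u V e g hu hk hV hl he hkill hfull hsee hg k hk1 hkn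
  have h0 := hAdm.t0
  obtain ⟨hLpos, b1, b2, b3, b4⟩ := book acc T.L hacc (hacc0.trans (min_le_right _ _)) (it_cb_L_ge T acc h0.δ0 hAdm.small)
  obtain ⟨hsΔ, hsq⟩ := it_o_aux_itS_bd p q hpq n k hn hk1 hkn
  rw [← hΔ] at hsΔ
  by_cases hρη : ρ ≤ η
  · refine it_o_LS_triv T pk.M p _ q _ _ ρ η hη.le ?_
    have : (ρ - η) * (itS p q n k - p) ≤ 0 := mul_nonpos_of_nonpos_of_nonneg (by linarith) (by linarith)
    exact mul_nonpos_of_nonpos_of_nonneg this hLpos.le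
  have hη1 : η < 1 := lt_of_lt_of_le (not_le.1 hρη) hρ1
  have hηΔΔ : η * Δ < Δ := by nlinarith
  rw [← hquad] at hkill hfull hsee
  have hG := (it_cb_sup_right hle).2.2.2.2
  have hχAG : χA ∈ pk.G := hG (by simp)
  have hqG : q ∈ pk.G := hG (by simp)
  have hqK : q ≤ pk.K := (hpk.2.2.2.2.2.2 q hqG).2
  have heX : (e : ℝ) * χA + χg ≤ 3 * (η * Δ) / 8 := by
    rcases he with rfl | rfl
    · rw [hχA, hχg]; push_cast; linarith
    · rw [hχA, hχg]; push_cast; linarith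
  have hps : p < itS p q n k - ((e : ℝ) * χA + χg) := by linarith
  have hsD : itS p q n k - ((e : ℝ) * χA + χg) ∈ D := by
    rw [hDdef, Finset.mem_filter, Finset.mem_image]
    refine ⟨⟨(k, e), ?_, rfl⟩, hps⟩
    rw [Finset.mem_product, Finset.mem_range]
    refine ⟨Nat.lt_succ_iff.2 hkn, ?_⟩
    rcases he with rfl | rfl <;> simp
  have hinn := H pk acc T hpk (it_cb_sup_left hle) hacc (hacc0.trans (min_le_left _ _)) hquad hAdm k hk1 hkn _ hsD
    (by have := mul_nonneg (Nat.cast_nonneg e : (0 : ℝ) ≤ e) hχA0.le; linarith)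
  have hreg : ∀ w ∈ u :: V, ItSym.Reg w pk.M a.B0 (max A0 1) ∧ ItSym.KFree w j := by
    intro w hw
    rcases List.mem_cons.1 hw with rfl | hw
    · exact ⟨it_s_reg_mono (le_max_left _ _) hu, hk⟩
    · exact ⟨it_s_reg_mono (le_max_left _ _) (hV w hw).1, (hV w hw).2⟩
  have k1 : 16 * Real.log C ≤ c1 * T.L := (le_max_left _ _).trans b1
  have k2 : Real.log 11 + 1 ≤ c1 * T.L := ((le_max_left _ _).trans (le_max_right _ _)).trans b1
  have k3 : Real.log (2 * Cg) ≤ c1 * T.L := ((le_max_right _ _).trans (le_max_right _ _)).trans b1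
  have hlog2 : Real.log 2 ≤ Real.log 11 := Real.log_le_log (by norm_num) (by norm_num)
  have hgp := it_o_g_pass T h0.δ0 j g p (itChi p q n η) χg Cg hCg
    (frz T pk hpk h0 j hj mv u e g (hreg u List.mem_cons_self).1 hk hsee p hp)
    (k3.trans (mul_le_mul_of_nonneg_right (by rw [hχ]; linarith) hLpos.le))
    (le_trans (by linarith) (mul_le_mul_of_nonneg_right (by rw [hχ, hχg]; linarith : c1 ≤ χg - itChi p q n η) hLpos.le))
  have hoth : q ≤ yf p q ∨ ∀ w ∈ u :: V, ∀ f Ξ A, itDot (w f Ξ) (itvMv (!mv) T.quad f (Ξ j) A) = 0 := by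
    cases hf : full
    · exact Or.inl ((hy p q hp hpq hq2).2 hf)
    · exact Or.inr (hfull hf)
  have hsep : Real.log 11 + c1 * T.L + c1 * T.L < (a.m * χA - acc) * T.L := by
    have e1 : a.m * χA = 8 * c1 := by rw [hχA, hc1]; ring
    have e2 : acc ≤ c1 := b2.trans (min_le_right _ _)
    have e3 : (7 * c1) * T.L ≤ (a.m * χA - acc) * T.L := mul_le_mul_of_nonneg_right (by linarith) hLpos.le
    have e4 : (7 * c1) * T.L = 7 * (c1 * T.L) := by ring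
    have e5 := mul_pos hc10 hLpos
    linarith
  have key := one T pk acc hpk h0 hAdm.ti j hj mv u V e g hreg hkill hsee p (itS p q n k) q (yf p q) χA χg _ _ (η / 2)
    (c1 * T.L) (c1 * T.L) hp hsq hq3 hqK (hy p q hp hpq hq2).1 hχAG hχg0.le hps.le hoth (hgp.trans hg) hinn (mul_pos hc10 hLpos) hsep
  unfold Tan.LS
  refine le_trans (ent_pr_mono _ fun ω _ h => lt_of_lt_of_le h ?_) (key.trans ?_)
  · have hv : (V.length : ℝ) ≤ 6 := by exact_mod_cast hl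
    have hE : η / (8 * n) * (q - p) = η * Δ / 8 := by
      rw [hΔ]; field_simp
    have := it_o_aux_thr ρ η (itS p q n k - p) Δ ((e : ℝ) * χA + χg) (η / (8 * n) * (q - p)) c1 T.L (Real.log C) V.length hLpos hη hsΔ
      (by rw [hE]; linarith) k1 (Real.log_nonneg hC) hv
    refine this.trans (le_of_eq ?_)
    ring
  · have e1 : η / (8 * n) ≤ η / 8 := by
      apply div_le_div_of_nonneg_left hη.le (by norm_num)
      linarith
    have e2 : acc ≤ η / 64 := b2.trans (min_le_left _ _)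
    have e3 : Real.exp (-(c1 * T.L)) ≤ η / 64 := b3.trans (min_le_left _ _)
    have e4 : (acc * T.L + 1) / (c1 * T.L) ≤ η / 64 := b4.trans (min_le_left _ _)
    linarith

theorem it_o_aux_itS_one (p q : ℝ) : itS p q 1 1 = q := by
  simp [itS]

/-- threshold arithmetic of the two-draw wrapper -/
theorem it_o_aux_thr_two (d η Δ χA c1 L lC v : ℝ) (hL : 0 < L) (hχA : χA = η * Δ / 32) (hc1 : 256 * c1 ≤ η * Δ) (hc10 : 0 < c1)
    (hlC : 23 * lC ≤ c1 * L) (hlC0 : 0 ≤ lC) (hv : v ≤ 4) :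
    (2 * d - η) * Δ * L ≤ 2 * ((d * Δ - 2 * χA - η / 8 * Δ) * L) - (3 * v + 11) * lC - 11 * (c1 * L) - 5 * (c1 * L) := by
  have h1 : (3 * v + 11) * lC ≤ 23 * lC := mul_le_mul_of_nonneg_right (by linarith) hlC0
  have h3 : 0 ≤ (η * Δ - 4 * χA - η / 4 * Δ - 17 * c1) * L := mul_nonneg (by rw [hχA]; linarith) hL.le
  nlinarith

/-- LEAF L6 = TWO-DRAW TEST, in the pattern (linear case; `n = 1`, `itS p q 1 1 = q`).   As L5 with `it_o_two` : `ε = η / 8`, `Δ = q - p`, `χA = η Δ / 32`, `D = {q - 2 χA}` (if `> p`), `A0' = max A0 (2 (B0 + 1))`,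
`c0 = (d (q - p) - 2 χA - ε (q - p)) L`;   threshold `2 c0 - 23 log C - 16 c1 L ≥ (2 d - η)(q - p) L`;   probability `2 ε + 3 acc + 14 exp (-t) + 13 (..) ≤ η`.   If `2 d ≤ η` : `it_o_LS_triv`.   OWNER open (L-256-INT-MOT-L6), EST 350 lines -/
theorem it_o_layer_two (a : ItPar) (ha : a.Ok) (hm : 0 < a.m) (full : Bool) (A0 : ℝ) (yf : ℝ → ℝ → ℝ) (κy : ℝ) (hκy : 0 < κy)
    (hy : ∀ p q : ℝ, 0 < p → p < q → q ≤ (1 + κy) * p → p ≤ yf p q ∧ (full = false → q ≤ yf p q)) (hInn : ItInn false a true a.d yf 1) :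
    ItLayer false false false a (fun T pk p q η => ∀ i < pk.M, ∀ j < pk.M, ∀ V : List ItSym,
      (∀ v ∈ V, ItSym.Reg v pk.M a.B0 A0 ∧ ItSym.KFree v j) → V.length ≤ 4 →
      (∀ v ∈ V, ∀ f Ξ A, itDot (v f Ξ) (itvTh false f (Ξ j) A) = 0 ∧ (full = true → itDot (v f Ξ) (itvR false (Ξ j) A) = 0)) →
      T.LS pk.M p q q [T.cW i, T.cH p] (V.map (T.fld p)) (2 * a.d) η) := by
  obtain ⟨C, hC, two⟩ := it_o_two a ha (max A0 (2 * (a.B0 + 1))) (le_max_right _ _)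
  have hm1 : a.m ≤ 1 := ha.2.2.2.2.1
  have hd1 : a.d ≤ 1 := ha.2.2.1
  intro η hη
  obtain ⟨τ, hτ, H⟩ := hInn (η / 8) (by positivity)
  refine ⟨τ, hτ, fun κ0 hκ0 => ?_⟩
  obtain ⟨κ1', hκ1', H⟩ := H κ0 hκ0
  refine ⟨min κ1' (min κy 1), lt_min hκ1' (lt_min hκy one_pos), fun p q hp hpq hq => ?_⟩
  have hq1 : q ≤ (1 + κ1') * p := hq.trans (mul_le_mul_of_nonneg_right (by linarith [min_le_left κ1' (min κy 1)]) hp.le)
  have hq2 : q ≤ (1 + κy) * p :=
    hq.trans (mul_le_mul_of_nonneg_right (by linarith [(min_le_right κ1' (min κy 1)).trans (min_le_left κy 1)]) hp.le)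
  have hq3 : q ≤ 2 * p := by
    have := hq.trans (mul_le_mul_of_nonneg_right
      (by linarith [(min_le_right κ1' (min κy 1)).trans (min_le_right κy 1)] : 1 + min κ1' (min κy 1) ≤ 2) hp.le)
    exact this
  obtain ⟨Δ, hΔ⟩ : ∃ Δ : ℝ, Δ = q - p := ⟨_, rfl⟩
  have hΔ0 : 0 < Δ := by rw [hΔ]; linarith
  obtain ⟨χA, hχA⟩ : ∃ χA : ℝ, χA = η * Δ / 32 := ⟨_, rfl⟩
  obtain ⟨c1, hc1⟩ : ∃ c1 : ℝ, c1 = a.m * η * Δ / 256 := ⟨_, rfl⟩
  have hηΔ : 0 < η * Δ := mul_pos hη hΔ0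
  have hχA0 : 0 < χA := by rw [hχA]; positivity
  have hc10 : 0 < c1 := by rw [hc1]; positivity
  have hc1le : 256 * c1 ≤ η * Δ := by
    rw [hc1]
    have : a.m * (η * Δ) ≤ 1 * (η * Δ) := mul_le_mul_of_nonneg_right hm1 hηΔ.le
    linarith
  obtain ⟨D, hDdef⟩ : ∃ D : Finset ℝ, D = ({q - 2 * χA} : Finset ℝ).filter (fun s => p < s) := ⟨_, rfl⟩
  have hD : ∀ s ∈ D, p < s ∧ s ≤ q := by
    intro s hs
    rw [hDdef, Finset.mem_filter, Finset.mem_singleton] at hs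
    obtain ⟨rfl, hps⟩ := hs
    exact ⟨hps, by linarith⟩
  obtain ⟨pk0', acc0', hpre', hacc0', H⟩ := H p q hp hpq hq1 D hD
  obtain ⟨accb, haccb, book⟩ := it_o_book c1 (min (η / 64) c1)
    (max (23 * Real.log C) (Real.log 11 + 1)) hc10 (lt_min (by positivity) hc10)
  refine ⟨pk0'.sup ⟨0, 0, 0, 1, {χA, q}, ∅⟩, min acc0' accb, it_cb_sup_pre hpre' ⟨one_pos, fun x hx => ?_⟩, lt_min hacc0' haccb, ?_⟩
  · simp only [Finset.mem_insert, Finset.mem_singleton] at hx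
    rcases hx with rfl | rfl
    · exact hχA0.le
    · linarith
  intro pk acc T hpk hle hacc hacc0 hquad hAdm _ _ i hi j hj V hV hl hkill
  have h0 := hAdm.t0
  obtain ⟨hLpos, b1, b2, b3, b4⟩ := book acc T.L hacc (hacc0.trans (min_le_right _ _)) (it_cb_L_ge T acc h0.δ0 hAdm.small)
  by_cases hρη : 2 * a.d ≤ η
  · refine it_o_LS_triv T pk.M p _ q _ _ (2 * a.d) η hη.le ?_
    have : (2 * a.d - η) * (q - p) ≤ 0 := mul_nonpos_of_nonpos_of_nonneg (by linarith) (by linarith)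
    exact mul_nonpos_of_nonpos_of_nonneg this hLpos.le
  have hη1 : η < 2 := by linarith [not_le.1 hρη]
  have hηΔΔ : η * Δ < 2 * Δ := by nlinarith
  have hG := (it_cb_sup_right hle).2.2.2.2
  have hχAG : χA ∈ pk.G := hG (by simp)
  have hqG : q ∈ pk.G := hG (by simp)
  have hqK : q ≤ pk.K := (hpk.2.2.2.2.2.2 q hqG).2
  have hps : p < q - 2 * χA := by rw [hχA]; linarith
  have hsD : q - 2 * χA ∈ D := by
    rw [hDdef, Finset.mem_filter, Finset.mem_singleton]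
    exact ⟨rfl, hps⟩
  have hinn := H pk acc T hpk (it_cb_sup_left hle) hacc (hacc0.trans (min_le_left _ _)) hquad hAdm 1 le_rfl le_rfl _ hsD
    (by rw [it_o_aux_itS_one]; linarith)
  rw [it_o_aux_itS_one] at hinn
  have hreg : ∀ w ∈ V, ItSym.Reg w pk.M a.B0 (max A0 (2 * (a.B0 + 1))) ∧ ItSym.KFree w j := fun w hw =>
    ⟨it_s_reg_mono (le_max_left _ _) (hV w hw).1, (hV w hw).2⟩
  have k1 : 23 * Real.log C ≤ c1 * T.L := (le_max_left _ _).trans b1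
  have k2 : Real.log 11 + 1 ≤ c1 * T.L := (le_max_right _ _).trans b1
  have hoth : q ≤ yf p q ∨ ∀ v ∈ V, ∀ f Ξ A, itDot (v f Ξ) (itvR false (Ξ j) A) = 0 := by
    cases hf : full
    · exact Or.inl ((hy p q hp hpq hq2).2 hf)
    · exact Or.inr fun v hv f Ξ A => (hkill v hv f Ξ A).2 hf
  have hsep : Real.log 11 + c1 * T.L + c1 * T.L < (a.m * χA - acc) * T.L := by
    have e1 : a.m * χA = 8 * c1 := by rw [hχA, hc1]; ring
    have e2 : acc ≤ c1 := b2.trans (min_le_right _ _)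
    have e3 : (7 * c1) * T.L ≤ (a.m * χA - acc) * T.L := mul_le_mul_of_nonneg_right (by linarith) hLpos.le
    have e4 : (7 * c1) * T.L = 7 * (c1 * T.L) := by ring
    have e5 := mul_pos hc10 hLpos
    linarith
  have key := two T pk acc hpk h0 hAdm.ti hquad i hi j hj V hreg (fun v hv f Ξ A => (hkill v hv f Ξ A).1) p q (yf p q) χA _ _
    (c1 * T.L) (c1 * T.L) hp hps.le hq3 hqK (hy p q hp hpq hq2).1 hχAG hoth hinn (mul_pos hc10 hLpos) hsep
  unfold Tan.LS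
  refine le_trans (ent_pr_mono _ fun ω _ h => lt_of_lt_of_le h ?_) (key.trans ?_)
  · have hv : (V.length : ℝ) ≤ 4 := by exact_mod_cast hl
    have := it_o_aux_thr_two a.d η Δ χA c1 T.L (Real.log C) V.length hLpos hχA hc1le hc10 k1 (Real.log_nonneg hC) hv
    rw [hΔ] at this
    refine this.trans (le_of_eq ?_)
    ring
  · have e2 : acc ≤ η / 64 := b2.trans (min_le_left _ _)
    have e3 : Real.exp (-(c1 * T.L)) ≤ η / 64 := b3.trans (min_le_left _ _)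
    have e4 : (acc * T.L + 1) / (c1 * T.L) ≤ η / 64 := b4.trans (min_le_left _ _)
    linarith

end Claimed.Agent.R256
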