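import Claimed.Agent.R256.Int.MotGeo
import Claimed.Agent.R256.Int.MotFrz
import Claimed.Agent.R256.Int.MotInfo

/-!
# Row 256, Sec. 5, block MOT: (E) ASSEMBLY of the one-draw test for one datum      (architect helper177; prefix `it_o_`)
-/

set_option autoImplicit false

namespace Claimed.Agent.R256

open Claimed.Agent.R255
open Claimed.Agent.R255.FLaw (pair)
open scoped BigOperators
open Classical

/-- LEAF E0a.  The frozen field of a regular symbol is a function of `(F_p, Ξ_{-j}, ξ_{j,p})` : `f0 = itR δ p F` is a function of `F_p` (`trep = tcell / 2^lev`); `Reg.dep`; for `i < M`, `i ≠ j` : `XiF i = XiE i`; `XiF j = itFz` is a function of `ξ_{j,p}`.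
OWNER open (L-256-INT-MOT-E0), EST 100 lines -/
theorem it_o_fldF_dep (T : Tan) (M : ℕ) (B0 A0 : ℝ) (j : ℕ) (hj : j < M) (u : ItSym) (hu : u.Reg M B0 A0) (p : ℝ) (ω ω' : T.Ω)
    (h1 : T.Fn p ω = T.Fn p ω') (h2 : T.XiE M j ω = T.XiE M j ω') (h3 : T.xin j p ω = T.xin j p ω') :
    T.fldF j p u ω = T.fldF j p u ω' := by
  unfold Tan.fldF
  rw [it_o_auxg_f0_eq T p ω ω' h1]
  refine hu.dep _ _ _ fun i hi => ?_
  unfold Tan.XiF
  by_cases hij : i = j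
  · rw [if_pos hij, if_pos hij]
    simp only [Tan.xin, itXi, Prod.mk.injEq] at h3
    unfold itFz
    rw [it_o_auxg_trep_eq h3.1, it_o_auxg_trep_eq h3.2]
  · rw [if_neg hij, if_neg hij]
    have := congrFun h2 ⟨i, hi⟩
    simpa only [Tan.XiE, if_neg hij] using this

/-- LEAF E0b.  On the support the frozen field is bounded: `f0` and `Ξ̃` lie in the box `B0 + 1` (`it_k_aux_rep_dist`, `msh ≤ 1` for `p ≥ 0`), `Reg.bd`.   OWNER open (L-256-INT-MOT-E0), EST 100 lines -/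
theorem it_o_fldF_bd (T : Tan) (a : ItPar) (pk : ItPk) (h0 : T.Adm0 a pk) (A0 : ℝ) (j : ℕ) (hj : j < pk.M) (u : ItSym)
    (hu : u.Reg pk.M a.B0 A0) (p : ℝ) (hp : 0 ≤ p) (ω : T.Ω) (hω : T.P.p ω ≠ 0) : (T.fldF j p u ω).nrm ≤ A0 := by
  unfold Tan.fldF
  refine hu.bd _ _ ?_ ?_
  · obtain ⟨n1, n2, n3, n4, n5, n6⟩ := it_k_aux_nrm_le (T.F ω)
    have hb := h0.bdF ω hω
    rw [it_s_nrm_le]
    simp only [Tan.f0, itR]
    refine ⟨?_, ?_, ?_, ?_, ?_, ?_⟩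
    · exact (it_o_auxg_trep_abs _ _ _).trans (by linarith)
    · exact (it_o_auxg_trep_abs _ _ _).trans (by linarith)
    · exact (it_o_auxg_trep_abs _ _ _).trans (by linarith)
    · exact (it_o_auxg_trep_abs _ _ _).trans (by linarith)
    · exact (it_o_auxg_trep_abs _ _ _).trans (by linarith)
    · exact (it_o_auxg_trep_abs _ _ _).trans (by linarith)
  · intro i hi
    obtain ⟨m1, m2, m3⟩ := h0.bdM ω hω i hi
    unfold Tan.XiF
    by_cases hij : i = j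
    · subst hij
      rw [if_pos rfl]
      simp only [itFz, abs_zero]
      refine ⟨(it_o_auxg_trep_abs _ _ _).trans (by linarith), (it_o_auxg_trep_abs _ _ _).trans (by linarith), ?_⟩
      have := abs_nonneg (T.mrk i ω).th
      linarith
    · rw [if_neg hij]
      exact ⟨by linarith, by linarith, by linarith⟩

/-- the frozen field of a regular symbol is an admissible covector field on `S` -/
theorem it_o_fld_sym (T : Tan) (a : ItPar) (pk : ItPk) (h0 : T.Adm0 a pk) (A0 : ℝ) (j : ℕ) (hj : j < pk.M) (nd : ℕ) (u : ItSym)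
    (hu : u.Reg pk.M a.B0 A0) (p : ℝ) (hp : 0 ≤ p) : T.Fld pk j nd p A0 (fun x => T.fldF j p u x.1) := by
  refine ⟨fun x x' h => ?_, fun x hx => ?_⟩
  · simp only [Tan.parS, Prod.mk.injEq] at h
    exact it_o_fldF_dep T pk.M a.B0 A0 j hj u hu p x.1 x'.1 h.1 h.2.1 h.2.2.1
  · exact it_o_fldF_bd T a pk h0 A0 j hj u hu p hp x.1 (it_o_supp T pk.RQ pk.M j nd x hx).1

theorem it_o_rdS_sym (T : Tan) (K p s : ℝ) (j nd : ℕ) (V : List ItSym) (x : T.St nd) :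
    T.rdS K p s (V.map fun v => fun x : T.St nd => T.fldF j p v x.1) x = T.rdF K p s (V.map (T.fldF j p)) x.1 := by
  simp [Tan.rdS, Tan.rdF, List.map_map, Function.comp_def]

/-- adjoining the auxiliary names (LP) -/
theorem it_o_lp_aux (T : Tan) (pk : ItPk) (j nd : ℕ) (p s q t : ℝ) (U V : List (T.St nd → ItPh)) :
    (T.Sj pk.RQ pk.M j nd).pr (fun x =>
      (T.Sj pk.RQ pk.M j nd).surC (T.rdS pk.K p s U) (pair (T.rdS pk.K p q V) (fun x => T.baseR pk.M j p x.1)) x + t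
        < (T.Sj pk.RQ pk.M j nd).surC (T.rdS pk.K p s U) (T.cndS pk.M j pk.K p q V) x) ≤ Real.exp (-t) := by
  have h := ltk_lp (T.Sj pk.RQ pk.M j nd) (T.rdS pk.K p s U) (pair (T.rdS pk.K p q V) (fun x => T.baseR pk.M j p x.1)) (T.aux pk.K nd) t
  refine le_trans (le_of_eq (ent_pr_congr _ fun x _ => ?_)) h
  have e : (T.Sj pk.RQ pk.M j nd).surC (T.rdS pk.K p s U) (T.cndS pk.M j pk.K p q V) x
      = (T.Sj pk.RQ pk.M j nd).surC (T.rdS pk.K p s U)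
          (pair (T.aux pk.K nd) (pair (T.rdS pk.K p q V) (fun x => T.baseR pk.M j p x.1))) x := by
    refine ent_surC_congr _ _ _ _ _ x (fun x' _ => ?_) fun _ _ _ => Iff.rfl
    simp only [Tan.cndS, FLaw.pair, Prod.mk.injEq]
    tauto
  rw [e]

/-- THE ONE-DRAW TEST for one datum, ABSTRACT in the innovation `ι`, the held label `H` of the marks and the good event `G`. -/
theorem it_o_one (a : ItPar) (ha : a.Ok) (A0 A2 : ℝ) (hA0 : 1 ≤ A0) (hA2 : 0 ≤ A2) : ∃ C : ℝ, 1 ≤ C ∧ ∀ (T : Tan) (pk : ItPk) (acc : ℝ), pk.Ok →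
    T.Adm0 a pk → T.AdmI a pk acc → ∀ j < pk.M, ∀ (u : ItSym) (V : List ItSym), (∀ w ∈ u :: V, ItSym.Reg w pk.M a.B0 A0 ∧ ItSym.KFree w j) →
    ∀ (β : Type) (H : T.Ω → β) (ι : T.Ω → ℝ), (∀ ω ω', T.Xi pk.M ω = T.Xi pk.M ω' → H ω = H ω') → (∀ ω ω', T.Xi pk.M ω = T.Xi pk.M ω' → ι ω = ι ω') →
    ∀ (G : T.St 1 → Prop) (p s q χ c0 ε εG t t' : ℝ), 0 < p → 0 ≤ χ → p ≤ s - χ → s ≤ q → q ≤ 2 * p → q ≤ pk.K → 0 < t' →
    (∀ v ∈ V, ∀ x x', (T.Sj pk.RQ pk.M j 1).p x ≠ 0 → (T.Sj pk.RQ pk.M j 1).p x' ≠ 0 → T.Fn p x.1 = T.Fn p x'.1 →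
      T.cndH pk.M j pk.K p (0 : Fin 1) H x = T.cndH pk.M j pk.K p (0 : Fin 1) H x' →
      |T.dif j pk.K p (0 : Fin 1) (fun x => T.fldF j p v x.1) x - T.dif j pk.K p (0 : Fin 1) (fun x => T.fldF j p v x.1) x'| ≤ A2 * msh T.δ q) →
    (∀ x x', (T.Sj pk.RQ pk.M j 1).p x ≠ 0 → (T.Sj pk.RQ pk.M j 1).p x' ≠ 0 → G x → G x' → T.Fn p x.1 = T.Fn p x'.1 →
      T.cndH pk.M j pk.K p (0 : Fin 1) H x = T.cndH pk.M j pk.K p (0 : Fin 1) H x' →
      T.δ ^ χ * |ι x.1 - ι x'.1| ≤ |T.dif j pk.K p (0 : Fin 1) (fun x => T.fldF j p u x.1) x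
        - T.dif j pk.K p (0 : Fin 1) (fun x => T.fldF j p u x.1) x'| + A2 * msh T.δ s) →
    (T.Sj pk.RQ pk.M j 1).pr (fun x => ¬ G x) ≤ εG →
    T.P.pr (fun ω => T.P.surC (fun ω' => tcell T.δ (s - χ) (ι ω')) (T.cndP pk.M j p H) ω < c0) ≤ ε →
    T.P.pr (fun ω => T.P.surC (T.rd p s [T.fld p u]) (pair (T.rd p q (V.map (T.fld p))) (T.base pk.M p)) ω
      < c0 - (2 * V.length + 4) * Real.log C - 7 * t - 2 * t') ≤ ε + εG + 7 * Real.exp (-t) + 2 * ((acc * T.L + 1) / t') := by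
  obtain ⟨C1, hC1, core⟩ := it_o_core a ha A0 A2 hA0 hA2
  refine ⟨max C1 (36 * A0 + 3), le_max_of_le_left hC1, ?_⟩
  intro T pk acc hpk h0 hI j hj u V hreg β H ι hH hι G p s q χ c0 ε εG t t' hp hχ hps hsq hq2 hqK ht' hV hc hG hinn
  have hps' : p ≤ s := by linarith
  obtain ⟨c, hcd⟩ : ∃ c : T.St 1 → ItPh, c = fun x => T.fldF j p u x.1 := ⟨_, rfl⟩
  obtain ⟨W, hW⟩ : ∃ W : List (T.St 1 → ItPh), W = V.map fun v => fun x : T.St 1 => T.fldF j p v x.1 := ⟨_, rfl⟩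
  have hWlen : W.length = V.length := by rw [hW, List.length_map]
  have hFld : ∀ w ∈ c :: W, T.Fld pk j 1 p A0 w := by
    intro w hw
    rcases List.mem_cons.1 hw with rfl | hw
    · rw [hcd]; exact it_o_fld_sym T a pk h0 A0 j hj 1 u (hreg u List.mem_cons_self).1 p hp.le
    · rw [hW] at hw
      obtain ⟨v, hv, rfl⟩ := List.mem_map.1 hw
      exact it_o_fld_sym T a pk h0 A0 j hj 1 v (hreg v (List.mem_cons_of_mem _ hv)).1 p hp.le
  have hV' : ∀ v ∈ W, ∀ x x', (T.Sj pk.RQ pk.M j 1).p x ≠ 0 → (T.Sj pk.RQ pk.M j 1).p x' ≠ 0 → T.Fn p x.1 = T.Fn p x'.1 →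
      T.cndH pk.M j pk.K p (0 : Fin 1) H x = T.cndH pk.M j pk.K p (0 : Fin 1) H x' →
      |T.dif j pk.K p (0 : Fin 1) v x - T.dif j pk.K p (0 : Fin 1) v x'| ≤ A2 * msh T.δ q := by
    intro w hw
    rw [hW] at hw
    obtain ⟨v, hv, rfl⟩ := List.mem_map.1 hw
    exact hV v hv
  have bA := it_o_freeze T a ha pk hpk acc h0 hI A0 hA0 j hj [u] V (fun w hw => hreg w (by simpa using hw)) p s q t t' hp hps' hsq hq2 hqK ht'
  rw [← it_o_lift_pr T pk.RQ pk.M j 1] at bA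
  have bL := it_o_lp_aux T pk j 1 p s q t [c] W
  have bC := core T pk hpk h0 j hj 1 (0 : Fin 1) β H ι p s q χ t hp hχ hps hsq hq2 hqK c W G hFld hV' (by rw [hcd]; exact hc)
  have bI := it_o_innov_gen T a pk hpk acc h0 hI j hj 1 (0 : Fin 1) (fun ω' => tcell T.δ (s - χ) (ι ω')) H
    (fun ω ω' h => by rw [hι ω ω' h]) hH p c0 ε t' ht' hinn
  rw [← it_o_lift_pr T pk.RQ pk.M j 1]
  refine (it_o_bad_cons _ bA (it_o_bad_cons _ bL (it_o_bad_cons _ bC (it_o_bad_cons _ bI (it_o_bad_cons _ hG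
    (it_o_bad_nil _ fun x hx hE => ?_)))))).trans ?_
  · obtain ⟨⟨⟨⟨⟨hE, nA⟩, nL⟩, nC⟩, nI⟩, nG⟩ := hE
    have e1 : T.rdS pk.K p s [c] = fun x => T.rdF pk.K p s (List.map (T.fldF j p) [u]) x.1 := by
      funext x; rw [hcd]; exact it_o_rdS_sym T pk.K p s j 1 [u] x
    have e2 : T.rdS pk.K p q W = fun x => T.rdF pk.K p q (List.map (T.fldF j p) V) x.1 := by
      funext x; rw [hW]; exact it_o_rdS_sym T pk.K p q j 1 V x
    have e3 := it_o_lift_sur T pk.RQ pk.M j 1 (T.rdF pk.K p s (List.map (T.fldF j p) [u]))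
      (pair (T.rdF pk.K p q (List.map (T.fldF j p) V)) (T.baseR pk.M j p)) x
    have e4 : (T.Sj pk.RQ pk.M j 1).surC (T.rdS pk.K p s [c]) (pair (T.rdS pk.K p q W) fun x => T.baseR pk.M j p x.1) x
        = T.P.surC (T.rdF pk.K p s (List.map (T.fldF j p) [u]))
            (pair (T.rdF pk.K p q (List.map (T.fldF j p) V)) (T.baseR pk.M j p)) x.1 := by
      rw [e1, e2]; exact e3
    have hGx : G x := not_not.1 nG
    have nC' := not_lt.1 fun h => nC ⟨hGx, h⟩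
    rw [not_lt] at nA nL nI
    rw [e4] at nL
    rw [hWlen] at nC'
    have l1 : Real.log C1 ≤ Real.log (max C1 (36 * A0 + 3)) := Real.log_le_log (by linarith) (le_max_left _ _)
    have l2 : Real.log (36 * A0 + 3) ≤ Real.log (max C1 (36 * A0 + 3)) := Real.log_le_log (by linarith) (le_max_right _ _)
    have hVl : (0 : ℝ) ≤ V.length := Nat.cast_nonneg _
    have m1 : ((V.length : ℝ) + 3) * Real.log C1 ≤ ((V.length : ℝ) + 3) * Real.log (max C1 (36 * A0 + 3)) :=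
      mul_le_mul_of_nonneg_left l1 (by linarith)
    have m2 : ((([u].length : ℕ) : ℝ) + V.length) * Real.log (36 * A0 + 3) ≤ (1 + (V.length : ℝ)) * Real.log (max C1 (36 * A0 + 3)) := by
      simp only [List.length_cons, List.length_nil, zero_add, Nat.cast_one]
      exact mul_le_mul_of_nonneg_left l2 (by linarith)
    have hE' : T.P.surC (T.rd p s (List.map (T.fld p) [u])) (pair (T.rd p q (List.map (T.fld p) V)) (T.base pk.M p)) x.1
        < c0 - (2 * ↑V.length + 4) * Real.log (max C1 (36 * A0 + 3)) - 7 * t - 2 * t' := hE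
    nlinarith
  · simp only [Nat.cast_one, one_mul]
    linarith

/-- ONE-DRAW TEST, one scalar of `ξ_j` moves (`mv = true` : `θ_j`), the other one is held at depth `y`.
`χA` = separation exponent of the leg, `χg` = of the frozen coefficient, tested depth of the mover `s - (e χA + χg)`. -/
theorem it_o_one_mov (a : ItPar) (ha : a.Ok) (A0 : ℝ) (hA0 : 1 ≤ A0) : ∃ C : ℝ, 1 ≤ C ∧ ∀ (T : Tan) (pk : ItPk) (acc : ℝ), pk.Ok → T.Adm0 a pk →
    T.AdmI a pk acc → ∀ j < pk.M, ∀ (mv : Bool) (u : ItSym) (V : List ItSym) (e : ℕ) (g : ItPh → (ℕ → ItMk) → ℝ),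
    (∀ w ∈ u :: V, ItSym.Reg w pk.M a.B0 A0 ∧ ItSym.KFree w j) →
    (∀ v ∈ V, ∀ f Ξ A, itDot (v f Ξ) (itvMv mv T.quad f (Ξ j) A) = 0) →
    (∀ f Ξ A, itDot (u f Ξ) (itvMv mv T.quad f (Ξ j) A) = A ^ e * g f Ξ) →
    ∀ (p s q y χA χg c0 ε εg t t' : ℝ), 0 < p → s ≤ q → q ≤ 2 * p → q ≤ pk.K → p ≤ y → χA ∈ pk.G → 0 ≤ χg → p ≤ s - (e * χA + χg) →
    (q ≤ y ∨ ∀ w ∈ u :: V, ∀ f Ξ A, itDot (w f Ξ) (itvMv (!mv) T.quad f (Ξ j) A) = 0) →
    T.P.pr (fun ω => |g (T.f0 p ω) (T.XiF j p ω)| < T.δ ^ χg) ≤ εg →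
    T.Inn mv p (s - (e * χA + χg)) y c0 ε → 0 < t' → Real.log 11 + t + t' < (a.m * χA - acc) * T.L →
    T.P.pr (fun ω => T.P.surC (T.rd p s [T.fld p u]) (pair (T.rd p q (V.map (T.fld p))) (T.base pk.M p)) ω
      < c0 - (2 * V.length + 4) * Real.log C - 7 * t - 3 * t') ≤ ε + εg + acc + 8 * Real.exp (-t) + 4 * ((acc * T.L + 1) / t') := by
  obtain ⟨A2, hA2, dmov⟩ := it_o_dif_mov a ha A0 hA0
  obtain ⟨C, hC, one⟩ := it_o_one a ha A0 A2 hA0 hA2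
  refine ⟨C, hC, ?_⟩
  intro T pk acc hpk h0 hI j hj mv u V e g hreg hkill hsee p s q y χA χg c0 ε εg t t' hp hsq hq2 hqK hpy hχA hχg hps hoth hg hinn ht' hst
  have hχA0 : 0 ≤ χA := (hpk.2.2.2.2.2.2 χA hχA).1
  have hχ : 0 ≤ (e : ℝ) * χA + χg := add_nonneg (mul_nonneg (Nat.cast_nonneg e) hχA0) hχg
  have hδ0 := h0.δ0
  have haccL : 0 ≤ acc * T.L := (ent_miC_nonneg _ _ _ _).trans hI.vb
  obtain ⟨G, hG⟩ : ∃ G : T.St 1 → Prop, G = fun x => T.δ ^ χA ≤ |T.legA pk.K (0 : Fin 1) x| ∧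
      T.δ ^ χg ≤ |g (T.f0 p x.1) (T.XiF j p x.1)| := ⟨_, rfl⟩
  have hXj : ∀ ω, T.XiF j p ω j = itFz T.δ p (T.mrk j ω) := fun ω => by simp [Tan.XiF]
  have hF : ∀ w ∈ u :: V, T.Fld pk j 1 p A0 (fun x => T.fldF j p w x.1) := fun w hw =>
    it_o_fld_sym T a pk h0 A0 j hj 1 w (hreg w hw).1 p hp.le
  have hO : ∀ w ∈ u :: V, (q ≤ y ∨ ∀ x : T.St 1, (T.Sj pk.RQ pk.M j 1).p x ≠ 0 →
      itDot (T.fldF j p w x.1) (T.mot (!mv) j pk.K p (0 : Fin 1) x) = 0) := by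
    intro w hw
    rcases hoth with h | h
    · exact Or.inl h
    · refine Or.inr fun x _ => ?_
      have := h w hw (T.f0 p x.1) (T.XiF j p x.1) (T.legA pk.K (0 : Fin 1) x)
      rw [hXj] at this
      exact this
  have hV : ∀ v ∈ V, ∀ x x', (T.Sj pk.RQ pk.M j 1).p x ≠ 0 → (T.Sj pk.RQ pk.M j 1).p x' ≠ 0 → T.Fn p x.1 = T.Fn p x'.1 →
      T.cndH pk.M j pk.K p (0 : Fin 1) (T.mvn (!mv) j y) x = T.cndH pk.M j pk.K p (0 : Fin 1) (T.mvn (!mv) j y) x' →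
      |T.dif j pk.K p (0 : Fin 1) (fun x => T.fldF j p v x.1) x - T.dif j pk.K p (0 : Fin 1) (fun x => T.fldF j p v x.1) x'|
        ≤ A2 * msh T.δ q := by
    intro v hv x x' hx hx' h1 h2
    have h3 := dmov T pk hpk h0 j hj 1 (0 : Fin 1) mv p q y hp _ (hF v (List.mem_cons_of_mem _ hv)) (hO v (List.mem_cons_of_mem _ hv))
      x x' hx hx' h1 h2
    have h4 : itDot (T.fldF j p v x.1) (T.mot mv j pk.K p (0 : Fin 1) x) = 0 := by
      have := hkill v hv (T.f0 p x.1) (T.XiF j p x.1) (T.legA pk.K (0 : Fin 1) x)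
      rw [hXj] at this
      exact this
    simp only [h4, mul_zero, sub_zero] at h3
    exact h3
  have hc : ∀ x x', (T.Sj pk.RQ pk.M j 1).p x ≠ 0 → (T.Sj pk.RQ pk.M j 1).p x' ≠ 0 → G x → G x' → T.Fn p x.1 = T.Fn p x'.1 →
      T.cndH pk.M j pk.K p (0 : Fin 1) (T.mvn (!mv) j y) x = T.cndH pk.M j pk.K p (0 : Fin 1) (T.mvn (!mv) j y) x' →
      T.δ ^ ((e : ℝ) * χA + χg) * |(T.mrk j x.1).mv mv - (T.mrk j x'.1).mv mv|
        ≤ |T.dif j pk.K p (0 : Fin 1) (fun x => T.fldF j p u x.1) x - T.dif j pk.K p (0 : Fin 1) (fun x => T.fldF j p u x.1) x'|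
          + A2 * msh T.δ s := by
    intro x x' hx hx' hGx _ h1 h2
    have h3 := dmov T pk hpk h0 j hj 1 (0 : Fin 1) mv p q y hp _ (hF u List.mem_cons_self) (hO u List.mem_cons_self) x x' hx hx' h1 h2
    beta_reduce at h3
    rw [hG] at hGx
    have h4 : itDot (T.fldF j p u x.1) (T.mot mv j pk.K p (0 : Fin 1) x)
        = T.legA pk.K (0 : Fin 1) x ^ e * g (T.f0 p x.1) (T.XiF j p x.1) := by
      have := hsee (T.f0 p x.1) (T.XiF j p x.1) (T.legA pk.K (0 : Fin 1) x)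
      rw [hXj] at this
      exact this
    have h5 : T.δ ^ ((e : ℝ) * χA + χg) ≤ |itDot (T.fldF j p u x.1) (T.mot mv j pk.K p (0 : Fin 1) x)| := by
      rw [h4, abs_mul, abs_pow, Real.rpow_add hδ0, mul_comm (e : ℝ) χA, Real.rpow_mul hδ0.le, Real.rpow_natCast]
      exact mul_le_mul (pow_le_pow_left₀ (Real.rpow_nonneg hδ0.le _) hGx.1 e) hGx.2 (Real.rpow_nonneg hδ0.le _) (by positivity)
    have h6 : msh T.δ q ≤ msh T.δ s := ig_msh_anti T.δ s q hδ0 h0.δ1 hsq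
    have h7 : T.δ ^ ((e : ℝ) * χA + χg) * |(T.mrk j x.1).mv mv - (T.mrk j x'.1).mv mv|
        ≤ |((T.mrk j x.1).mv mv - (T.mrk j x'.1).mv mv) * itDot (T.fldF j p u x.1) (T.mot mv j pk.K p (0 : Fin 1) x)| := by
      rw [abs_mul, mul_comm]
      exact mul_le_mul_of_nonneg_left h5 (abs_nonneg _)
    have h8 : ∀ a b : ℝ, |a| ≤ |b| + |b - a| := fun a b => by
      have := abs_sub_abs_le_abs_sub a b
      rw [abs_sub_comm a b] at this
      linarith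
    have h8' := h8 (((T.mrk j x.1).mv mv - (T.mrk j x'.1).mv mv) * itDot (T.fldF j p u x.1) (T.mot mv j pk.K p (0 : Fin 1) x))
      (T.dif j pk.K p (0 : Fin 1) (fun x => T.fldF j p u x.1) x - T.dif j pk.K p (0 : Fin 1) (fun x => T.fldF j p u x.1) x')
    have h9 : A2 * msh T.δ q ≤ A2 * msh T.δ s := mul_le_mul_of_nonneg_left h6 hA2
    linarith
  have bS := it_o_sepA T a pk hpk acc h0 hI j hj 1 (0 : Fin 1) χA t t' hχA ht' hst
  have bG := hg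
  rw [← it_o_lift_pr T pk.RQ pk.M j 1] at bG
  have hGbad : (T.Sj pk.RQ pk.M j 1).pr (fun x => ¬ G x) ≤ (Real.exp (-t) + (((1 : ℕ) : ℝ) * (acc * T.L) + 1) / t' + acc) + (εg + 0) := by
    refine it_o_bad_cons _ bS (it_o_bad_cons _ bG (it_o_bad_nil _ fun x _ hE => ?_))
    obtain ⟨⟨hE, n1⟩, n2⟩ := hE
    exact hE (by rw [hG]; exact ⟨not_lt.1 n1, not_lt.1 n2⟩)
  have hXi : ∀ ω ω', T.Xi pk.M ω = T.Xi pk.M ω' → T.mrk j ω = T.mrk j ω' := fun ω ω' h => congrFun h ⟨j, hj⟩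
  have hI' := it_o_innov_mov T a pk hpk h0 j hj mv p (s - ((e : ℝ) * χA + χg)) y c0 ε t' hpy ht' hinn
  have key := one T pk acc hpk h0 hI j hj u V hreg ℤ (T.mvn (!mv) j y) (fun ω => (T.mrk j ω).mv mv)
    (fun ω ω' h => by simp only [Tan.mvn, hXi ω ω' h]) (fun ω ω' h => by simp only [hXi ω ω' h]) G p s q ((e : ℝ) * χA + χg) (c0 - t') (ε + 1 / t')
    _ t t' hp hχ hps hsq hq2 hqK ht' hV hc hGbad hI'
  refine le_trans (ent_pr_mono _ fun ω _ h => lt_of_lt_of_le h (le_of_eq (by ring))) (key.trans ?_)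
  have h1 : 1 / t' ≤ (acc * T.L + 1) / t' := div_le_div_of_nonneg_right (by linarith) ht'.le
  simp only [Nat.cast_one, one_mul]
  linarith

/-- ONE-DRAW TEST, general scalar innovation `T.inn j p c1 c2`, the held readings kill the full motion.   Tested depth of the innovation `s - e χA`. -/
theorem it_o_one_gen (a : ItPar) (ha : a.Ok) (A0 : ℝ) (hA0 : 1 ≤ A0) : ∃ C : ℝ, 1 ≤ C ∧ ∀ (T : Tan) (pk : ItPk) (acc : ℝ), pk.Ok → T.Adm0 a pk →
    T.AdmI a pk acc → ∀ j < pk.M, ∀ (u : ItSym) (V : List ItSym) (e : ℕ) (c1 c2 : (ℕ → ItMk) → ℝ),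
    (∀ w ∈ u :: V, ItSym.Reg w pk.M a.B0 A0 ∧ ItSym.KFree w j) →
    (∀ v ∈ V, ∀ f Ξ A, itDot (v f Ξ) (itvTh T.quad f (Ξ j) A) = 0 ∧ itDot (v f Ξ) (itvR T.quad (Ξ j) A) = 0) →
    (∀ f Ξ A, itDot (u f Ξ) (itvTh T.quad f (Ξ j) A) = A ^ e * c1 Ξ ∧ itDot (u f Ξ) (itvR T.quad (Ξ j) A) = A ^ e * c2 Ξ) →
    ∀ (p s q χA c0 ε t t' : ℝ), 0 < p → s ≤ q → q ≤ 2 * p → q ≤ pk.K → χA ∈ pk.G → p ≤ s - e * χA →
    T.P.pr (fun ω => T.P.surC (fun ω' => tcell T.δ (s - e * χA) (T.inn j p c1 c2 ω')) (pair (T.xin j p) (pair T.Zs (T.XiE pk.M j))) ω < c0) ≤ ε →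
    0 < t' → Real.log 11 + t + t' < (a.m * χA - acc) * T.L →
    T.P.pr (fun ω => T.P.surC (T.rd p s [T.fld p u]) (pair (T.rd p q (V.map (T.fld p))) (T.base pk.M p)) ω
      < c0 - (2 * V.length + 4) * Real.log C - 7 * t - 2 * t') ≤ ε + acc + 8 * Real.exp (-t) + 3 * ((acc * T.L + 1) / t') := by
  obtain ⟨C, hC, one⟩ := it_o_one a ha A0 0 hA0 le_rfl
  refine ⟨C, hC, ?_⟩
  intro T pk acc hpk h0 hI j hj u V e c1 c2 hreg hkill hsee p s q χA c0 ε t t' hp hsq hq2 hqK hχA hps hinn ht' hst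
  have hχA0 : 0 ≤ χA := (hpk.2.2.2.2.2.2 χA hχA).1
  have hχ : 0 ≤ (e : ℝ) * χA := mul_nonneg (Nat.cast_nonneg e) hχA0
  have hδ0 := h0.δ0
  obtain ⟨G, hG⟩ : ∃ G : T.St 1 → Prop, G = fun x => T.δ ^ χA ≤ |T.legA pk.K (0 : Fin 1) x| := ⟨_, rfl⟩
  have hXj : ∀ ω, T.XiF j p ω j = itFz T.δ p (T.mrk j ω) := fun ω => by simp [Tan.XiF]
  have hV : ∀ v ∈ V, ∀ x x', (T.Sj pk.RQ pk.M j 1).p x ≠ 0 → (T.Sj pk.RQ pk.M j 1).p x' ≠ 0 → T.Fn p x.1 = T.Fn p x'.1 →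
      T.cndH pk.M j pk.K p (0 : Fin 1) (fun _ => ()) x = T.cndH pk.M j pk.K p (0 : Fin 1) (fun _ => ()) x' →
      |T.dif j pk.K p (0 : Fin 1) (fun x => T.fldF j p v x.1) x - T.dif j pk.K p (0 : Fin 1) (fun x => T.fldF j p v x.1) x'|
        ≤ 0 * msh T.δ q := by
    intro v hv x x' _ _ _ _
    have hz : ∀ x : T.St 1, T.dif j pk.K p (0 : Fin 1) (fun x => T.fldF j p v x.1) x = 0 := by
      intro x
      have := hkill v hv (T.f0 p x.1) (T.XiF j p x.1) (T.legA pk.K (0 : Fin 1) x)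
      rw [hXj] at this
      have e1 : itDot (T.fldF j p v x.1) (T.mot true j pk.K p (0 : Fin 1) x) = 0 := this.1
      have e2 : itDot (T.fldF j p v x.1) (T.mot false j pk.K p (0 : Fin 1) x) = 0 := this.2
      simp only [Tan.dif, e1, e2, mul_zero, add_zero]
    rw [hz, hz]
    simp
  have hc : ∀ x x', (T.Sj pk.RQ pk.M j 1).p x ≠ 0 → (T.Sj pk.RQ pk.M j 1).p x' ≠ 0 → G x → G x' → T.Fn p x.1 = T.Fn p x'.1 →
      T.cndH pk.M j pk.K p (0 : Fin 1) (fun _ => ()) x = T.cndH pk.M j pk.K p (0 : Fin 1) (fun _ => ()) x' →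
      T.δ ^ ((e : ℝ) * χA) * |T.inn j p c1 c2 x.1 - T.inn j p c1 c2 x'.1|
        ≤ |T.dif j pk.K p (0 : Fin 1) (fun x => T.fldF j p u x.1) x - T.dif j pk.K p (0 : Fin 1) (fun x => T.fldF j p u x.1) x'|
          + 0 * msh T.δ s := by
    intro x x' _ _ hGx _ _ h2
    rw [hG] at hGx
    have hl := (it_o_same T a pk h0 j 1 (0 : Fin 1) (fun _ => ()) p x x' h2).2.1 (0 : Fin 1)
    rw [it_o_dif_gen T j pk.K p 1 (0 : Fin 1) u (hreg u List.mem_cons_self).2 e c1 c2 hsee x,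
      it_o_dif_gen T j pk.K p 1 (0 : Fin 1) u (hreg u List.mem_cons_self).2 e c1 c2 hsee x', ← hl, ← mul_sub, abs_mul, abs_pow,
      zero_mul, add_zero, mul_comm (e : ℝ) χA, Real.rpow_mul hδ0.le, Real.rpow_natCast]
    exact mul_le_mul_of_nonneg_right (pow_le_pow_left₀ (Real.rpow_nonneg hδ0.le _) hGx e) (abs_nonneg _)
  have bS := it_o_sepA T a pk hpk acc h0 hI j hj 1 (0 : Fin 1) χA t t' hχA ht' hst
  have hGbad : (T.Sj pk.RQ pk.M j 1).pr (fun x => ¬ G x) ≤ Real.exp (-t) + (((1 : ℕ) : ℝ) * (acc * T.L) + 1) / t' + acc := by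
    refine le_trans (le_of_eq (ent_pr_congr _ fun x _ => ?_)) bS
    rw [hG, not_le]
  have hI' : T.P.pr (fun ω => T.P.surC (fun ω' => tcell T.δ (s - (e : ℝ) * χA) (T.inn j p c1 c2 ω')) (T.cndP pk.M j p (fun _ => ())) ω < c0) ≤ ε := by
    refine le_trans (le_of_eq (ent_pr_congr _ fun ω _ => ?_)) hinn
    rw [ent_surC_congr T.P _ (fun ω' => tcell T.δ (s - (e : ℝ) * χA) (T.inn j p c1 c2 ω')) (T.cndP pk.M j p (fun _ => ()))
      (pair (T.xin j p) (pair T.Zs (T.XiE pk.M j))) ω (fun ω' _ => by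
        simp only [Tan.cndP, FLaw.pair, Prod.mk.injEq]
        tauto) (fun _ _ _ => Iff.rfl)]
  have key := one T pk acc hpk h0 hI j hj u V hreg Unit (fun _ => ()) (T.inn j p c1 c2) (fun _ _ _ => rfl)
    (fun ω ω' h => it_o_inn_dep T pk.M a.B0 A0 j hj u (hreg u List.mem_cons_self).1 e c1 c2 hsee p ω ω' h) G p s q ((e : ℝ) * χA) c0 ε
    _ t t' hp hχ hps hsq hq2 hqK ht' hV hc hGbad hI'
  refine key.trans ?_
  simp only [Nat.cast_one, one_mul]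
  linarith

end Claimed.Agent.R256
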