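import Claimed.Agent.R256.Int.MotOne

/-!
# Row 256, Sec. 5, block MOT: (E) ASSEMBLY of the two-draw test (int:double, 05 l.896-950) for one datum      (architect helper177; prefix `it_o_`)

Linear case.  `S = T.Sj RQ M j 2`, draws `R_1 = x.2 0`, `R_2 = x.2 1`, legs `Ā_1 = legA 0`, `Ā_2 = legA 1`.   Fields on `S` : `cW`, `cH` (frozen `W_i`, `H`), `h1 = cH + Ā_1 cW`.
 freeze + record removal (A) -> lift to `S`, adjoin `aux` (LP) -> linear change `(W, H) -> (h1, W)` given `aux` (T1) -> chain rule (T2) ->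
 core with the draw `R_2` for `h1` (coefficient `Ā_2 (Ā_2 - Ā_1)`), core with the draw `R_1` for `W` (`h1` killed, coefficient `-Ā_1`) -> innovation twice.
-/

set_option autoImplicit false

namespace Claimed.Agent.R256

open Claimed.Agent.R255
open Claimed.Agent.R255.FLaw (pair)
open scoped BigOperators
open Classical

/-- LEAF T0.  Regularity of `W_i`, UNIFORM in `i < M` (`it_s_regU_W` gives a constant that may depend on `i`).   `itsW i f Ξ = (θ_i, 1, 0, 0, 0, 0)`.   OWNER open (L-256-INT-MOT-T0), EST 60 lines -/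
theorem it_o_reg_W (M i : ℕ) (hi : i < M) (B0 A0 : ℝ) (hB : 0 ≤ B0) (hA : 2 * (B0 + 1) ≤ A0) : (itsW i).Reg M B0 A0 := by
  refine ⟨fun f Ξ Ξ' h => ?_, fun f Ξ hf hΞ => ?_, fun f f' Ξ Ξ' ε hf hf' hΞ hΞ' hff hn => ?_⟩
  · simp only [itsW, h i hi]
  · rw [it_s_nrm_le]
    simp only [itsW, itcW, abs_zero, abs_one]
    have := (hΞ i hi).1
    refine ⟨by linarith, by linarith, by linarith, by linarith, by linarith, by linarith⟩
  · have hε : 0 ≤ ε := (it_s_nrm_nonneg _).trans hff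
    rw [it_s_nrm_le]
    simp only [itsW, itcW, ItPh.sub, sub_self, abs_zero]
    have := (hn i hi).1
    have h2 : ε ≤ A0 * ε := by nlinarith
    have h3 : 0 ≤ A0 * ε := by nlinarith
    exact ⟨this.trans h2, h3, h3, h3, h3, h3⟩

/-- LEAF T0.  `itsH f Ξ = (0, -2 f.X, 0, 1, 0, 0)`.   OWNER open (L-256-INT-MOT-T0), EST 60 lines -/
theorem it_o_reg_H (M : ℕ) (B0 A0 : ℝ) (hB : 0 ≤ B0) (hA : 2 * (B0 + 1) ≤ A0) : itsH.Reg M B0 A0 := by
  refine ⟨fun f Ξ Ξ' h => rfl, fun f Ξ hf hΞ => ?_, fun f f' Ξ Ξ' ε hf hf' hΞ hΞ' hff hn => ?_⟩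
  · rw [it_s_nrm_le] at hf ⊢
    simp only [itsH, itcH, abs_zero, abs_one]
    have h1 : |-2 * f.X| = 2 * |f.X| := by rw [abs_mul]; norm_num
    rw [h1]
    have := hf.1
    refine ⟨by linarith, by linarith, by linarith, by linarith, by linarith, by linarith⟩
  · have hε : 0 ≤ ε := (it_s_nrm_nonneg _).trans hff
    rw [it_s_nrm_le] at hff ⊢
    simp only [itsH, itcH, ItPh.sub, sub_self, abs_zero] at hff ⊢
    have h1 : |-2 * f.X - -2 * f'.X| = 2 * |f.X - f'.X| := by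
      rw [show -2 * f.X - -2 * f'.X = -2 * (f.X - f'.X) by ring, abs_mul]
      norm_num
    rw [h1]
    have := hff.1
    have h2 : 2 * ε ≤ A0 * ε := by nlinarith
    have h3 : 0 ≤ A0 * ε := by nlinarith
    exact ⟨h3, by linarith, h3, h3, h3, h3⟩

theorem it_o_kfree_W (i j : ℕ) : (itsW i).KFree j := by
  intro f Ξ Ξ' h1 h2 _
  by_cases hij : i = j
  · subst hij
    simp only [itsW, itcW, h2]
  · simp only [itsW, h1 i hij]

theorem it_o_kfree_H (j : ℕ) : itsH.KFree j := fun _ _ _ _ _ _ => rfl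

theorem it_o_dot_axpy (t : ℝ) (u v w : ItPh) : itDot (ItPh.axpy t u v) w = itDot v w + t * itDot u w := by
  simp only [itDot, ItPh.axpy]
  ring

theorem it_o_val_axpy (t : ℝ) (u v f f0 : ItPh) : itVal (ItPh.axpy t u v) f f0 = itVal v f f0 + t * itVal u f f0 := by
  simp only [itVal, ItPh.axpy]
  ring

theorem it_o_dot_H_th (f0 : ItPh) (μ : ItMk) (A : ℝ) : itDot (itcH f0) (itvTh false f0 μ A) = A ^ 2 := by
  simp [itDot, itcH, itvTh]

theorem it_o_dot_W_th (f0 : ItPh) (μ μ' : ItMk) (A : ℝ) : itDot (itcW μ') (itvTh false f0 μ A) = -A := by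
  simp [itDot, itcW, itvTh]

theorem it_o_dot_H_r (f0 : ItPh) (μ : ItMk) (A : ℝ) : itDot (itcH f0) (itvR false μ A) = 0 := by
  simp [itDot, itcH, itvR]

theorem it_o_dot_W_r (μ μ' : ItMk) (A : ℝ) : itDot (itcW μ') (itvR false μ A) = 0 := by
  simp [itDot, itcW, itvR]

theorem it_o_fld_mono (T : Tan) (pk : ItPk) (j nd : ℕ) (p A1 A1' : ℝ) (h : A1 ≤ A1') (w : T.St nd → ItPh) (hw : T.Fld pk j nd p A1 w) :
    T.Fld pk j nd p A1' w := ⟨hw.dep, fun x hx => (hw.bd x hx).trans h⟩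

/-- the leg is bounded on the support (`|trep K X| ≤ |X| + msh K`, `msh K ≤ 1`, `Adm0.bdF`, `it_o_supp`)   OWNER open (L-256-INT-MOT-T1), EST 60 lines -/
theorem it_o_leg_bd (T : Tan) (a : ItPar) (pk : ItPk) (hpk : pk.Ok) (h0 : T.Adm0 a pk) (j nd : ℕ) (s : Fin nd) (x : T.St nd)
    (hx : (T.Sj pk.RQ pk.M j nd).p x ≠ 0) : |T.legA pk.K s x| ≤ 2 * a.B0 + 1 := by
  obtain ⟨hp1, hs⟩ := it_o_supp T _ _ _ _ x hx
  obtain ⟨hp2, -⟩ := hs s
  have b1 : |(T.F x.1).X| ≤ a.B0 := (it_k_aux_nrm_le (T.F x.1)).1.trans (h0.bdF _ hp1)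
  have b2 : |(T.F (x.2 s)).X| ≤ a.B0 := (it_k_aux_nrm_le (T.F (x.2 s))).1.trans (h0.bdF _ hp2)
  unfold Tan.legA
  have c1 := ig_trep_le T.δ pk.K (T.F x.1).X
  have c2 := ig_lt_trep T.δ pk.K (T.F x.1).X
  have c3 := ig_trep_le T.δ pk.K (T.F (x.2 s)).X
  have c4 := ig_lt_trep T.δ pk.K (T.F (x.2 s)).X
  have c5 : msh T.δ pk.K ≤ 1 := by
    unfold msh
    rw [div_le_one (by positivity)]
    exact one_le_pow₀ (by norm_num)
  rw [abs_le] at b1 b2 ⊢
  constructor <;> linarith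

/-- the leg is a function of `aux` -/
theorem it_o_leg_aux (T : Tan) (K : ℝ) {nd : ℕ} (s : Fin nd) (x x' : T.St nd) (h : T.aux K nd x = T.aux K nd x') : T.legA K s x = T.legA K s x' := by
  unfold Tan.aux at h
  have h1 : T.Xn K x.1 = T.Xn K x'.1 := (Prod.ext_iff.1 h).1
  have h2 : T.Xn K (x.2 s) = T.Xn K (x'.2 s) := congrFun (Prod.ext_iff.1 h).2 s
  unfold Tan.Xn at h1 h2
  unfold Tan.legA trep
  rw [h1, h2]

/-- LEAF T3.  `h1 = v + Ā_s u` is an admissible field: `legA` is a function of `aux` (component of `parS`), `|legA| ≤ 2 B0 + 1`.   OWNER open (L-256-INT-MOT-T1), EST 80 lines -/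
theorem it_o_fld_axpy (T : Tan) (a : ItPar) (ha : a.Ok) (pk : ItPk) (hpk : pk.Ok) (h0 : T.Adm0 a pk) (j nd : ℕ) (p A1 : ℝ) (hA1 : 0 ≤ A1) (s : Fin nd)
    (u v : T.St nd → ItPh) (hu : T.Fld pk j nd p A1 u) (hv : T.Fld pk j nd p A1 v) :
    T.Fld pk j nd p ((2 * a.B0 + 2) * A1) (fun x => ItPh.axpy (T.legA pk.K s x) (u x) (v x)) := by
  refine ⟨fun x x' h => ?_, fun x hx => ?_⟩
  · have haux : T.aux pk.K nd x = T.aux pk.K nd x' := (Prod.ext_iff.1 (Prod.ext_iff.1 (Prod.ext_iff.1 h).2).2).2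
    rw [hu.dep x x' h, hv.dep x x' h, it_o_leg_aux T pk.K s x x' haux]
  · have hl := it_o_leg_bd T a pk hpk h0 j nd s x hx
    have bu := hu.bd x hx
    have bv := hv.bd x hx
    rw [it_s_nrm_le] at bu bv ⊢
    have key : ∀ y z : ℝ, |y| ≤ A1 → |z| ≤ A1 → |z + T.legA pk.K s x * y| ≤ (2 * a.B0 + 2) * A1 := by
      intro y z hy hz
      have h1 : |T.legA pk.K s x * y| ≤ (2 * a.B0 + 1) * A1 := by
        rw [abs_mul]
        exact mul_le_mul hl hy (abs_nonneg _) ((abs_nonneg _).trans hl)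
      have h2 := abs_add_le z (T.legA pk.K s x * y)
      linarith
    simp only [ItPh.axpy]
    exact ⟨key _ _ bu.1 bv.1, key _ _ bu.2.1 bv.2.1, key _ _ bu.2.2.1 bv.2.2.1, key _ _ bu.2.2.2.1 bv.2.2.2.1,
      key _ _ bu.2.2.2.2.1 bv.2.2.2.2.1, key _ _ bu.2.2.2.2.2 bv.2.2.2.2.2⟩

/-- LEAF T1 (linear change on `S`).  `(rdS [cW, cH], cndS V)` reads `rdS [h1, cW]` : same `aux` => same `legA`; `it_o_val_axpy`; same cells of `cW`, `cH` => the values of `h1` differ by `≤ (2 B0 + 2) msh q`; `it_o_nval_list` (`N = 2 B0 + 2`);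
`sur(A|Y) ≥ sur(B|Y) - sur(B|A,Y)` (`ent_surC_swap`, `ent_surC_nonneg`), `ltk_tail_on`.   OWNER open (L-256-INT-MOT-T1), EST 200 lines -/
theorem it_o_two_lin (T : Tan) (a : ItPar) (ha : a.Ok) (pk : ItPk) (hpk : pk.Ok) (h0 : T.Adm0 a pk) (j nd : ℕ) (s : Fin nd) (p q t : ℝ)
    (cW cH : T.St nd → ItPh) (V : List (T.St nd → ItPh)) :
    (T.Sj pk.RQ pk.M j nd).pr (fun x => (T.Sj pk.RQ pk.M j nd).surC (T.rdS pk.K p q [cW, cH]) (T.cndS pk.M j pk.K p q V) x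
      < (T.Sj pk.RQ pk.M j nd).surC (T.rdS pk.K p q [fun x => ItPh.axpy (T.legA pk.K s x) (cW x) (cH x), cW]) (T.cndS pk.M j pk.K p q V) x
        - 2 * Real.log (2 * a.B0 + 4) - t) ≤ Real.exp (-t) := by
  have hB1 : 1 ≤ a.B0 := ha.2.2.2.2.2.2.2.2
  obtain ⟨h1, hh1⟩ : ∃ c : T.St nd → ItPh, c = fun x => ItPh.axpy (T.legA pk.K s x) (cW x) (cH x) := ⟨_, rfl⟩
  rw [← hh1]
  have hm := ig_msh_pos T.δ q
  have hnv : (T.Sj pk.RQ pk.M j nd).NVal (fun _ => True) (T.rdS pk.K p q [h1, cW])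
      (pair (T.rdS pk.K p q [cW, cH]) (T.cndS pk.M j pk.K p q V)) ((2 * a.B0 + 2 + 2) ^ [h1, cW].length) := by
    refine it_o_nval_list (T.Sj pk.RQ pk.M j nd) (fun _ => True) (pair (T.rdS pk.K p q [cW, cH]) (T.cndS pk.M j pk.K p q V)) T.δ q (2 * a.B0 + 2)
      (by linarith) [h1, cW] (fun u x => itVal (u x) (itR T.δ pk.K (T.F x.1)) (T.f0 p x.1)) ?_
    intro u hu x x' hx hx' _ _ hA
    have hA1 : T.rdS pk.K p q [cW, cH] x = T.rdS pk.K p q [cW, cH] x' := (Prod.ext_iff.1 hA).1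
    have hA2 : T.cndS pk.M j pk.K p q V x = T.cndS pk.M j pk.K p q V x' := (Prod.ext_iff.1 hA).2
    have haux : T.aux pk.K nd x = T.aux pk.K nd x' := (Prod.ext_iff.1 (Prod.ext_iff.1 hA2).2).2
    simp only [Tan.rdS, List.map_cons, List.map_nil, List.cons.injEq, and_true] at hA1
    have dW := it_k_aux_cell_dist hA1.1
    have dH := it_k_aux_cell_dist hA1.2
    have hl := it_o_leg_bd T a pk hpk h0 j nd s x hx
    rcases List.mem_cons.1 hu with rfl | hu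
    · simp only [hh1, it_o_val_axpy]
      rw [← it_o_leg_aux T pk.K s x x' haux]
      have e1 : itVal (cH x) (itR T.δ pk.K (T.F x.1)) (T.f0 p x.1) + T.legA pk.K s x * itVal (cW x) (itR T.δ pk.K (T.F x.1)) (T.f0 p x.1)
          - (itVal (cH x') (itR T.δ pk.K (T.F x'.1)) (T.f0 p x'.1) + T.legA pk.K s x * itVal (cW x') (itR T.δ pk.K (T.F x'.1)) (T.f0 p x'.1))
          = (itVal (cH x) (itR T.δ pk.K (T.F x.1)) (T.f0 p x.1) - itVal (cH x') (itR T.δ pk.K (T.F x'.1)) (T.f0 p x'.1))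
            + T.legA pk.K s x * (itVal (cW x) (itR T.δ pk.K (T.F x.1)) (T.f0 p x.1) - itVal (cW x') (itR T.δ pk.K (T.F x'.1)) (T.f0 p x'.1)) := by ring
      rw [e1]
      have h2 : |T.legA pk.K s x * (itVal (cW x) (itR T.δ pk.K (T.F x.1)) (T.f0 p x.1) - itVal (cW x') (itR T.δ pk.K (T.F x'.1)) (T.f0 p x'.1))|
          ≤ (2 * a.B0 + 1) * msh T.δ q := by
        rw [abs_mul]
        exact mul_le_mul hl dW (abs_nonneg _) ((abs_nonneg _).trans hl)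
      have h3 := abs_add_le (itVal (cH x) (itR T.δ pk.K (T.F x.1)) (T.f0 p x.1) - itVal (cH x') (itR T.δ pk.K (T.F x'.1)) (T.f0 p x'.1))
        (T.legA pk.K s x * (itVal (cW x) (itR T.δ pk.K (T.F x.1)) (T.f0 p x.1) - itVal (cW x') (itR T.δ pk.K (T.F x'.1)) (T.f0 p x'.1)))
      linarith
    · rcases List.mem_cons.1 hu with rfl | hu
      · refine dW.trans ?_
        nlinarith
      · simp at hu
  have hN : (0 : ℝ) < (2 * a.B0 + 2 + 2) ^ [h1, cW].length := by positivity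
  have htail := ltk_tail_on (T.Sj pk.RQ pk.M j nd) (fun _ => True) _ _ hN hnv t
  refine le_trans (ent_pr_mono _ fun x hx hE => ?_) htail
  refine ⟨trivial, ?_⟩
  have hsw := ent_surC_swap (T.Sj pk.RQ pk.M j nd) (T.rdS pk.K p q [cW, cH]) (T.rdS pk.K p q [h1, cW]) (T.cndS pk.M j pk.K p q V) hx
  have hnn := ent_surC_nonneg (T.Sj pk.RQ pk.M j nd) (T.rdS pk.K p q [cW, cH]) (pair (T.rdS pk.K p q [h1, cW]) (T.cndS pk.M j pk.K p q V)) hx
  have hlog : Real.log ((2 * a.B0 + 2 + 2) ^ [h1, cW].length) = 2 * Real.log (2 * a.B0 + 4) := by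
    rw [Real.log_pow]
    simp only [List.length_cons, List.length_nil, zero_add]
    have : 2 * a.B0 + 2 + 2 = 2 * a.B0 + 4 := by ring
    rw [this]
    norm_num
  rw [hlog]
  linarith

/-- LEAF T2 (chain rule on `S`).  `ent_surC_chain` + `ent_surC_congr` (`rdS [c1, c2]` ~ `(rdS [c1], rdS [c2])`;  `(rdS [c1], cndS V)` ~ `cndS (c1 :: V)`).   OWNER open (L-256-INT-MOT-T2), EST 100 lines -/
theorem it_o_two_chain (T : Tan) (pk : ItPk) (j nd : ℕ) (p q : ℝ) (c1 c2 : T.St nd → ItPh) (V : List (T.St nd → ItPh)) (x : T.St nd)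
    (hx : (T.Sj pk.RQ pk.M j nd).p x ≠ 0) :
    (T.Sj pk.RQ pk.M j nd).surC (T.rdS pk.K p q [c1, c2]) (T.cndS pk.M j pk.K p q V) x
      = (T.Sj pk.RQ pk.M j nd).surC (T.rdS pk.K p q [c1]) (T.cndS pk.M j pk.K p q V) x
        + (T.Sj pk.RQ pk.M j nd).surC (T.rdS pk.K p q [c2]) (T.cndS pk.M j pk.K p q (c1 :: V)) x := by
  have h1 := ent_surC_chain (T.Sj pk.RQ pk.M j nd) (T.rdS pk.K p q [c1]) (T.rdS pk.K p q [c2]) (T.cndS pk.M j pk.K p q V) hx
  have h2 : (T.Sj pk.RQ pk.M j nd).surC (T.rdS pk.K p q [c1, c2]) (T.cndS pk.M j pk.K p q V) x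
      = (T.Sj pk.RQ pk.M j nd).surC (pair (T.rdS pk.K p q [c1]) (T.rdS pk.K p q [c2])) (T.cndS pk.M j pk.K p q V) x := by
    refine ent_surC_congr _ _ _ _ _ x (fun _ _ => Iff.rfl) (fun y _ _ => ?_)
    simp only [Tan.rdS, FLaw.pair, List.map_cons, List.map_nil, List.cons.injEq, and_true, Prod.mk.injEq]
  have h3 : (T.Sj pk.RQ pk.M j nd).surC (T.rdS pk.K p q [c2]) (T.cndS pk.M j pk.K p q (c1 :: V)) x
      = (T.Sj pk.RQ pk.M j nd).surC (T.rdS pk.K p q [c2]) (pair (T.rdS pk.K p q [c1]) (T.cndS pk.M j pk.K p q V)) x := by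
    refine ent_surC_congr _ _ _ _ _ x (fun y _ => ?_) (fun _ _ _ => Iff.rfl)
    simp only [Tan.cndS, Tan.rdS, FLaw.pair, List.map_cons, List.map_nil, List.cons.injEq, and_true, Prod.mk.injEq]
    tauto
  rw [h2, h1, h3]

theorem it_o_aux_two_arith (x0 x1 x2 y1 y2 z1 z2 k1 k2 k3 l3 Lm v c0 t t' : ℝ) (k1' : ℝ)
    (nA : x1 - k3 - 3 * t - t' ≤ x0) (nL : x2 ≤ x1 + t) (nLin : y1 + y2 - 2 * l3 - t ≤ x2) (nC1 : z1 - k1 - 3 * t ≤ y1)
    (nC2 : z2 - k2 - 3 * t ≤ y2) (nI1 : c0 - t' - t' ≤ z1) (nI2 : c0 - t' - t' ≤ z2) (m1 : k1 ≤ (v + 3) * Lm) (m1' : k2 ≤ (v + 4) * Lm)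
    (m2 : k3 ≤ (2 + v) * Lm) (h3 : l3 ≤ Lm) (hE : x0 < 2 * c0 - (3 * v + 11) * Lm - 11 * t - 5 * t') (_h : k1' = k1') : False := by
  nlinarith

/-- THE TWO-DRAW TEST for one datum (linear case).   `y` = depth at which `r_j` is held; tested depth of `θ_j` : `q - 2 χA`. -/
theorem it_o_two (a : ItPar) (ha : a.Ok) (A0 : ℝ) (hA0 : 2 * (a.B0 + 1) ≤ A0) : ∃ C : ℝ, 1 ≤ C ∧ ∀ (T : Tan) (pk : ItPk) (acc : ℝ), pk.Ok → T.Adm0 a pk →
    T.AdmI a pk acc → T.quad = false → ∀ i < pk.M, ∀ j < pk.M, ∀ V : List ItSym, (∀ v ∈ V, ItSym.Reg v pk.M a.B0 A0 ∧ ItSym.KFree v j) →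
    (∀ v ∈ V, ∀ f Ξ A, itDot (v f Ξ) (itvTh false f (Ξ j) A) = 0) →
    ∀ (p q y χA c0 ε t t' : ℝ), 0 < p → p ≤ q - 2 * χA → q ≤ 2 * p → q ≤ pk.K → p ≤ y → χA ∈ pk.G →
    (q ≤ y ∨ ∀ v ∈ V, ∀ f Ξ A, itDot (v f Ξ) (itvR false (Ξ j) A) = 0) →
    T.Inn true p (q - 2 * χA) y c0 ε → 0 < t' → Real.log 11 + t + t' < (a.m * χA - acc) * T.L →
    T.P.pr (fun ω => T.P.surC (T.rd p q [T.cW i, T.cH p]) (pair (T.rd p q (V.map (T.fld p))) (T.base pk.M p)) ω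
      < 2 * c0 - (3 * V.length + 11) * Real.log C - 11 * t - 5 * t') ≤ 2 * ε + 3 * acc + 14 * Real.exp (-t) + 13 * ((acc * T.L + 1) / t') := by
  have hB1 : 1 ≤ a.B0 := ha.2.2.2.2.2.2.2.2
  have hA01 : 1 ≤ A0 := by linarith
  have hA1 : 1 ≤ (2 * a.B0 + 2) * A0 := by nlinarith
  have hA0A1 : A0 ≤ (2 * a.B0 + 2) * A0 := by nlinarith
  obtain ⟨A2, hA2, dmov⟩ := it_o_dif_mov a ha ((2 * a.B0 + 2) * A0) hA1
  obtain ⟨C1, hC1, core⟩ := it_o_core a ha ((2 * a.B0 + 2) * A0) A2 hA1 hA2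
  refine ⟨max C1 (max (36 * A0 + 3) (2 * a.B0 + 4)), le_max_of_le_left hC1, ?_⟩
  intro T pk acc hpk h0 hI hquad i hi j hj V hreg hkill p q y χA c0 ε t t' hp hps hq2 hqK hpy hχA hoth hinn ht' hst
  have hχA0 : 0 ≤ χA := (hpk.2.2.2.2.2.2 χA hχA).1
  have hχ : 0 ≤ 2 * χA := by linarith
  have hpq : p ≤ q := by linarith
  have hδ0 := h0.δ0
  have hδ1 := h0.δ1
  have haccL : 0 ≤ acc * T.L := (ent_miC_nonneg _ _ _ _).trans hI.vb
  have hXj : ∀ ω, T.XiF j p ω j = itFz T.δ p (T.mrk j ω) := fun ω => by simp [Tan.XiF]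
  -- the fields
  obtain ⟨cW, hcW⟩ : ∃ c : T.St 2 → ItPh, c = fun x => T.fldF j p (itsW i) x.1 := ⟨_, rfl⟩
  obtain ⟨cH, hcH⟩ : ∃ c : T.St 2 → ItPh, c = fun x => T.fldF j p itsH x.1 := ⟨_, rfl⟩
  obtain ⟨h1, hh1⟩ : ∃ c : T.St 2 → ItPh, c = fun x => ItPh.axpy (T.legA pk.K (0 : Fin 2) x) (cW x) (cH x) := ⟨_, rfl⟩
  obtain ⟨W, hW⟩ : ∃ W : List (T.St 2 → ItPh), W = V.map fun v => fun x : T.St 2 => T.fldF j p v x.1 := ⟨_, rfl⟩
  have hWlen : W.length = V.length := by rw [hW, List.length_map]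
  have hregW := it_o_reg_W pk.M i hi a.B0 A0 (by linarith) hA0
  have hregH := it_o_reg_H pk.M a.B0 A0 (by linarith) hA0
  have fW0 : T.Fld pk j 2 p A0 cW := by rw [hcW]; exact it_o_fld_sym T a pk h0 A0 j hj 2 (itsW i) hregW p hp.le
  have fH0 : T.Fld pk j 2 p A0 cH := by rw [hcH]; exact it_o_fld_sym T a pk h0 A0 j hj 2 itsH hregH p hp.le
  have fW := it_o_fld_mono T pk j 2 p _ _ hA0A1 cW fW0
  have fh1 : T.Fld pk j 2 p ((2 * a.B0 + 2) * A0) h1 := by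
    rw [hh1]; exact it_o_fld_axpy T a ha pk hpk h0 j 2 p A0 (by linarith) (0 : Fin 2) cW cH fW0 fH0
  have fV : ∀ w ∈ W, T.Fld pk j 2 p ((2 * a.B0 + 2) * A0) w := by
    intro w hw
    rw [hW] at hw
    obtain ⟨v, hv, rfl⟩ := List.mem_map.1 hw
    exact it_o_fld_mono T pk j 2 p _ _ hA0A1 _ (it_o_fld_sym T a pk h0 A0 j hj 2 v (hreg v hv).1 p hp.le)
  -- pairings with the motion vectors
  have mth : ∀ (s : Fin 2) (x : T.St 2), T.mot true j pk.K p s x = itvTh false (T.f0 p x.1) (itFz T.δ p (T.mrk j x.1)) (T.legA pk.K s x) := by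
    intro s x; simp [Tan.mot, itvMv, hquad]
  have mr : ∀ (s : Fin 2) (x : T.St 2), T.mot false j pk.K p s x = itvR false (itFz T.δ p (T.mrk j x.1)) (T.legA pk.K s x) := by
    intro s x; simp [Tan.mot, itvMv, hquad]
  have dWth : ∀ (s : Fin 2) (x : T.St 2), itDot (cW x) (T.mot true j pk.K p s x) = -T.legA pk.K s x := by
    intro s x; rw [mth, hcW]; exact it_o_dot_W_th _ _ _ _
  have dHth : ∀ (s : Fin 2) (x : T.St 2), itDot (cH x) (T.mot true j pk.K p s x) = T.legA pk.K s x ^ 2 := by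
    intro s x; rw [mth, hcH]; exact it_o_dot_H_th _ _ _
  have dWr : ∀ (s : Fin 2) (x : T.St 2), itDot (cW x) (T.mot false j pk.K p s x) = 0 := by
    intro s x; rw [mr, hcW]; exact it_o_dot_W_r _ _ _
  have dHr : ∀ (s : Fin 2) (x : T.St 2), itDot (cH x) (T.mot false j pk.K p s x) = 0 := by
    intro s x; rw [mr, hcH]; exact it_o_dot_H_r _ _ _
  have dh1th : ∀ (s : Fin 2) (x : T.St 2), itDot (h1 x) (T.mot true j pk.K p s x)
      = T.legA pk.K s x * (T.legA pk.K s x - T.legA pk.K (0 : Fin 2) x) := by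
    intro s x; rw [hh1]; simp only [it_o_dot_axpy, dWth, dHth]; ring
  have dh1r : ∀ (s : Fin 2) (x : T.St 2), itDot (h1 x) (T.mot false j pk.K p s x) = 0 := by
    intro s x; rw [hh1]; simp only [it_o_dot_axpy, dWr, dHr]; ring
  have dVth : ∀ w ∈ W, ∀ (s : Fin 2) (x : T.St 2), itDot (w x) (T.mot true j pk.K p s x) = 0 := by
    intro w hw s x
    rw [hW] at hw
    obtain ⟨v, hv, rfl⟩ := List.mem_map.1 hw
    have := hkill v hv (T.f0 p x.1) (T.XiF j p x.1) (T.legA pk.K s x)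
    rw [hXj] at this
    rw [mth]; exact this
  have oV : ∀ w ∈ W, ∀ s : Fin 2, (q ≤ y ∨ ∀ x : T.St 2, (T.Sj pk.RQ pk.M j 2).p x ≠ 0 → itDot (w x) (T.mot (!true) j pk.K p s x) = 0) := by
    intro w hw s
    rcases hoth with h | h
    · exact Or.inl h
    · refine Or.inr fun x _ => ?_
      rw [hW] at hw
      obtain ⟨v, hv, rfl⟩ := List.mem_map.1 hw
      have := h v hv (T.f0 p x.1) (T.XiF j p x.1) (T.legA pk.K s x)
      rw [hXj] at this
      simp only [Bool.not_true]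
      rw [mr]; exact this
  -- the two consequences of `it_o_dif_mov`
  have held : ∀ (w : T.St 2 → ItPh) (s : Fin 2), T.Fld pk j 2 p ((2 * a.B0 + 2) * A0) w →
      (q ≤ y ∨ ∀ x : T.St 2, (T.Sj pk.RQ pk.M j 2).p x ≠ 0 → itDot (w x) (T.mot (!true) j pk.K p s x) = 0) →
      (∀ x, itDot (w x) (T.mot true j pk.K p s x) = 0) →
      ∀ x x', (T.Sj pk.RQ pk.M j 2).p x ≠ 0 → (T.Sj pk.RQ pk.M j 2).p x' ≠ 0 → T.Fn p x.1 = T.Fn p x'.1 →
      T.cndH pk.M j pk.K p s (T.mvn (!true) j y) x = T.cndH pk.M j pk.K p s (T.mvn (!true) j y) x' →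
      |T.dif j pk.K p s w x - T.dif j pk.K p s w x'| ≤ A2 * msh T.δ q := by
    intro w s fw ow kw x x' hx hx' e1 e2
    have h3 := dmov T pk hpk h0 j hj 2 s true p q y hp w fw ow x x' hx hx' e1 e2
    rw [kw x, mul_zero, sub_zero] at h3
    exact h3
  have see : ∀ (w : T.St 2 → ItPh) (s : Fin 2) (G : T.St 2 → Prop), T.Fld pk j 2 p ((2 * a.B0 + 2) * A0) w →
      (q ≤ y ∨ ∀ x : T.St 2, (T.Sj pk.RQ pk.M j 2).p x ≠ 0 → itDot (w x) (T.mot (!true) j pk.K p s x) = 0) →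
      (∀ x, G x → T.δ ^ (2 * χA) ≤ |itDot (w x) (T.mot true j pk.K p s x)|) →
      ∀ x x', (T.Sj pk.RQ pk.M j 2).p x ≠ 0 → (T.Sj pk.RQ pk.M j 2).p x' ≠ 0 → G x → G x' → T.Fn p x.1 = T.Fn p x'.1 →
      T.cndH pk.M j pk.K p s (T.mvn (!true) j y) x = T.cndH pk.M j pk.K p s (T.mvn (!true) j y) x' →
      T.δ ^ (2 * χA) * |(T.mrk j x.1).mv true - (T.mrk j x'.1).mv true| ≤ |T.dif j pk.K p s w x - T.dif j pk.K p s w x'| + A2 * msh T.δ q := by
    intro w s G fw ow kw x x' hx hx' hGx _ e1 e2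
    have h3 := dmov T pk hpk h0 j hj 2 s true p q y hp w fw ow x x' hx hx' e1 e2
    have h7 : T.δ ^ (2 * χA) * |(T.mrk j x.1).mv true - (T.mrk j x'.1).mv true|
        ≤ |((T.mrk j x.1).mv true - (T.mrk j x'.1).mv true) * itDot (w x) (T.mot true j pk.K p s x)| := by
      rw [abs_mul, mul_comm]
      exact mul_le_mul_of_nonneg_left (kw x hGx) (abs_nonneg _)
    have h8 : ∀ a b : ℝ, |a| ≤ |b| + |b - a| := fun a b => by
      have := abs_sub_abs_le_abs_sub a b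
      rw [abs_sub_comm a b] at this
      linarith
    have h8' := h8 (((T.mrk j x.1).mv true - (T.mrk j x'.1).mv true) * itDot (w x) (T.mot true j pk.K p s x))
      (T.dif j pk.K p s w x - T.dif j pk.K p s w x')
    linarith
  obtain ⟨G1, hG1⟩ : ∃ G : T.St 2 → Prop, G = fun x => T.δ ^ χA ≤ |T.legA pk.K (1 : Fin 2) x| ∧
      T.δ ^ χA ≤ |T.legA pk.K (1 : Fin 2) x - T.legA pk.K (0 : Fin 2) x| := ⟨_, rfl⟩
  obtain ⟨G2, hG2⟩ : ∃ G : T.St 2 → Prop, G = fun x => T.δ ^ χA ≤ |T.legA pk.K (0 : Fin 2) x| := ⟨_, rfl⟩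
  have hpw : T.δ ^ (2 * χA) = T.δ ^ χA * T.δ ^ χA := by rw [two_mul, Real.rpow_add hδ0]
  have hpw0 : 0 ≤ T.δ ^ χA := Real.rpow_nonneg hδ0.le _
  have hpw1 : T.δ ^ χA ≤ 1 := Real.rpow_le_one hδ0.le hδ1.le hχA0
  have orR : ∀ (w : T.St 2 → ItPh) (s : Fin 2), (∀ x, itDot (w x) (T.mot false j pk.K p s x) = 0) →
      (q ≤ y ∨ ∀ x : T.St 2, (T.Sj pk.RQ pk.M j 2).p x ≠ 0 → itDot (w x) (T.mot (!true) j pk.K p s x) = 0) :=
    fun w s h => Or.inr fun x _ => by simp only [Bool.not_true]; exact h x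
  -- the bad events
  have bA := it_o_freeze T a ha pk hpk acc h0 hI A0 hA01 j hj [itsW i, itsH] V (fun w hw => by
    simp only [List.cons_append, List.nil_append, List.mem_cons] at hw
    rcases hw with rfl | rfl | hw
    · exact ⟨hregW, it_o_kfree_W i j⟩
    · exact ⟨hregH, it_o_kfree_H j⟩
    · exact hreg w hw) p q q t t' hp hpq le_rfl hq2 hqK ht'
  rw [← it_o_lift_pr T pk.RQ pk.M j 2] at bA
  have bL := it_o_lp_aux T pk j 2 p q q t [cW, cH] W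
  have bLin := it_o_two_lin T a ha pk hpk h0 j 2 (0 : Fin 2) p q t cW cH W
  have bC1 := core T pk hpk h0 j hj 2 (1 : Fin 2) ℤ (T.mvn (!true) j y) (fun ω => (T.mrk j ω).mv true) p q q (2 * χA) t hp hχ hps le_rfl hq2 hqK
    h1 W G1 (fun w hw => by
      rcases List.mem_cons.1 hw with rfl | hw
      · exact fh1
      · exact fV w hw)
    (fun v hv => held v (1 : Fin 2) (fV v hv) (oV v hv _) (dVth v hv _))
    (see h1 (1 : Fin 2) G1 fh1 (orR h1 _ (dh1r _)) fun x hGx => by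
      rw [hG1] at hGx
      rw [dh1th, abs_mul, hpw]
      exact mul_le_mul hGx.1 hGx.2 hpw0 (abs_nonneg _))
  have bC2 := core T pk hpk h0 j hj 2 (0 : Fin 2) ℤ (T.mvn (!true) j y) (fun ω => (T.mrk j ω).mv true) p q q (2 * χA) t hp hχ hps le_rfl hq2 hqK
    cW (h1 :: W) G2 (fun w hw => by
      rcases List.mem_cons.1 hw with rfl | hw
      · exact fW
      · rcases List.mem_cons.1 hw with rfl | hw
        · exact fh1
        · exact fV w hw)
    (fun v hv => by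
      rcases List.mem_cons.1 hv with rfl | hv
      · exact held v (0 : Fin 2) fh1 (orR v _ (dh1r _)) (fun x => by rw [dh1th, sub_self, mul_zero])
      · exact held v (0 : Fin 2) (fV v hv) (oV v hv _) (dVth v hv _))
    (see cW (0 : Fin 2) G2 fW (orR cW _ (dWr _)) fun x hGx => by
      rw [hG2] at hGx
      rw [dWth, abs_neg, hpw]
      calc T.δ ^ χA * T.δ ^ χA ≤ T.δ ^ χA * 1 := mul_le_mul_of_nonneg_left hpw1 hpw0
        _ = T.δ ^ χA := mul_one _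
        _ ≤ _ := hGx)
  have hXi : ∀ ω ω', T.Xi pk.M ω = T.Xi pk.M ω' → T.mrk j ω = T.mrk j ω' := fun ω ω' h => congrFun h ⟨j, hj⟩
  have hI' := it_o_innov_mov T a pk hpk h0 j hj true p (q - 2 * χA) y c0 ε t' hpy ht' hinn
  have bI1 := it_o_innov_gen T a pk hpk acc h0 hI j hj 2 (1 : Fin 2) (T.mvn true j (q - 2 * χA)) (T.mvn (!true) j y)
    (fun ω ω' h => by simp only [Tan.mvn, hXi ω ω' h]) (fun ω ω' h => by simp only [Tan.mvn, hXi ω ω' h]) p (c0 - t') (ε + 1 / t') t' ht' hI'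
  have bI2 := it_o_innov_gen T a pk hpk acc h0 hI j hj 2 (0 : Fin 2) (T.mvn true j (q - 2 * χA)) (T.mvn (!true) j y)
    (fun ω ω' h => by simp only [Tan.mvn, hXi ω ω' h]) (fun ω ω' h => by simp only [Tan.mvn, hXi ω ω' h]) p (c0 - t') (ε + 1 / t') t' ht' hI'
  have bS0 := it_o_sepA T a pk hpk acc h0 hI j hj 2 (0 : Fin 2) χA t t' hχA ht' hst
  have bS1 := it_o_sepA T a pk hpk acc h0 hI j hj 2 (1 : Fin 2) χA t t' hχA ht' hst
  have bSS := it_o_sepAA T a pk hpk acc h0 hI j hj 2 (1 : Fin 2) (0 : Fin 2) (by decide) χA t t' hχA ht' hst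
  rw [← it_o_lift_pr T pk.RQ pk.M j 2]
  refine (it_o_bad_cons _ bA (it_o_bad_cons _ bL (it_o_bad_cons _ bLin (it_o_bad_cons _ bC1 (it_o_bad_cons _ bC2 (it_o_bad_cons _ bI1
    (it_o_bad_cons _ bI2 (it_o_bad_cons _ bS0 (it_o_bad_cons _ bS1 (it_o_bad_cons _ bSS
    (it_o_bad_nil _ fun x hx hE => ?_))))))))))).trans ?_
  · obtain ⟨⟨⟨⟨⟨⟨⟨⟨⟨⟨hE, nA⟩, nL⟩, nLin⟩, nC1⟩, nC2⟩, nI1⟩, nI2⟩, nS0⟩, nS1⟩, nSS⟩ := hE
    have e1 : T.rdS pk.K p q [cW, cH] = fun x => T.rdF pk.K p q (List.map (T.fldF j p) [itsW i, itsH]) x.1 := by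
      funext x; rw [hcW, hcH]; exact it_o_rdS_sym T pk.K p q j 2 [itsW i, itsH] x
    have e2 : T.rdS pk.K p q W = fun x => T.rdF pk.K p q (List.map (T.fldF j p) V) x.1 := by
      funext x; rw [hW]; exact it_o_rdS_sym T pk.K p q j 2 V x
    have e3 := it_o_lift_sur T pk.RQ pk.M j 2 (T.rdF pk.K p q (List.map (T.fldF j p) [itsW i, itsH]))
      (pair (T.rdF pk.K p q (List.map (T.fldF j p) V)) (T.baseR pk.M j p)) x
    have e4 : (T.Sj pk.RQ pk.M j 2).surC (T.rdS pk.K p q [cW, cH]) (pair (T.rdS pk.K p q W) fun x => T.baseR pk.M j p x.1) x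
        = T.P.surC (T.rdF pk.K p q (List.map (T.fldF j p) [itsW i, itsH]))
            (pair (T.rdF pk.K p q (List.map (T.fldF j p) V)) (T.baseR pk.M j p)) x.1 := by
      rw [e1, e2]; exact e3
    have hG1x : G1 x := by rw [hG1]; exact ⟨not_lt.1 nS1, not_lt.1 nSS⟩
    have hG2x : G2 x := by rw [hG2]; exact not_lt.1 nS0
    have nC1' := not_lt.1 fun h => nC1 ⟨hG1x, h⟩
    have nC2' := not_lt.1 fun h => nC2 ⟨hG2x, h⟩
    rw [not_lt] at nA nL nLin nI1 nI2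
    rw [e4] at nL
    have ech := it_o_two_chain T pk j 2 p q h1 cW W x hx
    rw [← hh1] at nLin
    rw [ech] at nLin
    rw [List.length_cons, hWlen] at nC2'
    rw [hWlen] at nC1'
    obtain ⟨Cm, hCm⟩ : ∃ Cm : ℝ, Cm = max C1 (max (36 * A0 + 3) (2 * a.B0 + 4)) := ⟨_, rfl⟩
    rw [← hCm] at hE
    have l1 : Real.log C1 ≤ Real.log Cm := Real.log_le_log (by linarith) (by rw [hCm]; exact le_max_left _ _)
    have l2 : Real.log (36 * A0 + 3) ≤ Real.log Cm :=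
      Real.log_le_log (by linarith) (by rw [hCm]; exact le_max_of_le_right (le_max_left _ _))
    have l3 : Real.log (2 * a.B0 + 4) ≤ Real.log Cm :=
      Real.log_le_log (by linarith) (by rw [hCm]; exact le_max_of_le_right (le_max_right _ _))
    have hVl : (0 : ℝ) ≤ V.length := Nat.cast_nonneg _
    have m1 : ((V.length : ℝ) + 3) * Real.log C1 ≤ ((V.length : ℝ) + 3) * Real.log Cm := mul_le_mul_of_nonneg_left l1 (by linarith)
    have m1' : (((V.length + 1 : ℕ) : ℝ) + 3) * Real.log C1 ≤ ((V.length : ℝ) + 4) * Real.log Cm := by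
      push_cast
      have : ((V.length : ℝ) + 1 + 3) * Real.log C1 ≤ ((V.length : ℝ) + 1 + 3) * Real.log Cm := mul_le_mul_of_nonneg_left l1 (by linarith)
      linarith
    have m2 : ((([itsW i, itsH].length : ℕ) : ℝ) + V.length) * Real.log (36 * A0 + 3) ≤ (2 + (V.length : ℝ)) * Real.log Cm := by
      simp only [List.length_cons, List.length_nil, zero_add]
      push_cast
      have : ((1 : ℝ) + 1 + V.length) * Real.log (36 * A0 + 3) ≤ ((1 : ℝ) + 1 + V.length) * Real.log Cm := mul_le_mul_of_nonneg_left l2 (by linarith)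
      linarith
    have hE' : T.P.surC (T.rd p q (List.map (T.fld p) [itsW i, itsH])) (pair (T.rd p q (List.map (T.fld p) V)) (T.base pk.M p)) x.1
        < 2 * c0 - (3 * ↑V.length + 11) * Real.log Cm - 11 * t - 5 * t' := hE
    have nI1' : c0 - t' - t' ≤ (T.Sj pk.RQ pk.M j 2).surC (fun x => tcell T.δ (q - 2 * χA) ((T.mrk j x.1).mv true))
        (T.cndH pk.M j pk.K p (1 : Fin 2) (T.mvn (!true) j y)) x := nI1
    have nI2' : c0 - t' - t' ≤ (T.Sj pk.RQ pk.M j 2).surC (fun x => tcell T.δ (q - 2 * χA) ((T.mrk j x.1).mv true))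
        (T.cndH pk.M j pk.K p (0 : Fin 2) (T.mvn (!true) j y)) x := nI2
    exact it_o_aux_two_arith _ _ _ _ _ _ _ _ _ _ _ _ _ _ _ _ 0 nA nL nLin nC1' nC2' nI1' nI2' m1 m1' m2 l3 hE' rfl
  · have h1 : 1 / t' ≤ (acc * T.L + 1) / t' := div_le_div_of_nonneg_right (by linarith) ht'.le
    have h2 : (((2 : ℕ) : ℝ) * (acc * T.L) + 1) / t' ≤ 2 * ((acc * T.L + 1) / t') := by
      rw [← mul_div_assoc]
      exact div_le_div_of_nonneg_right (by push_cast; linarith) ht'.le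
    linarith

end Claimed.Agent.R256
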