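import Claimed.Agent.R256.Int.RadKit

/-!
# Row 256, Sec. 5, block RAD, file 2: the TAN-FREE cores      (architect helper9; prefix `it_r_`)

PAPER-FREE.  Black boxes: `Int/RadKit.lean` (K1-K9), `Prj/Contract.lean` (X4 `pj_rad_law`, X5 `pj_par_law`), `Prj/CoreK.lean` (X1 `pj_coreK`, proved).
 C1 `it_r_par_law`, `it_r_rad_law`  X5, X4 with bounds on the support only (truncation of the marks off the support)
 C2 `it_r_chart`        Kaufman + listing in ONE chart, abstract form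
 C3 `it_r_core`         EXIT 1: the normal increment has score `≥ (d - η) n` bits given the parent square, the side and all held records
 C4 `it_r_slope_chart`  from `PjGoodH` of `pjDir` given `(Zs, a)` to the scores of `itSl` given `(Zs, V)`, one chart
 C5 `it_r_slope_core`   EXIT 2: hereditary radial slopes in both charts
Statements are FROZEN (a defect: one line to helper9).  Helper lemmas: prefix `it_r_aux_`, directly above your theorem.  Splice only your theorem on a fresh pull.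
-/

set_option autoImplicit false

namespace Claimed.Agent.R256

open Claimed.Agent.R255 Claimed.Agent.R255.FLaw
open Classical

theorem it_r_aux_surC_supp {Ω α β : Type} [Fintype Ω] (P : FLaw Ω) (X X' : Ω → α) (Y Y' : Ω → β)
    (hX : ∀ ω, P.p ω ≠ 0 → X ω = X' ω) (hY : ∀ ω, P.p ω ≠ 0 → Y ω = Y' ω) {ω : Ω} (hω : P.p ω ≠ 0) :
    P.surC X Y ω = P.surC X' Y' ω :=
  ent_surC_congr P X X' Y Y' ω (fun ω' h' => by rw [hY ω' h', hY ω hω]) (fun ω' h' _ => by rw [hX ω' h', hX ω hω])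

theorem it_r_aux_icgood_supp {Ω α δ : Type} [Fintype Ω] (P : FLaw Ω) (X X' : ℕ → Ω → α) (D D' : Ω → δ)
    (hX : ∀ k ω, P.p ω ≠ 0 → X k ω = X' k ω) (hD : ∀ ω, P.p ω ≠ 0 → D ω = D' ω) (e η : ℝ) (n : ℕ) {ω : Ω} (hω : P.p ω ≠ 0) :
    IcGood P X D e η n ω ↔ IcGood P X' D' e η n ω := by
  unfold IcGood
  refine forall_congr' fun k => forall_congr' fun _ => ?_
  rw [it_r_aux_surC_supp P (X k) (X' k) D D' (hX k) hD hω]

theorem it_r_aux_goodH_supp {Ω α δ : Type} [Fintype Ω] (P : FLaw Ω) (X X' : ℕ → Ω → α) (D D' : Ω → δ)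
    (hX : ∀ k ω, P.p ω ≠ 0 → X k ω = X' k ω) (hD : ∀ ω, P.p ω ≠ 0 → D ω = D' ω) (e η : ℝ) (n : ℕ) {ω : Ω} (hω : P.p ω ≠ 0) :
    PjGoodH P X D e η n ω ↔ PjGoodH P X' D' e η n ω := by
  unfold PjGoodH
  refine forall_congr' fun k => forall_congr' fun k' => forall_congr' fun _ => forall_congr' fun _ => ?_
  rw [it_r_aux_surC_supp P (X k') (X' k') (pair (X k) D) (pair (X' k) D') (hX k')
    (fun ω' h' => Prod.ext (hX k ω' h') (hD ω' h')) hω]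

/-- truncation of the marks off the support -/
theorem it_r_aux_trunc {Ω ζ : Type} [Fintype Ω] (P : FLaw Ω) (Zs : Ω → ζ) (a b : Ω → ℝ × ℝ) (A d η wd κ : ℝ) (n : ℕ) (hA : 0 ≤ A)
    (hiid : PjIid P Zs a b) (ha : ItBdS P A a) (hb : ItBdS P A b)
    (hgood : P.pr (fun ω => ¬ PjGoodH P (icQ a) Zs d η n ω) ≤ η) (hstrip : PjNoStrip P Zs a wd κ) :
    ∃ a' b' : Ω → ℝ × ℝ, (∀ ω, P.p ω ≠ 0 → a' ω = a ω) ∧ (∀ ω, P.p ω ≠ 0 → b' ω = b ω) ∧ PjIid P Zs a' b' ∧ PjBd A a' ∧ PjBd A b' ∧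
      P.pr (fun ω => ¬ PjGoodH P (icQ a') Zs d η n ω) ≤ η ∧ PjNoStrip P Zs a' wd κ := by
  obtain ⟨a', ha'⟩ : ∃ a' : Ω → ℝ × ℝ, a' = fun ω => if P.p ω ≠ 0 then a ω else (0, 0) := ⟨_, rfl⟩
  obtain ⟨b', hb'⟩ : ∃ b' : Ω → ℝ × ℝ, b' = fun ω => if P.p ω ≠ 0 then b ω else (0, 0) := ⟨_, rfl⟩
  have ea : ∀ ω, P.p ω ≠ 0 → a' ω = a ω := fun ω h => by rw [ha']; exact if_pos h
  have eb : ∀ ω, P.p ω ≠ 0 → b' ω = b ω := fun ω h => by rw [hb']; exact if_pos h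
  refine ⟨a', b', ea, eb, ⟨?_, ?_⟩, ?_, ?_, ?_, ?_⟩
  · intro z x y
    have e1 : P.pr (fun ω => Zs ω = z ∧ a' ω = x ∧ b' ω = y) = P.pr (fun ω => Zs ω = z ∧ a ω = x ∧ b ω = y) :=
      ent_pr_congr P fun ω hω => by rw [ea ω hω, eb ω hω]
    have e2 : P.pr (fun ω => Zs ω = z ∧ a' ω = x) = P.pr (fun ω => Zs ω = z ∧ a ω = x) :=
      ent_pr_congr P fun ω hω => by rw [ea ω hω]
    have e3 : P.pr (fun ω => Zs ω = z ∧ b' ω = y) = P.pr (fun ω => Zs ω = z ∧ b ω = y) :=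
      ent_pr_congr P fun ω hω => by rw [eb ω hω]
    rw [e1, e2, e3]
    exact hiid.1 z x y
  · intro z x
    have e2 : P.pr (fun ω => Zs ω = z ∧ a' ω = x) = P.pr (fun ω => Zs ω = z ∧ a ω = x) :=
      ent_pr_congr P fun ω hω => by rw [ea ω hω]
    have e3 : P.pr (fun ω => Zs ω = z ∧ b' ω = x) = P.pr (fun ω => Zs ω = z ∧ b ω = x) :=
      ent_pr_congr P fun ω hω => by rw [eb ω hω]
    rw [e2, e3]
    exact hiid.2 z x
  · intro ω
    by_cases h : P.p ω ≠ 0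
    · rw [ea ω h]; exact ha ω h
    · rw [ha']; simp only [if_neg h, abs_zero]; exact ⟨hA, hA⟩
  · intro ω
    by_cases h : P.p ω ≠ 0
    · rw [eb ω h]; exact hb ω h
    · rw [hb']; simp only [if_neg h, abs_zero]; exact ⟨hA, hA⟩
  · refine le_trans (le_of_eq (ent_pr_congr P fun ω hω => ?_)) hgood
    refine not_congr (it_r_aux_goodH_supp P _ _ Zs Zs (fun k ω' h' => ?_) (fun _ _ => rfl) d η n hω)
    unfold icQ
    rw [ea ω' h']
  · intro al be ga hab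
    refine le_trans (le_of_eq (ent_pr_congr P fun ω hω => ?_)) (hstrip al be ga hab)
    rw [ea ω hω]

/-- LEAF L-256-RAD-C1a (~200 l.).  `a' ω = if P.p ω ≠ 0 then a ω else (0,0)`, the same for `b`.  `a' = a`, `b' = b` on the support, so every `P.pr` (`ent_pr_congr`) and every `P.surC` at a support point (`ent_surC_congr`)
is unchanged;  `PjBd A a'` since `0 ≤ A`.  Apply `pj_par_law` to `a', b'`. -/
theorem it_r_par_law (A d ε : ℝ) (hA : 1 ≤ A) (hd : 0 < d) (hd1 : d ≤ 1) (hε : 0 < ε) :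
    ∃ t₀ : ℝ, 0 < t₀ ∧ t₀ ≤ 1 ∧ ∀ κ₀ : ℝ, 0 < κ₀ → ∃ η : ℝ, 0 < η ∧ ∃ n₁ : ℕ, ∀ n : ℕ, n₁ ≤ n → ∀ m : ℕ, 2 * n ≤ m →
      ∀ (Ω ζ : Type) [Fintype Ω] (P : FLaw Ω) (Zs : Ω → ζ) (a b : Ω → ℝ × ℝ),
        PjIid P Zs a b → ItBdS P A a → ItBdS P A b →
        P.pr (fun ω => ¬ PjGoodH P (icQ a) Zs d η n ω) ≤ η →
        PjNoStrip P Zs a ((2 : ℝ) ^ (-(t₀ * n))) ((2 : ℝ) ^ (-(κ₀ * n))) →
        P.pr (fun ω => PjHorP (pjCor m (b ω)) (a ω) ∧
          ¬ IcGood P (icS (fun ω => pjDir (pjCor m (b ω)) (a ω))) (pair Zs (icQ b m)) (d - ε) ε n ω) ≤ ε ∧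
        P.pr (fun ω => PjHorP (pjCor m (b ω)).swap (a ω).swap ∧
          ¬ IcGood P (icS (fun ω => pjDir (pjCor m (b ω)).swap (a ω).swap)) (pair Zs (icQ b m)) (d - ε) ε n ω) ≤ ε := by
  obtain ⟨t₀, ht0, ht1, H⟩ := pj_par_law A d ε hA hd hd1 hε
  refine ⟨t₀, ht0, ht1, fun κ₀ hκ => ?_⟩
  obtain ⟨η, hη, n₁, H2⟩ := H κ₀ hκ
  refine ⟨η, hη, n₁, fun n hn m hm Ω ζ _ P Zs a b hiid ha hb hgood hstrip => ?_⟩
  obtain ⟨a', b', ea, eb, i1, i2, i3, i4, i5⟩ := it_r_aux_trunc P Zs a b A d η _ _ n (by linarith) hiid ha hb hgood hstrip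
  obtain ⟨c1, c2⟩ := H2 n hn m hm Ω ζ P Zs a' b' i1 i2 i3 i4 i5
  constructor
  · refine le_trans (le_of_eq (ent_pr_congr P fun ω hω => ?_)) c1
    rw [ea ω hω, eb ω hω]
    refine and_congr Iff.rfl (not_congr (it_r_aux_icgood_supp P _ _ _ _ (fun k ω' h' => ?_) (fun ω' h' => ?_) _ _ n hω))
    · unfold icS
      beta_reduce
      rw [ea ω' h', eb ω' h']
    · unfold FLaw.pair icQ
      rw [eb ω' h']
  · refine le_trans (le_of_eq (ent_pr_congr P fun ω hω => ?_)) c2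
    rw [ea ω hω, eb ω hω]
    refine and_congr Iff.rfl (not_congr (it_r_aux_icgood_supp P _ _ _ _ (fun k ω' h' => ?_) (fun ω' h' => ?_) _ _ n hω))
    · unfold icS
      beta_reduce
      rw [ea ω' h', eb ω' h']
    · unfold FLaw.pair icQ
      rw [eb ω' h']

/-- LEAF L-256-RAD-C1b (~200 l.).  The same truncation for `pj_rad_law`. -/
theorem it_r_rad_law (A d ε : ℝ) (hA : 1 ≤ A) (hd : 0 < d) (hd1 : d ≤ 1) (hε : 0 < ε) :
    ∃ t₀ : ℝ, 0 < t₀ ∧ t₀ ≤ 1 ∧ ∀ κ₀ : ℝ, 0 < κ₀ → ∃ η : ℝ, 0 < η ∧ ∃ n₁ : ℕ, ∀ n : ℕ, n₁ ≤ n →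
      ∀ (Ω ζ : Type) [Fintype Ω] (P : FLaw Ω) (Zs : Ω → ζ) (a b : Ω → ℝ × ℝ),
        PjIid P Zs a b → ItBdS P A a → ItBdS P A b →
        P.pr (fun ω => ¬ PjGoodH P (icQ a) Zs d η n ω) ≤ η →
        PjNoStrip P Zs a ((2 : ℝ) ^ (-(t₀ * n))) ((2 : ℝ) ^ (-(κ₀ * n))) →
        P.pr (fun ω => PjHorP (a ω) (b ω) ∧
          ¬ PjGoodH P (icS (fun ω => pjDir (a ω) (b ω))) (pair Zs a) (d - ε) ε n ω) ≤ ε ∧
        P.pr (fun ω => PjHorP (a ω).swap (b ω).swap ∧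
          ¬ PjGoodH P (icS (fun ω => pjDir (a ω).swap (b ω).swap)) (pair Zs a) (d - ε) ε n ω) ≤ ε := by
  obtain ⟨t₀, ht0, ht1, H⟩ := pj_rad_law A d ε hA hd hd1 hε
  refine ⟨t₀, ht0, ht1, fun κ₀ hκ => ?_⟩
  obtain ⟨η, hη, n₁, H2⟩ := H κ₀ hκ
  refine ⟨η, hη, n₁, fun n hn Ω ζ _ P Zs a b hiid ha hb hgood hstrip => ?_⟩
  obtain ⟨a', b', ea, eb, i1, i2, i3, i4, i5⟩ := it_r_aux_trunc P Zs a b A d η _ _ n (by linarith) hiid ha hb hgood hstrip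
  obtain ⟨c1, c2⟩ := H2 n hn Ω ζ P Zs a' b' i1 i2 i3 i4 i5
  constructor
  · refine le_trans (le_of_eq (ent_pr_congr P fun ω hω => ?_)) c1
    rw [ea ω hω, eb ω hω]
    refine and_congr Iff.rfl (not_congr (it_r_aux_goodH_supp P _ _ _ _ (fun k ω' h' => ?_) (fun ω' h' => ?_) _ _ n hω))
    · unfold icS
      beta_reduce
      rw [ea ω' h', eb ω' h']
    · unfold FLaw.pair
      rw [ea ω' h']
  · refine le_trans (le_of_eq (ent_pr_congr P fun ω hω => ?_)) c2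
    rw [ea ω hω, eb ω hω]
    refine and_congr Iff.rfl (not_congr (it_r_aux_goodH_supp P _ _ _ _ (fun k ω' h' => ?_) (fun ω' h' => ?_) _ _ n hω))
    · unfold icS
      beta_reduce
      rw [ea ω' h', eb ω' h']
    · unfold FLaw.pair
      rw [ea ω' h']

/-- LEAF L-256-RAD-C2 (~200 l.).  ONE CHART.  `η, n₁` from `pj_coreK d s α 5` (and `n₁ ≥ 1`).  The bad event is contained in the union of
`{¬ IcGood point}` (`e1`), `{E, ¬ IcGood slope}` (`e2`), `{E, |f| < σ}` (`e3`), the event of `pj_coreK` (`≤ (0 + log 2)/(η n log 2) = 1/(η n)`), and the event of `it_r_list` with `C = (Tg, D)`, `W = icW q t`,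
`G = E ∧ σ ≤ |f|` (`≤ 3 e^(-x)`);  `icU q t n = fun ω => icCell n (icW q t ω)` by `rfl`.  Union bound: `ent_pr_mono`, `ent_pr_or_le`. -/
theorem it_r_chart (d s α : ℝ) (hd : 0 < d) (hs : 0 < s) (hα : 0 < α) :
    ∃ η : ℝ, 0 < η ∧ ∃ n₁ : ℕ, ∀ n : ℕ, n₁ ≤ n → ∀ (Ω δ β' : Type) [Fintype Ω] (P : FLaw Ω) (q : Ω → ℝ × ℝ) (t f F : Ω → ℝ)
      (D : Ω → δ) (Tg : Ω → β') (E : Ω → Prop) (σ x e1 e2 e3 : ℝ), IcBd 5 q t →
      (∀ ω ω', Tg ω = Tg ω' → icS t n ω = icS t n ω') → (∀ ω ω', Tg ω = Tg ω' → f ω = f ω') → 0 < σ →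
      P.miC (icQ q n) Tg D = 0 →
      P.pr (fun ω => ¬ IcGood P (icQ q) D d η n ω) ≤ e1 →
      P.pr (fun ω => E ω ∧ ¬ IcGood P (icS t) D s η n ω) ≤ e2 →
      P.pr (fun ω => E ω ∧ |f ω| < σ) ≤ e3 →
      (∀ ω, E ω → F ω = f ω * icW q t ω) →
      P.pr (fun ω => E ω ∧ P.surC (fun ω => icCell n (F ω)) (pair Tg D) ω
          < (min d s - α) * n * Real.log 2 - Real.log (1 / σ + 2) - 3 * x)
        ≤ e1 + e2 + e3 + 1 / (η * n) + 3 * Real.exp (-x) := by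
  obtain ⟨η, hη, n₁, H⟩ := pj_coreK d s α 5 hd hs hα (by norm_num)
  refine ⟨η, hη, max n₁ 1, fun n hn Ω δ β' _ P q t f F D Tg E σ x e1 e2 e3 hbd hTg hf hσ hmi h1 h2 h3 hF => ?_⟩
  have hl2 : 0 < Real.log 2 := Real.log_pos (by norm_num)
  have hn0 : (0 : ℝ) < n := by
    have : 0 < n := by omega
    exact_mod_cast this
  have k1 := H n (by omega) Ω δ β' P q t D Tg hbd hTg
  rw [hmi, zero_add] at k1
  have e0 : Real.log 2 / (η * n * Real.log 2) = 1 / (η * n) := by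
    field_simp
  rw [e0] at k1
  have k2 := it_r_list P (pair Tg D) (icW q t) f F (fun ω => E ω ∧ σ ≤ |f ω|) σ x n hσ
    (fun ω ω' h => hf ω ω' (Prod.mk.inj h).1) (fun ω h => ⟨h.2, hF ω h.1⟩)
  have hsub : P.pr (fun ω => E ω ∧ P.surC (fun ω => icCell n (F ω)) (pair Tg D) ω
          < (min d s - α) * n * Real.log 2 - Real.log (1 / σ + 2) - 3 * x) ≤
      P.pr (fun ω => ((((¬ IcGood P (icQ q) D d η n ω) ∨ (E ω ∧ ¬ IcGood P (icS t) D s η n ω)) ∨ (E ω ∧ |f ω| < σ)) ∨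
        (IcGood P (icQ q) D d η n ω ∧ IcGood P (icS t) D s η n ω ∧
          P.surC (icU q t n) (pair Tg D) ω < (min d s - α) * n * Real.log 2)) ∨
        ((E ω ∧ σ ≤ |f ω|) ∧ P.surC (fun ω => icCell n (F ω)) (pair Tg D) ω
          < P.surC (fun ω => icCell n (icW q t ω)) (pair Tg D) ω - Real.log (1 / σ + 2) - 3 * x)) := by
    refine ent_pr_mono P fun ω _ hω => ?_
    obtain ⟨hE, hlt⟩ := hω
    by_cases g1 : IcGood P (icQ q) D d η n ω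
    · by_cases g2 : IcGood P (icS t) D s η n ω
      · by_cases g3 : |f ω| < σ
        · exact Or.inl (Or.inl (Or.inr ⟨hE, g3⟩))
        · by_cases g4 : P.surC (icU q t n) (pair Tg D) ω < (min d s - α) * n * Real.log 2
          · exact Or.inl (Or.inr ⟨g1, g2, g4⟩)
          · refine Or.inr ⟨⟨hE, not_lt.1 g3⟩, ?_⟩
            have g4' : (min d s - α) * n * Real.log 2 ≤ P.surC (fun ω => icCell n (icW q t ω)) (pair Tg D) ω := not_lt.1 g4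
            linarith
      · exact Or.inl (Or.inl (Or.inl (Or.inr ⟨hE, g2⟩)))
    · exact Or.inl (Or.inl (Or.inl (Or.inl g1)))
  have u1 := ent_pr_or_le P (fun ω => (((¬ IcGood P (icQ q) D d η n ω) ∨ (E ω ∧ ¬ IcGood P (icS t) D s η n ω)) ∨ (E ω ∧ |f ω| < σ)) ∨
        (IcGood P (icQ q) D d η n ω ∧ IcGood P (icS t) D s η n ω ∧
          P.surC (icU q t n) (pair Tg D) ω < (min d s - α) * n * Real.log 2))
        (fun ω => (E ω ∧ σ ≤ |f ω|) ∧ P.surC (fun ω => icCell n (F ω)) (pair Tg D) ω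
          < P.surC (fun ω => icCell n (icW q t ω)) (pair Tg D) ω - Real.log (1 / σ + 2) - 3 * x)
  have u2 := ent_pr_or_le P (fun ω => ((¬ IcGood P (icQ q) D d η n ω) ∨ (E ω ∧ ¬ IcGood P (icS t) D s η n ω)) ∨ (E ω ∧ |f ω| < σ))
        (fun ω => IcGood P (icQ q) D d η n ω ∧ IcGood P (icS t) D s η n ω ∧
          P.surC (icU q t n) (pair Tg D) ω < (min d s - α) * n * Real.log 2)
  have u3 := ent_pr_or_le P (fun ω => (¬ IcGood P (icQ q) D d η n ω) ∨ (E ω ∧ ¬ IcGood P (icS t) D s η n ω)) (fun ω => E ω ∧ |f ω| < σ)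
  have u4 := ent_pr_or_le P (fun ω => ¬ IcGood P (icQ q) D d η n ω) (fun ω => E ω ∧ ¬ IcGood P (icS t) D s η n ω)
  linarith

theorem it_r_aux_frac (m : ℕ) (x : ℝ) : 0 ≤ (x - (icCell m x : ℝ) / 2 ^ m) * 2 ^ m ∧ (x - (icCell m x : ℝ) / 2 ^ m) * 2 ^ m < 1 := by
  have h2 : (0 : ℝ) < 2 ^ m := by positivity
  have e : (x - (icCell m x : ℝ) / 2 ^ m) * 2 ^ m = x * 2 ^ m - (icCell m x : ℝ) := by field_simp
  rw [e]
  unfold icCell
  constructor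
  · linarith [Int.floor_le (x * 2 ^ m)]
  · linarith [Int.lt_floor_add_one (x * 2 ^ m)]

theorem it_r_aux_ch_bd (m : ℕ) (y : ℝ × ℝ) : |(itCh m y).1| ≤ 5 ∧ |(itCh m y).2| ≤ 5 := by
  have h1 := it_r_aux_frac m y.1
  have h2 := it_r_aux_frac m y.2
  unfold itCh pjCor
  constructor
  · rw [abs_le]; constructor <;> linarith [h1.1, h1.2]
  · rw [abs_le]; constructor <;> linarith [h2.1, h2.2]

theorem it_r_aux_dir_bd (x y : ℝ × ℝ) : |pjDir x y| ≤ 5 := by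
  unfold pjDir
  split_ifs with h
  · unfold PjHorP at h
    rw [abs_div]
    rcases eq_or_lt_of_le (abs_nonneg (y.1 - x.1)) with h0 | h0
    · rw [← h0]; simp
    · rw [div_le_iff₀ h0]; linarith
  · norm_num

/-- horizontal chart -/
theorem it_r_aux_geo_h (m : ℕ) (x y : ℝ × ℝ) (h : PjHorP (pjCor m y) x) :
    itNI m x y * 2 ^ m = (x.1 - (pjCor m y).1) * ((itCh m y).2 - pjDir (pjCor m y) x * (itCh m y).1) := by
  unfold pjDir
  rw [if_pos h]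
  unfold PjHorP at h
  unfold itNI itCh
  obtain ⟨c, hc⟩ : ∃ c, c = pjCor m y := ⟨_, rfl⟩
  rw [← hc] at h ⊢
  by_cases h0 : x.1 - c.1 = 0
  · have h2 : x.2 - c.2 = 0 := by
      rw [h0, abs_zero] at h
      exact abs_eq_zero.1 (le_antisymm h (abs_nonneg _))
    have h3 : c.2 - x.2 = 0 := by linarith
    simp only
    rw [h0, h3]; ring
  · simp only
    field_simp
    ring

/-- vertical chart -/
theorem it_r_aux_geo_v (m : ℕ) (x y : ℝ × ℝ) (h : PjHorP (pjCor m y).swap x.swap) :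
    itNI m x y * 2 ^ m = ((pjCor m y).2 - x.2) * ((itCh m y).swap.2 - pjDir (pjCor m y).swap x.swap * (itCh m y).swap.1) := by
  unfold pjDir
  rw [if_pos h]
  unfold PjHorP at h
  unfold itNI itCh
  obtain ⟨c, hc⟩ : ∃ c, c = pjCor m y := ⟨_, rfl⟩
  rw [← hc] at h ⊢
  simp only [Prod.snd_swap, Prod.fst_swap] at h ⊢
  by_cases h0 : x.2 - c.2 = 0
  · have h2 : x.1 - c.1 = 0 := by
      rw [h0, abs_zero] at h
      exact abs_eq_zero.1 (le_antisymm h (abs_nonneg _))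
    have h3 : c.2 - x.2 = 0 := by linarith
    rw [h2, h3]; ring
  · have h0' : c.2 - x.2 ≠ 0 := fun hh => h0 (by linarith)
    field_simp
    ring

/-- one chart of `it_r_core`, all constants explicit -/
theorem it_r_aux_core_one {Ω ζ β : Type} [Fintype Ω] (P : FLaw Ω) (Zs : Ω → ζ) (a b : Ω → ℝ × ℝ) (V : Ω → β)
    (d s α ηK η₁ ε' x : ℝ) (n m k₀ : ℕ) (hk₀ : k₀ ≤ n) (hη₁K : η₁ ≤ ηK) (hε's : s ≤ d - ε') (hε'K : ε' ≤ ηK)
    (HK : ∀ (q : Ω → ℝ × ℝ) (t f F : Ω → ℝ)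
      (D : Ω → ζ × (ℤ × ℤ)) (Tg : Ω → β × (ℤ × ℤ)) (E : Ω → Prop) (σ x e1 e2 e3 : ℝ), IcBd 5 q t →
      (∀ ω ω', Tg ω = Tg ω' → icS t n ω = icS t n ω') → (∀ ω ω', Tg ω = Tg ω' → f ω = f ω') → 0 < σ →
      P.miC (icQ q n) Tg D = 0 →
      P.pr (fun ω => ¬ IcGood P (icQ q) D d ηK n ω) ≤ e1 →
      P.pr (fun ω => E ω ∧ ¬ IcGood P (icS t) D s ηK n ω) ≤ e2 →
      P.pr (fun ω => E ω ∧ |f ω| < σ) ≤ e3 →
      (∀ ω, E ω → F ω = f ω * icW q t ω) →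
      P.pr (fun ω => E ω ∧ P.surC (fun ω => icCell n (F ω)) (pair Tg D) ω
          < (min d s - α) * n * Real.log 2 - Real.log (1 / σ + 2) - 3 * x)
        ≤ e1 + e2 + e3 + 1 / (ηK * n) + 3 * Real.exp (-x))
    (hiid : PjIid P Zs a b) (hV : ∀ ω ω', V ω = V ω' → a ω = a ω')
    (hroot : P.pr (fun ω => ¬ PjGoodH P (icQ a) Zs d η₁ n ω) ≤ η₁)
    (hlay : P.pr (fun ω => ¬ IcGood P (fun k => icQ b (m + k)) (pair Zs (icQ b m)) d η₁ n ω) ≤ η₁)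
    (q : Ω → ℝ × ℝ) (t f : Ω → ℝ) (E : Ω → Prop) (c1 : IcBd 5 q t)
    (c2 : ∀ ω ω', a ω = a ω' → icQ b m ω = icQ b m ω' → t ω = t ω' ∧ f ω = f ω')
    (c3 : P.miC (icQ q n) (pair V (icQ b m)) (pair Zs (icQ b m)) = 0)
    (c4 : ∀ ω k, P.surC (icQ q k) (pair Zs (icQ b m)) ω = P.surC (icQ b (m + k)) (pair Zs (icQ b m)) ω)
    (c5 : P.pr (fun ω => E ω ∧ ¬ IcGood P (icS t) (pair Zs (icQ b m)) (d - ε') ε' n ω) ≤ ε')
    (c6 : ∀ ω, E ω → |f ω| < (1 / 2 : ℝ) ^ k₀ → |(a ω).1 - (pjCor m (b ω)).1| ≤ (1 / 2 : ℝ) ^ k₀ ∧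
      |(a ω).2 - (pjCor m (b ω)).2| ≤ (1 / 2 : ℝ) ^ k₀)
    (c7 : ∀ ω, E ω → itNI m (a ω) (b ω) * 2 ^ m = f ω * icW q t ω) :
    P.pr (fun ω => E ω ∧ P.surC (fun ω => icCell (m + n) (itNI m (a ω) (b ω))) (pair (icQ b m) (pair Zs V)) ω
        < (min d s - α) * n * Real.log 2 - Real.log (1 / (1 / 2 : ℝ) ^ k₀ + 2) - 3 * x)
      ≤ η₁ + ε' + (η₁ + 9 * (2 : ℝ) ^ (-(d * k₀ - η₁ * n))) + 1 / (ηK * n) + 3 * Real.exp (-x) := by
  have hl2 : 0 < Real.log 2 := Real.log_pos (by norm_num)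
  have hn0 : (0 : ℝ) ≤ n := Nat.cast_nonneg n
  have key := HK q t f (fun ω => itNI m (a ω) (b ω) * 2 ^ m) (pair Zs (icQ b m)) (pair V (icQ b m)) E ((1 / 2 : ℝ) ^ k₀) x
    η₁ ε' (η₁ + 9 * (2 : ℝ) ^ (-(d * k₀ - η₁ * n))) c1 ?_ ?_ (by positivity) c3 ?_ ?_ ?_ c7
  · refine le_trans (le_of_eq ?_) key
    refine ent_pr_congr P fun ω _ => ?_
    have e1 : (fun ω => icCell (m + n) (itNI m (a ω) (b ω))) = fun ω => icCell n (itNI m (a ω) (b ω) * 2 ^ m) := by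
      funext ω'
      unfold icCell
      rw [pow_add, mul_assoc]
    have e2 : P.surC (fun ω => icCell n (itNI m (a ω) (b ω) * 2 ^ m)) (pair (icQ b m) (pair Zs V)) ω
        = P.surC (fun ω => icCell n (itNI m (a ω) (b ω) * 2 ^ m)) (pair (pair V (icQ b m)) (pair Zs (icQ b m))) ω := by
      refine ent_surC_congr P _ _ _ _ ω (fun ω' _ => ?_) (fun _ _ _ => Iff.rfl)
      simp only [pair, Prod.mk.injEq]
      tauto
    rw [e1, e2]
  · intro ω ω' h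
    simp only [pair, Prod.mk.injEq] at h
    unfold icS
    rw [(c2 ω ω' (hV _ _ h.1) h.2).1]
  · intro ω ω' h
    simp only [pair, Prod.mk.injEq] at h
    exact (c2 ω ω' (hV _ _ h.1) h.2).2
  · refine le_trans (ent_pr_mono P fun ω _ h => ?_) hlay
    intro hg
    apply h
    intro k hk
    rw [c4]
    refine le_trans ?_ (hg k hk)
    have : η₁ * n ≤ ηK * n := by gcongr
    nlinarith
  · refine le_trans (ent_pr_mono P fun ω _ h => ?_) c5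
    refine ⟨h.1, fun hg => h.2 ?_⟩
    intro k hk
    refine le_trans ?_ (hg k hk)
    have h1 : ε' * n ≤ ηK * n := by gcongr
    have h2 : s * k ≤ (d - ε') * k := by
      have : (0 : ℝ) ≤ k := Nat.cast_nonneg k
      gcongr
    nlinarith
  · have h1 := it_r_sep P Zs a b hiid (pjCor m) d η₁ n k₀ hk₀
    refine le_trans ?_ (add_le_add hroot h1)
    refine le_trans (ent_pr_mono P fun ω _ h => ?_) (ent_pr_or_le P _ _)
    by_cases hg : PjGoodH P (icQ a) Zs d η₁ n ω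
    · right
      exact ⟨hg, c6 ω h.1 h.2⟩
    · left
      exact hg

theorem it_r_aux_cor_congr (m : ℕ) {y y' : ℝ × ℝ} (h : (icCell m y.1, icCell m y.2) = (icCell m y'.1, icCell m y'.2)) :
    pjCor m y = pjCor m y' := by
  simp only [Prod.mk.injEq] at h
  unfold pjCor
  rw [h.1, h.2]

theorem it_r_aux_exp2 (y : ℝ) : Real.exp (-(y * Real.log 2)) = (2 : ℝ) ^ (-y) := by
  rw [Real.rpow_def_of_pos (by norm_num)]
  congr 1
  ring

theorem it_r_aux_num1 (d ηm ε n k₀ l2 : ℝ) (hl2 : 0 < l2) (hε1 : ε ≤ ηm / 8) (hn : 6 ≤ n * ηm) (hn0 : 0 ≤ n)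
    (hk2 : k₀ < ηm / 8 * n + 1) :
    (d - ηm) * n * l2 ≤ (d - ε - ηm / 8) * n * l2 - (k₀ + 2) * l2 - 3 * (ηm / 24 * n * l2) := by
  have h1 : ε * n ≤ ηm / 8 * n := mul_le_mul_of_nonneg_right hε1 hn0
  have h2 : 0 ≤ (d - ε - ηm / 8) * n - (k₀ + 2) - 3 * (ηm / 24 * n) - (d - ηm) * n := by linarith
  have h3 : (d - ε - ηm / 8) * n * l2 - (k₀ + 2) * l2 - 3 * (ηm / 24 * n * l2) - (d - ηm) * n * l2
      = ((d - ε - ηm / 8) * n - (k₀ + 2) - 3 * (ηm / 24 * n) - (d - ηm) * n) * l2 := by ring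
  have h4 := mul_nonneg h2 hl2.le
  linarith

theorem it_r_aux_score (d ηm ε x : ℝ) (n k₀ : ℕ) (hm0 : 0 < ηm) (hε0 : 0 < ε) (hε1 : ε ≤ ηm / 8) (hn : 6 / ηm ≤ (n : ℝ))
    (hk2 : (k₀ : ℝ) < ηm / 8 * n + 1) (hx : x = ηm / 24 * n * Real.log 2) :
    (d - ηm) * n * Real.log 2
      ≤ (min d (d - ε) - ηm / 8) * n * Real.log 2 - Real.log (1 / (1 / 2 : ℝ) ^ k₀ + 2) - 3 * x := by
  have hl2 : 0 < Real.log 2 := Real.log_pos (by norm_num)
  have e1 : min d (d - ε) = d - ε := min_eq_right (by linarith)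
  have e2 : Real.log (1 / (1 / 2 : ℝ) ^ k₀ + 2) ≤ ((k₀ : ℝ) + 2) * Real.log 2 := by
    have e3 : 1 / (1 / 2 : ℝ) ^ k₀ = 2 ^ k₀ := by
      rw [one_div_pow, one_div_one_div]
    have e4 : (1 : ℝ) ≤ 2 ^ k₀ := one_le_pow₀ (by norm_num)
    rw [e3]
    calc Real.log (2 ^ k₀ + 2) ≤ Real.log (2 ^ (k₀ + 2)) := by
          apply Real.log_le_log (by positivity)
          rw [pow_add]; linarith
      _ = ((k₀ : ℝ) + 2) * Real.log 2 := by
          rw [Real.log_pow]; push_cast; ring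
  rw [e1, hx]
  have e5 := hn
  rw [div_le_iff₀ hm0] at e5
  have e6 := it_r_aux_num1 d ηm ε n k₀ (Real.log 2) hl2 hε1 e5 (Nat.cast_nonneg n) hk2
  linarith

theorem it_r_aux_fail (d ηm ηK η₁ ε' x : ℝ) (n k₀ : ℕ) (hd : 0 < d) (hm0 : 0 < ηm) (hηK : 0 < ηK) (h13 : η₁ ≤ ηm / 32)
    (h14 : η₁ ≤ d * ηm / 16) (hε'3 : ε' ≤ ηm / 32) (g1 : 288 / ηm < (2 : ℝ) ^ (d * ηm / 16 * n))
    (g2 : 96 / ηm < (2 : ℝ) ^ (ηm / 24 * n)) (g3 : 32 / (ηK * ηm) ≤ (n : ℝ)) (hk1 : ηm / 8 * n ≤ (k₀ : ℝ))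
    (hx : x = ηm / 24 * n * Real.log 2) :
    η₁ + ε' + (η₁ + 9 * (2 : ℝ) ^ (-(d * k₀ - η₁ * n))) + 1 / (ηK * n) + 3 * Real.exp (-x) ≤ ηm / 2 := by
  have hn0 : (0 : ℝ) < n := lt_of_lt_of_le (by positivity) g3
  have f1 : 9 * (2 : ℝ) ^ (-(d * k₀ - η₁ * n)) ≤ ηm / 32 := by
    have f2 : d * ηm / 16 * n ≤ d * k₀ - η₁ * n := by
      have a1 : η₁ * n ≤ d * ηm / 16 * n := mul_le_mul_of_nonneg_right h14 hn0.le
      have a2 : d * (ηm / 8 * n) ≤ d * k₀ := mul_le_mul_of_nonneg_left hk1 hd.le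
      linarith
    have f3 : (2 : ℝ) ^ (-(d * k₀ - η₁ * n)) ≤ (2 : ℝ) ^ (-(d * ηm / 16 * n)) :=
      Real.rpow_le_rpow_of_exponent_le (by norm_num) (by linarith)
    have f4 : (2 : ℝ) ^ (-(d * ηm / 16 * n)) ≤ ηm / 288 := by
      rw [Real.rpow_neg (by norm_num), inv_le_comm₀ (by positivity) (by positivity), inv_div]
      exact g1.le
    linarith
  have f5 : 1 / (ηK * n) ≤ ηm / 32 := by
    have a1 := g3
    rw [div_le_iff₀ (by positivity)] at a1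
    rw [div_le_div_iff₀ (by positivity) (by norm_num)]
    linarith
  have f6 : 3 * Real.exp (-x) ≤ ηm / 32 := by
    rw [hx, it_r_aux_exp2]
    have f7 : (2 : ℝ) ^ (-(ηm / 24 * n)) ≤ ηm / 96 := by
      rw [Real.rpow_neg (by norm_num), inv_le_comm₀ (by positivity) (by positivity), inv_div]
      exact g2.le
    linarith
  linarith

theorem it_r_aux_goodH_mono {Ω α δ : Type} [Fintype Ω] (P : FLaw Ω) (X : ℕ → Ω → α) (D : Ω → δ) {e η η' : ℝ} {n : ℕ} (h : η ≤ η')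
    {ω : Ω} (hg : PjGoodH P X D e η n ω) : PjGoodH P X D e η' n ω := by
  intro k k' hkk hk'
  refine le_trans ?_ (hg k k' hkk hk')
  have hl2 : 0 < Real.log 2 := Real.log_pos (by norm_num)
  have : η * n ≤ η' * n := mul_le_mul_of_nonneg_right h (Nat.cast_nonneg n)
  exact mul_le_mul_of_nonneg_right (by linarith) hl2.le

/-- GLUE C3 = EXIT 1 (helper9).  KAUFMAN ON THE MARK PLANE, law form.  Levels: parent `m ≥ 2n`, child `m + n`. -/
theorem it_r_core (A d η : ℝ) (hA : 1 ≤ A) (hd : 0 < d) (hd1 : d ≤ 1) (hη : 0 < η) :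
    ∃ t₀ : ℝ, 0 < t₀ ∧ t₀ ≤ 1 ∧ ∀ κ₀ : ℝ, 0 < κ₀ → ∃ η₁ : ℝ, 0 < η₁ ∧ ∃ n₁ : ℕ, ∀ n : ℕ, n₁ ≤ n → ∀ m : ℕ, 2 * n ≤ m →
      ∀ (Ω ζ β : Type) [Fintype Ω] (P : FLaw Ω) (Zs : Ω → ζ) (a b : Ω → ℝ × ℝ) (V : Ω → β),
        PjIid P Zs a b → ItBdS P A a → ItBdS P A b → (∀ ω ω', V ω = V ω' → a ω = a ω') → P.CI b V Zs →
        P.pr (fun ω => ¬ PjGoodH P (icQ a) Zs d η₁ n ω) ≤ η₁ →
        PjNoStrip P Zs a ((2 : ℝ) ^ (-(t₀ * n))) ((2 : ℝ) ^ (-(κ₀ * n))) →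
        P.pr (fun ω => ¬ IcGood P (fun k => icQ b (m + k)) (pair Zs (icQ b m)) d η₁ n ω) ≤ η₁ →
        P.pr (fun ω => P.surC (fun ω => icCell (m + n) (itNI m (a ω) (b ω))) (pair (icQ b m) (pair Zs V)) ω
          < (d - η) * n * Real.log 2) ≤ η := by
  have hl2 : 0 < Real.log 2 := Real.log_pos (by norm_num)
  obtain ⟨ηm, hηm⟩ : ∃ ηm, ηm = min η 1 := ⟨_, rfl⟩
  have hm0 : 0 < ηm := by rw [hηm]; exact lt_min hη one_pos
  have hm1 : ηm ≤ 1 := by rw [hηm]; exact min_le_right _ _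
  have hmη : ηm ≤ η := by rw [hηm]; exact min_le_left _ _
  obtain ⟨ε, hε⟩ : ∃ ε, ε = min (ηm / 8) (d / 2) := ⟨_, rfl⟩
  have hε0 : 0 < ε := by rw [hε]; exact lt_min (by positivity) (by positivity)
  have hε1 : ε ≤ ηm / 8 := by rw [hε]; exact min_le_left _ _
  have hε2 : ε ≤ d / 2 := by rw [hε]; exact min_le_right _ _
  obtain ⟨ηK, hηK, nK, HK⟩ := it_r_chart d (d - ε) (ηm / 8) hd (by linarith) (by positivity)
  obtain ⟨ε', hε'⟩ : ∃ ε', ε' = min ε (min ηK (ηm / 32)) := ⟨_, rfl⟩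
  have hε'0 : 0 < ε' := by rw [hε']; exact lt_min hε0 (lt_min hηK (by positivity))
  have hε'1 : ε' ≤ ε := by rw [hε']; exact min_le_left _ _
  have hε'2 : ε' ≤ ηK := by rw [hε']; exact (min_le_right _ _).trans (min_le_left _ _)
  have hε'3 : ε' ≤ ηm / 32 := by rw [hε']; exact (min_le_right _ _).trans (min_le_right _ _)
  obtain ⟨t₀, ht₀, ht₀1, H5⟩ := it_r_par_law A d ε' hA hd hd1 hε'0
  refine ⟨t₀, ht₀, ht₀1, fun κ₀ hκ₀ => ?_⟩
  obtain ⟨η5, hη5, n5, H5'⟩ := H5 κ₀ hκ₀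
  obtain ⟨η₁, hη₁⟩ : ∃ η₁, η₁ = min η5 (min ηK (min (ηm / 32) (d * ηm / 16))) := ⟨_, rfl⟩
  have h10 : 0 < η₁ := by
    rw [hη₁]; exact lt_min hη5 (lt_min hηK (lt_min (by positivity) (by positivity)))
  have h11 : η₁ ≤ η5 := by rw [hη₁]; exact min_le_left _ _
  have h12 : η₁ ≤ ηK := by rw [hη₁]; exact (min_le_right _ _).trans (min_le_left _ _)
  have h13 : η₁ ≤ ηm / 32 := by
    rw [hη₁]; exact (min_le_right _ _).trans ((min_le_right _ _).trans (min_le_left _ _))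
  have h14 : η₁ ≤ d * ηm / 16 := by
    rw [hη₁]; exact (min_le_right _ _).trans ((min_le_right _ _).trans (min_le_right _ _))
  obtain ⟨N1, hN1⟩ := ic_aux_large (d * ηm / 16) (288 / ηm) (by positivity)
  obtain ⟨N2, hN2⟩ := ic_aux_large (ηm / 24) (96 / ηm) (by positivity)
  obtain ⟨N3, hN3⟩ := exists_nat_ge (32 / (ηK * ηm) + 6 / ηm + 2)
  refine ⟨η₁, h10, max (max nK n5) (max (max N1 N2) N3), fun n hn m hm Ω ζ β _ P Zs a b V hiid hba hbb hV hCI hroot hstrip hlay => ?_⟩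
  have gK : nK ≤ n := by omega
  have g5 : n5 ≤ n := by omega
  have g1 := hN1 n (by omega)
  have g2 := hN2 n (by omega)
  have g3 : 32 / (ηK * ηm) + 6 / ηm + 2 ≤ (n : ℝ) := hN3.trans (by exact_mod_cast (by omega : N3 ≤ n))
  have p1 : 0 < 32 / (ηK * ηm) := by positivity
  have p2 : 0 < 6 / ηm := by positivity
  have hn2 : (2 : ℝ) ≤ n := by linarith
  have hn0 : (0 : ℝ) < n := by linarith
  -- the separation level
  obtain ⟨k₀, hk₀def⟩ : ∃ k₀ : ℕ, k₀ = ⌈ηm / 8 * n⌉₊ := ⟨_, rfl⟩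
  have hk1 : ηm / 8 * n ≤ (k₀ : ℝ) := by rw [hk₀def]; exact Nat.le_ceil _
  have hk2 : (k₀ : ℝ) < ηm / 8 * n + 1 := by rw [hk₀def]; exact Nat.ceil_lt_add_one (by positivity)
  have hk₀ : k₀ ≤ n := by
    have a1 : ηm / 8 * n ≤ 1 * n := mul_le_mul_of_nonneg_right (by linarith) hn0.le
    have : (k₀ : ℝ) < (n : ℝ) + 1 := by linarith
    have : k₀ < n + 1 := by exact_mod_cast this
    omega
  obtain ⟨x, hx⟩ : ∃ x : ℝ, x = ηm / 24 * n * Real.log 2 := ⟨_, rfl⟩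
  -- parent-centred directions
  have hroot5 : P.pr (fun ω => ¬ PjGoodH P (icQ a) Zs d η5 n ω) ≤ η5 := by
    refine le_trans (le_trans (ent_pr_mono P fun ω _ h => ?_) hroot) h11
    exact fun hg => h (it_r_aux_goodH_mono P _ _ h11 hg)
  obtain ⟨hdirh, hdirv⟩ := H5' n g5 m hm Ω ζ P Zs a b hiid hba hbb hroot5 hstrip
  have hscore := it_r_aux_score d ηm ε x n k₀ hm0 hε0 hε1 (by linarith) hk2 hx
  have hfail := it_r_aux_fail d ηm ηK η₁ ε' x n k₀ hd hm0 hηK h13 h14 hε'3 g1 g2 (by linarith) hk1 hx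
  have HK' := HK n gK Ω (ζ × (ℤ × ℤ)) (β × (ℤ × ℤ)) P
  -- horizontal chart
  have ch := it_r_aux_core_one P Zs a b V d (d - ε) (ηm / 8) ηK η₁ ε' x n m k₀ hk₀ h12 (by linarith) hε'2 HK' hiid hV hroot hlay
    (fun ω => itCh m (b ω)) (fun ω => pjDir (pjCor m (b ω)) (a ω)) (fun ω => (a ω).1 - (pjCor m (b ω)).1)
    (fun ω => PjHorP (pjCor m (b ω)) (a ω))
    (fun ω => ⟨(it_r_aux_ch_bd m (b ω)).1, (it_r_aux_ch_bd m (b ω)).2, it_r_aux_dir_bd _ _⟩)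
    (fun ω ω' h1 h2 => by
      have h3 : pjCor m (b ω) = pjCor m (b ω') := it_r_aux_cor_congr m h2
      simp only [h1, h3, and_self])
    (it_r_ci_weak P b V Zs hCI (fun y => (icCell n (itCh m y).1, icCell n (itCh m y).2)) (fun y => (icCell m y.1, icCell m y.2)))
    (fun ω k => it_r_child P Zs b m k ω) hdirh
    (fun ω hE hf => by
      unfold PjHorP at hE
      exact ⟨hf.le, hE.trans hf.le⟩)
    (fun ω hE => it_r_aux_geo_h m (a ω) (b ω) hE)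
  -- vertical chart
  have cv := it_r_aux_core_one P Zs a b V d (d - ε) (ηm / 8) ηK η₁ ε' x n m k₀ hk₀ h12 (by linarith) hε'2 HK' hiid hV hroot hlay
    (fun ω => (itCh m (b ω)).swap) (fun ω => pjDir (pjCor m (b ω)).swap (a ω).swap) (fun ω => (pjCor m (b ω)).2 - (a ω).2)
    (fun ω => PjHorP (pjCor m (b ω)).swap (a ω).swap)
    (fun ω => ⟨(it_r_aux_ch_bd m (b ω)).2, (it_r_aux_ch_bd m (b ω)).1, it_r_aux_dir_bd _ _⟩)
    (fun ω ω' h1 h2 => by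
      have h3 : pjCor m (b ω) = pjCor m (b ω') := it_r_aux_cor_congr m h2
      simp only [h1, h3, and_self])
    (it_r_ci_weak P b V Zs hCI (fun y => (icCell n (itCh m y).swap.1, icCell n (itCh m y).swap.2)) (fun y => (icCell m y.1, icCell m y.2)))
    (fun ω k => by
      rw [← it_r_child P Zs b m k ω]
      refine ent_surC_congr P _ _ _ _ ω (fun _ _ => Iff.rfl) (fun ω' _ _ => ?_)
      simp only [icQ, Prod.fst_swap, Prod.snd_swap, Prod.mk.injEq]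
      tauto) hdirv
    (fun ω hE hf => by
      unfold PjHorP at hE
      simp only [Prod.fst_swap, Prod.snd_swap] at hE
      rw [abs_sub_comm] at hf
      exact ⟨hE.trans hf.le, hf.le⟩)
    (fun ω hE => it_r_aux_geo_v m (a ω) (b ω) hE)
  -- union of the charts
  have hfin : P.pr (fun ω => P.surC (fun ω => icCell (m + n) (itNI m (a ω) (b ω))) (pair (icQ b m) (pair Zs V)) ω
      < (d - η) * n * Real.log 2) ≤ ηm / 2 + ηm / 2 := by
    refine le_trans ?_ (add_le_add (ch.trans hfail) (cv.trans hfail))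
    refine le_trans (ent_pr_mono P fun ω _ h => ?_) (ent_pr_or_le P _ _)
    have h' : P.surC (fun ω => icCell (m + n) (itNI m (a ω) (b ω))) (pair (icQ b m) (pair Zs V)) ω
        < (min d (d - ε) - ηm / 8) * n * Real.log 2 - Real.log (1 / (1 / 2 : ℝ) ^ k₀ + 2) - 3 * x := by
      refine lt_of_lt_of_le h (le_trans ?_ hscore)
      have : (d - η) * n ≤ (d - ηm) * n := mul_le_mul_of_nonneg_right (by linarith) hn0.le
      exact mul_le_mul_of_nonneg_right this hl2.le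
    rcases le_total |(a ω).2 - (pjCor m (b ω)).2| |(a ω).1 - (pjCor m (b ω)).1| with hh | hh
    · left
      exact ⟨hh, h'⟩
    · right
      exact ⟨hh, h'⟩
  linarith

/-- LEAF L-256-RAD-C4 (~200 l.).  ONE CHART OF SLOPES.  `X l = icS dir l`, `dir = pjDir a b`, `g = itSl a b`.  The bad event is contained in the union of
(i) `{Hor, ¬ PjGoodH}` (`ε₂`);  (ii) `{PjGoodH, X k' = 0}` and (iii) `{PjGoodH, X k' = 2^k'}`: `PjGoodH` at `(0, k')` gives `s = (e k' - ε₁ n) log 2 ≤ surC (X k') (X 0, (Zs, a))`, `it_r_atom`: `≤ e^(-s) = 2^(-(e k' - ε₁ n))` each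
(on `Hor`: `dir = g`;  `g = 1 ⟹ X k' = 2^k'`);  (iv) nothing else on the support: if `Hor`, `PjGoodH`, `icCell k' g ≠ 0`, `g ≠ 1` then
`surC (g-names | Zs, V) ≥ surC (dir-names | Zs, V)` (`it_r_clean`, `C = (Zs, V)`) `= surC (dir-names | Zs, a)` (`it_r_ci_sur`, `F y x = icCell k' (pjDir x y)`) `≥ (e (k'-k) - ε₁ n) log 2`. -/
theorem it_r_slope_chart {Ω ζ β : Type} [Fintype Ω] (P : FLaw Ω) (Zs : Ω → ζ) (a b : Ω → ℝ × ℝ) (V : Ω → β)
    (hV : ∀ ω ω', V ω = V ω' → a ω = a ω') (hCI : P.CI b V Zs) (e ε₁ ε₂ : ℝ) (n : ℕ)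
    (h : P.pr (fun ω => PjHorP (a ω) (b ω) ∧ ¬ PjGoodH P (icS (fun ω => pjDir (a ω) (b ω))) (pair Zs a) e ε₁ n ω) ≤ ε₂)
    (k k' : ℕ) (hk : k ≤ k') (hk' : k' ≤ n) :
    P.pr (fun ω => PjHorP (a ω) (b ω) ∧
        P.surC (icS (fun ω => itSl (a ω) (b ω)) k') (pair (icS (fun ω => itSl (a ω) (b ω)) k) (pair Zs V)) ω
          < (e * ((k' : ℝ) - k) - ε₁ * n) * Real.log 2) ≤ ε₂ + 2 * (2 : ℝ) ^ (-(e * k' - ε₁ * n)) := by
  obtain ⟨s, hs⟩ : ∃ s : ℝ, s = (e * k' - ε₁ * n) * Real.log 2 := ⟨_, rfl⟩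
  have hexp : Real.exp (-s) = (2 : ℝ) ^ (-(e * k' - ε₁ * n)) := by
    rw [Real.rpow_def_of_pos (by norm_num), hs]
    congr 1
    ring
  obtain ⟨X, hX⟩ : ∃ X : ℕ → Ω → ℤ, X = icS (fun ω => pjDir (a ω) (b ω)) := ⟨_, rfl⟩
  rw [← hX] at h
  have a1 := it_r_atom P (X k') (pair (X 0) (pair Zs a)) 0 s
  have a2 := it_r_atom P (X k') (pair (X 0) (pair Zs a)) (2 ^ k') s
  rw [hexp] at a1 a2
  have hsub : P.pr (fun ω => PjHorP (a ω) (b ω) ∧
        P.surC (icS (fun ω => itSl (a ω) (b ω)) k') (pair (icS (fun ω => itSl (a ω) (b ω)) k) (pair Zs V)) ω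
          < (e * ((k' : ℝ) - k) - ε₁ * n) * Real.log 2) ≤
      P.pr (fun ω => ((PjHorP (a ω) (b ω) ∧ ¬ PjGoodH P X (pair Zs a) e ε₁ n ω) ∨
        (X k' ω = 0 ∧ s ≤ P.surC (X k') (pair (X 0) (pair Zs a)) ω)) ∨
        (X k' ω = 2 ^ k' ∧ s ≤ P.surC (X k') (pair (X 0) (pair Zs a)) ω)) := by
    refine ent_pr_mono P fun ω hω hE => ?_
    obtain ⟨hH, hlt⟩ := hE
    by_cases g1 : PjGoodH P X (pair Zs a) e ε₁ n ω
    · have hs' : s ≤ P.surC (X k') (pair (X 0) (pair Zs a)) ω := by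
        have := g1 0 k' (Nat.zero_le _) hk'
        rw [hs]
        simpa using this
      have hd : pjDir (a ω) (b ω) = itSl (a ω) (b ω) := it_r_aux_dir_eq _ _ hH
      have hXk : X k' ω = icCell k' (itSl (a ω) (b ω)) := by rw [hX, ← hd]; rfl
      by_cases g2 : icCell k' (itSl (a ω) (b ω)) = 0
      · exact Or.inl (Or.inr ⟨by rw [hXk, g2], hs'⟩)
      · by_cases g3 : itSl (a ω) (b ω) = 1
        · refine Or.inr ⟨?_, hs'⟩
          rw [hXk, g3]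
          unfold icCell
          rw [one_mul]
          have : ((2 : ℝ) ^ k') = (((2 : ℤ) ^ k' : ℤ) : ℝ) := by push_cast; rfl
          rw [this, Int.floor_intCast]
        · exfalso
          have c1 := it_r_clean P a b (pair Zs V) k k' hω hH g2 g3
          have c2 := it_r_ci_sur P b V Zs a hCI hV (fun y x => icCell k' (pjDir x y)) (fun y x => icCell k (pjDir x y)) hω
          have c3 := g1 k k' hk hk'
          have c2' : P.surC (icS (fun ω => pjDir (a ω) (b ω)) k') (pair (icS (fun ω => pjDir (a ω) (b ω)) k) (pair Zs V)) ω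
              = P.surC (X k') (pair (X k) (pair Zs a)) ω := by rw [hX]; exact c2
          linarith
    · exact Or.inl (Or.inl ⟨hH, g1⟩)
  have u1 := ent_pr_or_le P (fun ω => (PjHorP (a ω) (b ω) ∧ ¬ PjGoodH P X (pair Zs a) e ε₁ n ω) ∨
        (X k' ω = 0 ∧ s ≤ P.surC (X k') (pair (X 0) (pair Zs a)) ω))
        (fun ω => X k' ω = 2 ^ k' ∧ s ≤ P.surC (X k') (pair (X 0) (pair Zs a)) ω)
  have u2 := ent_pr_or_le P (fun ω => PjHorP (a ω) (b ω) ∧ ¬ PjGoodH P X (pair Zs a) e ε₁ n ω)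
        (fun ω => X k' ω = 0 ∧ s ≤ P.surC (X k') (pair (X 0) (pair Zs a)) ω)
  linarith

theorem it_r_aux_slope_num (d η θ ε : ℝ) (n k k' : ℕ) (hd : 0 < d) (hη : 0 < η) (hθ : 0 < θ) (hε0 : 0 < ε) (hε1 : ε ≤ η / 2)
    (hε2 : ε ≤ d * θ / (2 * (1 + θ))) (hk : k ≤ k') (hk' : k' ≤ n) (hθk : θ * n ≤ k')
    (g : 4 / η < (2 : ℝ) ^ (d * θ / 2 * n)) :
    (d * ((k' : ℝ) - k) - η * n) * Real.log 2 ≤ ((d - ε) * ((k' : ℝ) - k) - ε * n) * Real.log 2 ∧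
      ε + 2 * (2 : ℝ) ^ (-((d - ε) * k' - ε * n)) ≤ η := by
  have hl2 : 0 < Real.log 2 := Real.log_pos (by norm_num)
  have hn0 : (0 : ℝ) ≤ n := Nat.cast_nonneg n
  have hkk : (k : ℝ) ≤ k' := by exact_mod_cast hk
  have hkn : (k' : ℝ) ≤ n := by exact_mod_cast hk'
  have hk0 : (0 : ℝ) ≤ k := Nat.cast_nonneg k
  constructor
  · apply mul_le_mul_of_nonneg_right _ hl2.le
    have a1 : ε * ((k' : ℝ) - k) ≤ ε * n := mul_le_mul_of_nonneg_left (by linarith) hε0.le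
    have a2 : 2 * ε * n ≤ η * n := mul_le_mul_of_nonneg_right (by linarith) hn0
    linarith
  · have b0 : ε * (2 * (1 + θ)) ≤ d * θ := by
      rwa [le_div_iff₀ (by positivity)] at hε2
    have b1 : ε ≤ d := by nlinarith
    have b2 : (d - ε) * (θ * n) ≤ (d - ε) * k' := mul_le_mul_of_nonneg_left hθk (by linarith)
    have b3 : ε * (2 * (1 + θ)) * n ≤ d * θ * n := mul_le_mul_of_nonneg_right b0 hn0
    have b4 : d * θ / 2 * n ≤ (d - ε) * k' - ε * n := by nlinarith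
    have b5 : (2 : ℝ) ^ (-((d - ε) * k' - ε * n)) ≤ (2 : ℝ) ^ (-(d * θ / 2 * n)) :=
      Real.rpow_le_rpow_of_exponent_le (by norm_num) (by linarith)
    have b6 : (2 : ℝ) ^ (-(d * θ / 2 * n)) ≤ η / 4 := by
      rw [Real.rpow_neg (by norm_num), inv_le_comm₀ (by positivity) (by positivity), inv_div]
      exact g.le
    linarith

/-- GLUE C5 = EXIT 2 (helper9).  HEREDITARY RADIAL SLOPES, law form, both charts; the fine level is at least `θ n`. -/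
theorem it_r_slope_core (A d η θ : ℝ) (hA : 1 ≤ A) (hd : 0 < d) (hd1 : d ≤ 1) (hη : 0 < η) (hθ : 0 < θ) :
    ∃ t₀ : ℝ, 0 < t₀ ∧ t₀ ≤ 1 ∧ ∀ κ₀ : ℝ, 0 < κ₀ → ∃ η₁ : ℝ, 0 < η₁ ∧ ∃ n₁ : ℕ, ∀ n : ℕ, n₁ ≤ n →
      ∀ (Ω ζ β : Type) [Fintype Ω] (P : FLaw Ω) (Zs : Ω → ζ) (a b : Ω → ℝ × ℝ) (V : Ω → β),
        PjIid P Zs a b → ItBdS P A a → ItBdS P A b → (∀ ω ω', V ω = V ω' → a ω = a ω') → P.CI b V Zs →
        P.pr (fun ω => ¬ PjGoodH P (icQ a) Zs d η₁ n ω) ≤ η₁ →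
        PjNoStrip P Zs a ((2 : ℝ) ^ (-(t₀ * n))) ((2 : ℝ) ^ (-(κ₀ * n))) →
        ∀ k k' : ℕ, k ≤ k' → k' ≤ n → θ * n ≤ k' →
        P.pr (fun ω => PjHorP (a ω) (b ω) ∧
          P.surC (icS (fun ω => itSl (a ω) (b ω)) k') (pair (icS (fun ω => itSl (a ω) (b ω)) k) (pair Zs V)) ω
            < (d * ((k' : ℝ) - k) - η * n) * Real.log 2) ≤ η ∧
        P.pr (fun ω => PjHorP (a ω).swap (b ω).swap ∧
          P.surC (icS (fun ω => itSl (a ω).swap (b ω).swap) k') (pair (icS (fun ω => itSl (a ω).swap (b ω).swap) k) (pair Zs V)) ω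
            < (d * ((k' : ℝ) - k) - η * n) * Real.log 2) ≤ η := by
  obtain ⟨ε, hε⟩ : ∃ ε, ε = min (η / 2) (d * θ / (2 * (1 + θ))) := ⟨_, rfl⟩
  have hε0 : 0 < ε := by rw [hε]; exact lt_min (by positivity) (by positivity)
  have hε1 : ε ≤ η / 2 := by rw [hε]; exact min_le_left _ _
  have hε2 : ε ≤ d * θ / (2 * (1 + θ)) := by rw [hε]; exact min_le_right _ _
  obtain ⟨t₀, ht₀, ht₀1, H4⟩ := it_r_rad_law A d ε hA hd hd1 hε0
  refine ⟨t₀, ht₀, ht₀1, fun κ₀ hκ₀ => ?_⟩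
  obtain ⟨η4, hη4, n4, H4'⟩ := H4 κ₀ hκ₀
  obtain ⟨N1, hN1⟩ := ic_aux_large (d * θ / 2) (4 / η) (by positivity)
  refine ⟨η4, hη4, max n4 N1, fun n hn Ω ζ β _ P Zs a b V hiid hba hbb hV hCI hroot hstrip k k' hk hk' hθk => ?_⟩
  obtain ⟨hh, hv⟩ := H4' n (by omega) Ω ζ P Zs a b hiid hba hbb hroot hstrip
  obtain ⟨num1, num2⟩ := it_r_aux_slope_num d η θ ε n k k' hd hη hθ hε0 hε1 hε2 hk hk' hθk (hN1 n (by omega))
  constructor
  · have h1 := it_r_slope_chart P Zs a b V hV hCI (d - ε) ε ε n hh k k' hk hk'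
    refine le_trans (ent_pr_mono P fun ω _ h => ?_) (h1.trans num2)
    exact ⟨h.1, lt_of_lt_of_le h.2 num1⟩
  · have hv' : P.pr (fun ω => PjHorP (a ω).swap (b ω).swap ∧
        ¬ PjGoodH P (icS (fun ω => pjDir (a ω).swap (b ω).swap)) (pair Zs (fun ω => (a ω).swap)) (d - ε) ε n ω) ≤ ε := by
      refine le_trans (ent_pr_mono P fun ω _ h => ?_) hv
      refine ⟨h.1, fun hg => h.2 ?_⟩
      intro l l' hl hl'
      refine le_trans (hg l l' hl hl') (le_of_eq ?_)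
      refine ent_surC_congr P _ _ _ _ ω (fun ω' _ => ?_) (fun _ _ _ => Iff.rfl)
      simp only [pair, Prod.mk.injEq, Prod.swap_inj]
    have h1 := it_r_slope_chart P Zs (fun ω => (a ω).swap) (fun ω => (b ω).swap) V
      (fun ω ω' h => by simp only [hV ω ω' h]) (ent_ci_comp P b V Zs hCI (fun y _ => y.swap) (fun v _ => v))
      (d - ε) ε ε n hv' k k' hk hk'
    refine le_trans (ent_pr_mono P fun ω _ h => ?_) (h1.trans num2)
    exact ⟨h.1, lt_of_lt_of_le h.2 num1⟩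

end Claimed.Agent.R256
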