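import Claimed.Agent.R256.Prj.Contract
import Claimed.Agent.R256.LT.Kit
import Claimed.Agent.R256.Lay.Sco
import Claimed.Agent.R256.Prj.Pop

/-!
# Row 256, Sec. 5, block RAD (`it_mark_proj`, `it_slope_rad`), file 1: DEFINITIONS + the law kit      (architect helper9; prefix `it_r_`)

PAPER-FREE, TAN-FREE.  Everything is a finite law `P : FLaw Ω` (R255/Base/Law, lemmas `ent_*` of R255/Ent/Basic, `ltk_*` of R256/LT/Kit, `lay_*` of R256/Lay/Sco: GREP THEM FIRST),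
a side `Zs`, planar marks `a b : Ω → ℝ × ℝ`, held records `V`.  Names = dyadic cells `icCell k x = ⌊x 2^k⌋`, `icQ`, `icS` (R256/Inc/Defs), scores = `P.surC`, one bit = `Real.log 2`.
PLAN OF THE BLOCK
 `it_mark_proj`  = X5 `pj_par_law` (directions from the corner of the parent square of the moving mark `b` to the pin `a` are Frostman `d - ε`)  +  X1 `pj_coreK` (Kaufman) applied to the rescaled child
                   increment `itCh m b` (Frostman `d` by the layer window)  +  a listing (`ltk_transfer`): `itNI · 2^m = (a - c)_1 · (intercept)`, the factor is known and `≥ 2^(-ε n)` off a small event (`it_r_sep`).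
 `it_slope_rad`  = X4 `pj_rad_law`  +  removal of the dummy value of `pjDir` (`it_r_clean`, `it_r_atom`)  +  extra held records by conditional independence (`it_r_ci_sur`).
 The hypotheses of X4, X5 come from `Tan.Adm`, `Tan.Avoid` (file RadTan): i.i.d. records, hereditary windows (`ItWin`) from the step scores on an arithmetic mesh (`it_r_her_of_steps`), one strip width.
Statements are FROZEN (a defect: one line to helper9).  Helper lemmas: prefix `it_r_aux_`, directly above your theorem.  Splice only your theorem on a fresh pull.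
-/

set_option autoImplicit false

namespace Claimed.Agent.R256

open Claimed.Agent.R255 Claimed.Agent.R255.FLaw
open Classical

/-- bounded on the support -/
def ItBdS {Ω : Type} [Fintype Ω] (P : FLaw Ω) (A : ℝ) (a : Ω → ℝ × ℝ) : Prop :=
  ∀ ω, P.p ω ≠ 0 → |(a ω).1| ≤ A ∧ |(a ω).2| ≤ A

/-- hereditary Frostman point of exponent `e` (loss `c` bits) on the window of levels `[k₀, k₁]` -/
def ItWin {Ω α δ : Type} [Fintype Ω] (P : FLaw Ω) (X : ℕ → Ω → α) (D : Ω → δ) (e c : ℝ) (k₀ k₁ : ℕ) (ω : Ω) : Prop :=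
  ∀ k k' : ℕ, k₀ ≤ k → k ≤ k' → k' ≤ k₁ → (e * ((k' : ℝ) - k) - c) * Real.log 2 ≤ P.surC (X k') (pair (X k) D) ω

/-- the component of `y - c` (`c` = corner of the square of level `m` of `y`) normal to the line through `c` and the pin `x` -/
noncomputable def itNI (m : ℕ) (x y : ℝ × ℝ) : ℝ :=
  ((pjCor m y).2 - x.2) * (y.1 - (pjCor m y).1) + (x.1 - (pjCor m y).1) * (y.2 - (pjCor m y).2)

/-- the rescaled child increment `2^m (y - c) ∈ [0,1)²` -/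
noncomputable def itCh (m : ℕ) (y : ℝ × ℝ) : ℝ × ℝ := ((y.1 - (pjCor m y).1) * 2 ^ m, (y.2 - (pjCor m y).2) * 2 ^ m)

/-- the slope of the line through `x`, `y` (no dummy value) -/
noncomputable def itSl (x y : ℝ × ℝ) : ℝ := (x.2 - y.2) / (x.1 - y.1)

theorem it_r_defs_eqns_cite : True := by
  have := @ItBdS.eq_1; have := @ItWin.eq_1; have := @itNI.eq_1; have := @itCh.eq_1; have := @itSl.eq_1
  trivial

/-- LEAF L-256-RAD-K1 (~60 l.).  ATOM.  Group by the values `y` of `Y`: `P(X = x₀, Y = y) ≤ e^(-s) P(Y = y)` whenever some support point of this fibre has `s ≤ surC`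
(`ent_exp_neg_surC`);  sum over `y` (`ent_pr_sum_values` / `ent_aux_sum_pr_le`). -/
theorem it_r_atom {Ω α β : Type} [Fintype Ω] (P : FLaw Ω) (X : Ω → α) (Y : Ω → β) (x₀ : α) (s : ℝ) :
    P.pr (fun ω => X ω = x₀ ∧ s ≤ P.surC X Y ω) ≤ Real.exp (-s) := by
  rw [ent_pr_sum_values P _ Y (Finset.univ.image Y) (fun ω _ _ => Finset.mem_image_of_mem Y (Finset.mem_univ ω))]
  have h1 : ∀ y ∈ Finset.univ.image Y, P.pr (fun ω => (X ω = x₀ ∧ s ≤ P.surC X Y ω) ∧ Y ω = y)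
      ≤ Real.exp (-s) * P.pr (fun ω => Y ω = y) := by
    intro y _
    by_cases hex : ∃ ω, P.p ω ≠ 0 ∧ (X ω = x₀ ∧ s ≤ P.surC X Y ω) ∧ Y ω = y
    · obtain ⟨ω₀, hp, ⟨hx, hs⟩, hy⟩ := hex
      have e := ent_exp_neg_surC P X Y hp
      have hpos := ent_fib_pos P Y hp
      rw [eq_div_iff hpos.ne'] at e
      have e2 : P.fib Y ω₀ = P.pr (fun ω => Y ω = y) := by rw [← hy]; rfl
      have h2 : P.pr (fun ω => (X ω = x₀ ∧ s ≤ P.surC X Y ω) ∧ Y ω = y) ≤ P.fib (pair X Y) ω₀ :=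
        ent_pr_mono P fun ω _ h => by
          show (X ω, Y ω) = (X ω₀, Y ω₀)
          rw [h.1.1, h.2, hx, hy]
      rw [← e, e2] at h2
      exact h2.trans (mul_le_mul_of_nonneg_right (Real.exp_le_exp.2 (by linarith)) (ent_pr_nonneg P _))
    · push Not at hex
      rw [ent_pr_eq_zero P fun ω hp h => hex ω hp h.1 h.2]
      exact mul_nonneg (Real.exp_pos _).le (ent_pr_nonneg P _)
  refine (Finset.sum_le_sum h1).trans ?_
  rw [← Finset.mul_sum]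
  exact mul_le_of_le_one_right (Real.exp_pos _).le (ent_aux_sum_pr_le P Y _)

theorem it_r_aux_miC_swap {Ω α β γ δ : Type} [Fintype Ω] (P : FLaw Ω) (X : Ω → α) (Y : Ω → β) (Z : Ω → γ) (W : Ω → δ) :
    P.miC X Y (pair Z W) = P.miC X Y (pair W Z) := by
  unfold FLaw.miC
  have e1 : P.ent (pair X (pair Z W)) = P.ent (pair X (pair W Z)) :=
    ent_congr_ker P _ _ fun ω ω' _ _ => by simp only [FLaw.pair, Prod.mk.injEq]; tauto
  have e2 : P.ent (pair Y (pair Z W)) = P.ent (pair Y (pair W Z)) :=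
    ent_congr_ker P _ _ fun ω ω' _ _ => by simp only [FLaw.pair, Prod.mk.injEq]; tauto
  have e3 : P.ent (pair (pair X Y) (pair Z W)) = P.ent (pair (pair X Y) (pair W Z)) :=
    ent_congr_ker P _ _ fun ω ω' _ _ => by simp only [FLaw.pair, Prod.mk.injEq]; tauto
  have e4 : P.ent (pair Z W) = P.ent (pair W Z) :=
    ent_congr_ker P _ _ fun ω ω' _ _ => by simp only [FLaw.pair, Prod.mk.injEq]; tauto
  rw [e1, e2, e3, e4]

/-- LEAF L-256-RAD-K2 (~120 l.).  WEAK UNION.  `I(b ; V | Zs) = 0` (`ent_ci_iff`).  With `X = f b`, `W = g b`:  `I((X,W) ; V | Zs) ≤ I(b ; V | Zs) = 0` (`ent_miC_mono`, `ent_miC_comm`),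
`I((X,W) ; V | Zs) = I(W ; V | Zs) + I(X ; V | W, Zs)` (`ent_miC_chain`), so `I(X ; V | W, Zs) = 0`;  `I(X ; (V, W) | (Zs, W)) = I(X ; V | (Zs, W))` since `W` is held (`ent_miC_mono` both ways or definition + `ent_congr_ker`). -/
theorem it_r_ci_weak {Ω μ β ζ α' γ' : Type} [Fintype Ω] (P : FLaw Ω) (b : Ω → μ) (V : Ω → β) (Zs : Ω → ζ) (h : P.CI b V Zs)
    (f : μ → α') (g : μ → γ') :
    P.miC (fun ω => f (b ω)) (pair V (fun ω => g (b ω))) (pair Zs (fun ω => g (b ω))) = 0 := by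
  refine le_antisymm ?_ (ent_miC_nonneg P _ _ _)
  have h0 : P.miC V b Zs = 0 := by rw [ent_miC_comm]; exact (ent_ci_iff P b V Zs).1 h
  have h1 : P.miC (fun ω => f (b ω)) (pair V (fun ω => g (b ω))) (pair Zs (fun ω => g (b ω)))
      ≤ P.miC (fun ω => f (b ω)) V (pair Zs (fun ω => g (b ω))) :=
    ent_miC_mono P _ V _ _ fun ω ω' _ _ h5 h6 => by
      simp only [FLaw.pair, Prod.mk.injEq] at h6 ⊢
      exact ⟨h5, h6.2⟩
  have h2 : P.miC V (pair (fun ω => f (b ω)) (fun ω => g (b ω))) Zs ≤ P.miC V b Zs :=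
    ent_miC_mono P V b _ Zs fun ω ω' _ _ h5 _ => by
      simp only [FLaw.pair, Prod.mk.injEq]
      rw [h5]
      exact ⟨rfl, rfl⟩
  have h3 := ent_miC_chain P V (fun ω => f (b ω)) (fun ω => g (b ω)) Zs
  have h4 := ent_miC_nonneg P V (fun ω => g (b ω)) Zs
  have h5 : P.miC (fun ω => f (b ω)) V (pair Zs (fun ω => g (b ω))) = P.miC V (fun ω => f (b ω)) (pair (fun ω => g (b ω)) Zs) := by
    rw [ent_miC_comm, it_r_aux_miC_swap]
  linarith

/-- LEAF L-256-RAD-K3 (~200 l.).  EXTRA HELD RECORDS.  `b ⊥ V | Zs`, `a` a function of `V`.  Fix `ω`, `a₀ = a ω`, `v₀ = V ω`, `z = Zs ω`.  For any name `H (b, a)`: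
`{H(b,a) = h₀, Zs = z, V = v₀} = {H(b,a₀) = h₀, Zs = z, V = v₀}`, and by `CI` (`ent_ci_comp`, `ent_ci_fib`)  `P(H(b,a₀) = h₀, V = v₀, z) P(z) = P(H(b,a₀) = h₀, z) P(V = v₀, z)`;  the same with `a` instead of `V`.
Apply it to `H = (F, G)` and `H = G`: both conditional probabilities are `P((F,G)(b,a₀) = .., z) / P(G(b,a₀) = .., z)`. -/
theorem it_r_ci_sur {Ω μ ν β ζ α' γ' : Type} [Fintype Ω] (P : FLaw Ω) (b : Ω → μ) (V : Ω → β) (Zs : Ω → ζ) (a : Ω → ν)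
    (hCI : P.CI b V Zs) (ha : ∀ ω ω', V ω = V ω' → a ω = a ω') (F : μ → ν → α') (G : μ → ν → γ') {ω : Ω} (hω : P.p ω ≠ 0) :
    P.surC (fun ω => F (b ω) (a ω)) (pair (fun ω => G (b ω) (a ω)) (pair Zs V)) ω
      = P.surC (fun ω => F (b ω) (a ω)) (pair (fun ω => G (b ω) (a ω)) (pair Zs a)) ω := by
  -- key identity for any name H
  have hCIa : P.CI b a Zs := by
    obtain ⟨φ, hφ⟩ : ∃ φ : β → ν, ∀ ω, a ω = φ (V ω) := by
      refine ⟨fun v => if hv : ∃ ω, V ω = v then a hv.choose else a ω, fun ω' => ?_⟩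
      have hv : ∃ ω, V ω = V ω' := ⟨ω', rfl⟩
      simp only [dif_pos hv]
      exact ha _ _ hv.choose_spec.symm
    have := ent_ci_comp P b V Zs hCI (fun u _ => u) (fun v _ => φ v)
    have e : (fun ω => φ (V ω)) = a := funext fun ω => (hφ ω).symm
    rwa [e] at this
  have key : ∀ {η : Type} (H : μ → ν → η) {κ : Type} (W : Ω → κ), P.CI b W Zs → (∀ ω', W ω' = W ω → a ω' = a ω) →
      P.pr (fun ω' => H (b ω') (a ω') = H (b ω) (a ω) ∧ Zs ω' = Zs ω ∧ W ω' = W ω) * P.pr (fun ω' => Zs ω' = Zs ω)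
        = P.pr (fun ω' => H (b ω') (a ω) = H (b ω) (a ω) ∧ Zs ω' = Zs ω) * P.pr (fun ω' => W ω' = W ω ∧ Zs ω' = Zs ω) := by
    intro η H κ W hW hWa
    have c := ent_ci_comp P b W Zs hW (fun u _ => H u (a ω)) (fun v _ => v)
    have c2 := c (H (b ω) (a ω)) (W ω) (Zs ω)
    rw [← c2]
    congr 1
    refine ent_pr_congr P fun ω' _ => ?_
    constructor
    · rintro ⟨h1, h2, h3⟩
      rw [hWa ω' h3] at h1
      exact ⟨h1, h3, h2⟩
    · rintro ⟨h1, h2, h3⟩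
      refine ⟨?_, h3, h2⟩
      rw [hWa ω' h2]
      exact h1
  have hz : 0 < P.pr (fun ω' => Zs ω' = Zs ω) := ent_fib_pos P Zs hω
  have kV1 := key (fun u v => (F u v, G u v)) V hCI (fun ω' h => ha _ _ h)
  have kV2 := key G V hCI (fun ω' h => ha _ _ h)
  have ka1 := key (fun u v => (F u v, G u v)) a hCIa (fun ω' h => h)
  have ka2 := key G a hCIa (fun ω' h => h)
  have pV : 0 < P.pr (fun ω' => V ω' = V ω ∧ Zs ω' = Zs ω) := (ent_pr_pos_iff P _).2 ⟨ω, ⟨rfl, rfl⟩, hω⟩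
  have pa : 0 < P.pr (fun ω' => a ω' = a ω ∧ Zs ω' = Zs ω) := (ent_pr_pos_iff P _).2 ⟨ω, ⟨rfl, rfl⟩, hω⟩
  have pG : 0 < P.pr (fun ω' => G (b ω') (a ω) = G (b ω) (a ω) ∧ Zs ω' = Zs ω) := (ent_pr_pos_iff P _).2 ⟨ω, ⟨rfl, rfl⟩, hω⟩
  simp only [FLaw.surC, FLaw.fib, FLaw.pair, Prod.mk.injEq] at kV1 ka1 ⊢
  obtain ⟨A1, hA1⟩ : ∃ A, A = P.pr (fun ω' => F (b ω') (a ω') = F (b ω) (a ω) ∧ G (b ω') (a ω') = G (b ω) (a ω) ∧ Zs ω' = Zs ω ∧ V ω' = V ω) := ⟨_, rfl⟩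
  obtain ⟨A2, hA2⟩ : ∃ A, A = P.pr (fun ω' => G (b ω') (a ω') = G (b ω) (a ω) ∧ Zs ω' = Zs ω ∧ V ω' = V ω) := ⟨_, rfl⟩
  obtain ⟨B1, hB1⟩ : ∃ A, A = P.pr (fun ω' => F (b ω') (a ω') = F (b ω) (a ω) ∧ G (b ω') (a ω') = G (b ω) (a ω) ∧ Zs ω' = Zs ω ∧ a ω' = a ω) := ⟨_, rfl⟩
  obtain ⟨B2, hB2⟩ : ∃ A, A = P.pr (fun ω' => G (b ω') (a ω') = G (b ω) (a ω) ∧ Zs ω' = Zs ω ∧ a ω' = a ω) := ⟨_, rfl⟩
  simp only [and_assoc] at kV1 ka1
  rw [← hA1] at kV1 ⊢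
  rw [← hA2] at kV2 ⊢
  rw [← hB1] at ka1 ⊢
  rw [← hB2] at ka2 ⊢
  obtain ⟨z, hzz⟩ : ∃ z, z = P.pr (fun ω' => Zs ω' = Zs ω) := ⟨_, rfl⟩
  obtain ⟨c1, hc1⟩ : ∃ c, c = P.pr (fun ω' => F (b ω') (a ω) = F (b ω) (a ω) ∧ G (b ω') (a ω) = G (b ω) (a ω) ∧ Zs ω' = Zs ω) := ⟨_, rfl⟩
  obtain ⟨c2, hc2⟩ : ∃ c, c = P.pr (fun ω' => G (b ω') (a ω) = G (b ω) (a ω) ∧ Zs ω' = Zs ω) := ⟨_, rfl⟩
  obtain ⟨v, hv⟩ : ∃ c, c = P.pr (fun ω' => V ω' = V ω ∧ Zs ω' = Zs ω) := ⟨_, rfl⟩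
  obtain ⟨w, hw⟩ : ∃ c, c = P.pr (fun ω' => a ω' = a ω ∧ Zs ω' = Zs ω) := ⟨_, rfl⟩
  rw [← hzz, ← hc1, ← hv] at kV1
  rw [← hzz, ← hc2, ← hv] at kV2
  rw [← hzz, ← hc1, ← hw] at ka1
  rw [← hzz, ← hc2, ← hw] at ka2
  rw [← hzz] at hz
  rw [← hv] at pV
  rw [← hw] at pa
  rw [← hc2] at pG
  have eA1 : A1 = c1 * v / z := by field_simp; linarith
  have eA2 : A2 = c2 * v / z := by field_simp; linarith
  have eB1 : B1 = c1 * w / z := by field_simp; linarith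
  have eB2 : B2 = c2 * w / z := by field_simp; linarith
  congr 2
  rw [eA1, eA2, eB1, eB2]
  field_simp

theorem it_r_aux_transfer {Ω : Type} [Fintype Ω] (P : FLaw Ω) {α : Type} (W W' : Ω → α)
    (hW : ∀ w, P.pr (fun ω => W ω = w) = P.pr (fun ω => W' ω = w)) (E : α → Prop) :
    P.pr (fun ω => E (W ω)) = P.pr (fun ω => E (W' ω)) := by
  obtain ⟨S, hS⟩ : ∃ S : Finset α, S = Finset.univ.image W ∪ Finset.univ.image W' := ⟨_, rfl⟩
  rw [ent_pr_sum_values P (fun ω => E (W ω)) W S (fun ω _ _ => by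
      rw [hS]; exact Finset.mem_union_left _ (Finset.mem_image_of_mem _ (Finset.mem_univ _))),
    ent_pr_sum_values P (fun ω => E (W' ω)) W' S (fun ω _ _ => by
      rw [hS]; exact Finset.mem_union_right _ (Finset.mem_image_of_mem _ (Finset.mem_univ _)))]
  refine Finset.sum_congr rfl fun w _ => ?_
  by_cases hE : E w
  · have a1 : P.pr (fun ω => E (W ω) ∧ W ω = w) = P.pr (fun ω => W ω = w) :=
      ent_pr_congr P fun ω _ => ⟨fun h => h.2, fun h => ⟨h ▸ hE, h⟩⟩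
    have a2 : P.pr (fun ω => E (W' ω) ∧ W' ω = w) = P.pr (fun ω => W' ω = w) :=
      ent_pr_congr P fun ω _ => ⟨fun h => h.2, fun h => ⟨h ▸ hE, h⟩⟩
    rw [a1, a2, hW]
  · have a1 : P.pr (fun ω => E (W ω) ∧ W ω = w) = 0 := ent_pr_eq_zero P fun ω _ h => hE (h.2 ▸ h.1)
    have a2 : P.pr (fun ω => E (W' ω) ∧ W' ω = w) = 0 := ent_pr_eq_zero P fun ω _ h => hE (h.2 ▸ h.1)
    rw [a1, a2]

/-- LEAF L-256-RAD-K4 (~200 l.).  IDENTICALLY DISTRIBUTED RECORDS.  (1) sum over the finitely many values `(z, v)` of `(Zs, x)` and of `(Zs, y)` (`ent_pr_sum_values` with the image of `univ`).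
(2) `P.fib (pair (F x) (pair Zs (G x))) ω = P.pr (Φ (Zs ·) (x ·))` with `Φ z v = (F v = F (x ω) ∧ z = Zs ω ∧ G v = G (x ω))`: by (1) the surprise is ONE function `S (Zs ω) (x ω)`, the same for `y`;  (1) again for `Φ z v = (S z v < c)`. -/
theorem it_r_ident {Ω ζ μ α' β' : Type} [Fintype Ω] (P : FLaw Ω) (Zs : Ω → ζ) (x y : Ω → μ)
    (h : ∀ z v, P.pr (fun ω => Zs ω = z ∧ x ω = v) = P.pr (fun ω => Zs ω = z ∧ y ω = v)) :
    (∀ Φ : ζ → μ → Prop, P.pr (fun ω => Φ (Zs ω) (x ω)) = P.pr (fun ω => Φ (Zs ω) (y ω))) ∧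
    ∀ (F : μ → α') (G : μ → β') (c : ℝ),
      P.pr (fun ω => P.surC (fun ω => F (x ω)) (pair Zs (fun ω => G (x ω))) ω < c)
        = P.pr (fun ω => P.surC (fun ω => F (y ω)) (pair Zs (fun ω => G (y ω))) ω < c) := by
  have h1 : ∀ Φ : ζ → μ → Prop, P.pr (fun ω => Φ (Zs ω) (x ω)) = P.pr (fun ω => Φ (Zs ω) (y ω)) := by
    intro Φ
    refine it_r_aux_transfer P (fun ω => (Zs ω, x ω)) (fun ω => (Zs ω, y ω)) (fun w => ?_) (fun w => Φ w.1 w.2)
    obtain ⟨z, v⟩ := w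
    simp only [Prod.mk.injEq]
    exact h z v
  refine ⟨h1, fun F G c => ?_⟩
  obtain ⟨S, hS⟩ : ∃ S : ζ → μ → ℝ, S = fun z v =>
      - Real.log (P.pr (fun ω => F (x ω) = F v ∧ Zs ω = z ∧ G (x ω) = G v) / P.pr (fun ω => Zs ω = z ∧ G (x ω) = G v)) :=
    ⟨_, rfl⟩
  have ex : ∀ ω, P.surC (fun ω => F (x ω)) (pair Zs (fun ω => G (x ω))) ω = S (Zs ω) (x ω) := by
    intro ω
    rw [hS]
    simp only [FLaw.surC, FLaw.fib, FLaw.pair, Prod.mk.injEq]
  have ey : ∀ ω, P.surC (fun ω => F (y ω)) (pair Zs (fun ω => G (y ω))) ω = S (Zs ω) (y ω) := by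
    intro ω
    rw [hS]
    simp only [FLaw.surC, FLaw.fib, FLaw.pair, Prod.mk.injEq]
    rw [h1 (fun z v => F v = F (y ω) ∧ z = Zs ω ∧ G v = G (y ω)), h1 (fun z v => z = Zs ω ∧ G v = G (y ω))]
  simp only [ex, ey]
  exact h1 (fun z v => S z v < c)

theorem it_r_aux_up (R g : ℕ) (lv : ℕ → ℕ) (hgap : ∀ r < R, lv (r + 1) ≤ lv r + g) (k : ℕ) (h0 : lv 0 ≤ k) (h1 : k ≤ lv R) :
    ∃ r ≤ R, k ≤ lv r ∧ lv r ≤ k + g := by
  have hex : ∃ r, k ≤ lv r := ⟨R, h1⟩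
  have hle : Nat.find hex ≤ R := Nat.find_min' hex h1
  refine ⟨Nat.find hex, hle, Nat.find_spec hex, ?_⟩
  rcases Nat.eq_zero_or_pos (Nat.find hex) with h | h
  · rw [h]; omega
  · obtain ⟨s, hs⟩ : ∃ s, Nat.find hex = s + 1 := ⟨Nat.find hex - 1, by omega⟩
    have hm := Nat.find_min hex (m := s) (by omega)
    have hg := hgap s (by omega)
    rw [hs]
    omega

theorem it_r_aux_dn (R g : ℕ) (lv : ℕ → ℕ) (hgap : ∀ r < R, lv (r + 1) ≤ lv r + g) (k : ℕ) (h0 : lv 0 ≤ k) (h1 : k ≤ lv R) :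
    ∃ r ≤ R, lv r ≤ k ∧ k ≤ lv r + g := by
  have hex : ∃ r, r = R ∨ k < lv (r + 1) := ⟨R, Or.inl rfl⟩
  have hle : Nat.find hex ≤ R := Nat.find_min' hex (Or.inl rfl)
  refine ⟨Nat.find hex, hle, ?_, ?_⟩
  · rcases Nat.eq_zero_or_pos (Nat.find hex) with h | h
    · rw [h]; exact h0
    · obtain ⟨s, hs⟩ : ∃ s, Nat.find hex = s + 1 := ⟨Nat.find hex - 1, by omega⟩
      have hm := Nat.find_min hex (m := s) (by omega)
      push Not at hm
      rw [hs]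
      exact hm.2
  · rcases Nat.find_spec hex with h | h
    · rw [h]; omega
    · rcases Nat.lt_or_ge (Nat.find hex) R with h2 | h2
      · have := hgap _ h2
        omega
      · have : Nat.find hex = R := le_antisymm hle h2
        rw [this]; omega

/-- LEAF L-256-RAD-K5 (~250 l.).  STEPS ⟹ WINDOW.  Nested names: for `k ≤ l ≤ k'`  `surC (X k') (X k, D) = surC (X l) (X k, D) + surC (X k') (X l, D)`  (`ent_surC_chain` + `ent_surC_congr`), all terms `≥ 0`.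
Given `lv 0 ≤ k ≤ k' ≤ lv R`: `r₁` = first `r` with `k ≤ lv r`, `r₂` = last `r` with `lv r ≤ k'`.  If `r₁ ≤ r₂`: `surC (X k') (X k, D) ≥ ∑_{r₁ ≤ r < r₂} step r ≥ (e (lv r₂ - lv r₁) - ∑ c) log 2` and `lv r₁ < k + g`, `k' < lv r₂ + g`.
Otherwise `k' - k ≤ g` and the claimed bound is `≤ 0`. -/
theorem it_r_her_of_steps {Ω α δ : Type} [Fintype Ω] (P : FLaw Ω) (X : ℕ → Ω → α) (D : Ω → δ)
    (hX : ∀ k k', k ≤ k' → ∀ ω ω', X k' ω = X k' ω' → X k ω = X k ω') (e : ℝ) (he : 0 ≤ e) (R g : ℕ) (lv : ℕ → ℕ) (c : ℕ → ℝ)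
    (hlv : ∀ r < R, lv r ≤ lv (r + 1)) (hgap : ∀ r < R, lv (r + 1) ≤ lv r + g) (hc : ∀ r < R, 0 ≤ c r) {ω : Ω} (hω : P.p ω ≠ 0)
    (hstep : ∀ r < R, (e * ((lv (r + 1) : ℝ) - lv r) - c r) * Real.log 2 ≤ P.surC (X (lv (r + 1))) (pair (X (lv r)) D) ω) :
    ItWin P X D e (2 * e * g + ∑ r ∈ Finset.range R, c r) (lv 0) (lv R) ω := by
  have hlog : 0 < Real.log 2 := Real.log_pos (by norm_num)
  obtain ⟨φ, hφ⟩ : ∃ φ : ℕ → ℝ, φ = fun k => Real.log (P.fib (pair (X k) D) ω) := ⟨_, rfl⟩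
  have hsur : ∀ k k', k ≤ k' → P.surC (X k') (pair (X k) D) ω = φ k - φ k' := fun k k' h => by
    rw [hφ]; exact pj_mesh_sur P X D hX h hω
  have hmono : ∀ k k', k ≤ k' → φ k' ≤ φ k := fun k k' h => by
    rw [hφ]; exact pj_mesh_mono P X D hX h hω
  -- monotone levels
  have hlvm : ∀ r₁ r₂, r₁ ≤ r₂ → r₂ ≤ R → lv r₁ ≤ lv r₂ := by
    intro r₁ r₂ h12
    induction r₂, h12 using Nat.le_induction with
    | base => intro _; exact le_rfl
    | succ r _ ih => intro h; exact (ih (by omega)).trans (hlv r (by omega))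
  -- the potential
  have hpot : ∀ r₁ r₂, r₁ ≤ r₂ → r₂ ≤ R →
      (e * ((lv r₂ : ℝ) - lv r₁) - (∑ s ∈ Finset.range r₂, c s - ∑ s ∈ Finset.range r₁, c s)) * Real.log 2 ≤ φ (lv r₁) - φ (lv r₂) := by
    intro r₁ r₂ h12
    induction r₂, h12 using Nat.le_induction with
    | base => intro _; simp
    | succ r _ ih =>
      intro h
      have h1 := ih (by omega)
      have h2 := hstep r (by omega)
      rw [hsur _ _ (hlv r (by omega))] at h2
      rw [Finset.sum_range_succ]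
      nlinarith
  have hsum : ∀ r₁ r₂, r₁ ≤ R → r₂ ≤ R → ∑ s ∈ Finset.range r₂, c s - ∑ s ∈ Finset.range r₁, c s ≤ ∑ s ∈ Finset.range R, c s := by
    intro r₁ r₂ h1 h2
    have a1 : 0 ≤ ∑ s ∈ Finset.range r₁, c s := Finset.sum_nonneg fun s hs => hc s (by have := Finset.mem_range.1 hs; omega)
    have a2 : ∑ s ∈ Finset.range r₂, c s ≤ ∑ s ∈ Finset.range R, c s :=
      Finset.sum_le_sum_of_subset_of_nonneg (Finset.range_subset_range.2 h2) fun s hs _ => hc s (Finset.mem_range.1 hs)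
    linarith
  have hS0 : 0 ≤ ∑ s ∈ Finset.range R, c s := Finset.sum_nonneg fun s hs => hc s (Finset.mem_range.1 hs)
  intro k k' hk0 hk hk'
  obtain ⟨r₁, hr₁, u1, u2⟩ := it_r_aux_up R g lv hgap k hk0 (hk.trans hk')
  obtain ⟨r₂, hr₂, d1, d2⟩ := it_r_aux_dn R g lv hgap k' (hk0.trans hk) hk'
  have c1 : (lv r₁ : ℝ) ≤ k + g := by exact_mod_cast u2
  have c2 : (k' : ℝ) ≤ lv r₂ + g := by exact_mod_cast d2
  by_cases h12 : r₁ ≤ r₂
  · rw [hsur k k' hk]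
    have h1 := hpot r₁ r₂ h12 hr₂
    have m1 := hmono k (lv r₁) u1
    have m2 := hmono (lv r₂) k' d1
    have a1 : e * ((k' : ℝ) - k) - (2 * e * g + ∑ r ∈ Finset.range R, c r)
        ≤ e * ((lv r₂ : ℝ) - lv r₁) - (∑ s ∈ Finset.range r₂, c s - ∑ s ∈ Finset.range r₁, c s) := by
      have : e * ((k' : ℝ) - k - 2 * g) ≤ e * ((lv r₂ : ℝ) - lv r₁) := mul_le_mul_of_nonneg_left (by linarith) he
      have := hsum r₁ r₂ hr₁ hr₂
      linarith
    have a2 := mul_le_mul_of_nonneg_right a1 hlog.le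
    linarith
  · have c3 : (lv r₂ : ℝ) ≤ lv r₁ := by exact_mod_cast hlvm r₂ r₁ (by omega) hr₁
    have a1 : e * ((k' : ℝ) - k) - (2 * e * g + ∑ r ∈ Finset.range R, c r) ≤ 0 := by
      have : e * ((k' : ℝ) - k) ≤ e * (2 * g) := mul_le_mul_of_nonneg_left (by linarith) he
      linarith
    exact (mul_nonpos_of_nonpos_of_nonneg a1 hlog.le).trans (ent_surC_nonneg P _ _ hω)

/-- atom with a target read from the held record -/
theorem it_r_aux_atomY {Ω α β : Type} [Fintype Ω] (P : FLaw Ω) (X : Ω → α) (Y : Ω → β) (w : β → α) (s : ℝ) :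
    P.pr (fun ω => X ω = w (Y ω) ∧ s ≤ P.surC X Y ω) ≤ Real.exp (-s) := by
  rw [ent_pr_sum_values P _ Y (Finset.univ.image Y) (fun ω _ _ => Finset.mem_image_of_mem Y (Finset.mem_univ ω))]
  have h1 : ∀ y ∈ Finset.univ.image Y, P.pr (fun ω => (X ω = w (Y ω) ∧ s ≤ P.surC X Y ω) ∧ Y ω = y)
      ≤ Real.exp (-s) * P.pr (fun ω => Y ω = y) := by
    intro y _
    by_cases hex : ∃ ω, P.p ω ≠ 0 ∧ (X ω = w (Y ω) ∧ s ≤ P.surC X Y ω) ∧ Y ω = y
    · obtain ⟨ω₀, hp, ⟨hx, hs⟩, hy⟩ := hex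
      have e := ent_exp_neg_surC P X Y hp
      have hpos := ent_fib_pos P Y hp
      rw [eq_div_iff hpos.ne'] at e
      have e2 : P.fib Y ω₀ = P.pr (fun ω => Y ω = y) := by rw [← hy]; rfl
      have h2 : P.pr (fun ω => (X ω = w (Y ω) ∧ s ≤ P.surC X Y ω) ∧ Y ω = y) ≤ P.fib (pair X Y) ω₀ :=
        ent_pr_mono P fun ω _ h => by
          show (X ω, Y ω) = (X ω₀, Y ω₀)
          rw [h.1.1, h.2, hx, hy]
      rw [← e, e2] at h2
      exact h2.trans (mul_le_mul_of_nonneg_right (Real.exp_le_exp.2 (by linarith)) (ent_pr_nonneg P _))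
    · push Not at hex
      rw [ent_pr_eq_zero P fun ω hp h => hex ω hp h.1 h.2]
      exact mul_nonneg (Real.exp_pos _).le (ent_pr_nonneg P _)
  refine (Finset.sum_le_sum h1).trans ?_
  rw [← Finset.mul_sum]
  exact mul_le_of_le_one_right (Real.exp_pos _).le (ent_aux_sum_pr_le P Y _)

/-- LEAF L-256-RAD-K6 (~250 l.).  SEPARATION of the pin from a point chosen by the other record.  `X = icQ a k₀`, `Y = (icQ a 0, Zs)`, `s = (d k₀ - η n) log 2 ≤ surC X Y` on the good event (`PjGoodH` at `(0, k₀)`).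
`|x - y| ≤ 2^-k₀ ⟹ ⌊x 2^k₀⌋ - ⌊y 2^k₀⌋ ∈ {-1, 0, 1}`: nine offsets.  For one offset, `W` = the target cell (a function of `b`):
`P(X = W, s ≤ surC X Y) = ∑_{z,w} P(Zs = z, W = w, X = w, ..)`, by independence `P(z, W = w, X = w) P(z) = P(z, W = w) P(z, X = w)`, and `P(z, X = w) ≤ e^(-s) P(z)` if some support point of `{X = w, Zs = z}` has `s ≤ surC`.  Sum `≤ e^(-s)`. -/
theorem it_r_sep {Ω ζ : Type} [Fintype Ω] (P : FLaw Ω) (Zs : Ω → ζ) (a b : Ω → ℝ × ℝ) (h : PjIid P Zs a b) (c : ℝ × ℝ → ℝ × ℝ)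
    (d η : ℝ) (n k₀ : ℕ) (hk : k₀ ≤ n) :
    P.pr (fun ω => PjGoodH P (icQ a) Zs d η n ω ∧ |(a ω).1 - (c (b ω)).1| ≤ (1 / 2 : ℝ) ^ k₀ ∧
        |(a ω).2 - (c (b ω)).2| ≤ (1 / 2 : ℝ) ^ k₀) ≤ 9 * (2 : ℝ) ^ (-(d * k₀ - η * n)) := by
  have hCI : P.CI a b Zs := by
    intro u v z
    have h1 := h.1 z u v
    have e1 : P.pr (fun ω => a ω = u ∧ b ω = v ∧ Zs ω = z) = P.pr (fun ω => Zs ω = z ∧ a ω = u ∧ b ω = v) :=
      ent_pr_congr P fun ω _ => by tauto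
    have e2 : P.pr (fun ω => a ω = u ∧ Zs ω = z) = P.pr (fun ω => Zs ω = z ∧ a ω = u) := ent_pr_congr P fun ω _ => by tauto
    have e3 : P.pr (fun ω => b ω = v ∧ Zs ω = z) = P.pr (fun ω => Zs ω = z ∧ b ω = v) := ent_pr_congr P fun ω _ => by tauto
    rw [e1, e2, e3, h1]
  obtain ⟨s, hs⟩ : ∃ s : ℝ, s = (d * k₀ - η * n) * Real.log 2 := ⟨_, rfl⟩
  have hexp : Real.exp (-s) = (2 : ℝ) ^ (-(d * k₀ - η * n)) := by
    rw [Real.rpow_def_of_pos (by norm_num), hs]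
    congr 1
    ring
  -- the score with the other record held
  have hsur : ∀ ω, P.p ω ≠ 0 → P.surC (icQ a k₀) (pair (icQ a 0) (pair Zs b)) ω = P.surC (icQ a k₀) (pair (icQ a 0) Zs) ω := by
    intro ω hω
    have h1 := it_r_ci_sur P a b Zs (fun _ => ()) hCI (fun _ _ _ => rfl)
      (fun u _ => (icCell k₀ u.1, icCell k₀ u.2)) (fun u _ => (icCell 0 u.1, icCell 0 u.2)) hω
    refine Eq.trans h1 ?_
    refine ent_surC_congr P _ _ _ _ ω (fun ω' _ => ?_) fun _ _ _ => Iff.rfl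
    simp only [FLaw.pair, icQ, Prod.mk.injEq, and_true]
  -- nine offsets
  obtain ⟨O, hO⟩ : ∃ O : Finset (ℤ × ℤ), O = (Finset.Icc (-1 : ℤ) 1) ×ˢ (Finset.Icc (-1 : ℤ) 1) := ⟨_, rfl⟩
  have hcard : O.card = 9 := by rw [hO]; rfl
  have hone : ∀ o ∈ O, P.pr (fun ω => icQ a k₀ ω = (icCell k₀ (c (b ω)).1 + o.1, icCell k₀ (c (b ω)).2 + o.2) ∧
      s ≤ P.surC (icQ a k₀) (pair (icQ a 0) (pair Zs b)) ω) ≤ Real.exp (-s) := fun o _ =>
    it_r_aux_atomY P (icQ a k₀) (pair (icQ a 0) (pair Zs b))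
      (fun y => (icCell k₀ (c y.2.2).1 + o.1, icCell k₀ (c y.2.2).2 + o.2)) s
  have hun := ent_pr_exists_le P O (fun o ω => icQ a k₀ ω = (icCell k₀ (c (b ω)).1 + o.1, icCell k₀ (c (b ω)).2 + o.2) ∧
      s ≤ P.surC (icQ a k₀) (pair (icQ a 0) (pair Zs b)) ω)
  have hsum := Finset.sum_le_card_nsmul O _ _ hone
  rw [hcard, nsmul_eq_mul, hexp] at hsum
  refine le_trans (ent_pr_mono P fun ω hω hE => ?_) (hun.trans (by exact_mod_cast hsum))
  obtain ⟨hg, h1, h2⟩ := hE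
  have e12 : ((1 : ℕ) : ℝ) / 2 ^ k₀ = (1 / 2 : ℝ) ^ k₀ := by rw [Nat.cast_one, div_pow, one_pow]
  have n1 := abs_le.1 (ic_cell_near (k := k₀) 1 (by rw [e12]; exact h1))
  have n2 := abs_le.1 (ic_cell_near (k := k₀) 1 (by rw [e12]; exact h2))
  refine ⟨(icCell k₀ (a ω).1 - icCell k₀ (c (b ω)).1, icCell k₀ (a ω).2 - icCell k₀ (c (b ω)).2), ?_, ?_, ?_⟩
  · rw [hO, Finset.mem_product, Finset.mem_Icc, Finset.mem_Icc]
    push_cast at n1 n2
    exact ⟨⟨n1.1, n1.2⟩, ⟨n2.1, n2.2⟩⟩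
  · show (icCell k₀ (a ω).1, icCell k₀ (a ω).2) = _
    simp
  · rw [hsur ω hω, hs]
    have := hg 0 k₀ (Nat.zero_le _) hk
    simpa using this

theorem it_r_aux_child_cell (m k : ℕ) (x : ℝ) :
    icCell k ((x - (icCell m x : ℝ) / 2 ^ m) * 2 ^ m) = icCell (m + k) x - icCell m x * 2 ^ k := by
  unfold icCell
  have e : (x - ((⌊x * 2 ^ m⌋ : ℤ) : ℝ) / 2 ^ m) * 2 ^ m * 2 ^ k = x * 2 ^ (m + k) - ((⌊x * 2 ^ m⌋ * 2 ^ k : ℤ) : ℝ) := by
    push_cast
    rw [pow_add]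
    field_simp
  rw [e, Int.floor_sub_intCast]

/-- LEAF L-256-RAD-K7 (~100 l.).  CHILD NAMES.  `icCell k ((x - icCell m x / 2^m) 2^m) = icCell (m + k) x - icCell m x * 2^k` (`Int.floor_sub_intCast`-type);  `ent_surC_congr`. -/
theorem it_r_child {Ω ζ : Type} [Fintype Ω] (P : FLaw Ω) (Zs : Ω → ζ) (b : Ω → ℝ × ℝ) (m k : ℕ) (ω : Ω) :
    P.surC (icQ (fun ω => itCh m (b ω)) k) (pair Zs (icQ b m)) ω = P.surC (icQ b (m + k)) (pair Zs (icQ b m)) ω := by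
  refine ent_surC_congr P _ _ _ _ ω (fun _ _ => Iff.rfl) fun ω' _ hY => ?_
  have hq : icQ b m ω' = icQ b m ω := (Prod.mk.inj hY).2
  have h1 : icCell m (b ω').1 = icCell m (b ω).1 := (Prod.mk.inj hq).1
  have h2 : icCell m (b ω').2 = icCell m (b ω).2 := (Prod.mk.inj hq).2
  have e : ∀ ω'', icQ (fun ω => itCh m (b ω)) k ω''
      = (icCell (m + k) (b ω'').1 - icCell m (b ω'').1 * 2 ^ k, icCell (m + k) (b ω'').2 - icCell m (b ω'').2 * 2 ^ k) := by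
    intro ω''
    show (icCell k (((b ω'').1 - (icCell m (b ω'').1 : ℝ) / 2 ^ m) * 2 ^ m), icCell k (((b ω'').2 - (icCell m (b ω'').2 : ℝ) / 2 ^ m) * 2 ^ m)) = _
    rw [it_r_aux_child_cell, it_r_aux_child_cell]
  rw [e, e, h1, h2]
  show _ ↔ (icCell (m + k) (b ω').1, icCell (m + k) (b ω').2) = (icCell (m + k) (b ω).1, icCell (m + k) (b ω).2)
  simp only [Prod.mk.injEq, sub_left_inj]

/-- LEAF L-256-RAD-K8 (~100 l.).  LISTING.  `ltk_transfer` with `T = icCell n F`, `U = icCell n W`, `Y = Y' = C`, `N₁ = 1`, `N₂ = 1/σ + 2`;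
`NVal G U (T, C)` by `ltk_nval_close` with `R = (1/2)^n / σ`: same `C` ⟹ same `f`; same cell of `F = f W` ⟹ `|f| |W ω - W ω'| ≤ 2^-n`. -/
theorem it_r_list {Ω γ : Type} [Fintype Ω] (P : FLaw Ω) (C : Ω → γ) (W f F : Ω → ℝ) (G : Ω → Prop) (σ x : ℝ) (n : ℕ) (hσ : 0 < σ)
    (hf : ∀ ω ω', C ω = C ω' → f ω = f ω') (hG : ∀ ω, G ω → σ ≤ |f ω| ∧ F ω = f ω * W ω) :
    P.pr (fun ω => G ω ∧ P.surC (fun ω => icCell n (F ω)) C ω
        < P.surC (fun ω => icCell n (W ω)) C ω - Real.log (1 / σ + 2) - 3 * x) ≤ 3 * Real.exp (-x) := by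
  have hp : (0 : ℝ) < 2 ^ n := by positivity
  have hY : P.NVal G C C 1 := fun ω₀ => ⟨{C ω₀}, by simp, fun ω _ _ h => by rw [h]; exact Finset.mem_singleton_self _⟩
  have hU : P.NVal G (fun ω => icCell n (W ω)) (pair (fun ω => icCell n (F ω)) C) (1 / σ + 2) := by
    have h1 := ltk_nval_close P G (pair (fun ω => icCell n (F ω)) C) W n (R := 1 / 2 ^ n / σ) (by positivity)
      (fun ω ω' _ _ g1 g2 hA => by
        have hc : icCell n (F ω) = icCell n (F ω') := (Prod.mk.inj hA).1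
        have hC : C ω = C ω' := (Prod.mk.inj hA).2
        have hd := ic_cell_dist hc
        rw [(hG ω g1).2, (hG ω' g2).2, ← hf ω ω' hC, ← mul_sub, abs_mul] at hd
        rw [le_div_iff₀ hσ]
        calc |W ω - W ω'| * σ ≤ |W ω - W ω'| * |f ω| := mul_le_mul_of_nonneg_left (hG ω g1).1 (abs_nonneg _)
          _ = |f ω| * |W ω - W ω'| := mul_comm _ _
          _ ≤ 1 / 2 ^ n := hd)
    have e : 1 / 2 ^ n / σ * 2 ^ n + 2 = 1 / σ + 2 := by
      field_simp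
    rw [e] at h1
    exact h1
  have key := ltk_transfer P G (fun ω => icCell n (F ω)) (fun ω => icCell n (W ω)) C C one_pos (by positivity) hY hU x
  rw [Real.log_one] at key
  simpa only [sub_zero] using key

theorem it_r_aux_dir_eq (x y : ℝ × ℝ) (h : PjHorP x y) : pjDir x y = itSl x y := by
  unfold pjDir itSl
  rw [if_pos h, ← neg_div_neg_eq, neg_sub, neg_sub]

theorem it_r_aux_sl_abs (x y : ℝ × ℝ) (h : PjHorP x y) : |itSl x y| ≤ 1 := by
  unfold itSl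
  unfold PjHorP at h
  rw [abs_div, abs_sub_comm x.2, abs_sub_comm x.1]
  exact div_le_one_of_le₀ h (abs_nonneg _)

theorem it_r_aux_hor_of (x y : ℝ × ℝ) (h0 : itSl x y ≠ 0) (h1 : |itSl x y| ≤ 1) : PjHorP x y := by
  unfold itSl at h0 h1
  unfold PjHorP
  have hne : x.1 - y.1 ≠ 0 := fun h => h0 (by rw [h, div_zero])
  rw [abs_div, div_le_one (abs_pos.2 hne)] at h1
  rw [abs_sub_comm y.2, abs_sub_comm y.1]
  exact h1

theorem it_r_aux_cell_unit (k : ℕ) {u w : ℝ} (h : icCell k u = icCell k w) (h1 : -1 ≤ w) (h2 : w < 1) : -1 ≤ u ∧ u < 1 := by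
  have hp : (0 : ℝ) < 2 ^ k := by positivity
  have a1 := ic_cell_le k u
  have a2 := ic_cell_lt k u
  rw [h] at a1 a2
  have b1 : (-(2 ^ k : ℤ)) ≤ icCell k w := by
    unfold icCell
    rw [Int.le_floor]
    push_cast
    nlinarith
  have b2 : icCell k w < (2 ^ k : ℤ) := by
    unfold icCell
    rw [Int.floor_lt]
    push_cast
    nlinarith
  have b1' : (-(2 ^ k : ℝ)) ≤ (icCell k w : ℝ) := by exact_mod_cast b1
  have b2' : (icCell k w : ℝ) + 1 ≤ (2 ^ k : ℝ) := by exact_mod_cast b2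
  constructor
  · refine le_trans ?_ a1
    rw [le_div_iff₀ hp]
    linarith
  · refine lt_of_lt_of_le a2 ?_
    rw [div_le_one hp]
    exact b2'

/-- LEAF L-256-RAD-K9 (~200 l.).  REMOVAL OF THE DUMMY VALUE.  `g = itSl a b`, `dir = pjDir a b`; on horizontal pairs `dir = g ∈ [-1,1]` (`neg_div_neg_eq`), otherwise `dir = 5`.  Here `g ω ∈ [-1,1)`, its cell of level `k'` avoids `0`.
(1) `{g-names of levels k', k and C as at ω} ⊆ {dir-names ..}`: `g ω'` lies in the cell of `g ω`, so `g ω' ∈ [-1,1) \ {0}`, hence `(a ω').1 ≠ (b ω').1`, the pair is horizontal, `dir ω' = g ω'`.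
(2) `{dir-name of level k and C as at ω} ⊆ {g-name ..}`: `dir ω' ∈ [-1,1)` is not `5`, so `dir ω' = g ω'`.     `surC = log fib (Y) - log fib (X,Y)` (`ent_surC_eq_sub`), `ent_fib_mono`, `Real.log_le_log`. -/
theorem it_r_clean {Ω γ : Type} [Fintype Ω] (P : FLaw Ω) (a b : Ω → ℝ × ℝ) (C : Ω → γ) (k k' : ℕ) {ω : Ω} (hω : P.p ω ≠ 0)
    (hH : PjHorP (a ω) (b ω)) (h0 : icCell k' (itSl (a ω) (b ω)) ≠ 0) (h1 : itSl (a ω) (b ω) ≠ 1) :
    P.surC (icS (fun ω => pjDir (a ω) (b ω)) k') (pair (icS (fun ω => pjDir (a ω) (b ω)) k) C) ω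
      ≤ P.surC (icS (fun ω => itSl (a ω) (b ω)) k') (pair (icS (fun ω => itSl (a ω) (b ω)) k) C) ω := by
  have hd : pjDir (a ω) (b ω) = itSl (a ω) (b ω) := it_r_aux_dir_eq _ _ hH
  have habs := abs_le.1 (it_r_aux_sl_abs _ _ hH)
  have hlo : -1 ≤ itSl (a ω) (b ω) := habs.1
  have hhi : itSl (a ω) (b ω) < 1 := lt_of_le_of_ne habs.2 h1
  rw [ent_surC_eq_sub P _ _ hω, ent_surC_eq_sub P _ _ hω]
  have m1 : P.fib (pair (icS (fun ω => pjDir (a ω) (b ω)) k) C) ω ≤ P.fib (pair (icS (fun ω => itSl (a ω) (b ω)) k) C) ω := by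
    refine ent_fib_mono P _ _ ω fun ω' _ h => ?_
    have hc : icCell k (pjDir (a ω') (b ω')) = icCell k (pjDir (a ω) (b ω)) := (Prod.mk.inj h).1
    have hC : C ω' = C ω := (Prod.mk.inj h).2
    rw [hd] at hc
    have hu := it_r_aux_cell_unit k hc hlo hhi
    have hhor : PjHorP (a ω') (b ω') := by
      by_contra hn
      have : pjDir (a ω') (b ω') = 5 := by unfold pjDir; rw [if_neg hn]
      rw [this] at hu
      norm_num at hu
    rw [it_r_aux_dir_eq _ _ hhor] at hc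
    exact Prod.ext hc hC
  have m2 : P.fib (pair (icS (fun ω => itSl (a ω) (b ω)) k') (pair (icS (fun ω => itSl (a ω) (b ω)) k) C)) ω
      ≤ P.fib (pair (icS (fun ω => pjDir (a ω) (b ω)) k') (pair (icS (fun ω => pjDir (a ω) (b ω)) k) C)) ω := by
    refine ent_fib_mono P _ _ ω fun ω' _ h => ?_
    have hc' : icCell k' (itSl (a ω') (b ω')) = icCell k' (itSl (a ω) (b ω)) := (Prod.mk.inj h).1
    have hc : icCell k (itSl (a ω') (b ω')) = icCell k (itSl (a ω) (b ω)) := (Prod.mk.inj (Prod.mk.inj h).2).1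
    have hC : C ω' = C ω := (Prod.mk.inj (Prod.mk.inj h).2).2
    have hu := it_r_aux_cell_unit k' hc' hlo hhi
    have hne : itSl (a ω') (b ω') ≠ 0 := by
      intro hz
      rw [hz] at hc'
      apply h0
      rw [← hc']
      simp [icCell]
    have hhor : PjHorP (a ω') (b ω') := it_r_aux_hor_of _ _ hne (abs_le.2 ⟨hu.1, hu.2.le⟩)
    have hd' := it_r_aux_dir_eq _ _ hhor
    refine Prod.ext ?_ (Prod.ext ?_ hC)
    · show icCell k' (pjDir (a ω') (b ω')) = icCell k' (pjDir (a ω) (b ω))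
      rw [hd', hd, hc']
    · show icCell k (pjDir (a ω') (b ω')) = icCell k (pjDir (a ω) (b ω))
      rw [hd', hd, hc]
  have l1 := Real.log_le_log (ent_fib_pos P _ hω) m1
  have l2 := Real.log_le_log (ent_fib_pos P _ hω) m2
  linarith

end Claimed.Agent.R256
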