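import Claimed.Agent.R256.Int.SymKit
import Claimed.Agent.R256.Int.Meta

/-!
# Row 256, Sec. 5, block RL1, file 1: the linear rank counts of Prop int:basic-rates, 05 l.497-581      (helper153; prefix `it_l1_`)

`it_l1_inv`, `it_l1_miss`, `it_l1_G1`, `it_l1_G2` = the statements `it_l_inv`, `it_l_miss`, `it_l_G1`, `it_l_G2` of `Int/Contract.lean`, VERBATIM, proved from the tests
`it_mode_ang`, `it_ang_up`, `it_boost`, `it_slope_time` of `Int/Meta.lean` and the kit.   (`it_l_x` = pin products: files `Int/Rl1x*.lean`.)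
-/

set_option autoImplicit false
set_option linter.unreachableTactic false
set_option linter.unusedTactic false
set_option linter.unnecessarySeqFocus false
set_option linter.unusedSimpArgs false

namespace Claimed.Agent.R256

open Claimed.Agent.R255
open Claimed.Agent.R255.FLaw (pair)
open scoped BigOperators
open Classical

/-- a reading that is constant on the fibres of the conditioning costs nothing -/
theorem it_l1_hh_zero (T : Tan) (M : ℕ) (p q : ℝ) (U V : List (T.Ω → ItPh))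
    (h : ∀ ω ω', T.P.p ω ≠ 0 → T.P.p ω' ≠ 0 → T.base M p ω = T.base M p ω' → T.rd p q U ω = T.rd p q U ω') :
    T.hh M p q U V = 0 := by
  unfold Tan.hh
  exact ent_entC_eq_zero T.P _ _ fun ω ω' hω hω' e => h ω ω' hω hω' (congrArg Prod.snd e)

/-- linear case: the coordinate `P` vanishes identically -/
theorem it_l1_hP (T : Tan) (a : ItPar) (pk : ItPk) (h : T.Adm0 a pk) (hq : T.quad = false) (M : ℕ) (p q : ℝ)
    (V : List (T.Ω → ItPh)) : T.hh M p q [fun _ => itcP] V = 0 := by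
  refine it_l1_hh_zero T M p q _ V fun ω ω' _ _ _ => ?_
  simp only [Tan.rd, List.map_cons, List.map_nil, it_k_aux_valP, Tan.f0, itR, h.lin0 hq ω, h.lin0 hq ω']

/-- CAPACITY of one scalar reading, list form -/
theorem it_l1_cap_nval (T : Tan) (h0 : 0 < T.δ) (h1 : T.δ < 1) (M : ℕ) (p q A : ℝ) (hpq : p ≤ q) (hA : 1 ≤ A) (u : T.Ω → ItPh)
    (hu : ∀ ω, T.P.p ω ≠ 0 → (u ω).nrm ≤ A) (V : List (T.Ω → ItPh)) :
    T.P.NVal (fun _ => True) (T.rd p q [u]) (pair (T.rd p q V) (T.base M p)) ((24 * A + 4) * T.δ ^ (-(q - p))) := by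
  have hA0 : (0 : ℝ) ≤ A := by linarith
  have hm := ig_msh_pos T.δ p
  have h := ltk_nval_close T.P (fun _ => True) (pair (T.rd p q V) (T.base M p))
    (fun ω => itVal (u ω) (T.F ω) (T.f0 p ω)) (tlev T.δ q) (R := 12 * A * msh T.δ p)
    (mul_nonneg (mul_nonneg (by norm_num) hA0) hm.le)
    (fun ω ω' hω hω' _ _ _ => by
      have b1 := it_k_aux_val_bd T.δ p A hA0 (u ω) (T.F ω) (hu ω hω)
      have b2 := it_k_aux_val_bd T.δ p A hA0 (u ω') (T.F ω') (hu ω' hω')
      rw [abs_le] at b1 b2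
      exact abs_le.2 ⟨by unfold Tan.f0; linarith [b1.1, b2.2], by unfold Tan.f0; linarith [b1.2, b2.1]⟩)
  have hr := ig_ratio_le T.δ p (q - p) h0 h1 (sub_nonneg.2 hpq)
  rw [add_sub_cancel] at hr
  have hone : (1 : ℝ) ≤ T.δ ^ (-(q - p)) :=
    Real.one_le_rpow_of_pos_of_le_one_of_nonpos h0 h1.le (by linarith)
  have e : 12 * A * msh T.δ p * 2 ^ (tlev T.δ q) + 2 ≤ (24 * A + 4) * T.δ ^ (-(q - p)) := by
    rw [ig_msh_ratio T.δ p q h0 h1 hpq]
    have e1 : msh T.δ q * 2 ^ (tlev T.δ q) = 1 := by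
      unfold msh
      field_simp
    have e2 : 12 * A * (2 ^ (tlev T.δ q - tlev T.δ p) * msh T.δ q) * 2 ^ (tlev T.δ q)
        = 12 * A * 2 ^ (tlev T.δ q - tlev T.δ p) * (msh T.δ q * 2 ^ (tlev T.δ q)) := by ring
    rw [e2, e1, mul_one]
    have e3 : 12 * A * 2 ^ (tlev T.δ q - tlev T.δ p) ≤ 12 * A * (2 * T.δ ^ (-(q - p))) :=
      mul_le_mul_of_nonneg_left hr (by linarith)
    linarith
  exact ltk_nval_mono T.P h (fun _ h => h) (fun _ _ h => h) ⟨fun x => [x], fun ω => by simp [Tan.rd, tcell]⟩ e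

/-- expectation from an upper score, capacity inserted -/
theorem it_l1_E_of_US (T : Tan) (h0 : 0 < T.δ) (h1 : T.δ < 1) (M : ℕ) (p q A : ℝ) (hpq : p ≤ q) (hA : 1 ≤ A) (u : T.Ω → ItPh)
    (hu : ∀ ω, T.P.p ω ≠ 0 → (u ω).nrm ≤ A) (V : List (T.Ω → ItPh)) (ρ η : ℝ) (hη : 0 ≤ η) (hρ : 0 ≤ ρ)
    (h : T.US M p q q [u] V ρ η) :
    T.hh M p q [u] V ≤ (ρ + 2 * η) * (q - p) * T.L + η * Real.log (24 * A + 4) + Real.log 2 := by
  have hone : (1 : ℝ) ≤ T.δ ^ (-(q - p)) :=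
    Real.one_le_rpow_of_pos_of_le_one_of_nonpos h0 h1.le (by linarith)
  have hN : (1 : ℝ) ≤ (24 * A + 4) * T.δ ^ (-(q - p)) := by nlinarith
  have := it_k_E_of_US T h0 h1 M p q hpq [u] V ρ η _ hη hρ hN h (it_l1_cap_nval T h0 h1 M p q A hpq hA u hu V)
  rw [it_k_aux_log_cap h0 _ _ (by linarith)] at this
  have e : lg T.δ = T.L := rfl
  rw [e] at this
  nlinarith

theorem it_l1_nrm_c (u : ItPh) (hX : |u.X| ≤ 1) (hB : |u.B| ≤ 1) (hP : |u.P| ≤ 1) (hY : |u.Y| ≤ 1) (hN : |u.N| ≤ 1)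
    (hD : |u.D| ≤ 1) : u.nrm ≤ 1 := (it_s_nrm_le u 1).2 ⟨hX, hB, hP, hY, hN, hD⟩

/-- angular invariance : `α ≥ |π_0| + m` -/
theorem it_l1_inv (a : ItPar) (ha : a.Ok) :
    ItLayer false false false a (fun T pk p q η =>
      T.hh pk.M p q (T.rPi p 0) [] + (a.m - η) * (q - p) * T.L ≤ T.hF pk.M p q) := by
  intro η hη
  show ItLayerAt false false false a _
  obtain ⟨hc0, hd0, hd1, hm0, hm1, -⟩ := id ha
  obtain ⟨A1, hA1, hReg⟩ := it_s_regU_list [itsX, itsW 0, itsH, itsxl 0] 1 a.B0 (by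
    intro U hU
    simp only [List.mem_cons, List.not_mem_nil, or_false] at hU
    rcases hU with rfl | rfl | rfl | rfl
    exacts [it_s_regU_mono (by omega) (it_s_regU_X _), it_s_regU_W 0 _, it_s_regU_mono (by omega) (it_s_regU_H _), it_s_regU_xl 0 _])
  set A0 := max A1 1 with hA0
  have hA01 : 1 ≤ A0 := le_max_right _ _
  have hReg' : ∀ U ∈ [itsX, itsW 0, itsH, itsxl 0], ∀ M, 1 ≤ M → ItSym.Reg U M a.B0 A0 := fun U hU M hM =>
    it_s_reg_mono (le_max_left _ _) (hReg U hU M hM)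
  rcases hm0.eq_or_lt with hm | hm
  · -- `m = 0`
    refine it_cb_imp (it_cb_true false false false a) 1 one_pos ?_
    intro p q hp hpq _
    set cst := (3 : ℝ) * Real.log (A0 * 6 + 2) with hcst
    refine ⟨itPk0 1 1, Real.exp (-(cst / (η * (q - p)))), it_cb_pk0_pre 1 1 one_pos, Real.exp_pos _, ?_⟩
    rintro pk acc τ κ0 T hpk hle hacc hacc1 hquad hAdm - - -
    have h0 := hAdm.t0.δ0
    have h1 := hAdm.t0.δ1
    have hM : 1 ≤ pk.M := it_cb_pk0_M hle
    have hqp : 0 < q - p := by linarith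
    have hx : T.fld p (itsxl 0) = T.cx p 0 := it_s_fld_xl T p 0 hquad
    have Fle := it_sk_le_F T a pk hAdm.t0 p q A0 hp.le hpq.le hA01 [itsW 0, itsH, itsxl 0] (by
      intro u hu
      exact hReg' u (List.mem_cons_of_mem _ hu) pk.M hM)
    have hcl := it_cb_const_le T acc cst (η * (q - p)) (by positivity) h0 hAdm.small hacc1
    have hPi : T.rPi p 0 = [T.cW 0, T.cH p, T.cx p 0] := rfl
    rw [hPi]
    simp only [List.map_cons, List.map_nil, hx, it_s_fld_W, it_s_fld_H, List.length_cons, List.length_nil] at Fle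
    push_cast at Fle
    norm_num at Fle
    rw [← hm]
    nlinarith
  · set η' := min (η / 4) a.m with hη'
    have hη'0 : 0 < η' := lt_min (by positivity) hm
    have F2 := it_mode_ang false a ha hm A0 1 one_pos η' hη'0
    refine it_cb_imp F2 1 one_pos ?_
    intro p q hp hpq _
    set cst := (4 : ℝ) * Real.log (A0 * 6 + 2) with hcst
    refine ⟨itPk0 1 1, Real.exp (-(cst / (η / 2 * (q - p)))), it_cb_pk0_pre 1 1 one_pos, Real.exp_pos _, ?_⟩
    rintro pk acc τ κ0 T hpk hle hacc hacc1 hquad hAdm - - G2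
    have h0 := hAdm.t0.δ0
    have h1 := hAdm.t0.δ1
    have hM : 1 ≤ pk.M := it_cb_pk0_M hle
    have hM0 : 0 < pk.M := hM
    have hL := it_cb_L_pos T h0 h1
    have hqp : 0 < q - p := by linarith
    have hX : 0 ≤ (q - p) * T.L := mul_nonneg hqp.le hL.le
    have rX := hReg' itsX (by simp) pk.M hM
    have rW := hReg' (itsW 0) (by simp) pk.M hM
    have rH := hReg' itsH (by simp) pk.M hM
    have rx := hReg' (itsxl 0) (by simp) pk.M hM
    have Lb : T.LS pk.M p q q [T.fld p itsX] ([itsW 0, itsH, itsxl 0].map (T.fld p)) a.m η' := by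
      have := G2 0 hM0 itsX [itsW 0, itsH, itsxl 0] rX (by
        intro v hv
        simp only [List.mem_cons, List.not_mem_nil, or_false] at hv
        rcases hv with rfl | rfl | rfl
        exacts [rW, rH, rx]) (by simp) (by
        intro v hv f Ξ
        simp only [List.mem_cons, List.not_mem_nil, or_false] at hv
        rcases hv with rfl | rfl | rfl
        · simp [itsW, itcW, itvEll, itDot]
        · simp [itsH, itcH, itvEll, itDot] <;> ring
        · simp [itsxl, itcxl, itvEll, itDot] <;> ring) (it_sk_one_nondeg T h0 h1 _ _ (it_sk_chi_pos p q 1 η' hpq one_pos hη'0) (by positivity) _ (by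
        intro ω
        simp [Tan.fld, itsX, itcX, itvEll, itDot])) 1 le_rfl le_rfl
      rwa [it_sk_itS] at this
    have Eb := it_k_E_of_LS T h0 h1 pk.M p q hpq.le _ _ _ _ hη'0.le (min_le_right _ _) Lb
    have hx : T.fld p (itsxl 0) = T.cx p 0 := it_s_fld_xl T p 0 hquad
    have C1 := it_k_chain T pk.M p q [T.fld p itsX] [T.cW 0, T.cH p, T.cx p 0] []
    have Fle := it_sk_le_F T a pk hAdm.t0 p q A0 hp.le hpq.le hA01 [itsX, itsW 0, itsH, itsxl 0] (by
      intro u hu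
      exact hReg' u hu pk.M hM)
    have hcl := it_cb_const_le T acc cst (η / 2 * (q - p)) (by positivity) h0 hAdm.small hacc1
    have hPi : T.rPi p 0 = [T.cW 0, T.cH p, T.cx p 0] := rfl
    rw [hPi]
    simp only [List.map_cons, List.map_nil, hx, it_s_fld_W, it_s_fld_H, List.cons_append, List.nil_append, List.append_nil,
      List.length_cons, List.length_nil] at Eb C1 Fle
    push_cast at Fle
    norm_num at Fle
    have hη4 : η' ≤ η / 4 := min_le_left _ _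
    have hAr : (a.m - η / 2) * ((q - p) * T.L) ≤ (a.m - η') * (1 - η') * ((q - p) * T.L) := by
      refine mul_le_mul_of_nonneg_right ?_ hX
      nlinarith
    nlinarith

/-- (miss) : `α ≤ |π_0| + m + 1`, no hypothesis on `m`, no crossing -/
theorem it_l1_miss (a : ItPar) (ha : a.Ok) :
    ItLayer false false false a (fun T pk p q η =>
      T.hF pk.M p q ≤ T.hh pk.M p q (T.rPi p 0) [] + (a.m + 1 + η) * (q - p) * T.L) := by
  intro η hη
  show ItLayerAt false false false a _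
  obtain ⟨hc0, hd0, hd1, hm0, hm1, -, -, -, hB0⟩ := id ha
  set A0 := 2 * (a.B0 + 1) ^ 2 with hA0
  have hA01 : 1 ≤ A0 := by nlinarith
  set η' := η / 4 with hη'
  have hη'0 : 0 < η' := by positivity
  have F1 := it_ang_up false a ha 1 one_pos η' hη'0
  refine it_cb_imp F1 1 one_pos ?_
  intro p q hp hpq _
  set cst := (6 : ℝ) * Real.log (A0 * 6 + 2) + Real.log (24 * 1 + 4) + (η' * Real.log (24 * 1 + 4) + Real.log 2) with hcst
  refine ⟨itPk0 1 1, Real.exp (-(cst / (η / 2 * (q - p)))), it_cb_pk0_pre 1 1 one_pos, Real.exp_pos _, ?_⟩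
  rintro pk acc τ κ0 T hpk hle hacc hacc1 hquad hAdm - - G1
  have h0 := hAdm.t0.δ0
  have h1 := hAdm.t0.δ1
  have hM : 1 ≤ pk.M := it_cb_pk0_M hle
  have hM0 : 0 < pk.M := hM
  have hL := it_cb_L_pos T h0 h1
  have hqp : 0 < q - p := by linarith
  have hX : 0 ≤ (q - p) * T.L := mul_nonneg hqp.le hL.le
  have hx : T.fld p (itsxl 0) = T.cx p 0 := it_s_fld_xl T p 0 hquad
  -- the angular coordinate
  have Ua : T.US pk.M p q q [fun _ => itcX] [] a.m η' := by
    have := G1 [] 1 le_rfl le_rfl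
    rwa [it_sk_itS] at this
  have Ea := it_l1_E_of_US T h0 h1 pk.M p q 1 hpq.le le_rfl (fun _ => itcX) (fun _ _ => by
    refine it_l1_nrm_c _ ?_ ?_ ?_ ?_ ?_ ?_ <;> simp [itcX]) [] a.m η' hη'0.le hm0 Ua
  -- the missing scalar
  have En := it_k_cap T h0 h1 pk.M p q 1 hpq.le le_rfl (fun _ => itcN) (fun _ _ => by
    refine it_l1_nrm_c _ ?_ ?_ ?_ ?_ ?_ ?_ <;> simp [itcN]) []
  have Ep := it_l1_hP T a pk hAdm.t0 hquad pk.M p q []
  -- rank count
  have Lin := it_sk_lin T a pk hAdm.t0 p q A0 hp.le hA01 [itsP, itsN, itsX, itsW 0, itsH, itsxl 0] itsRF [] (by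
    intro u hu
    simp only [itsRF, List.mem_cons, List.not_mem_nil, or_false] at hu
    rcases hu with rfl | rfl | rfl | rfl | rfl | rfl
    · refine ⟨fun k _ _ => if k = 2 then 1 else 0, fun _ _ _ _ _ => rfl, fun k f Ξ _ _ => ?_, fun f Ξ x => ?_⟩
      · dsimp only
        split_ifs <;> simp <;> linarith
      · simp [Finset.sum_range_succ]
    · refine ⟨fun k _ Ξ => if k = 2 then -(Ξ 0).th else if k = 3 then 1 else 0, fun k f Ξ Ξ' e => ?_, fun k f Ξ _ hb => ?_,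
        fun f Ξ x => ?_⟩
      · simp only [e 0 hM0]
      · dsimp only
        have b0 := (hb 0 hM0).1
        split_ifs
        · rw [abs_neg]; nlinarith
        · simp; linarith
        · simp; linarith
      · simp [Finset.sum_range_succ, itsB, itcB, itsX, itcX, itsW, itcW, itDot] <;> ring
    · refine ⟨fun k _ _ => if k = 0 then 1 else 0, fun _ _ _ _ _ => rfl, fun k f Ξ _ _ => ?_, fun f Ξ x => ?_⟩
      · dsimp only
        split_ifs <;> simp <;> linarith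
      · simp [Finset.sum_range_succ]
    · refine ⟨fun k f Ξ => if k = 2 then -(2 * f.X * (Ξ 0).th) else if k = 3 then 2 * f.X else if k = 4 then 1 else 0,
        fun k f Ξ Ξ' e => ?_, fun k f Ξ hf hb => ?_, fun f Ξ x => ?_⟩
      · simp only [e 0 hM0]
      · dsimp only
        have b0 := (hb 0 hM0).1
        have bX := ((it_s_nrm_le _ _).1 hf).1
        split_ifs
        · rw [abs_neg, abs_mul, abs_mul, abs_two]
          have := mul_le_mul bX b0 (abs_nonneg _) (by linarith)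
          nlinarith
        · rw [abs_mul, abs_two]
          nlinarith
        · simp; linarith
        · simp; linarith
      · simp [Finset.sum_range_succ, itsY, itcY, itsX, itcX, itsW, itcW, itsH, itcH, itDot] <;> ring
    · refine ⟨fun k _ _ => if k = 1 then 1 else 0, fun _ _ _ _ _ => rfl, fun k f Ξ _ _ => ?_, fun f Ξ x => ?_⟩
      · dsimp only
        split_ifs <;> simp <;> linarith
      · simp [Finset.sum_range_succ]
    · refine ⟨fun k _ Ξ => if k = 1 then -(Ξ 0).th else if k = 3 then (Ξ 0).r else if k = 5 then 1 else 0,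
        fun k f Ξ Ξ' e => ?_, fun k f Ξ _ hb => ?_, fun f Ξ x => ?_⟩
      · simp only [e 0 hM0]
      · dsimp only
        have b0 := (hb 0 hM0).1
        have b1 := (hb 0 hM0).2.1
        split_ifs
        · rw [abs_neg]; nlinarith
        · nlinarith
        · simp; linarith
        · simp; linarith
      · simp [Finset.sum_range_succ, itsD, itcD, itsN, itcN, itsW, itcW, itsxl, itcxl, itDot] <;> ring)
  have S1 := it_k_subadd T pk.M p q [fun _ => itcP] [fun _ => itcN, fun _ => itcX, T.cW 0, T.cH p, T.cx p 0] []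
  have S2 := it_k_subadd T pk.M p q [fun _ => itcN] [fun _ => itcX, T.cW 0, T.cH p, T.cx p 0] []
  have S3 := it_k_subadd T pk.M p q [fun _ => itcX] [T.cW 0, T.cH p, T.cx p 0] []
  have hcl := it_cb_const_le T acc cst (η / 2 * (q - p)) (by positivity) h0 hAdm.small hacc1
  have hPi : T.rPi p 0 = [T.cW 0, T.cH p, T.cx p 0] := rfl
  rw [hPi, it_k_F T h0 h1 pk.M p q hpq.le, ← it_sk_RF T p]
  simp only [List.map_cons, List.map_nil, hx, it_s_fld_W, it_s_fld_H, it_s_fld_X, it_s_fld_N, it_s_fld_P, List.cons_append,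
    List.nil_append, List.length_cons, List.length_nil, itsRF] at Lin S1 S2 S3 ⊢
  push_cast at Lin
  norm_num at Lin
  nlinarith

/-- `-(dN - r_0 dX)` -/
def itsl1U : ItSym := fun _ Ξ => ⟨(Ξ 0).r, 0, 0, 0, -1, 0⟩

/-- `(dD - r_0 dB) + θ_1 (dN - r_0 dX)` : the projection of `G_0` with kernel the image of `ℓ_1` -/
def itsl1V : ItSym := fun _ Ξ => ⟨-(Ξ 1).th * (Ξ 0).r, -(Ξ 0).r, 0, 0, (Ξ 1).th, 1⟩

theorem it_l1_eqns_cite : True := by
  have := @itsl1U.eq_1; have := @itsl1V.eq_1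
  trivial

theorem it_l1_regU_U (B0 : ℝ) : ItSym.RegU itsl1U 2 B0 := by
  apply it_s_reg_mk <;> dsimp only [itsl1U] <;>
    repeat' first
      | exact it_s_c_const _ _ _ | exact it_s_c_th _ _ (by omega) _ | exact it_s_c_r _ _ (by omega) _
      | apply it_s_c_add | apply it_s_c_sub | apply it_s_c_mul | apply it_s_c_neg

theorem it_l1_regU_V (B0 : ℝ) : ItSym.RegU itsl1V 2 B0 := by
  apply it_s_reg_mk <;> dsimp only [itsl1V] <;>
    repeat' first
      | exact it_s_c_const _ _ _ | exact it_s_c_th _ _ (by omega) _ | exact it_s_c_r _ _ (by omega) _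
      | apply it_s_c_add | apply it_s_c_sub | apply it_s_c_mul | apply it_s_c_neg

/-- arithmetic of the tolerances -/
theorem it_l1_arith (ρ1 ρ2 η η' X : ℝ) (h1 : ρ1 ≤ 2) (h2 : ρ2 ≤ 2) (hη' : 0 ≤ η') (hη : η' ≤ η / 12) (hX : 0 ≤ X) :
    (ρ1 + ρ2 - η / 2) * X ≤ (ρ1 - η') * (1 - η') * X + (ρ2 - η') * (1 - η') * X := by
  have : ρ1 + ρ2 - η / 2 ≤ (ρ1 - η') * (1 - η') + (ρ2 - η') * (1 - η') := by nlinarith
  nlinarith

/-- (modes-lin) 3 : `|G_0| ≥ m + l_*` -/
theorem it_l1_G1 (a : ItPar) (ha : a.Ok) (hm : 0 < a.m) (hc : 1 < a.c) :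
    ItLayer false false true a (fun T pk p q η => (a.m + a.ls - η) * (q - p) * T.L ≤ T.hh pk.M p q (T.rG p 0) []) := by
  intro η hη
  show ItLayerAt false false true a _
  obtain ⟨hc0, hd0, hd1, hm0, hm1, -, -, -, hB0⟩ := id ha
  obtain ⟨A1, hA1, hReg⟩ := it_s_regU_list [itsl1U, itsl1V, itsGb 0] 2 a.B0 (by
    intro U hU
    simp only [List.mem_cons, List.not_mem_nil, or_false] at hU
    rcases hU with rfl | rfl | rfl
    exacts [it_l1_regU_U _, it_l1_regU_V _, it_s_regU_mono (by omega) (it_s_regU_Gb 0 _)])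
  set A0 := max A1 (2 * (a.B0 + 1)) with hA0
  have hA01 : 1 ≤ A0 := le_trans (by linarith) (le_max_right _ _)
  have hA0B : 2 * (a.B0 + 1) ≤ A0 := le_max_right _ _
  have hReg' : ∀ U ∈ [itsl1U, itsl1V, itsGb 0], ∀ M, 2 ≤ M → ItSym.Reg U M a.B0 A0 := fun U hU M hM =>
    it_s_reg_mono (le_max_left _ _) (hReg U hU M hM)
  set η' := min (η / 12) a.m with hη'
  have hη'0 : 0 < η' := lt_min (by positivity) hm
  obtain ⟨n, η1, hn, hη1, FB⟩ := it_boost false a ha A0 a.m a.d hm hm1 hd0 hd1 η' hη'0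
  have F1 := it_mode_ang false a ha hm A0 1 one_pos η' hη'0
  have F2 := it_mode_ang false a ha hm A0 n hn η1 hη1
  have F3 := it_slope_time false a ha n hn η1 hη1
  refine it_cb_imp (it_cb_flags (av' := false) (cr' := true) (fun e => e) (fun e => by simp at e)
    (it_cb_and (it_cb_and F1 F2) (it_cb_and F3 FB))) 1 one_pos ?_
  intro p q hp hpq _
  set cst := (2 : ℝ) * Real.log (A0 * 2 + 2) with hcst
  have hχ := it_sk_chi_pos p q n η1 hpq hn hη1
  have hχ' := it_sk_chi_pos p q 1 η' hpq one_pos hη'0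
  refine ⟨itPk0 2 (min (itChi p q n η1) (itChi p q 1 η')), min (Real.exp (-(cst / (η / 2 * (q - p))))) (min (η1 / 2) (η' / 2)),
    it_cb_pk0_pre 2 _ (lt_min hχ hχ'), lt_min (Real.exp_pos _) (lt_min (by positivity) (by positivity)), ?_⟩
  rintro pk acc τ κ0 T hpk hle hacc hacc1 hquad hAdm - hCr ⟨⟨G1, G2⟩, G3, GB⟩
  have hCr := hCr rfl
  have h0 := hAdm.t0.δ0
  have h1 := hAdm.t0.δ1
  have hM : 2 ≤ pk.M := it_cb_pk0_M hle
  have hM0 : 0 < pk.M := by omega
  have hM1 : 1 < pk.M := by omega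
  have hL := it_cb_L_pos T h0 h1
  have hqp : 0 < q - p := by linarith
  have hX : 0 ≤ (q - p) * T.L := mul_nonneg hqp.le hL.le
  have rU := hReg' itsl1U (by simp) pk.M hM
  have rV := hReg' itsl1V (by simp) pk.M hM
  have rb := hReg' (itsGb 0) (by simp) pk.M hM
  have hkill : ∀ v ∈ [itsl1V], ∀ f Ξ, itDot (v f Ξ) (itvEll false f (Ξ 1)) = 0 := by
    intro v hv f Ξ
    simp only [List.mem_cons, List.not_mem_nil, or_false] at hv
    subst hv
    simp [itsl1V, itvEll, itDot] <;> ring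
  have hsee : ∀ χ e : ℝ, pk.χ ≤ χ → acc ≤ e →
      T.P.pr (fun ω => |itDot (T.fld p itsl1U ω) (itvEll false (T.f0 p ω) (T.mrk 1 ω))| < T.δ ^ χ) ≤ e := by
    intro χ e hχe hacce
    refine le_trans (ent_pr_mono _ fun ω _ hω => ?_) (hCr.trans hacce)
    have e : itDot (T.fld p itsl1U ω) (itvEll false (T.f0 p ω) (T.mrk 1 ω)) = (T.mrk 0 ω).r - (T.mrk 1 ω).r := by
      simp [Tan.fld, itsl1U, itvEll, itDot] <;> ring
    rw [e] at hω
    exact lt_of_lt_of_le hω (Real.rpow_le_rpow_of_exponent_ge h0 h1.le hχe)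
  -- the residual
  have La : T.LS pk.M p q q [T.fld p itsl1U] ([itsl1V].map (T.fld p)) a.m η' := by
    have := G1 1 hM1 itsl1U [itsl1V] rU (by simpa using rV) (by simp) hkill
      (hsee _ _ ((it_cb_pk0_chi hle).trans (min_le_right _ _)) (hacc1.trans ((min_le_right _ _).trans (min_le_right _ _)))) 1 le_rfl le_rfl
    rwa [it_sk_itS] at this
  have Lres : ∀ k, 1 ≤ k → k ≤ n → T.LS pk.M p (itS p q n k) q [T.fld p itsl1U] (T.fld p itsl1V :: ([] : List ItSym).map (T.fld p)) a.m η1 :=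
    G2 1 hM1 itsl1U [itsl1V] rU (by simpa using rV) (by simp) hkill
      (hsee _ _ ((it_cb_pk0_chi hle).trans (min_le_left _ _)) (hacc1.trans ((min_le_right _ _).trans (min_le_left _ _))))
  -- the boost
  have hsupp : ∀ ω, T.P.p ω ≠ 0 → |(T.mrk 1 ω).th| ≤ A0 := fun ω hω => by
    have := (hAdm.t0.bdM ω hω 1 hM1).1
    linarith
  have LB := GB 1 hM1 itsl1U (itsGb 0) itsl1V [] (fun _ _ => 1) (fun _ Ξ => (Ξ 1).th) (fun ω => |(T.mrk 1 ω).th| ≤ A0) rU rb rV (by simp) (by simp)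
    (by
      intro f Ξ Ξ' e
      simp only [itsl1U, e 0 (by omega)])
    (by
      intro f Ξ Ξ' e
      simp only [itsGb, e 0 (by omega)])
    (by
      intro ω e
      simpa using e)
    (fun f Ξ Ξ' e => ⟨rfl, by rw [e 1 hM1]⟩)
    (by
      intro f Ξ x
      simp [itsl1V, itsl1U, itsGb, itcGb, itDot] <;> ring)
    (by
      rw [ent_pr_eq_zero]
      · exact hη1.le
      · rintro ω - ⟨-, hω⟩
        rw [abs_one] at hω
        exact absurd hω (not_lt.2 (it_sk_rpow_lt_one T h0 h1 _ (by positivity)).le))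
    Lres
    (by
      intro k k' hk hk'
      refine le_trans (ent_pr_mono _ fun ω _ hω => ?_) (G3 1 hM1 k k' hk hk')
      refine ⟨trivial, ?_⟩
      simpa only [div_one] using hω.2)
  have Lc : T.LS pk.M p q q [T.fld p itsl1V] [] a.ls η' := by
    unfold Tan.LS
    refine le_trans (ent_pr_mono _ fun ω hω hlt => ?_) LB
    exact ⟨hsupp ω hω, hlt⟩
  have hls : a.m ≤ a.ls := le_min hm1 (by linarith)
  have hls2 : a.ls ≤ 2 := (min_le_left _ _).trans (by norm_num)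
  have Ea := it_k_E_of_LS T h0 h1 pk.M p q hpq.le _ _ _ _ hη'0.le (min_le_right _ _) La
  have Ec := it_k_E_of_LS T h0 h1 pk.M p q hpq.le _ _ _ _ hη'0.le ((min_le_right _ _).trans hls) Lc
  have C2 := it_k_chain T pk.M p q [T.fld p itsl1U] [T.fld p itsl1V] []
  have Lin := it_sk_lin T a pk hAdm.t0 p q A0 hp.le hA01 [itsGa 0, itsGb 0] [itsl1U, itsl1V] [] (by
    intro u hu
    simp only [List.mem_cons, List.not_mem_nil, or_false] at hu
    rcases hu with rfl | rfl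
    · refine ⟨fun k _ _ => if k = 0 then -1 else 0, fun _ _ _ _ _ => rfl, fun k f Ξ _ _ => ?_, fun f Ξ x => ?_⟩
      · dsimp only
        split_ifs <;> simp <;> linarith
      · simp [Finset.sum_range_succ, itsl1U, itsGa, itcGa, itDot] <;> ring
    · refine ⟨fun k _ Ξ => if k = 0 then (Ξ 1).th else 1, fun k f Ξ Ξ' e => ?_, fun k f Ξ _ hb => ?_, fun f Ξ x => ?_⟩
      · simp only [e 1 hM1]
      · dsimp only
        have b1 := (hb 1 hM1).1
        split_ifs
        · linarith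
        · simp; linarith
      · simp [Finset.sum_range_succ, itsl1V, itsGa, itcGa, itsGb, itcGb, itDot] <;> ring)
  have hcl := it_cb_const_le T acc cst (η / 2 * (q - p)) (by positivity) h0 hAdm.small (hacc1.trans (min_le_left _ _))
  have hG : T.rG p 0 = [T.fld p (itsGa 0), T.fld p (itsGb 0)] := (it_s_fld_Gl T p 0 hquad).symm
  rw [hG]
  simp only [List.map_cons, List.map_nil, List.cons_append, List.nil_append, List.append_nil,
    List.length_cons, List.length_nil] at Ea Ec C2 Lin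
  have hAr := it_l1_arith a.m a.ls η η' ((q - p) * T.L) (by linarith) hls2 hη'0.le (min_le_left _ _) hX
  push_cast at Lin
  nlinarith

/-- a name that is determined by the conditioning near `ω` has no surprise at `ω` -/
theorem it_l1_sur_zero {Ω α β : Type} [Fintype Ω] (P : FLaw Ω) (X : Ω → α) (Y : Ω → β) {ω : Ω} (hω : P.p ω ≠ 0)
    (h : ∀ ω', P.p ω' ≠ 0 → Y ω' = Y ω → X ω' = X ω) : P.surC X Y ω = 0 := by
  rw [ent_surC_eq_sub P X Y hω]
  have e : P.fib (pair X Y) ω = P.fib Y ω :=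
    ent_pr_congr P fun ω' hω' => ⟨fun h' => congrArg Prod.snd h', fun h' => Prod.ext (h ω' hω' h') h'⟩
  rw [e, sub_self]

/-- a reading that is switched off on an event `E` of `(F_p, 𝒟)` costs `pr (¬ E)` times the capacity -/
theorem it_l1_gate (T : Tan) (h0 : 0 < T.δ) (h1 : T.δ < 1) (M : ℕ) (p q : ℝ) (hpq : p ≤ q) (E : T.Ω → Prop)
    (hE : ∀ ω ω', T.base M p ω = T.base M p ω' → (E ω ↔ E ω')) (c : ItPh) (hc : c.nrm ≤ 1) (e : ℝ) (he : 0 ≤ e)
    (hpr : T.P.pr (fun ω => ¬ E ω) ≤ e) :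
    T.hh M p q [fun ω => if E ω then ⟨0, 0, 0, 0, 0, 0⟩ else c] []
      ≤ 2 * e * (q - p) * T.L + e * Real.log (24 * 1 + 4) + Real.log 2 := by
  have hL := it_cb_L_pos T h0 h1
  have hU : T.US M p q q [fun ω => if E ω then ⟨0, 0, 0, 0, 0, 0⟩ else c] [] 0 e := by
    unfold Tan.US
    refine le_trans (ent_pr_mono _ fun ω hω hlt hEω => ?_) hpr
    have hz : T.P.surC (T.rd p q [fun ω => if E ω then ⟨0, 0, 0, 0, 0, 0⟩ else c]) (pair (T.rd p q []) (T.base M p)) ω = 0 := by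
      refine it_l1_sur_zero T.P _ _ hω fun ω' _ hY => ?_
      have hb : T.base M p ω' = T.base M p ω := congrArg Prod.snd hY
      have hE' : E ω' := (hE ω' ω hb).2 hEω
      simp [Tan.rd, hEω, hE', itVal]
    rw [hz] at hlt
    have : 0 ≤ (0 + e) * (q - p) * T.L := mul_nonneg (mul_nonneg (by linarith) (by linarith)) hL.le
    linarith
  have := it_l1_E_of_US T h0 h1 M p q 1 hpq le_rfl _ (fun ω _ => by
    by_cases hEω : E ω
    · simp only [hEω, if_true]
      refine it_l1_nrm_c _ ?_ ?_ ?_ ?_ ?_ ?_ <;> simp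
    · simp only [hEω, if_false]
      exact hc) [] 0 e he le_rfl hU
  linarith

/-- the coefficients of the inversion of `(G_0, G_1)` : `s` = which pair of entries, `ρ = 1 / (r_1 - r_0)` -/
noncomputable def itl1C (μ μ' : ItMk) (E : Prop) (i0 i1 i2 : ℕ) (c0 c1 : ℝ) : ℕ → ℝ := fun k =>
  if E then (if k = i0 then c0 / (μ'.r - μ.r) else if k = i1 then c1 / (μ'.r - μ.r) else 0) else (if k = i2 then 1 else 0)

theorem it_l1_eqns_cite2 : True := by
  have := @itl1C.eq_1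
  trivial

theorem it_l1_C_bd (μ μ' : ItMk) (E : Prop) (i0 i1 i2 : ℕ) (c0 c1 s B : ℝ) (hs : 0 < s) (hs1 : s ≤ 1) (hB : 1 ≤ B)
    (hE : E → s ≤ |μ.r - μ'.r|) (h0 : |c0| ≤ B) (h1 : |c1| ≤ B) (k : ℕ) : |itl1C μ μ' E i0 i1 i2 c0 c1 k| ≤ B / s := by
  have hBs : B ≤ B / s := by
    rw [le_div_iff₀ hs]
    nlinarith
  have hdiv : ∀ c : ℝ, |c| ≤ B → E → |c / (μ'.r - μ.r)| ≤ B / s := by
    intro c hc hEE
    rw [abs_div, abs_sub_comm]
    exact div_le_div₀ (by linarith) hc hs (hE hEE)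
  unfold itl1C
  split_ifs with hEE a1 a2 a3
  · exact hdiv _ h0 hEE
  · exact hdiv _ h1 hEE
  · simp only [abs_zero]; linarith
  · simp only [abs_one]; linarith
  · simp only [abs_zero]; linarith

/-- the crossing event at the threshold `s` -/
def Tan.l1E (T : Tan) (s : ℝ) : T.Ω → Prop := fun ω => s ≤ |(T.mrk 0 ω).r - (T.mrk 1 ω).r|

/-- a coordinate reading switched off on the crossing event -/
noncomputable def Tan.l1g (T : Tan) (s : ℝ) (c : ItPh) : T.Ω → ItPh := fun ω => if T.l1E s ω then ⟨0, 0, 0, 0, 0, 0⟩ else c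

theorem it_l1_eqns_cite3 : True := by
  have := @Tan.l1E.eq_1; have := @Tan.l1g.eq_1
  trivial

theorem it_l1_E_base (T : Tan) (M : ℕ) (hM : 2 ≤ M) (p s : ℝ) (ω ω' : T.Ω) (e : T.base M p ω = T.base M p ω') :
    T.l1E s ω ↔ T.l1E s ω' := by
  unfold Tan.l1E
  rw [it_sk_mrk_base T M p ω ω' e 0 (by omega), it_sk_mrk_base T M p ω ω' e 1 (by omega)]

/-- RANK COUNT for `(G_0, G_1)` : on the crossing event they determine `dX, dB, dN, dD` -/
theorem it_l1_G2_rank (T : Tan) (a : ItPar) (pk : ItPk) (h : T.Adm0 a pk) (hB0 : 1 ≤ a.B0) (hM : 2 ≤ pk.M) (p q s : ℝ) (hpq : p ≤ q)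
    (hs0 : 0 < s) (hs1 : s ≤ 1) :
    T.hF pk.M p q ≤ T.hh pk.M p q [T.fld p (itsGa 0), T.fld p (itsGb 0), T.fld p (itsGa 1), T.fld p (itsGb 1), T.l1g s itcX,
      T.l1g s itcB, T.l1g s itcN, T.l1g s itcD, fun _ => itcY, fun _ => itcP] [] + 6 * Real.log ((1 + 2 * a.B0) / s * 10 + 2) := by
  have h0 := h.δ0
  have h1 := h.δ1
  have hM0 : 0 < pk.M := by omega
  have hM1 : 1 < pk.M := by omega
  obtain ⟨B, hB⟩ : ∃ B : ℝ, B = 1 + 2 * a.B0 := ⟨_, rfl⟩
  rw [← hB]
  have hB1 : 1 ≤ B := by rw [hB]; linarith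
  have hBs1 : 1 ≤ B / s := by
    rw [le_div_iff₀ hs0]
    linarith
  have hbase : ∀ (i0 i1 i2 : ℕ) (c0 c1 : ItMk → ItMk → ℝ) (ω ω' : T.Ω), T.base pk.M p ω = T.base pk.M p ω' →
      itl1C (T.mrk 0 ω) (T.mrk 1 ω) (T.l1E s ω) i0 i1 i2 (c0 (T.mrk 0 ω) (T.mrk 1 ω)) (c1 (T.mrk 0 ω) (T.mrk 1 ω))
        = itl1C (T.mrk 0 ω') (T.mrk 1 ω') (T.l1E s ω') i0 i1 i2 (c0 (T.mrk 0 ω') (T.mrk 1 ω')) (c1 (T.mrk 0 ω') (T.mrk 1 ω')) := by
    intro i0 i1 i2 c0 c1 ω ω' e
    rw [it_sk_mrk_base T pk.M p ω ω' e 0 hM0, it_sk_mrk_base T pk.M p ω ω' e 1 hM1, propext (it_l1_E_base T pk.M hM p s ω ω' e)]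
  have hEs : ∀ ω, T.l1E s ω → s ≤ |(T.mrk 0 ω).r - (T.mrk 1 ω).r| := fun ω h => h
  have hne : ∀ ω, T.l1E s ω → (T.mrk 1 ω).r - (T.mrk 0 ω).r ≠ 0 := by
    intro ω h e
    have := hEs ω h
    rw [abs_sub_comm, e, abs_zero] at this
    linarith
  have hr0 : ∀ ω, T.P.p ω ≠ 0 → |(T.mrk 0 ω).r| ≤ B := fun ω hω => by
    have := (h.bdM ω hω 0 hM0).2.1
    rw [hB]; linarith
  have hr1 : ∀ ω, T.P.p ω ≠ 0 → |(T.mrk 1 ω).r| ≤ B := fun ω hω => by
    have := (h.bdM ω hω 1 hM1).2.1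
    rw [hB]; linarith
  have h11 : |(1 : ℝ)| ≤ B := by rw [abs_one]; exact hB1
  have h12 : |(-1 : ℝ)| ≤ B := by rw [abs_neg, abs_one]; exact hB1
  have Lin := it_k_lin T h0 h1 pk.M p q (B / s) hBs1
    [T.fld p (itsGa 0), T.fld p (itsGb 0), T.fld p (itsGa 1), T.fld p (itsGb 1), T.l1g s itcX, T.l1g s itcB, T.l1g s itcN,
      T.l1g s itcD, fun _ => itcY, fun _ => itcP]
    (itRF T.Ω) [] (by
    intro u hu
    simp only [itRF, List.mem_cons, List.not_mem_nil, or_false] at hu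
    rcases hu with rfl | rfl | rfl | rfl | rfl | rfl
    · refine ⟨fun ω => itl1C (T.mrk 0 ω) (T.mrk 1 ω) (T.l1E s ω) 0 2 4 1 (-1), hbase 0 2 4 (fun _ _ => 1) (fun _ _ => -1),
        fun ω hω k => it_l1_C_bd _ _ _ _ _ _ _ _ s B hs0 hs1 hB1 (hEs ω) h11 h12 k, fun ω hω x => ?_⟩
      by_cases hEω : T.l1E s ω
      · have := hne ω hEω
        simp [Finset.sum_range_succ, itl1C, hEω, Tan.fld, itsGa, itcGa, itcX, itDot]
        field_simp
        ring
      · simp [Finset.sum_range_succ, itl1C, hEω, Tan.l1g]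
    · refine ⟨fun ω => itl1C (T.mrk 0 ω) (T.mrk 1 ω) (T.l1E s ω) 1 3 5 1 (-1), hbase 1 3 5 (fun _ _ => 1) (fun _ _ => -1),
        fun ω hω k => it_l1_C_bd _ _ _ _ _ _ _ _ s B hs0 hs1 hB1 (hEs ω) h11 h12 k, fun ω hω x => ?_⟩
      by_cases hEω : T.l1E s ω
      · have := hne ω hEω
        simp [Finset.sum_range_succ, itl1C, hEω, Tan.fld, itsGb, itcGb, itcB, itDot]
        field_simp
        ring
      · simp [Finset.sum_range_succ, itl1C, hEω, Tan.l1g]
    · refine ⟨fun _ k => if k = 9 then 1 else 0, fun _ _ _ => rfl, fun ω hω k => ?_, fun ω hω x => ?_⟩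
      · dsimp only
        split_ifs <;> simp <;> linarith
      · simp [Finset.sum_range_succ]
    · refine ⟨fun _ k => if k = 8 then 1 else 0, fun _ _ _ => rfl, fun ω hω k => ?_, fun ω hω x => ?_⟩
      · dsimp only
        split_ifs <;> simp <;> linarith
      · simp [Finset.sum_range_succ]
    · refine ⟨fun ω => itl1C (T.mrk 0 ω) (T.mrk 1 ω) (T.l1E s ω) 0 2 6 (T.mrk 1 ω).r (-(T.mrk 0 ω).r),
        hbase 0 2 6 (fun _ μ' => μ'.r) (fun μ _ => -μ.r),
        fun ω hω k => it_l1_C_bd _ _ _ _ _ _ _ _ s B hs0 hs1 hB1 (hEs ω) (hr1 ω hω) (by rw [abs_neg]; exact hr0 ω hω) k,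
        fun ω hω x => ?_⟩
      by_cases hEω : T.l1E s ω
      · have := hne ω hEω
        simp [Finset.sum_range_succ, itl1C, hEω, Tan.fld, itsGa, itcGa, itcN, itDot]
        field_simp
        ring
      · simp [Finset.sum_range_succ, itl1C, hEω, Tan.l1g]
    · refine ⟨fun ω => itl1C (T.mrk 0 ω) (T.mrk 1 ω) (T.l1E s ω) 1 3 7 (T.mrk 1 ω).r (-(T.mrk 0 ω).r),
        hbase 1 3 7 (fun _ μ' => μ'.r) (fun μ _ => -μ.r),
        fun ω hω k => it_l1_C_bd _ _ _ _ _ _ _ _ s B hs0 hs1 hB1 (hEs ω) (hr1 ω hω) (by rw [abs_neg]; exact hr0 ω hω) k,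
        fun ω hω x => ?_⟩
      by_cases hEω : T.l1E s ω
      · have := hne ω hEω
        simp [Finset.sum_range_succ, itl1C, hEω, Tan.fld, itsGb, itcGb, itcD, itDot]
        field_simp
        ring
      · simp [Finset.sum_range_succ, itl1C, hEω, Tan.l1g])
  rw [it_k_F T h0 h1 pk.M p q hpq]
  simp only [List.length_cons, List.length_nil, itRF] at Lin ⊢
  norm_num at Lin
  exact Lin

/-- the ten readings cost at most `2 |G_0| + 1` plus the gates -/
theorem it_l1_G2_sum (T : Tan) (a : ItPar) (pk : ItPk) (h : T.Adm0 a pk) (hquad : T.quad = false) (hM : 2 ≤ pk.M) (p q s e : ℝ)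
    (hpq : p ≤ q) (he : 0 ≤ e) (hpr : T.P.pr (fun ω => ¬ T.l1E s ω) ≤ e) :
    T.hh pk.M p q [T.fld p (itsGa 0), T.fld p (itsGb 0), T.fld p (itsGa 1), T.fld p (itsGb 1), T.l1g s itcX,
      T.l1g s itcB, T.l1g s itcN, T.l1g s itcD, fun _ => itcY, fun _ => itcP] []
      ≤ 2 * T.hh pk.M p q (T.rG p 0) [] + 4 * (2 * e * (q - p) * T.L + e * Real.log (24 * 1 + 4) + Real.log 2)
        + ((q - p) * T.L + Real.log (24 * 1 + 4)) := by
  have h0 := h.δ0
  have h1 := h.δ1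
  have hM0 : 0 < pk.M := by omega
  have hM1 : 1 < pk.M := by omega
  have hEb := it_l1_E_base T pk.M hM p s
  have EgX := it_l1_gate T h0 h1 pk.M p q hpq (T.l1E s) hEb itcX (by
    refine it_l1_nrm_c _ ?_ ?_ ?_ ?_ ?_ ?_ <;> simp [itcX]) e he hpr
  have EgB := it_l1_gate T h0 h1 pk.M p q hpq (T.l1E s) hEb itcB (by
    refine it_l1_nrm_c _ ?_ ?_ ?_ ?_ ?_ ?_ <;> simp [itcB]) e he hpr
  have EgN := it_l1_gate T h0 h1 pk.M p q hpq (T.l1E s) hEb itcN (by
    refine it_l1_nrm_c _ ?_ ?_ ?_ ?_ ?_ ?_ <;> simp [itcN]) e he hpr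
  have EgD := it_l1_gate T h0 h1 pk.M p q hpq (T.l1E s) hEb itcD (by
    refine it_l1_nrm_c _ ?_ ?_ ?_ ?_ ?_ ?_ <;> simp [itcD]) e he hpr
  have EY := it_k_cap T h0 h1 pk.M p q 1 hpq le_rfl (fun _ => itcY) (fun _ _ => by
    refine it_l1_nrm_c _ ?_ ?_ ?_ ?_ ?_ ?_ <;> simp [itcY]) []
  have EP := it_l1_hP T a pk h hquad pk.M p q []
  have S1 := it_k_subadd T pk.M p q [T.fld p (itsGa 0), T.fld p (itsGb 0)]
    [T.fld p (itsGa 1), T.fld p (itsGb 1), T.l1g s itcX, T.l1g s itcB, T.l1g s itcN, T.l1g s itcD, fun _ => itcY, fun _ => itcP] []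
  have S2 := it_k_subadd T pk.M p q [T.fld p (itsGa 1), T.fld p (itsGb 1)]
    [T.l1g s itcX, T.l1g s itcB, T.l1g s itcN, T.l1g s itcD, fun _ => itcY, fun _ => itcP] []
  have S3 := it_k_subadd T pk.M p q [T.l1g s itcX] [T.l1g s itcB, T.l1g s itcN, T.l1g s itcD, fun _ => itcY, fun _ => itcP] []
  have S4 := it_k_subadd T pk.M p q [T.l1g s itcB] [T.l1g s itcN, T.l1g s itcD, fun _ => itcY, fun _ => itcP] []
  have S5 := it_k_subadd T pk.M p q [T.l1g s itcN] [T.l1g s itcD, fun _ => itcY, fun _ => itcP] []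
  have S6 := it_k_subadd T pk.M p q [T.l1g s itcD] [fun _ => itcY, fun _ => itcP] []
  have S7 := it_k_subadd T pk.M p q [fun _ => itcY] [fun _ => itcP] []
  have Sw := it_k_swap T a pk h p q 0 1 hM0 hM1 [itsGa 0, itsGb 0] [] (by
    intro u hu f Ξ Ξ' e
    simp only [List.append_nil, List.mem_cons, List.not_mem_nil, or_false] at hu
    rcases hu with rfl | rfl
    · simp only [itsGa, e 0 hM0]
    · simp only [itsGb, e 0 hM0])
  have ea : T.fld p (fun f Ξ => itsGa 0 f (fun k => Ξ (Equiv.swap 0 1 k))) = T.fld p (itsGa 1) := by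
    funext ω
    simp [Tan.fld, itsGa]
  have eb : T.fld p (fun f Ξ => itsGb 0 f (fun k => Ξ (Equiv.swap 0 1 k))) = T.fld p (itsGb 1) := by
    funext ω
    simp [Tan.fld, itsGb]
  simp only [List.map_cons, List.map_nil, ea, eb] at Sw
  have hG : T.rG p 0 = [T.fld p (itsGa 0), T.fld p (itsGb 0)] := (it_s_fld_Gl T p 0 hquad).symm
  rw [hG]
  simp only [List.cons_append, List.nil_append] at S1 S2 S3 S4 S5 S6 S7
  have gX : (fun ω => if T.l1E s ω then (⟨0, 0, 0, 0, 0, 0⟩ : ItPh) else itcX) = T.l1g s itcX := rfl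
  have gB : (fun ω => if T.l1E s ω then (⟨0, 0, 0, 0, 0, 0⟩ : ItPh) else itcB) = T.l1g s itcB := rfl
  have gN : (fun ω => if T.l1E s ω then (⟨0, 0, 0, 0, 0, 0⟩ : ItPh) else itcN) = T.l1g s itcN := rfl
  have gD : (fun ω => if T.l1E s ω then (⟨0, 0, 0, 0, 0, 0⟩ : ItPh) else itcD) = T.l1g s itcD := rfl
  rw [gX] at EgX
  rw [gB] at EgB
  rw [gN] at EgN
  rw [gD] at EgD
  linarith

/-- (modes-lin) 4 : `2 |G_0| ≥ α - 1` -/
theorem it_l1_G2 (a : ItPar) (ha : a.Ok) (hm : 0 < a.m) (hc : 1 < a.c) :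
    ItLayer false false true a (fun T pk p q η =>
      T.hF pk.M p q - (1 + η) * (q - p) * T.L ≤ 2 * T.hh pk.M p q (T.rG p 0) []) := by
  intro η hη
  show ItLayerAt false false true a _
  obtain ⟨hc0, hd0, hd1, hm0, hm1, -, -, -, hB0⟩ := id ha
  refine it_cb_imp (it_cb_true false false true a) 1 one_pos ?_
  intro p q hp hpq _
  have hqp : 0 < q - p := by linarith
  obtain ⟨χ0, hχ0⟩ : ∃ χ0 : ℝ, χ0 = η * (q - p) / 48 := ⟨_, rfl⟩
  have hχ00 : 0 < χ0 := by rw [hχ0]; positivity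
  obtain ⟨B, hB⟩ : ∃ B : ℝ, B = 1 + 2 * a.B0 := ⟨_, rfl⟩
  have hB1 : 1 ≤ B := by rw [hB]; linarith
  obtain ⟨cst, hcst⟩ : ∃ cst : ℝ, cst = (6 : ℝ) * Real.log (10 * B + 2) + 4 * (Real.log (24 * 1 + 4) + Real.log 2)
    + Real.log (24 * 1 + 4) := ⟨_, rfl⟩
  refine ⟨itPk0 2 χ0, min (Real.exp (-(cst / (η / 4 * (q - p))))) (min 1 (η / 64)), it_cb_pk0_pre 2 _ hχ00,
    lt_min (Real.exp_pos _) (lt_min one_pos (by positivity)), ?_⟩
  rintro pk acc τ κ0 T hpk hle hacc hacc1 hquad hAdm - hCr -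
  have hCr := hCr rfl
  have h0 := hAdm.t0.δ0
  have h1 := hAdm.t0.δ1
  have hM : 2 ≤ pk.M := it_cb_pk0_M hle
  have hL := it_cb_L_pos T h0 h1
  have hX : 0 ≤ (q - p) * T.L := mul_nonneg hqp.le hL.le
  have hχpk : 0 < pk.χ := hpk.2.2.2.1
  have hχle : pk.χ ≤ χ0 := it_cb_pk0_chi hle
  obtain ⟨s, hs⟩ : ∃ s : ℝ, s = T.δ ^ pk.χ := ⟨_, rfl⟩
  have hs0 : 0 < s := by rw [hs]; exact Real.rpow_pos_of_pos h0 _
  have hs1 : s ≤ 1 := by rw [hs]; exact Real.rpow_le_one h0.le h1.le hχpk.le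
  have hEpr : T.P.pr (fun ω => ¬ T.l1E s ω) ≤ acc := by
    refine le_trans (ent_pr_mono _ fun ω _ hω => ?_) hCr
    unfold Tan.l1E at hω
    rw [hs] at hω
    exact not_le.1 hω
  have hacc64 : acc ≤ η / 64 := hacc1.trans ((min_le_right _ _).trans (min_le_right _ _))
  have hacc1' : acc ≤ 1 := hacc1.trans ((min_le_right _ _).trans (min_le_left _ _))
  have R1 := it_l1_G2_rank T a pk hAdm.t0 hB0 hM p q s hpq.le hs0 hs1
  have R2 := it_l1_G2_sum T a pk hAdm.t0 hquad hM p q s acc hpq.le hacc.le hEpr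
  rw [← hB] at R1
  have hlog : Real.log (B / s * 10 + 2) ≤ χ0 * T.L + Real.log (10 * B + 2) := by
    have hsi : 1 ≤ s⁻¹ := (one_le_inv₀ hs0).2 hs1
    have e1 : B / s * 10 + 2 ≤ (10 * B + 2) * T.δ ^ (-pk.χ) := by
      rw [Real.rpow_neg h0.le, ← hs, div_eq_mul_inv]
      have : (2 : ℝ) ≤ 2 * s⁻¹ := by linarith
      linarith
    have e2 := Real.log_le_log (by positivity) e1
    rw [it_k_aux_log_cap h0 _ _ (by positivity)] at e2
    have e3 : pk.χ * lg T.δ ≤ χ0 * T.L := mul_le_mul_of_nonneg_right hχle hL.le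
    linarith
  have hcl := it_cb_const_le T acc cst (η / 4 * (q - p)) (by positivity) h0 hAdm.small (hacc1.trans (min_le_left _ _))
  have hl28 : 0 ≤ Real.log (24 * 1 + 4) := Real.log_nonneg (by norm_num)
  have hacl : acc * Real.log (24 * 1 + 4) ≤ Real.log (24 * 1 + 4) := by
    have := mul_le_mul_of_nonneg_right hacc1' hl28
    linarith
  have haX : 2 * acc * (q - p) * T.L ≤ η / 32 * ((q - p) * T.L) := by
    have := mul_le_mul_of_nonneg_right hacc64 hX
    linarith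
  have hχX : χ0 * T.L = η / 48 * ((q - p) * T.L) := by rw [hχ0]; ring
  have e4 : η / 4 * (q - p) * T.L = η / 4 * ((q - p) * T.L) := by ring
  have e5 : (1 + η) * (q - p) * T.L = (q - p) * T.L + η * ((q - p) * T.L) := by ring
  have hηX : 0 ≤ η * ((q - p) * T.L) := mul_nonneg hη.le hX
  rw [e5]
  rw [e4] at hcl
  rw [hcst] at hcl
  obtain ⟨X, hXd⟩ : ∃ X : ℝ, X = (q - p) * T.L := ⟨_, rfl⟩
  obtain ⟨Y, hYd⟩ : ∃ Y : ℝ, Y = 2 * acc * (q - p) * T.L := ⟨_, rfl⟩
  obtain ⟨W, hWd⟩ : ∃ W : ℝ, W = η * X := ⟨_, rfl⟩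
  rw [← hYd] at R2 haX
  rw [← hXd] at R2 haX hχX hcl hηX ⊢
  have f1 : η / 32 * X = W / 32 := by rw [hWd]; ring
  have f2 : η / 48 * X = W / 48 := by rw [hWd]; ring
  have f3 : η / 4 * X = W / 4 := by rw [hWd]; ring
  rw [f1] at haX
  rw [f2] at hχX
  rw [f3] at hcl
  rw [← hWd] at hηX ⊢
  have R3 := R1.trans (add_le_add_left R2 _)
  clear R1 R2
  generalize Real.log (24 * 1 + 4) = l28 at *
  generalize Real.log (B / s * 10 + 2) = lA at *
  generalize Real.log (10 * B + 2) = lB at *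
  generalize χ0 * T.L = c0L at *
  generalize T.hh pk.M p q (T.rG p 0) [] = G at *
  generalize T.hF pk.M p q = hF at *
  linarith

end Claimed.Agent.R256
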