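import Claimed.Agent.R256.Int.BoostA

/-!
# Row 256, Sec. 5, block RL1 (`it_l_x`, pin products), file A: the DECOUPLED abstract boost      (helper153; prefix `it_l1_`)

`it_b_abs` (helper149, `Int/BoostA.lean`) has ONE tolerance `η1` for the rate losses and for the failure probabilities of its hypotheses, and its conclusion fails with probability `η`.
In `it_l_x` the chart events are the classes `k ≤ N(ε)` of X6 `pj_pin_law` (and `2^k` sublayers for each class): the union bound needs a failure probability `≪ 2^(-N(ε))`, whereas the rate loss `ε` of the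
pin slopes is fixed BEFORE `N(ε)`.   `it_l1_b_dec` decouples the two: the rate tolerance `η1` depends on the rate loss `η` only; for every `c0 > 0` the conclusion fails with probability `≤ c0`
as soon as the hypotheses fail with probability `≤ π1(c0)`.
PROOF: apply `it_b_abs` to the law `P.cnd E₂`, `E₂ = E ∧ {the conclusion fails}`; if `pr E₂ > c0` the scores of `P.cnd E₂` and of `P` differ by `o(layer)` (`ic_restr`), so the conclusion fails almost surely under `P.cnd E₂`.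
-/

set_option autoImplicit false

namespace Claimed.Agent.R256

open Claimed.Agent.R255 Claimed.Agent.R255.FLaw
open Classical

/-- hypotheses of the decoupled boost: `ItbHyp` with rate tolerance `η1` and probability tolerance `π1` -/
structure ItL1Hyp {Ω : Type} [Fintype Ω] {α₁ α₂ β' δ' ζ' : Type} (P : FLaw Ω) (E : Ω → Prop) (pt : Ω → ℝ × ℝ) (g : Ω → ℝ)
    (Wq : Ω → α₁) (Y : Ω → α₂) (Tg : Ω → β') (D : Ω → δ') (Zx : Ω → ζ') (a b : ℕ → ℕ)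
    (A Mr γ η1 π1 θ c : ℝ) (N R m0 : ℕ) : Prop where
  bd : ∀ ω, P.p ω ≠ 0 → E ω → |(pt ω).1| ≤ A ∧ |(pt ω).2| ≤ A ∧ |g ω| ≤ A
  tag : ∀ ω ω', P.p ω ≠ 0 → P.p ω' ≠ 0 → E ω → E ω' → Tg ω = Tg ω' → D ω = D ω' → g ω = g ω'
  cond : ∀ ω ω', P.p ω ≠ 0 → P.p ω' ≠ 0 → (Y ω = Y ω' ↔ Tg ω = Tg ω' ∧ D ω = D ω')
  side : ∀ ω ω', P.p ω ≠ 0 → P.p ω' ≠ 0 → Zx ω = Zx ω' → pt ω = pt ω' ∧ D ω = D ω'
  la : ∀ k ≤ N * R, k * m0 ≤ a k ∧ a k ≤ k * m0 + (k + 1)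
  lb : ∀ k ≤ N * R, k * m0 ≤ b k ∧ b k ≤ k * m0 + (k + 1)
  th : m0 * Real.log 2 ≤ θ ∧ θ ≤ (m0 + 1) * Real.log 2
  res : ∀ i : ℕ, 1 ≤ i → i ≤ R →
    P.pr (fun ω => E ω ∧ P.surC (icX pt (a i)) (pair Wq Y) ω < (Mr - η1) * (i * θ)) ≤ π1
  slo : ∀ k k' : ℕ, k < k' → k' ≤ N * R →
    P.pr (fun ω => E ω ∧ P.surC (icS g (b k')) (pair (icS g (b k)) Zx) ω
      < γ * (((k' : ℝ) - k) * θ) - η1 * (N * R * θ)) ≤ π1
  inf : P.miC (icQ pt (N * (R * m0))) Tg D ≤ π1 * (N * R * θ)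
  lst : P.NVal E (icU pt g (N * (R * m0))) (pair Wq Y) c
  c1 : 1 ≤ c
  lc : Real.log c ≤ η1 * (N * R * θ)

/-- transfer of a lower score to the restricted law -/
theorem it_l1_cnd_low {Ω α β : Type} [Fintype Ω] (P : FLaw Ω) (E₂ : Ω → Prop) (hE : 0 < P.pr E₂) (X : Ω → α) (W : Ω → β)
    (s t0 π1 c0 : ℝ) (hc0 : 0 < c0) (hc : c0 ≤ P.pr E₂) (h : P.pr (fun ω => E₂ ω ∧ P.surC X W ω < s) ≤ π1) :
    (P.cnd E₂).pr (fun ω => True ∧ (P.cnd E₂).surC X W ω < s - t0) ≤ π1 / c0 + 2 * Real.exp (-t0) / c0 := by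
  have h1 := ic_restr P E₂ hE X W t0
  have h2 : (P.cnd E₂).pr (fun ω => P.surC X W ω < s) ≤ π1 / c0 := by
    rw [ent_cnd_pr P E₂ hE]
    have hπ : 0 ≤ π1 := (ent_pr_nonneg P _).trans h
    exact div_le_div₀ hπ h hc0 hc
  have h3 : 2 * Real.exp (-t0) / P.pr E₂ ≤ 2 * Real.exp (-t0) / c0 :=
    div_le_div_of_nonneg_left (by positivity) hc0 hc
  refine le_trans (le_trans (ent_pr_mono _ fun ω _ hω => ?_) (ent_pr_or_le _ _ _)) (add_le_add h2 (h1.trans h3))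
  by_contra hcon
  push Not at hcon
  obtain ⟨c1, c2⟩ := hcon
  have := (abs_le.1 c2).1
  linarith [hω.2]

theorem it_l1_exp_small {x e : ℝ} (he : 0 < e) (hx : 1 / e ≤ x) : Real.exp (-x) ≤ e := by
  have hx0 : 0 < x := lt_of_lt_of_le (by positivity) hx
  refine (it_b_exp_le hx0).trans ?_
  rw [div_le_iff₀ hx0]
  rw [div_le_iff₀ he] at hx
  linarith

/-- numerics of the decoupled boost -/
theorem it_l1_dec_num {c0 e η θ T m0 L : ℝ} (hc0 : 0 < c0) (he : 0 < e) (hη : 0 < η) (hL : 0 < L) (hθ : m0 * L ≤ θ) (hTθ : θ ≤ T)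
    (h1 : 16 / (c0 * e ^ 2 * L) ≤ m0) (h2 : 16 / (c0 * η * L) ≤ m0) (h3 : 2 / (c0 * e) ≤ m0) :
    2 * Real.exp (-(e / 2 * θ)) / c0 ≤ e / 4 ∧ 2 * Real.exp (-(η / 2 * T)) / c0 ≤ 1 / 4 ∧ L / c0 ≤ e / 2 * T := by
  rw [div_le_iff₀ (by positivity)] at h1 h2 h3
  have q1 : 8 / (c0 * e) ≤ e / 2 * θ := by
    rw [div_le_iff₀ (by positivity)]
    have h4 : e / 2 * (m0 * L) * (c0 * e) ≤ e / 2 * θ * (c0 * e) :=
      mul_le_mul_of_nonneg_right (mul_le_mul_of_nonneg_left hθ (by positivity)) (by positivity)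
    have e1 : e / 2 * (m0 * L) * (c0 * e) = m0 * (c0 * e ^ 2 * L) / 2 := by ring
    linarith
  have q2 : 8 / c0 ≤ η / 2 * T := by
    rw [div_le_iff₀ hc0]
    have h4 : η / 2 * (m0 * L) * c0 ≤ η / 2 * T * c0 :=
      mul_le_mul_of_nonneg_right (mul_le_mul_of_nonneg_left (hθ.trans hTθ) (by positivity)) hc0.le
    have e1 : η / 2 * (m0 * L) * c0 = m0 * (c0 * η * L) / 2 := by ring
    linarith
  have q3 : L / c0 ≤ e / 2 * T := by
    rw [div_le_iff₀ hc0]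
    have h4 : e / 2 * (m0 * L) * c0 ≤ e / 2 * T * c0 :=
      mul_le_mul_of_nonneg_right (mul_le_mul_of_nonneg_left (hθ.trans hTθ) (by positivity)) hc0.le
    have h5 : 2 * L ≤ m0 * (c0 * e) * L := mul_le_mul_of_nonneg_right h3 hL.le
    have e1 : e / 2 * (m0 * L) * c0 = m0 * (c0 * e) * L / 2 := by ring
    linarith
  refine ⟨?_, ?_, q3⟩
  · have := it_l1_exp_small (x := e / 2 * θ) (e := c0 * e / 8) (by positivity) (by
      rw [one_div_div]; exact q1)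
    rw [div_le_iff₀ hc0]
    linarith
  · have := it_l1_exp_small (x := η / 2 * T) (e := c0 / 8) (by positivity) (by
      rw [one_div_div]; exact q2)
    rw [div_le_iff₀ hc0]
    linarith

/-- the hypotheses pass to the restricted law -/
theorem it_l1_dec_hyp {Ω : Type} [Fintype Ω] {α₁ α₂ β' δ' ζ' : Type} (P : FLaw Ω) (E E₂ : Ω → Prop) (pt : Ω → ℝ × ℝ) (g : Ω → ℝ)
    (Wq : Ω → α₁) (Y : Ω → α₂) (Tg : Ω → β') (D : Ω → δ') (Zx : Ω → ζ') (a b : ℕ → ℕ)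
    (A Mr γ e c0 θ c : ℝ) (N R m0 : ℕ) (Hy : ItL1Hyp P E pt g Wq Y Tg D Zx a b A Mr γ (e / 2) (c0 * e / 4) θ c N R m0)
    (hsub : ∀ ω, E₂ ω → E ω) (hc0 : 0 < c0) (he : 0 < e) (hcon : c0 ≤ P.pr E₂) (hθ0 : 0 < θ) (hTθ : θ ≤ N * R * θ)
    (x1 : 2 * Real.exp (-(e / 2 * θ)) / c0 ≤ e / 4) (q3 : Real.log 2 / c0 ≤ e / 2 * (N * R * θ)) :
    ItbHyp (P.cnd E₂) (fun _ => True) pt g Wq Y Tg D Zx a b A Mr γ e θ c N R m0 := by
  have hpos : 0 < P.pr E₂ := hc0.trans_le hcon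
  have hsupp : ∀ ω, (P.cnd E₂).p ω ≠ 0 → E₂ ω ∧ P.p ω ≠ 0 := fun ω h => (ent_cnd_supp P E₂ hpos).1 h
  have hπc : c0 * e / 4 / c0 = e / 4 := by field_simp
  obtain ⟨T, hT⟩ : ∃ T : ℝ, T = N * R * θ := ⟨_, rfl⟩
  rw [← hT] at hTθ q3
  have hT0 : 0 < T := hθ0.trans_le hTθ
  refine ⟨fun ω hω _ => ?_, fun ω ω' hω hω' _ _ => ?_, fun ω ω' hω hω' => ?_, fun ω ω' hω hω' => ?_, Hy.la, Hy.lb, Hy.th,
    fun i hi hiR => ?_, fun k k' hk hk' => ?_, ?_, ?_, Hy.c1, ?_⟩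
  · exact Hy.bd ω (hsupp ω hω).2 (hsub ω (hsupp ω hω).1)
  · exact Hy.tag ω ω' (hsupp ω hω).2 (hsupp ω' hω').2 (hsub ω (hsupp ω hω).1) (hsub ω' (hsupp ω' hω').1)
  · exact Hy.cond ω ω' (hsupp ω hω).2 (hsupp ω' hω').2
  · exact Hy.side ω ω' (hsupp ω hω).2 (hsupp ω' hω').2
  · have h1 := it_l1_cnd_low P E₂ hpos (icX pt (a i)) (pair Wq Y) ((Mr - e / 2) * (i * θ)) (e / 2 * θ) (c0 * e / 4) c0
      hc0 hcon (le_trans (ent_pr_mono P fun ω _ h => ⟨hsub ω h.1, h.2⟩) (Hy.res i hi hiR))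
    rw [hπc] at h1
    refine le_trans (ent_pr_mono _ fun ω _ h => ⟨trivial, lt_of_lt_of_le h.2 ?_⟩) (h1.trans (by linarith))
    have hi1 : (1 : ℝ) ≤ i := by exact_mod_cast hi
    have h2 : e / 2 * θ * 1 ≤ e / 2 * θ * i := mul_le_mul_of_nonneg_left hi1 (by positivity)
    have e1 : (Mr - e) * (i * θ) = (Mr - e / 2) * (i * θ) - e / 2 * θ * i := by ring
    rw [e1]
    linarith
  · have h1 := it_l1_cnd_low P E₂ hpos (icS g (b k')) (pair (icS g (b k)) Zx)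
      (γ * (((k' : ℝ) - k) * θ) - e / 2 * (N * R * θ)) (e / 2 * θ) (c0 * e / 4) c0
      hc0 hcon (le_trans (ent_pr_mono P fun ω _ h => ⟨hsub ω h.1, h.2⟩) (Hy.slo k k' hk hk'))
    rw [hπc] at h1
    refine le_trans (ent_pr_mono _ fun ω _ h => ⟨trivial, lt_of_lt_of_le h.2 ?_⟩) (h1.trans (by linarith))
    rw [← hT]
    have h2 : e / 2 * θ ≤ e / 2 * T := mul_le_mul_of_nonneg_left hTθ (by positivity)
    linarith
  · refine (ic_restr_mi P E₂ hpos _ _ _).trans ?_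
    have h0 := Hy.inf
    rw [← hT] at h0 ⊢
    have hlog : 0 < Real.log 2 := Real.log_pos one_lt_two
    have h1 : (P.miC (icQ pt (N * (R * m0))) Tg D + Real.log 2) / P.pr E₂ ≤ (c0 * e / 4 * T + Real.log 2) / c0 :=
      div_le_div₀ (by positivity) (by linarith) hc0 hcon
    refine h1.trans ?_
    rw [add_div]
    have h2 : c0 * e / 4 * T / c0 = e / 4 * T := by field_simp
    rw [h2]
    have h3 : 0 < e * T := by positivity
    linarith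
  · intro ω₀
    obtain ⟨S, hS, hS'⟩ := Hy.lst ω₀
    exact ⟨S, hS, fun ω hω _ hA' => hS' ω (hsupp ω hω).2 (hsub ω (hsupp ω hω).1) hA'⟩
  · refine Hy.lc.trans ?_
    rw [← hT]
    have h3 : 0 < e * T := by positivity
    linarith

/-- **the decoupled abstract boost** -/
theorem it_l1_b_dec (Mr γ η A : ℝ) (hMr : 0 < Mr) (hMr1 : Mr ≤ 1) (hγ : 0 < γ) (hγ1 : γ ≤ 1) (hη : 0 < η) (hA : 1 ≤ A) :
    ∃ (N R : ℕ) (η1 : ℝ), 1 ≤ N ∧ 1 ≤ R ∧ 0 < η1 ∧ ∀ c0 : ℝ, 0 < c0 → ∃ (π1 : ℝ) (m1 : ℕ), 0 < π1 ∧ ∀ m0 : ℕ, m1 ≤ m0 →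
      ∀ (Ω α₁ α₂ β' δ' ζ' : Type) [Fintype Ω] (P : FLaw Ω) (E : Ω → Prop) (pt : Ω → ℝ × ℝ) (g : Ω → ℝ)
        (Wq : Ω → α₁) (Y : Ω → α₂) (Tg : Ω → β') (D : Ω → δ') (Zx : Ω → ζ') (a b : ℕ → ℕ) (θ c : ℝ),
        ItL1Hyp P E pt g Wq Y Tg D Zx a b A Mr γ η1 π1 θ c N R m0 →
        P.pr (fun ω => E ω ∧ P.surC Wq Y ω < (min 1 (γ + Mr) - η) * (N * R * θ)) ≤ c0 := by
  have hL : 0 < Real.log 2 := Real.log_pos one_lt_two
  obtain ⟨ηa, hηa⟩ : ∃ ηa : ℝ, ηa = min (η / 2) (1 / 4) := ⟨_, rfl⟩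
  have hηa0 : 0 < ηa := by rw [hηa]; exact lt_min (by positivity) (by norm_num)
  have hηa1 : ηa ≤ η / 2 := by rw [hηa]; exact min_le_left _ _
  have hηa2 : ηa ≤ 1 / 4 := by rw [hηa]; exact min_le_right _ _
  obtain ⟨N, R, η1', m1', hN, hR, hη1', H⟩ := it_b_abs Mr γ ηa A hMr hMr1 hγ hγ1 hηa0 hA
  refine ⟨N, R, η1' / 2, hN, hR, by positivity, fun c0 hc0 => ?_⟩
  obtain ⟨k1, hk1⟩ := exists_nat_ge (16 / (c0 * η1' ^ 2 * Real.log 2))
  obtain ⟨k2, hk2⟩ := exists_nat_ge (16 / (c0 * η * Real.log 2))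
  obtain ⟨k3, hk3⟩ := exists_nat_ge (2 / (c0 * η1'))
  refine ⟨c0 * η1' / 4, max (max m1' 1) (max k1 (max k2 k3)), by positivity,
    fun m0 hm Ω α₁ α₂ β' δ' ζ' _ P E pt g Wq Y Tg D Zx a b θ c Hy => ?_⟩
  have hm1' : m1' ≤ m0 := ((le_max_left _ _).trans (le_max_left _ _)).trans hm
  have hm01 : 1 ≤ m0 := ((le_max_right _ _).trans (le_max_left _ _)).trans hm
  have hmk1 : (k1 : ℝ) ≤ m0 := by exact_mod_cast ((le_max_left _ _).trans (le_max_right _ _)).trans hm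
  have hmk2 : (k2 : ℝ) ≤ m0 := by
    exact_mod_cast ((le_max_left _ _).trans ((le_max_right _ _).trans (le_max_right _ _))).trans hm
  have hmk3 : (k3 : ℝ) ≤ m0 := by
    exact_mod_cast ((le_max_right _ _).trans ((le_max_right _ _).trans (le_max_right _ _))).trans hm
  have hNr : (1 : ℝ) ≤ N := by exact_mod_cast hN
  have hRr : (1 : ℝ) ≤ R := by exact_mod_cast hR
  have hm0r : (1 : ℝ) ≤ m0 := by exact_mod_cast hm01
  have hθ0 : 0 < θ := lt_of_lt_of_le (by positivity) Hy.th.1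
  have hNR : (1 : ℝ) ≤ N * R := by
    have := mul_le_mul hNr hRr zero_le_one (by linarith)
    linarith
  have hTθ : θ ≤ N * R * θ := by
    have : 1 * θ ≤ (N * R : ℝ) * θ := mul_le_mul_of_nonneg_right hNR hθ0.le
    linarith
  obtain ⟨x1, x2, q3⟩ := it_l1_dec_num hc0 hη1' hη hL Hy.th.1 hTθ (hk1.trans hmk1) (hk2.trans hmk2) (hk3.trans hmk3)
  by_contra hcon
  push Not at hcon
  obtain ⟨E₂, hE₂⟩ : ∃ E₂ : Ω → Prop, E₂ = fun ω => E ω ∧ P.surC Wq Y ω < (min 1 (γ + Mr) - η) * (N * R * θ) := ⟨_, rfl⟩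
  rw [← hE₂] at hcon
  have hpos : 0 < P.pr E₂ := hc0.trans hcon
  have hsub : ∀ ω, E₂ ω → E ω := fun ω h => by rw [hE₂] at h; exact h.1
  have hsupp : ∀ ω, (P.cnd E₂).p ω ≠ 0 → E₂ ω ∧ P.p ω ≠ 0 := fun ω h => (ent_cnd_supp P E₂ hpos).1 h
  have H' := it_l1_dec_hyp P E E₂ pt g Wq Y Tg D Zx a b A Mr γ η1' c0 θ c N R m0 Hy hsub hc0 hη1' hcon.le hθ0 hTθ x1 q3
  have hb := H m0 hm1' Ω α₁ α₂ β' δ' ζ' (P.cnd E₂) (fun _ => True) pt g Wq Y Tg D Zx a b θ c H'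
  obtain ⟨T, hT⟩ : ∃ T : ℝ, T = N * R * θ := ⟨_, rfl⟩
  rw [← hT] at hb x2 hTθ
  have hT0 : 0 < T := hθ0.trans_le hTθ
  have hr := ic_restr P E₂ hpos Wq Y (η / 2 * T)
  have hr' : 2 * Real.exp (-(η / 2 * T)) / P.pr E₂ ≤ 2 * Real.exp (-(η / 2 * T)) / c0 :=
    div_le_div_of_nonneg_left (by positivity) hc0 hcon.le
  have hone : (1 : ℝ) ≤ (P.cnd E₂).pr (fun ω => (True ∧ (P.cnd E₂).surC Wq Y ω < (min 1 (γ + Mr) - ηa) * T) ∨
      η / 2 * T < |(P.cnd E₂).surC Wq Y ω - P.surC Wq Y ω|) := by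
    rw [ent_pr_eq_one]
    intro ω hω
    have h2 := (hsupp ω hω).1
    rw [hE₂] at h2
    by_contra hc'
    push Not at hc'
    obtain ⟨c1, c2⟩ := hc'
    have c1' := c1 trivial
    have c3 := (abs_le.1 c2).2
    have h3 := h2.2
    rw [← hT] at h3
    have e1 : (min 1 (γ + Mr) - ηa) * T - (min 1 (γ + Mr) - η) * T = (η - ηa) * T := by ring
    have h4 : η / 2 * T ≤ (η - ηa) * T := mul_le_mul_of_nonneg_right (by linarith) hT0.le
    linarith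
  have := hone.trans (ent_pr_or_le _ _ _)
  linarith

end Claimed.Agent.R256
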