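import Claimed.Agent.R256.Int.Boost
import Claimed.Agent.R256.Int.Rl1xA

/-!
# Row 256, Sec. 5, block RL1 (`it_l_x`, pin products), file B: the DECOUPLED boost in layer language      (helper153; prefix `it_l1_`)

`it_l1_boost` = `it_boost` (chart `al = 1`) with the order of the quantifiers needed by the pin products: the mesh `n` and the RATE tolerance `η1` depend on the rate loss `η` only;
for every `c0 > 0` there is a PROBABILITY tolerance `π1` such that the conclusion fails with probability `≤ c0` on the event `E`.  The slopes are asked POINTWISE on `E` (`Tan.SlopeAt`).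
From `it_l1_b_dec` (file A) and the dictionary `it_b_hyp_gen` (helper149, `Int/BoostB.lean`).
-/

set_option autoImplicit false

namespace Claimed.Agent.R256

open Claimed.Agent.R255
open Claimed.Agent.R255.FLaw (pair)
open scoped BigOperators
open Classical

/-- the structural fields of `ItbHyp` + the three quantitative fields with split tolerances -/
theorem it_l1_of_b {Ω : Type} [Fintype Ω] {α₁ α₂ β' δ' ζ' : Type} (P : FLaw Ω) (E : Ω → Prop) (pt : Ω → ℝ × ℝ) (g : Ω → ℝ)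
    (Wq : Ω → α₁) (Y : Ω → α₂) (Tg : Ω → β') (D : Ω → δ') (Zx : Ω → ζ') (a b : ℕ → ℕ)
    (A Mr γ η1 π1 θ c : ℝ) (N R m0 : ℕ) (H : ItbHyp P E pt g Wq Y Tg D Zx a b A Mr γ η1 θ c N R m0)
    (res : ∀ i : ℕ, 1 ≤ i → i ≤ R →
      P.pr (fun ω => E ω ∧ P.surC (icX pt (a i)) (pair Wq Y) ω < (Mr - η1) * (i * θ)) ≤ π1)
    (slo : ∀ k k' : ℕ, k < k' → k' ≤ N * R →
      P.pr (fun ω => E ω ∧ P.surC (icS g (b k')) (pair (icS g (b k)) Zx) ω
        < γ * (((k' : ℝ) - k) * θ) - η1 * (N * R * θ)) ≤ π1)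
    (inf : P.miC (icQ pt (N * (R * m0))) Tg D ≤ π1 * (N * R * θ)) :
    ItL1Hyp P E pt g Wq Y Tg D Zx a b A Mr γ η1 π1 θ c N R m0 :=
  ⟨H.bd, H.tag, H.cond, H.side, H.la, H.lb, H.th, res, slo, inf, H.lst, H.c1, H.lc⟩

/-- the residual of the dictionary from a lower score -/
theorem it_l1_res (T : Tan) (M : ℕ) (h0 : 0 < T.δ) (h1 : T.δ < 1) (p q Mr η1 ηr θ : ℝ) (hpq : p < q) (n : ℕ) (hn : 0 < n)
    (hθ : θ = (q - p) * T.L / (n : ℝ)) (hηr : ηr ≤ η1) (u1 u2 w : ItSym) (V : List ItSym) (E : T.Ω → Prop) (i : ℕ)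
    (hls : T.LS M p (itS p q n i) q [T.fld p u1] (T.fld p w :: V.map (T.fld p)) Mr ηr) :
    T.P.pr (fun ω => E ω ∧ T.P.surC (icX (T.bpt p u1 u2) (tlev T.δ (itS p q n i) - tlev T.δ p))
        (pair (T.rd p q [T.fld p w]) (pair (T.rd p q (V.map (T.fld p))) (T.base M p))) ω < (Mr - η1) * (i * θ)) ≤ ηr := by
  have ht : 0 < q - p := sub_pos.2 hpq
  have hnr : (0 : ℝ) < (n : ℝ) := by exact_mod_cast hn
  have hL : 0 < T.L := it_cb_L_pos T h0 h1
  have hθ0 : 0 ≤ θ := by rw [hθ]; positivity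
  unfold Tan.LS at hls
  refine le_trans (ent_pr_mono T.P fun ω hω hs => ?_) hls
  have hsp : p ≤ itS p q n i := by
    unfold itS
    have : 0 ≤ (q - p) * (i : ℝ) / (n : ℝ) := by positivity
    linarith
  have e : T.P.surC (T.rd p (itS p q n i) [T.fld p u1])
      (pair (T.rd p q (T.fld p w :: V.map (T.fld p))) (T.base M p)) ω
      = T.P.surC (icX (T.bpt p u1 u2) (tlev T.δ (itS p q n i) - tlev T.δ p))
        (pair (T.rd p q [T.fld p w]) (pair (T.rd p q (V.map (T.fld p))) (T.base M p))) ω := by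
    refine ent_surC_congr T.P _ _ _ _ ω (fun ω' _ => ?_) (fun ω' _ _ => ?_)
    · have := it_k_aux_rd_append T p q [T.fld p w] (V.map (T.fld p)) ω' ω
      simp only [List.singleton_append] at this
      simp only [FLaw.pair, Prod.mk.injEq, this]
      tauto
    · simp only [Tan.rd, List.map_cons, List.map_nil, List.cons.injEq, and_true, icX, Tan.bpt, Tan.sv,
        it_b_cell h0 h1 hsp]
  rw [e]
  refine lt_of_lt_of_le hs.2 ?_
  have e2 : (itS p q n i - p) * T.L = i * θ := by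
    rw [hθ]; unfold itS; field_simp; ring
  rw [mul_assoc, e2]
  have : 0 ≤ (i : ℝ) * θ := by positivity
  exact mul_le_mul_of_nonneg_right (by linarith) this

/-- the slopes of the dictionary from pointwise slopes: the exceptional event is empty -/
theorem it_l1_slo (T : Tan) (M j : ℕ) (t γ η1 θ : ℝ) (n : ℕ) (hn : 0 < n) (hθ : θ = t * T.L / (n : ℝ)) (g : T.Ω → ℝ) (E : T.Ω → Prop)
    (hS : ∀ ω, E ω → T.SlopeAt M j t n g γ η1 ω) (k k' : ℕ) (hk : k < k') (hk' : k' ≤ n) :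
    T.P.pr (fun ω => E ω ∧ T.P.surC (icS g (tlev T.δ (t * k' / (n : ℝ))))
        (pair (icS g (tlev T.δ (t * k / (n : ℝ)))) (pair T.Zs (T.XiE M j))) ω
      < γ * (((k' : ℝ) - k) * θ) - η1 * (n * θ)) = 0 := by
  have hnr : (0 : ℝ) < (n : ℝ) := by exact_mod_cast hn
  refine le_antisymm (le_trans (ent_pr_mono T.P (F := fun _ => False) fun ω _ hs => ?_) (le_of_eq ?_)) (ent_pr_nonneg _ _)
  · have h1 := hS ω hs.1 k k' hk hk'
    have h2 := hs.2
    have e : (γ * (t * ((k' : ℝ) - k) / n) - η1 * t) * T.L = γ * (((k' : ℝ) - k) * θ) - η1 * (n * θ) := by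
      rw [hθ]; field_simp
    rw [e] at h1
    exact absurd (lt_of_le_of_lt h1 h2) (lt_irrefl _)
  · simp [FLaw.pr]

/-- **DECOUPLED PROJECTION AMPLIFICATION** (chart `al = 1`): `w = u2 - be u1`, slope `be`. -/
theorem it_l1_boost (quad : Bool) (a : ItPar) (ha : a.Ok) (A0 Mr γ : ℝ) (hM : 0 < Mr) (hM1 : Mr ≤ 1) (hγ : 0 < γ) (hγ1 : γ ≤ 1)
    (η : ℝ) (hη : 0 < η) : ∃ (n : ℕ) (η1 : ℝ), 0 < n ∧ 0 < η1 ∧ ∀ c0 : ℝ, 0 < c0 → ∃ π1 : ℝ, 0 < π1 ∧
    ItLayerAt quad false false a (fun T pk p q => ∀ j < pk.M, ∀ (u1 u2 w : ItSym) (V : List ItSym) (be : ItPh → (ℕ → ItMk) → ℝ)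
        (E : T.Ω → Prop),
      u1.Reg pk.M a.B0 A0 → u2.Reg pk.M a.B0 A0 → (∀ v ∈ V, ItSym.Reg v pk.M a.B0 A0 ∧ ItSym.Free v j) → V.length ≤ 6 →
      u1.Free j → u2.Free j →
      (∀ ω, E ω → |be (T.f0 p ω) (fun i => T.mrk i ω)| ≤ A0) →
      (∀ f Ξ Ξ', (∀ i < pk.M, Ξ i = Ξ' i) → be f Ξ = be f Ξ') →
      (∀ f Ξ x, itDot (w f Ξ) x = itDot (u2 f Ξ) x - be f Ξ * itDot (u1 f Ξ) x) →
      (∀ k, 1 ≤ k → k ≤ n → T.LS pk.M p (itS p q n k) q [T.fld p u1] (T.fld p w :: V.map (T.fld p)) Mr (min η1 π1)) →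
      (∀ ω, E ω → T.SlopeAt pk.M j (q - p) n (fun ω' => be (T.f0 p ω') (fun i => T.mrk i ω')) γ η1 ω) →
      T.P.pr (fun ω => E ω ∧
        T.P.surC (T.rd p q [T.fld p w]) (pair (T.rd p q (V.map (T.fld p))) (T.base pk.M p)) ω
          < (min 1 (γ + Mr) - η) * (q - p) * T.L) ≤ c0) := by
  obtain ⟨N, R, η1, hN, hR, hη1, Hdec⟩ := it_l1_b_dec Mr γ η (6 * |A0| + 1) hM hM1 hγ hγ1 hη
    (by have := abs_nonneg A0; linarith)
  have hn : 0 < N * R := Nat.mul_pos hN hR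
  refine ⟨N * R, η1, hn, hη1, fun c0 hc0 => ?_⟩
  obtain ⟨π1, m1, hπ1, habs⟩ := Hdec c0 hc0
  obtain ⟨ηr, hηr⟩ : ∃ ηr, ηr = min η1 π1 := ⟨_, rfl⟩
  have hηr0 : 0 < ηr := by rw [hηr]; exact lt_min hη1 hπ1
  have hηr1 : ηr ≤ η1 := by rw [hηr]; exact min_le_left _ _
  have hηr2 : ηr ≤ π1 := by rw [hηr]; exact min_le_right _ _
  refine ⟨π1, hπ1, ?_⟩
  rw [← hηr]
  refine ⟨1, one_pos, fun κ0 _ => ⟨1, one_pos, fun p q hp hpq _ => ?_⟩⟩
  have ht : 0 < q - p := sub_pos.2 hpq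
  have hnr : (0 : ℝ) < ((N * R : ℕ) : ℝ) := by exact_mod_cast hn
  have he : 0 < ηr * (q - p) / 2 := by positivity
  have hl2 : 0 < Real.log 2 := Real.log_pos one_lt_two
  refine ⟨⟨0, q, 0, 1, ∅, ∅⟩,
    min (ηr * (q - p) / 2) (min (Real.exp (-((m1 * ((N * R : ℕ) : ℝ) * Real.log 2) / (q - p))))
      (min (Real.exp (-((8 * Real.log (6 * |A0| + 2)) / (ηr * (q - p) / 2)))) (Real.exp (-(Real.log 3 / (ηr * (q - p) / 2)))))),
    ⟨one_pos, fun _ h => absurd h (Finset.notMem_empty _)⟩,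
    lt_min he (lt_min (Real.exp_pos _) (lt_min (Real.exp_pos _) (Real.exp_pos _))), ?_⟩
  intro pk acc T _ hle hacc hacc0 _ hT _ _ j hj u1 u2 w V be E hu1 hu2 hV hVl f1 f2 hE hdep hw hLS hSl
  have a1 : acc ≤ ηr * (q - p) / 2 := hacc0.trans (min_le_left _ _)
  have a2 := hacc0.trans ((min_le_right _ _).trans (min_le_left _ _))
  have a3 := hacc0.trans ((min_le_right _ _).trans ((min_le_right _ _).trans (min_le_left _ _)))
  have a4 := hacc0.trans ((min_le_right _ _).trans ((min_le_right _ _).trans (min_le_right _ _)))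
  have h0 := hT.t0.δ0
  have h1 := hT.t0.δ1
  have hL : 0 < T.L := it_cb_L_pos T h0 h1
  have b2 := it_cb_const_le T acc _ _ ht h0 hT.small a2
  have b3 := it_cb_const_le T acc _ _ he h0 hT.small a3
  have b4 := it_cb_const_le T acc _ _ he h0 hT.small a4
  have hqK : q ≤ pk.K := hle.2.1
  obtain ⟨θ, hθ⟩ : ∃ θ, θ = (q - p) * T.L / ((N * R : ℕ) : ℝ) := ⟨_, rfl⟩
  have hθ0 : 0 ≤ θ := by rw [hθ]; positivity
  obtain ⟨m0, hm0d⟩ : ∃ m0 : ℕ, m0 = ⌊θ / Real.log 2⌋₊ := ⟨_, rfl⟩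
  have hm0 : m0 * Real.log 2 ≤ θ ∧ θ ≤ (m0 + 1) * Real.log 2 := by
    have f1 := Nat.floor_le (div_nonneg hθ0 hl2.le)
    have f2 := (Nat.lt_floor_add_one (θ / Real.log 2)).le
    rw [← hm0d] at f1 f2
    rw [le_div_iff₀ hl2] at f1
    rw [div_le_iff₀ hl2] at f2
    exact ⟨f1, f2⟩
  have hm1 : m1 ≤ m0 := by
    rw [hm0d]
    refine Nat.le_floor ?_
    rw [le_div_iff₀ hl2, hθ, le_div_iff₀ hnr]
    linarith
  have hNRθ : (N : ℝ) * R * θ = (q - p) * T.L := by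
    rw [hθ]; push_cast; field_simp
  have htL : 0 < (q - p) * T.L := by positivity
  have hinf : acc * T.L + 8 * Real.log (6 * |A0| + 2) ≤ ηr * ((q - p) * T.L) := by
    have := mul_le_mul_of_nonneg_right a1 hL.le
    linarith
  have hlc : Real.log (1 / (1 : ℝ) + 2) ≤ η1 * ((q - p) * T.L) := by
    have e3 : (1 / (1 : ℝ) + 2) = 3 := by norm_num
    rw [e3]
    have : ηr * ((q - p) * T.L) ≤ η1 * ((q - p) * T.L) := mul_le_mul_of_nonneg_right hηr1 htL.le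
    have h5 : 0 < ηr * ((q - p) * T.L) := by positivity
    linarith
  have hqq : itS p q (N * R) (N * R) = q := by
    unfold itS; field_simp; ring
  have hl : N * (R * m0) ≤ tlev T.δ q - tlev T.δ p := by
    have := (it_b_levels h0 h1 hp.le ht hn (θ := θ) (m0 := m0) hθ hm0 (N * R)).1.1
    have e : p + (q - p) * ((N * R : ℕ) : ℝ) / ((N * R : ℕ) : ℝ) = q := hqq
    rw [e] at this
    rwa [Nat.mul_assoc] at this
  -- the three quantitative fields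
  have res : ∀ i : ℕ, 1 ≤ i → i ≤ R →
      T.P.pr (fun ω => E ω ∧ T.P.surC (icX (T.bpt p u1 u2) (tlev T.δ (itS p q (N * R) i) - tlev T.δ p))
        (pair (T.rd p q [T.fld p w]) (pair (T.rd p q (V.map (T.fld p))) (T.base pk.M p))) ω < (Mr - η1) * (i * θ)) ≤ ηr :=
    fun i hi1 hiR => it_l1_res T pk.M h0 h1 p q Mr η1 ηr θ hpq (N * R) hn hθ hηr1 u1 u2 w V E i
      (hLS i hi1 (hiR.trans (Nat.le_mul_of_pos_left R hN)))
  have slo : ∀ k k' : ℕ, k < k' → k' ≤ N * R →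
      T.P.pr (fun ω => E ω ∧ T.P.surC
          (icS (fun ω => be (T.f0 p ω) (fun i => T.mrk i ω) / (fun _ _ => (1 : ℝ)) (T.f0 p ω) (fun i => T.mrk i ω))
            (tlev T.δ ((q - p) * k' / ((N * R : ℕ) : ℝ))))
          (pair (icS (fun ω => be (T.f0 p ω) (fun i => T.mrk i ω) / (fun _ _ => (1 : ℝ)) (T.f0 p ω) (fun i => T.mrk i ω))
            (tlev T.δ ((q - p) * k / ((N * R : ℕ) : ℝ)))) (pair T.Zs (T.XiE pk.M j))) ω
        < γ * (((k' : ℝ) - k) * θ) - η1 * (N * R * θ)) ≤ 0 := by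
    intro k k' hk hk'
    have := it_l1_slo T pk.M j (q - p) γ η1 θ (N * R) hn hθ _ E hSl k k' hk hk'
    simp only [div_one]
    push_cast at this ⊢
    exact this.le
  have inf := (it_b_inf T a pk acc hT.t0 hT.ti p q A0 hpq.le hqK j hj u1 u2 V hu1 hu2 f1 f2 hV hVl _ hl).trans hinf
  rw [← hNRθ] at inf
  have hT0 : 0 ≤ (N : ℝ) * R * θ := by rw [hNRθ]; exact htL.le
  have H := it_b_hyp_gen T a pk hT.t0 T.P (fun _ h => h) p q A0 Mr γ η1 1 θ hp hpq N R m0 hN hR hθ hm0 one_pos hlc j hj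
    u1 u2 w V (fun _ _ => 1) be E hu1 hu2 hV f1 f2 (fun ω hω => ⟨by simpa using hE ω hω, by simp⟩)
    (fun f Ξ Ξ' h => ⟨rfl, hdep f Ξ Ξ' h⟩) (fun f Ξ x => by rw [hw, one_mul])
    (fun i h1 h2 => (res i h1 h2).trans hηr1) (fun k k' h1 h2 => (slo k k' h1 h2).trans hη1.le)
    (inf.trans (mul_le_mul_of_nonneg_right hηr1 hT0))
  have H' := it_l1_of_b _ _ _ _ _ _ _ _ _ _ _ _ _ _ _ π1 _ _ _ _ _ H
    (fun i h1 h2 => (res i h1 h2).trans hηr2) (fun k k' h1 h2 => (slo k k' h1 h2).trans hπ1.le)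
    (inf.trans (mul_le_mul_of_nonneg_right hηr2 hT0))
  have hfin := habs m0 hm1 T.Ω _ _ _ _ _ T.P _ _ _ _ _ _ _ _ _ _ θ _ H'
  rw [hNRθ] at hfin
  refine le_trans (ent_pr_mono T.P fun ω _ hs => ⟨hs.1, ?_⟩) hfin
  rw [← mul_assoc]
  exact hs.2

end Claimed.Agent.R256
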