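import Claimed.Agent.R256.Int.SymKit
import Claimed.Agent.R256.Int.Meta
import Claimed.Agent.R256.Int.Rl1
import Claimed.Agent.R256.Int.Rl1xB

/-!
# Row 256, Sec. 5, block RL1 (`it_l_x`, pin products), file C: the two layer statements consumed by the assembly      (helper153; prefix `it_l1_`)

Linear case.  `f = T.pin 0 1 = (θ_0 - θ_1)(r_1 - r_0) = x_0 · ℓ_1`;  `w = x_0 - f dX` (`itsl1w`) kills `ℓ_1`, `dX · ℓ_1 = 1`.
 `it_l1_pin_boost`  on ANY short layer and ANY event `E` on which the pin product is POINTWISE a hereditary slope (mesh `n`, tolerance `η1`, both fixed before `c0`) :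
                    `pr (E ∧ sur(w_q | F_p, 𝒟) < (l_* - η)(q - p) L) ≤ c0`.      (`it_l1_boost` with `j = 1, u1 = dX, u2 = x_0, be = f, V = []`; residual `m` = `it_mode_ang`, `ℓ_1`.)
 `it_l1_xw`         `|x_0| ≥ |w| - η` in expected form  ((dX, x_0) ~ (dX, w);  `|X | x_0| ≤ m` (`it_ang_up`),  `|X | w| ≥ m` (`it_mode_ang`, `ℓ_1`)).
The symbol `itsl1w` does not depend on the parent phase: `T.fld p itsl1w = T.fld p' itsl1w` (`it_l1_w_fld`, `rfl`).
-/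

set_option autoImplicit false

namespace Claimed.Agent.R256

open Claimed.Agent.R255
open Claimed.Agent.R255.FLaw (pair)
open scoped BigOperators
open Classical

/-- the pin product as a scalar symbol -/
def itl1be : ItPh → (ℕ → ItMk) → ℝ := fun _ Ξ => ((Ξ 0).th - (Ξ 1).th) * ((Ξ 1).r - (Ξ 0).r)

/-- `w = x_0 - f dX` -/
def itsl1w : ItSym := fun _ Ξ =>
  ⟨-(Ξ 0).r * (Ξ 0).th - ((Ξ 0).th - (Ξ 1).th) * ((Ξ 1).r - (Ξ 0).r), -(Ξ 0).r, 0, 0, (Ξ 0).th, 1⟩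

theorem it_l1_xc_eqns_cite : True := by
  have := @itl1be.eq_1; have := @itsl1w.eq_1
  trivial

theorem it_l1_w_fld (T : Tan) (p p' : ℝ) : T.fld p itsl1w = T.fld p' itsl1w := rfl

theorem it_l1_be_pin (T : Tan) (p : ℝ) : (fun ω => itl1be (T.f0 p ω) (fun i => T.mrk i ω)) = T.pin 0 1 := rfl

theorem it_l1_regU_w (B0 : ℝ) : ItSym.RegU itsl1w 2 B0 := by
  apply it_s_reg_mk <;> dsimp only [itsl1w] <;>
    repeat' first
      | exact it_s_c_const _ _ _ | exact it_s_c_th _ _ (by omega) _ | exact it_s_c_r _ _ (by omega) _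
      | apply it_s_c_add | apply it_s_c_sub | apply it_s_c_mul | apply it_s_c_neg

theorem it_l1_w_dot (f : ItPh) (Ξ : ℕ → ItMk) (x : ItPh) :
    itDot (itsl1w f Ξ) x = itDot (itsxl 0 f Ξ) x - itl1be f Ξ * itDot (itsX f Ξ) x := by
  simp [itsl1w, itsxl, itcxl, itl1be, itsX, itcX, itDot] <;> ring

theorem it_l1_w_ell (f : ItPh) (Ξ : ℕ → ItMk) : itDot (itsl1w f Ξ) (itvEll false f (Ξ 1)) = 0 := by
  simp [itsl1w, itvEll, itDot] <;> ring

theorem it_l1_X_ell (f : ItPh) (μ : ItMk) : itDot itcX (itvEll false f μ) = 1 := by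
  simp [itcX, itvEll, itDot]

theorem it_l1_be_bd (B : ℝ) (hB : 0 ≤ B) (Ξ : ℕ → ItMk) (h0 : |(Ξ 0).th| ≤ B ∧ |(Ξ 0).r| ≤ B) (h1 : |(Ξ 1).th| ≤ B ∧ |(Ξ 1).r| ≤ B)
    (f : ItPh) : |itl1be f Ξ| ≤ 4 * B ^ 2 := by
  unfold itl1be
  rw [abs_mul]
  have e1 : |(Ξ 0).th - (Ξ 1).th| ≤ 2 * B := by
    have := abs_sub (Ξ 0).th (Ξ 1).th
    linarith [h0.1, h1.1]
  have e2 : |(Ξ 1).r - (Ξ 0).r| ≤ 2 * B := by
    have := abs_sub (Ξ 1).r (Ξ 0).r
    linarith [h0.2, h1.2]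
  calc |(Ξ 0).th - (Ξ 1).th| * |(Ξ 1).r - (Ξ 0).r| ≤ (2 * B) * (2 * B) :=
        mul_le_mul e1 e2 (abs_nonneg _) (by linarith)
    _ = 4 * B ^ 2 := by ring

/-- the boost of the pin products on one layer -/
theorem it_l1_pin_boost (a : ItPar) (ha : a.Ok) (hm : 0 < a.m) (η : ℝ) (hη : 0 < η) :
    ∃ (n : ℕ) (η1 : ℝ), 0 < n ∧ 0 < η1 ∧ ∀ c0 : ℝ, 0 < c0 →
    ItLayerAt false false false a (fun T pk p q => ∀ E : T.Ω → Prop,
      (∀ ω, E ω → T.SlopeAt pk.M 1 (q - p) n (T.pin 0 1) a.d η1 ω) →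
      T.P.pr (fun ω => E ω ∧
        T.P.surC (T.rd p q [T.fld p itsl1w]) (pair (T.rd p q []) (T.base pk.M p)) ω < (a.ls - η) * (q - p) * T.L) ≤ c0) := by
  obtain ⟨hc0, hd0, hd1, hm0, hm1, -, -, -, hB0⟩ := id ha
  obtain ⟨A1, hA1, hReg⟩ := it_s_regU_list [itsX, itsxl 0, itsl1w] 2 a.B0 (by
    intro U hU
    simp only [List.mem_cons, List.not_mem_nil, or_false] at hU
    rcases hU with rfl | rfl | rfl
    exacts [it_s_regU_mono (by omega) (it_s_regU_X _), it_s_regU_mono (by omega) (it_s_regU_xl 0 _), it_l1_regU_w _])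
  obtain ⟨A0, hA0⟩ : ∃ A0, A0 = max A1 (4 * a.B0 ^ 2) := ⟨_, rfl⟩
  have hA0B : 4 * a.B0 ^ 2 ≤ A0 := by rw [hA0]; exact le_max_right _ _
  have hReg' : ∀ U ∈ [itsX, itsxl 0, itsl1w], ∀ M, 2 ≤ M → ItSym.Reg U M a.B0 A0 := fun U hU M hM =>
    it_s_reg_mono (by rw [hA0]; exact le_max_left _ _) (hReg U hU M hM)
  obtain ⟨n, η1, hn, hη1, FB⟩ := it_l1_boost false a ha A0 a.m a.d hm hm1 hd0 hd1 η hη
  refine ⟨n, η1, hn, hη1, fun c0 hc0 => ?_⟩
  obtain ⟨π1, hπ1, FB'⟩ := FB c0 hc0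
  have hηr : 0 < min η1 π1 := lt_min hη1 hπ1
  have F2 := it_mode_ang false a ha hm A0 n hn (min η1 π1) hηr
  refine it_cb_imp (it_cb_and F2 FB') 1 one_pos ?_
  intro p q hp hpq _
  refine ⟨itPk0 2 1, 1, it_cb_pk0_pre 2 _ one_pos, one_pos, ?_⟩
  rintro pk acc τ κ0 T hpk hle hacc hacc1 hquad hAdm - - ⟨G2, GB⟩ E hE
  have h0 := hAdm.t0.δ0
  have h1 := hAdm.t0.δ1
  have hM : 2 ≤ pk.M := it_cb_pk0_M hle
  have hM0 : 0 < pk.M := by omega
  have hM1 : 1 < pk.M := by omega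
  have rX := hReg' itsX (by simp) pk.M hM
  have rx := hReg' (itsxl 0) (by simp) pk.M hM
  have rw' := hReg' itsl1w (by simp) pk.M hM
  have Lres : ∀ k, 1 ≤ k → k ≤ n →
      T.LS pk.M p (itS p q n k) q [T.fld p itsX] (T.fld p itsl1w :: ([] : List ItSym).map (T.fld p)) a.m (min η1 π1) :=
    G2 1 hM1 itsX [itsl1w] rX (by simpa using rw') (by simp) (by
      intro v hv f Ξ
      simp only [List.mem_cons, List.not_mem_nil, or_false] at hv
      subst hv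
      exact it_l1_w_ell f Ξ)
      (it_sk_one_nondeg T h0 h1 _ _ (it_sk_chi_pos p q n _ hpq hn hηr) (by positivity) _ (by
        intro ω
        have : itDot (T.fld p itsX ω) (itvEll false (T.f0 p ω) (T.mrk 1 ω)) = 1 := it_l1_X_ell _ _
        rw [this, abs_one]))
  have LB := GB 1 hM1 itsX (itsxl 0) itsl1w [] itl1be (fun ω => E ω ∧ |T.pin 0 1 ω| ≤ A0) rX rx (by simp) (by simp)
    (fun f Ξ Ξ' _ => rfl)
    (by
      intro f Ξ Ξ' e
      simp only [itsxl, e 0 (by omega)])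
    (fun ω e => e.2)
    (by
      intro f Ξ Ξ' e
      simp only [itl1be, e 0 hM0, e 1 hM1])
    it_l1_w_dot Lres (fun ω e => hE ω e.1)
  refine le_trans (ent_pr_mono _ fun ω hω hs => ⟨⟨hs.1, ?_⟩, hs.2⟩) LB
  have b0 := hAdm.t0.bdM ω hω 0 hM0
  have b1 := hAdm.t0.bdM ω hω 1 hM1
  exact (it_l1_be_bd a.B0 (by linarith) (fun i => T.mrk i ω) ⟨b0.1, b0.2.1⟩ ⟨b1.1, b1.2.1⟩ (T.f0 p ω)).trans hA0B

/-- arithmetic of the tolerances of `it_l1_xw` -/
theorem it_l1_xw_arith (m η η' X : ℝ) (hm1 : m ≤ 1) (hη' : 0 ≤ η') (hη : η' ≤ η / 8) (hX : 0 ≤ X) :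
    (m + 2 * η') * X - (m - η') * (1 - η') * X ≤ η / 2 * X := by
  have : (m + 2 * η') - (m - η') * (1 - η') ≤ η / 2 := by nlinarith
  nlinarith

/-- `|x_0| ≥ |x_0 - f dX| - η` -/
theorem it_l1_xw (a : ItPar) (ha : a.Ok) (hm : 0 < a.m) :
    ItLayer false false false a (fun T pk p q η =>
      T.hh pk.M p q [T.fld p itsl1w] [] - η * (q - p) * T.L ≤ T.hh pk.M p q [T.cx p 0] []) := by
  intro η hη
  show ItLayerAt false false false a _
  obtain ⟨hc0, hd0, hd1, hm0, hm1, -, -, -, hB0⟩ := id ha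
  obtain ⟨A1, hA1, hReg⟩ := it_s_regU_list [itsX, itsxl 0, itsl1w] 2 a.B0 (by
    intro U hU
    simp only [List.mem_cons, List.not_mem_nil, or_false] at hU
    rcases hU with rfl | rfl | rfl
    exacts [it_s_regU_mono (by omega) (it_s_regU_X _), it_s_regU_mono (by omega) (it_s_regU_xl 0 _), it_l1_regU_w _])
  obtain ⟨A0, hA0⟩ : ∃ A0, A0 = max A1 (4 * (a.B0 + 1) ^ 2) := ⟨_, rfl⟩
  have hA0B : 4 * (a.B0 + 1) ^ 2 ≤ A0 := by rw [hA0]; exact le_max_right _ _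
  have hA01 : 1 ≤ A0 := le_trans (by nlinarith) hA0B
  have hReg' : ∀ U ∈ [itsX, itsxl 0, itsl1w], ∀ M, 2 ≤ M → ItSym.Reg U M a.B0 A0 := fun U hU M hM =>
    it_s_reg_mono (by rw [hA0]; exact le_max_left _ _) (hReg U hU M hM)
  obtain ⟨η', hη'⟩ : ∃ η', η' = min (η / 8) a.m := ⟨_, rfl⟩
  have hη'0 : 0 < η' := by rw [hη']; exact lt_min (by positivity) hm
  have hη'1 : η' ≤ η / 8 := by rw [hη']; exact min_le_left _ _
  have hη'2 : η' ≤ a.m := by rw [hη']; exact min_le_right _ _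
  have F1 := it_ang_up false a ha 1 one_pos η' hη'0
  have F2 := it_mode_ang false a ha hm A0 1 one_pos η' hη'0
  refine it_cb_imp (it_cb_and F1 F2) 1 one_pos ?_
  intro p q hp hpq _
  obtain ⟨cst, hcst⟩ : ∃ cst, cst = (2 : ℝ) * Real.log (A0 * 2 + 2) + (η' * Real.log (24 * 1 + 4) + Real.log 2) := ⟨_, rfl⟩
  refine ⟨itPk0 2 1, Real.exp (-(cst / (η / 2 * (q - p)))), it_cb_pk0_pre 2 1 one_pos, Real.exp_pos _, ?_⟩
  rintro pk acc τ κ0 T hpk hle hacc hacc1 hquad hAdm - - ⟨G1, G2⟩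
  have h0 := hAdm.t0.δ0
  have h1 := hAdm.t0.δ1
  have hM : 2 ≤ pk.M := it_cb_pk0_M hle
  have hM0 : 0 < pk.M := by omega
  have hM1 : 1 < pk.M := by omega
  have hL := it_cb_L_pos T h0 h1
  have hqp : 0 < q - p := by linarith
  have hX : 0 ≤ (q - p) * T.L := mul_nonneg hqp.le hL.le
  have hx : T.fld p (itsxl 0) = T.cx p 0 := it_s_fld_xl T p 0 hquad
  have rX := hReg' itsX (by simp) pk.M hM
  have rw' := hReg' itsl1w (by simp) pk.M hM
  -- `|X | x_0| ≤ m`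
  have Ua : T.US pk.M p q q [fun _ => itcX] [T.cx p 0] a.m η' := by
    have := G1 [T.cx p 0] 1 le_rfl le_rfl
    rwa [it_sk_itS] at this
  have Ea := it_l1_E_of_US T h0 h1 pk.M p q 1 hpq.le le_rfl (fun _ => itcX) (fun _ _ => by
    refine it_l1_nrm_c _ ?_ ?_ ?_ ?_ ?_ ?_ <;> simp [itcX]) [T.cx p 0] a.m η' hη'0.le hm0 Ua
  -- `|X | w| ≥ m`
  have Lb : T.LS pk.M p q q [T.fld p itsX] ([itsl1w].map (T.fld p)) a.m η' := by
    have := G2 1 hM1 itsX [itsl1w] rX (by simpa using rw') (by simp) (by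
      intro v hv f Ξ
      simp only [List.mem_cons, List.not_mem_nil, or_false] at hv
      subst hv
      exact it_l1_w_ell f Ξ)
      (it_sk_one_nondeg T h0 h1 _ _ (it_sk_chi_pos p q 1 _ hpq one_pos hη'0) (by positivity) _ (by
        intro ω
        have : itDot (T.fld p itsX ω) (itvEll false (T.f0 p ω) (T.mrk 1 ω)) = 1 := it_l1_X_ell _ _
        rw [this, abs_one])) 1 le_rfl le_rfl
    rwa [it_sk_itS] at this
  have Eb := it_k_E_of_LS T h0 h1 pk.M p q hpq.le _ _ _ _ hη'0.le hη'2 Lb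
  have C1 := it_k_chain T pk.M p q [fun _ => itcX] [T.cx p 0] []
  have C2 := it_k_chain T pk.M p q [fun _ => itcX] [T.fld p itsl1w] []
  have Lin := it_sk_lin T a pk hAdm.t0 p q A0 hp.le hA01 [itsX, itsxl 0] [itsX, itsl1w] [] (by
    intro u hu
    simp only [List.mem_cons, List.not_mem_nil, or_false] at hu
    rcases hu with rfl | rfl
    · refine ⟨fun k _ _ => if k = 0 then 1 else 0, fun _ _ _ _ _ => rfl, fun k f Ξ _ _ => ?_, fun f Ξ x => ?_⟩
      · dsimp only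
        split_ifs <;> simp <;> linarith
      · simp [Finset.sum_range_succ]
    · refine ⟨fun k f Ξ => if k = 0 then -itl1be f Ξ else 1, fun k f Ξ Ξ' e => ?_, fun k f Ξ _ hb => ?_, fun f Ξ x => ?_⟩
      · simp only [itl1be, e 0 hM0, e 1 hM1]
      · dsimp only
        have b0 := hb 0 hM0
        have b1 := hb 1 hM1
        split_ifs
        · rw [abs_neg]
          exact (it_l1_be_bd (a.B0 + 1) (by linarith) Ξ ⟨b0.1, b0.2.1⟩ ⟨b1.1, b1.2.1⟩ f).trans hA0B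
        · simp; linarith
      · rw [it_l1_w_dot]
        simp [Finset.sum_range_succ]
        ring)
  have hcl := it_cb_const_le T acc cst (η / 2 * (q - p)) (by positivity) h0 hAdm.small hacc1
  simp only [List.map_cons, List.map_nil, hx, it_s_fld_X, List.cons_append, List.nil_append, List.append_nil,
    List.length_cons, List.length_nil] at Eb C1 C2 Lin
  have hAr := it_l1_xw_arith a.m η η' ((q - p) * T.L) hm1 hη'0.le hη'1 hX
  push_cast at Lin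
  norm_num at Lin
  rw [hcst] at hcl
  norm_num at hcl Ea
  nlinarith

end Claimed.Agent.R256
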