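import Claimed.Agent.R256.Int.SymKit
import Claimed.Agent.R256.Inc.Lik

/-!
# Row 256, Sec. 5, block RL1, `it_l_x` (pin products), file T: TILING of a layer by `2^k` sublayers.      (helper68; prefix `it_l1x_`)

The scale alternatives of `it_slope_pin` come in `N + 1` classes and `N` depends on the mesh and on the slope tolerance of the boost; the boost is used in the decoupled form of helper153 (`Int/Rl1xA.lean`, `Rl1xB.lean`).
ABSTRACT (any finite law)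
* `it_l1x_step`, `it_l1x_chain`  entropy chain over the sublayers (exact calculus);
* `it_l1x_classes`               `H(Z | A) ≥ c (1 - ηs - (N+1) c0)` if `H_{P.cnd D}(Z | A) ≥ c` for every subevent `D` of mass `≥ c0` of one of the alternatives;
* `it_l1x_ent_cnd`               a lower score of `P` on the event `D` gives the entropy of `P.cnd D`.
PATTERNS
* `itSub p q k i = p + (q - p) i / 2^k`;   `it_l1x_sub` : `ItLayerAt Φ → ItLayerAt (∀ k ≤ N, ∀ i < 2^k, Φ on the sublayer (itSub p q k i, itSub p q k (i+1)))`.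
TANGENT DATA (a symbol `w` that does not depend on the parent phase)
* `it_l1x_nv1`, `it_l1x_nv2`     recentring: `⟨w, F - R_p F⟩ - ⟨w, F - R_s F⟩` is a function of `(F_s, 𝒟)`;
* `it_l1x_tile`                  `Σ_i H(w on the sublayer i) ≤ H(w on the layer) + 2^k C`, any law on the support;
* `it_l1x_class`                 the entropy of `T.P.cnd D` on the layer from lower scores of `T.P` on `D` on the `2^k` sublayers.
-/

set_option autoImplicit false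
set_option linter.unreachableTactic false
set_option linter.unusedTactic false

namespace Claimed.Agent.R256

open Claimed.Agent.R255 Claimed.Agent.R255.FLaw
open scoped BigOperators
open Classical

theorem it_l1x_cnd_supp {Ω : Type} [Fintype Ω] (P : FLaw Ω) (D : Ω → Prop) {ω : Ω} (h : (P.cnd D).p ω ≠ 0) : P.p ω ≠ 0 := by
  by_cases hD : 0 < P.pr D
  · exact ((ent_cnd_supp P D hD).1 h).2
  · unfold FLaw.cnd at h
    rw [dif_neg hD] at h
    exact h

theorem it_l1x_nval_cnd {Ω : Type} [Fintype Ω] {α β : Type} (P : FLaw Ω) (D G : Ω → Prop) (X : Ω → β) (A : Ω → α) {C : ℝ}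
    (h : P.NVal G X A C) : (P.cnd D).NVal G X A C := by
  intro ω₀
  obtain ⟨S, hS, hm⟩ := h ω₀
  exact ⟨S, hS, fun ω hω hG hA => hm ω (it_l1x_cnd_supp P D hω) hG hA⟩

/-- one sublayer: `Z ≼ Z'` prefixes of the long reading, `A0 ≼ A` parents, `R` the reading of the sublayer -/
theorem it_l1x_step {Ω : Type} [Fintype Ω] {α α' β β' γ : Type} (P : FLaw Ω) (A0 : Ω → α) (A : Ω → α') (Z : Ω → β) (Z' : Ω → β')
    (R : Ω → γ) {C1 C2 : ℝ} (hA : ∀ ω ω', A ω = A ω' → A0 ω = A0 ω') (hZ : ∀ ω ω', Z' ω = Z' ω' → Z ω = Z ω')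
    (h1 : P.NVal (fun _ => True) Z A C1) (h2 : P.NVal (fun _ => True) R (pair Z' A) C2) :
    P.entC Z A0 + P.entC R A ≤ P.entC Z' A0 + Real.log C1 + Real.log C2 := by
  have s1 := ent_entC_chain P Z Z' A0
  have s2 : P.entC (pair Z Z') A0 = P.entC Z' A0 :=
    ent_entC_congr P _ _ _ _ (fun _ _ _ _ => Iff.rfl) (fun ω ω' _ _ _ => by
      simp only [FLaw.pair, Prod.mk.injEq]
      exact ⟨fun h => h.2, fun h => ⟨hZ ω ω' h, h⟩⟩)
  have s3 : P.entC Z' (pair Z A) ≤ P.entC Z' (pair Z A0) :=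
    ent_entC_anti P _ _ _ fun ω ω' _ _ h => by
      simp only [FLaw.pair, Prod.mk.injEq] at h ⊢
      exact ⟨h.1, hA ω ω' h.2⟩
  have s4 := ent_entC_chain P Z Z' A
  have s5 : P.entC (pair Z Z') A = P.entC Z' A :=
    ent_entC_congr P _ _ _ _ (fun _ _ _ _ => Iff.rfl) (fun ω ω' _ _ _ => by
      simp only [FLaw.pair, Prod.mk.injEq]
      exact ⟨fun h => h.2, fun h => ⟨hZ ω ω' h, h⟩⟩)
  have s6 := ent_entC_le_log_nval P Z A h1
  have s7 := ent_entC_chain P Z' R A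
  have s8 := ent_entC_le_log_nval P R (pair Z' A) h2
  have s9 : P.entC R A ≤ P.entC (pair Z' R) A :=
    ent_entC_mono P _ _ _ fun ω ω' _ _ h _ => (Prod.ext_iff.1 h).2
  linarith

/-- ENTROPY CHAIN over `K` sublayers -/
theorem it_l1x_chain {Ω : Type} [Fintype Ω] {α β γ : Type} (P : FLaw Ω) (K : ℕ) (A : ℕ → Ω → α) (Z : ℕ → Ω → β) (R : ℕ → Ω → γ)
    {C1 C2 : ℝ} (hA : ∀ i < K, ∀ ω ω', A (i + 1) ω = A (i + 1) ω' → A i ω = A i ω')
    (hZ : ∀ i < K, ∀ ω ω', Z (i + 1) ω = Z (i + 1) ω' → Z i ω = Z i ω')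
    (h1 : ∀ i < K, P.NVal (fun _ => True) (Z i) (A i) C1)
    (h2 : ∀ i < K, P.NVal (fun _ => True) (R i) (pair (Z (i + 1)) (A i)) C2) :
    ∑ i ∈ Finset.range K, P.entC (R i) (A i) ≤ P.entC (Z K) (A 0) + K * (Real.log C1 + Real.log C2) := by
  have hA0 : ∀ j, j ≤ K → ∀ ω ω', A j ω = A j ω' → A 0 ω = A 0 ω' := by
    intro j
    induction j with
    | zero => exact fun _ _ _ h => h
    | succ j ih => exact fun hj ω ω' h => ih (by omega) ω ω' (hA j (by omega) ω ω' h)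
  have key : ∀ j, j ≤ K →
      ∑ i ∈ Finset.range j, P.entC (R i) (A i) ≤ P.entC (Z j) (A 0) + j * (Real.log C1 + Real.log C2) := by
    intro j
    induction j with
    | zero =>
      intro _
      simpa using ent_entC_nonneg P (Z 0) (A 0)
    | succ j ih =>
      intro hj
      have h := ih (by omega)
      have st := it_l1x_step P (A 0) (A j) (Z j) (Z (j + 1)) (R j) (hA0 j (by omega)) (hZ j (by omega)) (h1 j (by omega))
        (h2 j (by omega))
      rw [Finset.sum_range_succ]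
      push_cast
      linarith
  exact key K le_rfl

/-- CLASSES.  Off probability `ηs` one of the alternatives `Ek k`, `k ≤ N`, holds; on every subevent `D` of mass `≥ c0` of an alternative the conditioned law has entropy `≥ c`. -/
theorem it_l1x_classes {Ω : Type} [Fintype Ω] {α β : Type} (P : FLaw Ω) (Z : Ω → β) (A : Ω → α) (N : ℕ) (Ek : ℕ → Ω → Prop)
    (c c0 ηs : ℝ) (hc : 0 ≤ c) (hc0 : 0 ≤ c0) (hcover : P.pr (fun ω => ∀ k ≤ N, ¬ Ek k ω) ≤ ηs)
    (hcls : ∀ k ≤ N, ∀ D : Ω → Prop, (∀ ω, D ω → Ek k ω) → c0 ≤ P.pr D → c ≤ (P.cnd D).entC Z A) :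
    c * (1 - ηs - (N + 1) * c0) ≤ P.entC Z A := by
  obtain ⟨κ, hκ⟩ : ∃ κ : Ω → ℕ, κ = fun ω => if h : ∃ k, k ≤ N ∧ Ek k ω then Nat.find h else N + 1 := ⟨_, rfl⟩
  have hκ1 : ∀ ω, κ ω ≤ N → Ek (κ ω) ω := by
    intro ω h
    rw [hκ] at h ⊢
    dsimp only at h ⊢
    by_cases hex : ∃ k, k ≤ N ∧ Ek k ω
    · rw [dif_pos hex]
      exact (Nat.find_spec hex).2
    · rw [dif_neg hex] at h
      omega
  have hκ2 : ∀ ω, ¬ κ ω ≤ N → ∀ k ≤ N, ¬ Ek k ω := by
    intro ω h k hk hE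
    apply h
    rw [hκ]
    dsimp only
    have hex : ∃ k, k ≤ N ∧ Ek k ω := ⟨k, hk, hE⟩
    rw [dif_pos hex]
    exact (Nat.find_spec hex).1
  have s1 : P.entC Z (pair A κ) ≤ P.entC Z A := ent_entC_pair_le P Z A κ
  have s2 := ent_entC_pair_eq_avg P Z A κ
  obtain ⟨Bad, hBad⟩ : ∃ Bad : Ω → Prop, Bad = fun ω => ¬ (κ ω ≤ N ∧ c0 ≤ P.pr (fun ω' => κ ω' = κ ω)) := ⟨_, rfl⟩
  have s3 := ent_ev_ge_of_bad P (f := fun ω => (P.cfib κ ω).entC Z A) Bad (c := c) (M := 0)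
    (fun ω _ h => by
      rw [hBad] at h
      obtain ⟨h1, h2⟩ := not_not.1 h
      exact hcls (κ ω) h1 (fun ω' => κ ω' = κ ω) (fun ω' e => by
        have := hκ1 ω' (by rw [e]; exact h1)
        rwa [e] at this) h2)
    (fun ω _ _ => ent_entC_nonneg _ _ _)
  have s4 : P.pr Bad ≤ ηs + (N + 1) * c0 := by
    have t1 : P.pr Bad ≤ P.pr (fun ω => (∀ k ≤ N, ¬ Ek k ω) ∨
        ∃ k ∈ Finset.range (N + 1), κ ω = k ∧ P.pr (fun ω' => κ ω' = k) < c0) := by
      refine ent_pr_mono P fun ω _ h => ?_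
      rw [hBad] at h
      by_cases h1 : κ ω ≤ N
      · refine Or.inr ⟨κ ω, Finset.mem_range.2 (by omega), rfl, ?_⟩
        by_contra hcon
        exact h ⟨h1, not_lt.1 hcon⟩
      · exact Or.inl (hκ2 ω h1)
    refine t1.trans ((ent_pr_or_le P _ _).trans (add_le_add hcover ?_))
    refine (ent_pr_exists_le P _ _).trans ?_
    have t2 : ∀ k ∈ Finset.range (N + 1), P.pr (fun ω => κ ω = k ∧ P.pr (fun ω' => κ ω' = k) < c0) ≤ c0 := by
      intro k _
      by_cases hk : P.pr (fun ω' => κ ω' = k) < c0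
      · exact (ent_pr_mono P fun ω _ h => h.1).trans hk.le
      · rw [ent_pr_eq_zero P fun ω _ h => hk h.2]
        exact hc0
    refine (Finset.sum_le_sum t2).trans ?_
    rw [Finset.sum_const, Finset.card_range, nsmul_eq_mul]
    push_cast
    exact le_rfl
  rw [zero_mul, add_zero] at s3
  have s5 : c * (1 - ηs - (N + 1) * c0) ≤ c * (1 - P.pr Bad) := mul_le_mul_of_nonneg_left (by linarith) hc
  linarith

/-- transfer of a lower score to the conditioned law -/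
theorem it_l1x_score_cnd {Ω : Type} [Fintype Ω] {α β : Type} (P : FLaw Ω) (E : Ω → Prop) (hE : 0 < P.pr E) (X : Ω → α) (W : Ω → β)
    (s s' t0 : ℝ) (hs : s' + t0 ≤ s) :
    (P.cnd E).pr (fun ω => True ∧ (P.cnd E).surC X W ω < s')
      ≤ P.pr (fun ω => E ω ∧ P.surC X W ω < s) / P.pr E + 2 * Real.exp (-t0) / P.pr E := by
  have h1 := ic_restr P E hE X W t0
  have h2 := ent_cnd_pr P E hE (fun ω => P.surC X W ω < s)
  refine le_trans (le_trans (ent_pr_mono _ fun ω _ hb => ?_) (ent_pr_or_le _ _ _)) (add_le_add (le_of_eq h2) h1)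
  by_contra hcon
  push Not at hcon
  obtain ⟨c1, c2⟩ := hcon
  have := (abs_le.1 c2).1
  linarith [hb.2]


/-- a lower score of `P` on the event `D` gives the entropy of the conditioned law -/
theorem it_l1x_ent_cnd {Ω : Type} [Fintype Ω] {α β : Type} (P : FLaw Ω) (D : Ω → Prop) (X : Ω → α) (W : Ω → β) (c t0 π c0 : ℝ)
    (hc0 : 0 < c0) (hD : c0 ≤ P.pr D) (hc : 0 ≤ c) (ht0 : 0 ≤ t0) (h : P.pr (fun ω => D ω ∧ P.surC X W ω < c) ≤ π) :
    c * (1 - (π + 2 * Real.exp (-t0)) / c0) - t0 ≤ (P.cnd D).entC X W := by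
  have hE : 0 < P.pr D := hc0.trans_le hD
  have st := it_l1x_score_cnd P D hE X W c (c - t0) t0 (by linarith)
  obtain ⟨bad, hbad⟩ : ∃ bad : ℝ, bad = (P.cnd D).pr (fun ω => True ∧ (P.cnd D).surC X W ω < c - t0) := ⟨_, rfl⟩
  rw [← hbad] at st
  have hb0 : 0 ≤ bad := by rw [hbad]; exact ent_pr_nonneg _ _
  have hb1 : bad ≤ (π + 2 * Real.exp (-t0)) / c0 := by
    refine st.trans ?_
    rw [← add_div]
    have hnum : 0 ≤ P.pr (fun ω => D ω ∧ P.surC X W ω < c) + 2 * Real.exp (-t0) :=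
      add_nonneg (ent_pr_nonneg _ _) (by positivity)
    exact (div_le_div_of_nonneg_left hnum hc0 hD).trans (div_le_div_of_nonneg_right (by linarith) hc0.le)
  rw [ent_entC_eq_ev]
  have h2 := ent_ev_ge_of_bad (P.cnd D) (f := (P.cnd D).surC X W) (fun ω => True ∧ (P.cnd D).surC X W ω < c - t0)
    (c := c - t0) (M := 0) (fun ω _ h => not_lt.1 fun h' => h ⟨trivial, h'⟩) (fun ω hω _ => ent_surC_nonneg _ _ _ hω)
  rw [zero_mul, add_zero, ← hbad] at h2
  refine le_trans ?_ h2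
  have e1 : c * bad ≤ c * ((π + 2 * Real.exp (-t0)) / c0) := mul_le_mul_of_nonneg_left hb1 hc
  have e2 : 0 ≤ t0 * bad := mul_nonneg ht0 hb0
  nlinarith

/-! ## patterns -/

/-- the endpoints of the `2^k` sublayers -/
noncomputable def itSub (p q : ℝ) (k i : ℕ) : ℝ := p + (q - p) * i / 2 ^ k

theorem it_l1x_eqns_cite : True := by
  have := @itSub.eq_1
  trivial

theorem it_l1x_sub_zero (p q : ℝ) (k : ℕ) : itSub p q k 0 = p := by simp [itSub]

theorem it_l1x_sub_top (p q : ℝ) (k : ℕ) : itSub p q k (2 ^ k) = q := by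
  unfold itSub
  push_cast
  field_simp
  ring

theorem it_l1x_sub_len (p q : ℝ) (k i : ℕ) : itSub p q k (i + 1) - itSub p q k i = (q - p) / 2 ^ k := by
  unfold itSub
  push_cast
  ring

theorem it_l1x_sub_ge (p q : ℝ) (hpq : p ≤ q) (k i : ℕ) : p ≤ itSub p q k i := by
  unfold itSub
  have : 0 ≤ (q - p) * i / 2 ^ k := by
    have : 0 ≤ q - p := by linarith
    positivity
  linarith

theorem it_l1x_sub_mono (p q : ℝ) (hpq : p ≤ q) (k i : ℕ) : itSub p q k i ≤ itSub p q k (i + 1) := by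
  have := it_l1x_sub_len p q k i
  have h2 : 0 ≤ (q - p) / 2 ^ k := by
    have : 0 ≤ q - p := by linarith
    positivity
  linarith

theorem it_l1x_sub_lt (p q : ℝ) (hpq : p < q) (k i : ℕ) : itSub p q k i < itSub p q k (i + 1) := by
  have := it_l1x_sub_len p q k i
  have h2 : 0 < (q - p) / 2 ^ k := by
    have : 0 < q - p := by linarith
    positivity
  linarith

theorem it_l1x_sub_le (p q : ℝ) (hpq : p ≤ q) (k i : ℕ) (hi : i ≤ 2 ^ k) : itSub p q k i ≤ q := by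
  unfold itSub
  have h1 : (i : ℝ) ≤ 2 ^ k := by exact_mod_cast hi
  have h2 : (q - p) * i / 2 ^ k ≤ q - p := by
    rw [div_le_iff₀ (by positivity)]
    exact mul_le_mul_of_nonneg_left h1 (by linarith)
  linarith

/-- finitely many package requirements -/
theorem it_l1x_fin {ι : Type} (S : Finset ι) (Ψ : ι → ItPk → ℝ → Tan → Prop)
    (h : ∀ s ∈ S, ∃ (pk0 : ItPk) (acc0 : ℝ), pk0.Pre ∧ 0 < acc0 ∧ ∀ (pk : ItPk) (acc : ℝ) (T : Tan), pk0.le pk → acc ≤ acc0 → Ψ s pk acc T) :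
    ∃ (pk0 : ItPk) (acc0 : ℝ), pk0.Pre ∧ 0 < acc0 ∧ ∀ (pk : ItPk) (acc : ℝ) (T : Tan), pk0.le pk → acc ≤ acc0 → ∀ s ∈ S, Ψ s pk acc T := by
  induction S using Finset.induction_on with
  | empty => exact ⟨itPk0 0 1, 1, it_cb_pk0_pre 0 1 one_pos, one_pos, fun _ _ _ _ _ s hs => by simp at hs⟩
  | insert x S hx ih =>
    obtain ⟨pk1, acc1, hp1, ha1, H1⟩ := ih fun s hs => h s (Finset.mem_insert_of_mem hs)
    obtain ⟨pk2, acc2, hp2, ha2, H2⟩ := h x (Finset.mem_insert_self _ _)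
    refine ⟨pk1.sup pk2, min acc1 acc2, it_cb_sup_pre hp1 hp2, lt_min ha1 ha2, fun pk acc T g1 g2 s hs => ?_⟩
    rcases Finset.mem_insert.1 hs with rfl | hs
    · exact H2 pk acc T (it_cb_sup_right g1) (g2.trans (min_le_right _ _))
    · exact H1 pk acc T (it_cb_sup_left g1) (g2.trans (min_le_left _ _)) s hs

/-- a layer fact holds on all the sublayers of the generations `k ≤ N` -/
theorem it_l1x_sub {quad av cr : Bool} {a : ItPar} {Φ : Tan → ItPk → ℝ → ℝ → Prop} (h : ItLayerAt quad av cr a Φ) (N : ℕ) :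
    ItLayerAt quad av cr a (fun T pk p q => ∀ k ≤ N, ∀ i < 2 ^ k, Φ T pk (itSub p q k i) (itSub p q k (i + 1))) := by
  obtain ⟨τ, hτ, H⟩ := h
  refine ⟨τ, hτ, fun κ0 hκ0 => ?_⟩
  obtain ⟨κ1, hκ1, H⟩ := H κ0 hκ0
  refine ⟨κ1, hκ1, fun p q hp hpq hq => ?_⟩
  obtain ⟨pk0, acc0, h1, h2, H3⟩ := it_l1x_fin
    (((Finset.range (N + 1)) ×ˢ (Finset.range (2 ^ N))).filter fun s => s.2 < 2 ^ s.1)
    (fun s pk acc T => pk.Ok → 0 < acc → T.quad = quad → T.Adm a pk τ κ0 acc → (av = true → T.Avoid a pk acc) →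
      (cr = true → T.Cross pk acc) → Φ T pk (itSub p q s.1 s.2) (itSub p q s.1 (s.2 + 1)))
    (fun s hs => by
      have hs2 : s.2 < 2 ^ s.1 := (Finset.mem_filter.1 hs).2
      have g1 := it_l1x_sub_ge p q hpq.le s.1 s.2
      obtain ⟨pk0, acc0, h1, h2, H3⟩ := H (itSub p q s.1 s.2) (itSub p q s.1 (s.2 + 1)) (by linarith)
        (it_l1x_sub_lt p q hpq s.1 s.2)
        (((it_l1x_sub_le p q hpq.le s.1 (s.2 + 1) hs2).trans hq).trans (mul_le_mul_of_nonneg_left g1 (by linarith)))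
      exact ⟨pk0, acc0, h1, h2, fun pk acc T g1 g2 g3 g4 g5 g6 g7 g8 => H3 pk acc T g3 g1 g4 g2 g5 g6 g7 g8⟩)
  refine ⟨pk0, acc0, h1, h2, fun pk acc T g1 g2 g3 g4 g5 g6 g7 g8 k hk i hi => ?_⟩
  refine H3 pk acc T g2 g4 (k, i) ?_ g1 g3 g5 g6 g7 g8
  refine Finset.mem_filter.2 ⟨Finset.mem_product.2 ⟨Finset.mem_range.2 (by omega), Finset.mem_range.2 ?_⟩, hi⟩
  exact hi.trans_le (Nat.pow_le_pow_right (by norm_num) hk)

/-! ## recentring -/

theorem it_l1x_nval_supp {Ω : Type} [Fintype Ω] {α β : Type} (P P' : FLaw Ω) (hP' : ∀ ω, P'.p ω ≠ 0 → P.p ω ≠ 0) (G : Ω → Prop)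
    (X : Ω → β) (A : Ω → α) {C : ℝ} (h : P.NVal G X A C) : P'.NVal G X A C := by
  intro ω₀
  obtain ⟨S, hS, hm⟩ := h ω₀
  exact ⟨S, hS, fun ω hω hG hA => hm ω (hP' ω hω) hG hA⟩

/-- change of the centre -/
theorem it_l1x_val_shift (u f g g' : ItPh) : itVal u f g = itVal u f g' + itDot u (g'.sub g) := by
  simp only [itVal, itDot, ItPh.sub]
  ring

theorem it_l1x_base_nest (T : Tan) (h0 : 0 < T.δ) (h1 : T.δ < 1) (M : ℕ) {p s : ℝ} (hps : p ≤ s) {ω ω' : T.Ω}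
    (h : T.base M s ω = T.base M s ω') : T.base M p ω = T.base M p ω' := by
  have e1 : T.Fn s ω = T.Fn s ω' := congrArg Prod.fst h
  have e2 : T.Dd M ω = T.Dd M ω' := congrArg Prod.snd h
  exact Prod.ext (it_k_aux_Fn_nest T h0 h1 hps e1) e2

/-- on a fibre of `(F_s, 𝒟)` the two recentred values differ by the same constant -/
theorem it_l1x_diff (T : Tan) (h0 : 0 < T.δ) (h1 : T.δ < 1) (M : ℕ) {p s : ℝ} (hps : p ≤ s) (w : ItSym)
    (hdep : ∀ f Ξ Ξ', (∀ i < M, Ξ i = Ξ' i) → w f Ξ = w f Ξ') (hw0 : ∀ f f' Ξ, w f Ξ = w f' Ξ) {ω ω' : T.Ω}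
    (h : T.base M s ω = T.base M s ω') :
    itVal (T.fld p w ω) (T.F ω) (T.f0 p ω) - itVal (T.fld p w ω') (T.F ω') (T.f0 p ω')
      = itVal (T.fld s w ω) (T.F ω) (T.f0 s ω) - itVal (T.fld s w ω') (T.F ω') (T.f0 s ω') := by
  have e1 : T.fld p w ω = T.fld s w ω := hw0 _ _ _
  have e2 : T.fld p w ω' = T.fld s w ω' := hw0 _ _ _
  have e3 : T.fld s w ω = T.fld s w ω' := it_sk_fld_base T M s w hdep ω ω' h
  have e4 : T.f0 s ω = T.f0 s ω' := it_sk_f0_base T M s ω ω' h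
  have e5 : T.f0 p ω = T.f0 p ω' := it_sk_f0_base T M p ω ω' (it_l1x_base_nest T h0 h1 M hps h)
  rw [e1, e2, it_l1x_val_shift _ (T.F ω) (T.f0 p ω) (T.f0 s ω), it_l1x_val_shift _ (T.F ω') (T.f0 p ω') (T.f0 s ω'), e3, e4, e5]
  ring

/-- the prefix of depth `s` of the long reading has boundedly many values given `(F_s, 𝒟)` -/
theorem it_l1x_nv1 (T : Tan) (a : ItPar) (pk : ItPk) (h : T.Adm0 a pk) {p s : ℝ} (hp : 0 ≤ p) (hps : p ≤ s) (A0 : ℝ) (hA0 : 0 ≤ A0)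
    (w : ItSym) (hw : w.Reg pk.M a.B0 A0) (hw0 : ∀ f f' Ξ, w f Ξ = w f' Ξ) :
    T.P.NVal (fun _ => True) (T.rd p s [T.fld p w]) (pair (fun _ => ([] : List ℤ)) (T.base pk.M s)) (12 * A0 + 2) := by
  have hm := ig_msh_pos T.δ s
  have hc := ltk_nval_close T.P (fun _ => True) (pair (fun _ => ([] : List ℤ)) (T.base pk.M s))
    (fun ω => itVal (T.fld p w ω) (T.F ω) (T.f0 p ω)) (tlev T.δ s) (R := 12 * A0 * msh T.δ s)
    (mul_nonneg (mul_nonneg (by norm_num) hA0) hm.le)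
    (fun ω ω' hω hω' _ _ hA => by
      have hb : T.base pk.M s ω = T.base pk.M s ω' := congrArg Prod.snd hA
      rw [it_l1x_diff T h.δ0 h.δ1 pk.M hps w hw.dep hw0 hb]
      have b1 := it_k_aux_val_bd T.δ s A0 hA0 (T.fld s w ω) (T.F ω) (it_sk_fld_bd T a pk h s (hp.trans hps) w A0 hw ω hω)
      have b2 := it_k_aux_val_bd T.δ s A0 hA0 (T.fld s w ω') (T.F ω') (it_sk_fld_bd T a pk h s (hp.trans hps) w A0 hw ω' hω')
      rw [abs_le] at b1 b2
      exact abs_le.2 ⟨by unfold Tan.f0; linarith [b1.1, b2.2], by unfold Tan.f0; linarith [b1.2, b2.1]⟩)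
  have e : 12 * A0 * msh T.δ s * 2 ^ (tlev T.δ s) + 2 = 12 * A0 + 2 := by
    unfold msh
    field_simp
  rw [e] at hc
  exact ltk_nval_mono T.P hc (fun _ h => h) (fun _ _ h => h) ⟨fun x => [x], fun ω => by simp [Tan.rd, tcell]⟩ le_rfl

/-- the reading of the sublayer `(s, s')` has at most three values given the prefix of depth `s'` of the long reading and `(F_s, 𝒟)` -/
theorem it_l1x_nv2 (T : Tan) (a : ItPar) (pk : ItPk) (h : T.Adm0 a pk) {p s : ℝ} (s' : ℝ) (hps : p ≤ s) (A0 : ℝ)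
    (w : ItSym) (hw : w.Reg pk.M a.B0 A0) (hw0 : ∀ f f' Ξ, w f Ξ = w f' Ξ) :
    T.P.NVal (fun _ => True) (T.rd s s' [T.fld s w])
      (pair (T.rd p s' [T.fld p w]) (pair (fun _ => ([] : List ℤ)) (T.base pk.M s))) 3 := by
  have hm := ig_msh_pos T.δ s'
  have hc := ltk_nval_close T.P (fun _ => True) (pair (T.rd p s' [T.fld p w]) (pair (fun _ => ([] : List ℤ)) (T.base pk.M s)))
    (fun ω => itVal (T.fld s w ω) (T.F ω) (T.f0 s ω)) (tlev T.δ s') (R := msh T.δ s') hm.le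
    (fun ω ω' hω hω' _ _ hA => by
      have hb : T.base pk.M s ω = T.base pk.M s ω' := congrArg Prod.snd (congrArg Prod.snd hA)
      have hr : T.rd p s' [T.fld p w] ω = T.rd p s' [T.fld p w] ω' := congrArg Prod.fst hA
      rw [← it_l1x_diff T h.δ0 h.δ1 pk.M hps w hw.dep hw0 hb]
      exact it_k_aux_cell_dist ((it_k_aux_rd_iff T p s' _ ω ω').1 hr _ List.mem_cons_self))
  have e : msh T.δ s' * 2 ^ (tlev T.δ s') + 2 = 3 := by
    unfold msh
    field_simp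
    norm_num
  rw [e] at hc
  exact ltk_nval_mono T.P hc (fun _ h => h) (fun _ _ h => h) ⟨fun x => [x], fun ω => by simp [Tan.rd, tcell]⟩ le_rfl

/-- TILING: the sublayers cost at most the layer -/
theorem it_l1x_tile (T : Tan) (a : ItPar) (pk : ItPk) (h : T.Adm0 a pk) (P' : FLaw T.Ω) (hP' : ∀ ω, P'.p ω ≠ 0 → T.P.p ω ≠ 0)
    {p q : ℝ} (hp : 0 ≤ p) (hpq : p ≤ q) (A0 : ℝ) (hA0 : 0 ≤ A0) (w : ItSym) (hw : w.Reg pk.M a.B0 A0)
    (hw0 : ∀ f f' Ξ, w f Ξ = w f' Ξ) (k : ℕ) :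
    ∑ i ∈ Finset.range (2 ^ k), P'.entC (T.rd (itSub p q k i) (itSub p q k (i + 1)) [T.fld (itSub p q k i) w])
        (pair (T.rd (itSub p q k i) (itSub p q k (i + 1)) []) (T.base pk.M (itSub p q k i)))
      ≤ P'.entC (T.rd p q [T.fld p w]) (pair (T.rd p q []) (T.base pk.M p))
        + (2 ^ k : ℕ) * (Real.log (12 * A0 + 2) + Real.log 3) := by
  have key := it_l1x_chain P' (2 ^ k) (fun i => pair (fun _ => ([] : List ℤ)) (T.base pk.M (itSub p q k i)))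
    (fun i => T.rd p (itSub p q k i) [T.fld p w])
    (fun i => T.rd (itSub p q k i) (itSub p q k (i + 1)) [T.fld (itSub p q k i) w])
    (C1 := 12 * A0 + 2) (C2 := 3)
    (fun i _ ω ω' e => by
      have hb : T.base pk.M (itSub p q k (i + 1)) ω = T.base pk.M (itSub p q k (i + 1)) ω' := congrArg Prod.snd e
      exact Prod.ext rfl (it_l1x_base_nest T h.δ0 h.δ1 pk.M (it_l1x_sub_mono p q hpq k i) hb))
    (fun i _ ω ω' e => by
      rw [it_k_aux_rd_iff] at e ⊢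
      intro u hu
      exact it_k_aux_cell_nest h.δ0 h.δ1 (it_l1x_sub_mono p q hpq k i) (e u hu))
    (fun i _ => it_l1x_nval_supp T.P P' hP' _ _ _ (it_l1x_nv1 T a pk h hp (it_l1x_sub_ge p q hpq k i) A0 hA0 w hw hw0))
    (fun i _ => it_l1x_nval_supp T.P P' hP' _ _ _ (it_l1x_nv2 T a pk h _ (it_l1x_sub_ge p q hpq k i) A0 w hw hw0))
  simp only [it_l1x_sub_top, it_l1x_sub_zero] at key
  exact key

/-- ONE CLASS: lower scores of `T.P` on the event `D` on the `2^k` sublayers give the entropy of `T.P.cnd D` on the layer -/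
theorem it_l1x_class (T : Tan) (a : ItPar) (pk : ItPk) (h : T.Adm0 a pk) {p q : ℝ} (hp : 0 ≤ p) (hpq : p ≤ q) (A0 : ℝ) (hA0 : 0 ≤ A0)
    (w : ItSym) (hw : w.Reg pk.M a.B0 A0) (hw0 : ∀ f f' Ξ, w f Ξ = w f' Ξ) (k : ℕ) (D : T.Ω → Prop) (ρ t0 π c0 : ℝ) (hρ : 0 ≤ ρ)
    (ht0 : 0 ≤ t0) (hc0 : 0 < c0) (hD : c0 ≤ T.P.pr D)
    (hb : ∀ i < 2 ^ k, T.P.pr (fun ω => D ω ∧
      T.P.surC (T.rd (itSub p q k i) (itSub p q k (i + 1)) [T.fld (itSub p q k i) w])
        (pair (T.rd (itSub p q k i) (itSub p q k (i + 1)) []) (T.base pk.M (itSub p q k i))) ω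
        < ρ * (itSub p q k (i + 1) - itSub p q k i) * T.L) ≤ π) :
    ρ * (q - p) * T.L * (1 - (π + 2 * Real.exp (-t0)) / c0) - (2 ^ k : ℕ) * (t0 + (Real.log (12 * A0 + 2) + Real.log 3))
      ≤ (T.P.cnd D).entC (T.rd p q [T.fld p w]) (pair (T.rd p q []) (T.base pk.M p)) := by
  have hL := it_cb_L_pos T h.δ0 h.δ1
  have tile := it_l1x_tile T a pk h (T.P.cnd D) (fun ω hω => it_l1x_cnd_supp T.P D hω) hp hpq A0 hA0 w hw hw0 k
  have each : ∀ i ∈ Finset.range (2 ^ k),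
      ρ * ((q - p) / 2 ^ k) * T.L * (1 - (π + 2 * Real.exp (-t0)) / c0) - t0
        ≤ (T.P.cnd D).entC (T.rd (itSub p q k i) (itSub p q k (i + 1)) [T.fld (itSub p q k i) w])
          (pair (T.rd (itSub p q k i) (itSub p q k (i + 1)) []) (T.base pk.M (itSub p q k i))) := by
    intro i hi
    have hbi := hb i (Finset.mem_range.1 hi)
    rw [it_l1x_sub_len] at hbi
    refine it_l1x_ent_cnd T.P D _ _ _ t0 π c0 hc0 hD ?_ ht0 hbi
    have : 0 ≤ (q - p) / 2 ^ k := div_nonneg (by linarith) (by positivity)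
    positivity
  have hsum := Finset.sum_le_sum each
  rw [Finset.sum_const, Finset.card_range, nsmul_eq_mul] at hsum
  have e : ((2 ^ k : ℕ) : ℝ) * (ρ * ((q - p) / 2 ^ k) * T.L * (1 - (π + 2 * Real.exp (-t0)) / c0) - t0)
      = ρ * (q - p) * T.L * (1 - (π + 2 * Real.exp (-t0)) / c0) - (2 ^ k : ℕ) * t0 := by
    push_cast
    field_simp
  rw [e] at hsum
  linarith

/-- THE LAYER from the alternatives: lower scores on the sublayers of generation `k` on the alternative `Ek k`. -/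
theorem it_l1x_layer (T : Tan) (a : ItPar) (pk : ItPk) (h : T.Adm0 a pk) {p q : ℝ} (hp : 0 ≤ p) (hpq : p ≤ q) (A0 : ℝ) (hA0 : 0 ≤ A0)
    (w : ItSym) (hw : w.Reg pk.M a.B0 A0) (hw0 : ∀ f f' Ξ, w f Ξ = w f' Ξ) (N : ℕ) (Ek : ℕ → T.Ω → Prop) (ρ t0 π c0 ηs : ℝ)
    (hρ : 0 ≤ ρ) (ht0 : 0 ≤ t0) (hc0 : 0 < c0) (hcover : T.P.pr (fun ω => ∀ k ≤ N, ¬ Ek k ω) ≤ ηs)
    (hb : ∀ k ≤ N, ∀ i < 2 ^ k, T.P.pr (fun ω => Ek k ω ∧
      T.P.surC (T.rd (itSub p q k i) (itSub p q k (i + 1)) [T.fld (itSub p q k i) w])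
        (pair (T.rd (itSub p q k i) (itSub p q k (i + 1)) []) (T.base pk.M (itSub p q k i))) ω
        < ρ * (itSub p q k (i + 1) - itSub p q k i) * T.L) ≤ π)
    (hpos : 0 ≤ ρ * (q - p) * T.L * (1 - (π + 2 * Real.exp (-t0)) / c0)
      - (2 ^ N : ℕ) * (t0 + (Real.log (12 * A0 + 2) + Real.log 3))) :
    (ρ * (q - p) * T.L * (1 - (π + 2 * Real.exp (-t0)) / c0) - (2 ^ N : ℕ) * (t0 + (Real.log (12 * A0 + 2) + Real.log 3)))
      * (1 - ηs - (N + 1) * c0) ≤ T.hh pk.M p q [T.fld p w] [] := by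
  unfold Tan.hh
  refine it_l1x_classes T.P _ _ N Ek _ c0 ηs hpos hc0.le hcover fun k hk D hDE hD => ?_
  have cl := it_l1x_class T a pk h hp hpq A0 hA0 w hw hw0 k D ρ t0 π c0 hρ ht0 hc0 hD fun i hi =>
    (ent_pr_mono T.P fun ω _ hω => ⟨hDE ω hω.1, hω.2⟩).trans (hb k hk i hi)
  refine le_trans ?_ cl
  have hC : 0 ≤ t0 + (Real.log (12 * A0 + 2) + Real.log 3) := by
    have := Real.log_nonneg (show (1 : ℝ) ≤ 12 * A0 + 2 by linarith)
    have := Real.log_nonneg (show (1 : ℝ) ≤ 3 by norm_num)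
    linarith
  have hk2 : ((2 ^ k : ℕ) : ℝ) ≤ ((2 ^ N : ℕ) : ℝ) := by exact_mod_cast Nat.pow_le_pow_right (by norm_num) hk
  have := mul_le_mul_of_nonneg_right hk2 hC
  linarith

end Claimed.Agent.R256
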