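import Claimed.Agent.R256.Int.Meta
import Claimed.Agent.R256.Int.SymKit
import Claimed.Agent.R256.Int.Kit2
import Claimed.Agent.R256.Int.Rl1xT
import Claimed.Agent.R256.Int.Rl1xC

/-!
# Row 256, Sec. 5, block RL1: `it_l1_x` = `it_l_x` of `Int/Rates.lean`, VERBATIM (pin products).      (helper68 + helper153; prefix `it_l1x_`)

`w = x_0 - f dX`, `f = T.pin 0 1`.   (a) `|x_0| ≥ |w| - η` (`it_l1_xw`, helper153, `Int/Rl1xC.lean`).   (b) `|w| ≥ l_* - η` : `it_slope_pin` gives the alternatives `Ek k = SlopeAt` at the scale `(q - p) / 2^k`, `k ≤ N`;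
the DECOUPLED boost (`it_l1_pin_boost`, helper153) on the `2^k` sublayers with a failure probability chosen AFTER `N`; tiling `it_l1x_layer` (`Int/Rl1xT.lean`).
-/

set_option autoImplicit false
set_option linter.unreachableTactic false
set_option linter.unusedTactic false
set_option linter.unnecessarySeqFocus false
set_option linter.unusedSimpArgs false

namespace Claimed.Agent.R256

open Claimed.Agent.R255
open Claimed.Agent.R255.FLaw (pair)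
open scoped BigOperators
open Classical

/-- arithmetic of the assembly -/
theorem it_l1x_arith (ls η ηb ηs β X K0 Nc : ℝ) (_hls0 : 0 ≤ ls) (hls : ls ≤ 1) (hηb0 : 0 ≤ ηb) (hηb : ηb ≤ η / 8) (hβ : β ≤ ηb) (hηs : ηs ≤ ηb)
    (hNc : Nc ≤ ηb) (hηs0 : 0 ≤ ηs) (hNc0 : 0 ≤ Nc) (hX : 0 ≤ X) (hK0 : 0 ≤ K0) (hρ : ηb ≤ ls) (h1 : ηb ≤ 1 / 4) :
    (ls - η / 2) * X - K0 ≤ ((ls - ηb) * X * (1 - β) - K0) * (1 - ηs - Nc) := by
  have hu : 0 ≤ 1 - ηs - Nc := by linarith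
  have hu1 : 1 - ηs - Nc ≤ 1 := by linarith
  have hu2 : 1 - 2 * ηb ≤ 1 - ηs - Nc := by linarith
  have a1 : (ls - ηb) * X * (1 - ηb) ≤ (ls - ηb) * X * (1 - β) :=
    mul_le_mul_of_nonneg_left (by linarith) (mul_nonneg (by linarith) hX)
  have a2 : 0 ≤ (ls - ηb) * X * (1 - ηb) := mul_nonneg (mul_nonneg (by linarith) hX) (by linarith)
  have a3 : (ls - ηb) * X * (1 - ηb) * (1 - 2 * ηb) ≤ (ls - ηb) * X * (1 - ηb) * (1 - ηs - Nc) :=
    mul_le_mul_of_nonneg_left hu2 a2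
  have a4 : (ls - ηb) * X * (1 - ηb) * (1 - ηs - Nc) ≤ (ls - ηb) * X * (1 - β) * (1 - ηs - Nc) :=
    mul_le_mul_of_nonneg_right a1 hu
  have a5 : K0 * (1 - ηs - Nc) ≤ K0 := by nlinarith
  have a6 : (ls - 4 * ηb) * X ≤ (ls - ηb) * X * (1 - ηb) * (1 - 2 * ηb) := by
    have e : (ls - ηb) * X * (1 - ηb) * (1 - 2 * ηb) - (ls - 4 * ηb) * X
        = X * (ηb * (3 - 3 * ls) + ηb ^ 2 * (3 + 2 * ls) - 2 * ηb ^ 3) := by ring
    have e2 : 0 ≤ ηb * (3 - 3 * ls) + ηb ^ 2 * (3 + 2 * ls) - 2 * ηb ^ 3 := by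
      have t1 : 0 ≤ ηb * (3 - 3 * ls) := mul_nonneg hηb0 (by linarith)
      have t2 : 2 * ηb ^ 3 ≤ ηb ^ 2 * (3 + 2 * ls) := by nlinarith [sq_nonneg ηb]
      linarith
    nlinarith [mul_nonneg hX e2]
  have a7 : (ls - η / 2) * X ≤ (ls - 4 * ηb) * X := mul_le_mul_of_nonneg_right (by linarith) hX
  nlinarith

/-- (modes-lin) 2 : `|x_0| ≥ l_*` -/
theorem it_l1_x (a : ItPar) (ha : a.Ok) (hm : 0 < a.m) :
    ItLayer false false true a (fun T pk p q η => (a.ls - η) * (q - p) * T.L ≤ T.hh pk.M p q [T.cx p 0] []) := by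
  intro η hη
  show ItLayerAt false false true a _
  obtain ⟨-, hd0, hd1, hm0, hm1, -, -, -, hB0⟩ := id ha
  obtain ⟨A0, hA0, hReg⟩ := it_l1_regU_w a.B0
  have hls0 : a.m ≤ a.ls := le_min hm1 (by linarith)
  have hls1 : a.ls ≤ 1 := min_le_left _ _
  obtain ⟨ηb, hηb⟩ : ∃ ηb : ℝ, ηb = min (η / 8) (a.m / 4) := ⟨_, rfl⟩
  have hηb0 : 0 < ηb := by rw [hηb]; exact lt_min (by positivity) (by positivity)
  have hηb1 : ηb ≤ η / 8 := by rw [hηb]; exact min_le_left _ _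
  have hηb2 : ηb ≤ a.m / 4 := by rw [hηb]; exact min_le_right _ _
  obtain ⟨n, η1, hn, hη1, HB⟩ := it_l1_pin_boost a ha hm ηb hηb0
  obtain ⟨ηs, hηs⟩ : ∃ ηs : ℝ, ηs = min η1 ηb := ⟨_, rfl⟩
  have hηs0 : 0 < ηs := by rw [hηs]; exact lt_min hη1 hηb0
  have hηs1 : ηs ≤ η1 := by rw [hηs]; exact min_le_left _ _
  have hηs2 : ηs ≤ ηb := by rw [hηs]; exact min_le_right _ _
  obtain ⟨N, HS⟩ := it_slope_pin a ha n hn ηs hηs0
  obtain ⟨c0, hc0⟩ : ∃ c0 : ℝ, c0 = ηb / (N + 1) := ⟨_, rfl⟩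
  have hN1 : (0 : ℝ) < (N : ℝ) + 1 := by positivity
  have hc00 : 0 < c0 := by rw [hc0]; positivity
  have hNc : ((N : ℝ) + 1) * c0 = ηb := by rw [hc0]; field_simp
  have hc0b : c0 ≤ ηb := by
    have : 1 * c0 ≤ ((N : ℝ) + 1) * c0 := mul_le_mul_of_nonneg_right (by linarith [(Nat.cast_nonneg N : (0 : ℝ) ≤ N)]) hc00.le
    linarith
  obtain ⟨π, hπ⟩ : ∃ π : ℝ, π = c0 * ηb / 2 := ⟨_, rfl⟩
  have hπ0 : 0 < π := by rw [hπ]; positivity
  obtain ⟨t0, ht0⟩ : ∃ t0 : ℝ, t0 = Real.log (4 / (c0 * ηb)) := ⟨_, rfl⟩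
  have ht00 : 0 ≤ t0 := by
    rw [ht0]
    refine Real.log_nonneg ?_
    rw [le_div_iff₀ (by positivity)]
    nlinarith
  have hexp : Real.exp (-t0) = c0 * ηb / 4 := by
    rw [ht0, Real.exp_neg, Real.exp_log (by positivity), inv_div]
  have hβ : (π + 2 * Real.exp (-t0)) / c0 = ηb := by
    rw [hexp, hπ]
    field_simp
    ring
  have F3 := it_l1_xw a ha hm (η / 4) (by positivity)
  have Fsub := it_l1x_sub (HB π hπ0) N
  refine it_cb_imp (it_cb_and (it_cb_flags (av' := false) (cr' := true) (fun e => e) (fun e => by simp at e)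
    (it_cb_and Fsub F3)) HS) 1 one_pos ?_
  intro p q hp hpq _
  obtain ⟨K0, hK0⟩ : ∃ K0 : ℝ, K0 = ((2 ^ N : ℕ) : ℝ) * (t0 + (Real.log (12 * A0 + 2) + Real.log 3)) := ⟨_, rfl⟩
  have hqp : 0 < q - p := by linarith
  refine ⟨itPk0 2 1, min (Real.exp (-(K0 / (η / 4 * (q - p))))) (Real.exp (-(K0 / (a.m / 4 * (q - p))))),
    it_cb_pk0_pre 2 1 one_pos, lt_min (Real.exp_pos _) (Real.exp_pos _), ?_⟩
  rintro pk acc τ κ0 T hpk hle hacc hacc1 hquad hAdm - - ⟨⟨Gsub, G3⟩, GS⟩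
  have h0 := hAdm.t0.δ0
  have h1 := hAdm.t0.δ1
  have hM : 2 ≤ pk.M := it_cb_pk0_M hle
  have hM0 : 0 < pk.M := by omega
  have hM1 : 1 < pk.M := by omega
  have hL := it_cb_L_pos T h0 h1
  have hX : 0 ≤ (q - p) * T.L := mul_nonneg hqp.le hL.le
  have rW := hReg pk.M hM
  obtain ⟨Ek, hEk⟩ : ∃ Ek : ℕ → T.Ω → Prop,
      Ek = fun k ω => T.SlopeAt pk.M 1 ((q - p) / 2 ^ k) n (T.pin 0 1) a.d ηs ω := ⟨_, rfl⟩
  have hcover : T.P.pr (fun ω => ∀ k ≤ N, ¬ Ek k ω) ≤ ηs := by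
    rw [hEk]
    exact GS 0 hM0 1 hM1 (by norm_num)
  have hb : ∀ k ≤ N, ∀ i < 2 ^ k, T.P.pr (fun ω => Ek k ω ∧
      T.P.surC (T.rd (itSub p q k i) (itSub p q k (i + 1)) [T.fld (itSub p q k i) itsl1w])
        (pair (T.rd (itSub p q k i) (itSub p q k (i + 1)) []) (T.base pk.M (itSub p q k i))) ω
        < (a.ls - ηb) * (itSub p q k (i + 1) - itSub p q k i) * T.L) ≤ π := by
    intro k hk i hi
    refine Gsub k hk i hi (Ek k) fun ω hE k1 k2 hk12 hk2 => ?_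
    rw [hEk] at hE
    have hs := hE k1 k2 hk12 hk2
    rw [it_l1x_sub_len]
    refine le_trans (mul_le_mul_of_nonneg_right ?_ hL.le) hs
    have : 0 ≤ (q - p) / 2 ^ k := by positivity
    have := mul_le_mul_of_nonneg_right hηs1 this
    linarith
  have hc1 := it_cb_const_le T acc K0 (η / 4 * (q - p)) (by positivity) h0 hAdm.small (hacc1.trans (min_le_left _ _))
  have hc2 := it_cb_const_le T acc K0 (a.m / 4 * (q - p)) (by positivity) h0 hAdm.small (hacc1.trans (min_le_right _ _))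
  have hK00 : 0 ≤ K0 := by
    rw [hK0]
    have := Real.log_nonneg (show (1 : ℝ) ≤ 12 * A0 + 2 by linarith)
    have := Real.log_nonneg (show (1 : ℝ) ≤ 3 by norm_num)
    positivity
  have hpos : 0 ≤ (a.ls - ηb) * (q - p) * T.L * (1 - (π + 2 * Real.exp (-t0)) / c0)
      - (2 ^ N : ℕ) * (t0 + (Real.log (12 * A0 + 2) + Real.log 3)) := by
    rw [hβ, ← hK0]
    have e1 : a.m / 4 * ((q - p) * T.L) ≤ (a.ls - ηb) * (1 - ηb) * ((q - p) * T.L) := by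
      refine mul_le_mul_of_nonneg_right ?_ hX
      have t1 : 3 * a.m / 4 ≤ a.ls - ηb := by linarith
      have t2 : (3 : ℝ) / 4 ≤ 1 - ηb := by linarith
      have t3 := mul_le_mul t1 t2 (by norm_num) (by linarith)
      linarith
    have e3 : (a.ls - ηb) * (q - p) * T.L * (1 - ηb) = (a.ls - ηb) * (1 - ηb) * ((q - p) * T.L) := by ring
    have e4 : a.m / 4 * (q - p) * T.L = a.m / 4 * ((q - p) * T.L) := by ring
    rw [e3]
    rw [e4] at hc2
    linarith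
  have lay := it_l1x_layer T a pk hAdm.t0 hp.le hpq.le A0 hA0 itsl1w rW (fun _ _ _ => rfl) N Ek (a.ls - ηb) t0 π c0 ηs
    (by linarith) ht00 hc00 hcover hb hpos
  rw [hβ, ← hK0, hNc] at lay
  have hAr := it_l1x_arith a.ls η ηb ηs ηb ((q - p) * T.L) K0 ηb (by linarith) hls1 hηb0.le hηb1 le_rfl hηs2 le_rfl hηs0.le hηb0.le
    hX hK00 (by linarith) (by linarith)
  have e2 : (a.ls - ηb) * (q - p) * T.L = (a.ls - ηb) * ((q - p) * T.L) := by ring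
  rw [e2] at lay
  have e5 : η / 4 * (q - p) * T.L = η / 4 * ((q - p) * T.L) := by ring
  have e6 : (a.ls - η) * (q - p) * T.L = (a.ls - η / 2) * ((q - p) * T.L) - η / 4 * ((q - p) * T.L) - η / 4 * ((q - p) * T.L) := by ring
  rw [e5] at hc1 G3
  rw [e6]
  linarith

end Claimed.Agent.R256
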