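import Claimed.Agent.R256.Int.SymKit
import Claimed.Agent.R256.Int.Meta

/-!
# Row 256, Sec. 5, block RL2: Proposition int:orientation-rates, linear part (mix-l), 05 l.874-893      (helper154; prefix `it_l2_`)

`it_l2_mix1, it_l2_mix3` = the statements `it_l_mix1, it_l_mix3` of `Int/Contract.lean`, VERBATIM.
`it_l2_mix2` = `it_l_mix2` VERBATIM, from ONE hypothesis `hH` = the exit of the sub-block H-WALK (Lemma int:many-leg, `it_hw_main`, architect helper157).
Internal rates:  `it_l2_xn` : `|x_0 | X, B, H| ≥ n_*`   (boost: source `(dN, dD)`, projection `dD + θ_0 dN`, residual `ν` from the `r_0`-innovation);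
                 `it_l2_WH` : `|W_0 | H| ≥ l_*`        ((modes-lin) 1; boost: source `(dX, dB)`, residual `m` from `ℓ_0`).
Everything from the tests `it_boost`, `it_mot_r`, `it_mode_ang`, `it_slope_time` of `Int/Meta.lean` and the kit (template: `Int/Rl3.lean` of helper6).
-/

set_option autoImplicit false
set_option linter.unreachableTactic false
set_option linter.unusedTactic false
set_option linter.unnecessarySeqFocus false

namespace Claimed.Agent.R256

open Claimed.Agent.R255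
open Claimed.Agent.R255.FLaw (pair)
open scoped BigOperators
open Classical

/-- `-dN` -/
def itsN2 : ItSym := fun _ _ => ⟨0, 0, 0, 0, -1, 0⟩

/-- `-dX` -/
def itsX2 : ItSym := fun _ _ => ⟨-1, 0, 0, 0, 0, 0⟩

/-- `dD + θ_0 dN` -/
def itsV2 : ItSym := fun _ Ξ => ⟨0, 0, 0, 0, (Ξ 0).th, 1⟩

theorem it_l2_eqns_cite : True := by
  have := @itsN2.eq_1; have := @itsX2.eq_1; have := @itsV2.eq_1
  trivial

theorem it_l2_regU_N2 (B0 : ℝ) : ItSym.RegU itsN2 0 B0 := by
  apply it_s_reg_mk <;> dsimp only [itsN2] <;>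
    repeat' first
      | exact it_s_c_const _ _ _ | exact it_s_c_th _ _ (by omega) _ | exact it_s_c_r _ _ (by omega) _
      | apply it_s_c_add | apply it_s_c_sub | apply it_s_c_mul | apply it_s_c_neg

theorem it_l2_regU_X2 (B0 : ℝ) : ItSym.RegU itsX2 0 B0 := by
  apply it_s_reg_mk <;> dsimp only [itsX2] <;>
    repeat' first
      | exact it_s_c_const _ _ _ | exact it_s_c_th _ _ (by omega) _ | exact it_s_c_r _ _ (by omega) _
      | apply it_s_c_add | apply it_s_c_sub | apply it_s_c_mul | apply it_s_c_neg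

theorem it_l2_regU_V2 (B0 : ℝ) : ItSym.RegU itsV2 1 B0 := by
  apply it_s_reg_mk <;> dsimp only [itsV2] <;>
    repeat' first
      | exact it_s_c_const _ _ _ | exact it_s_c_th _ _ (by omega) _ | exact it_s_c_r _ _ (by omega) _
      | apply it_s_c_add | apply it_s_c_sub | apply it_s_c_mul | apply it_s_c_neg

theorem it_l2_perm5 {α : Type} (x a b c d : α) : ([x, a, b, c] ++ [d]).Perm [x, d, c, a, b] := by
  show [x, a, b, c, d].Perm [x, d, c, a, b]
  refine List.Perm.cons _ ?_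
  have h1 : ([a, b] ++ [c, d]).Perm ([c, d] ++ [a, b]) := List.perm_append_comm
  have h2 : ([c, d] ++ [a, b]).Perm ([d, c] ++ [a, b]) := List.Perm.append_right _ (List.Perm.swap _ _ _)
  exact h1.trans h2

/-- arithmetic of one tolerance -/
theorem it_l2_arith1 (ρ η η' X : ℝ) (h1 : ρ ≤ 1) (hη' : 0 ≤ η') (hη : η' ≤ η / 4) (hX : 0 ≤ X) :
    (ρ - η / 2) * X ≤ (ρ - η') * (1 - η') * X := by
  have : ρ - η / 2 ≤ (ρ - η') * (1 - η') := by nlinarith
  nlinarith

/-- `|x_0 | X, B, H| ≥ n_*` -/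
theorem it_l2_xn (a : ItPar) (ha : a.Ok) (hm : 0 < a.m) (hc : a.c < 1) (hν : 0 < a.ν) :
    ItLayer false false false a (fun T pk p q η =>
      (a.ns - η) * (q - p) * T.L ≤ T.hh pk.M p q [T.cx p 0] [T.fld p itsX, T.fld p itsB, T.cH p]) := by
  intro η hη
  show ItLayerAt false false false a _
  obtain ⟨hc0, hd0, hd1, hm0, hm1, hν0, hν1, -, hB0⟩ := id ha
  obtain ⟨A1, hA1, hReg⟩ := it_s_regU_list [itsX, itsB, itsH, itsD, itsxl 0, itsV2, itsN2] 1 a.B0 (by
    intro U hU
    simp only [List.mem_cons, List.not_mem_nil, or_false] at hU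
    rcases hU with rfl | rfl | rfl | rfl | rfl | rfl | rfl
    exacts [it_s_regU_mono (by omega) (it_s_regU_X _), it_s_regU_mono (by omega) (it_s_regU_B _),
      it_s_regU_mono (by omega) (it_s_regU_H _), it_s_regU_mono (by omega) (it_s_regU_D _), it_s_regU_xl 0 _, it_l2_regU_V2 _,
      it_s_regU_mono (by omega) (it_l2_regU_N2 _)])
  set A0 := max A1 ((a.B0 + 1) ^ 2) with hA0
  have hA0B2 : (a.B0 + 1) ^ 2 ≤ A0 := le_max_right _ _
  have hA0B : a.B0 + 1 ≤ A0 := le_trans (by nlinarith) hA0B2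
  have hA01 : 1 ≤ A0 := le_trans (by linarith) hA0B
  have hReg' : ∀ U ∈ [itsX, itsB, itsH, itsD, itsxl 0, itsV2, itsN2], ∀ M, 1 ≤ M → ItSym.Reg U M a.B0 A0 := fun U hU M hM =>
    it_s_reg_mono (le_max_left _ _) (hReg U hU M hM)
  have hns0 : 0 < a.ns := lt_min one_pos (by linarith)
  have hns1 : a.ns ≤ 1 := min_le_left _ _
  set η' := min (η / 4) a.ns with hη'
  have hη'0 : 0 < η' := lt_min (by positivity) hns0
  obtain ⟨n, η1, hn, hη1, FB⟩ := it_boost false a ha A0 a.ν a.d hν hν1 hd0 hd1 η' hη'0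
  have F2 := it_mot_r false a ha hm hc A0 n hn η1 hη1
  have F3 := it_slope_time false a ha n hn η1 hη1
  refine it_cb_imp (it_cb_and F2 (it_cb_and F3 FB)) 1 one_pos ?_
  intro p q hp hpq _
  set cst := (4 : ℝ) * Real.log (A0 * 4 + 2) with hcst
  refine ⟨itPk0 1 1, Real.exp (-(cst / (η / 2 * (q - p)))), it_cb_pk0_pre 1 1 one_pos, Real.exp_pos _, ?_⟩
  rintro pk acc τ κ0 T hpk hle hacc hacc1 hquad hAdm - - ⟨G2, G3, GB⟩
  have h0 := hAdm.t0.δ0
  have h1 := hAdm.t0.δ1
  have hM : 1 ≤ pk.M := it_cb_pk0_M hle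
  have hM0 : 0 < pk.M := hM
  have hL := it_cb_L_pos T h0 h1
  have hqp : 0 < q - p := by linarith
  have hX : 0 ≤ (q - p) * T.L := mul_nonneg hqp.le hL.le
  have rX := hReg' itsX (by simp) pk.M hM
  have rB := hReg' itsB (by simp) pk.M hM
  have rH := hReg' itsH (by simp) pk.M hM
  have rD := hReg' itsD (by simp) pk.M hM
  have rx := hReg' (itsxl 0) (by simp) pk.M hM
  have rV := hReg' itsV2 (by simp) pk.M hM
  have rN := hReg' itsN2 (by simp) pk.M hM
  -- the residual of the boost: the `r_0`-innovation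
  have Lres : ∀ k, 1 ≤ k → k ≤ n →
      T.LS pk.M p (itS p q n k) q [T.fld p itsN2] (T.fld p itsV2 :: [itsX, itsB, itsH].map (T.fld p)) a.ν η1 := by
    refine G2 0 hM0 itsN2 [itsV2, itsX, itsB, itsH] 1 (fun _ _ => -1) rN (fun _ _ _ _ _ _ => rfl) (by
      intro v hv
      simp only [List.mem_cons, List.not_mem_nil, or_false] at hv
      rcases hv with rfl | rfl | rfl | rfl
      exacts [⟨rV, fun f Ξ Ξ' _ e1 _ => by simp only [itsV2, e1]⟩, ⟨rX, fun _ _ _ _ _ _ => rfl⟩, ⟨rB, fun _ _ _ _ _ _ => rfl⟩,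
        ⟨rH, fun _ _ _ _ _ _ => rfl⟩]) (by simp) (Or.inl rfl) ?_ ?_ ?_
    · intro v hv f Ξ A
      simp only [List.mem_cons, List.not_mem_nil, or_false] at hv
      rcases hv with rfl | rfl | rfl | rfl
      · simp [itsV2, itvR, itDot] <;> ring
      · simp [itsX, itcX, itvR, itDot]
      · simp [itsB, itcB, itvR, itDot]
      · simp [itsH, itcH, itvR, itDot]
    · intro f Ξ A
      simp [itsN2, itvR, itDot]
    · exact it_sk_one_nondeg T h0 h1 _ _ (it_sk_chi_pos p q n η1 hpq hn hη1) (by positivity) _ (by intro ω; simp)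
  have hsupp : ∀ ω, T.P.p ω ≠ 0 → |(T.mrk 0 ω).th| ≤ A0 := fun ω hω => by
    have := (hAdm.t0.bdM ω hω 0 hM0).1
    linarith
  have LB := GB 0 hM0 itsN2 itsD itsV2 [itsX, itsB, itsH] (fun _ _ => 1) (fun _ Ξ => (Ξ 0).th) (fun ω => |(T.mrk 0 ω).th| ≤ A0) rN rD rV (by
      intro v hv
      simp only [List.mem_cons, List.not_mem_nil, or_false] at hv
      rcases hv with rfl | rfl | rfl
      exacts [⟨rX, fun _ _ _ _ => rfl⟩, ⟨rB, fun _ _ _ _ => rfl⟩, ⟨rH, fun _ _ _ _ => rfl⟩]) (by simp)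
    (fun _ _ _ _ => rfl) (fun _ _ _ _ => rfl)
    (by
      intro ω e
      simpa using e)
    (fun f Ξ Ξ' e => ⟨rfl, by rw [e 0 hM0]⟩)
    (by
      intro f Ξ x
      simp [itsV2, itsN2, itsD, itcD, itDot] <;> ring)
    (by
      rw [ent_pr_eq_zero]
      · exact hη1.le
      · rintro ω - ⟨-, hω⟩
        rw [abs_one] at hω
        exact absurd hω (not_lt.2 (it_sk_rpow_lt_one T h0 h1 _ (by positivity)).le))
    Lres
    (by
      intro k k' hk hk'
      refine le_trans (ent_pr_mono _ fun ω _ hω => ?_) (G3 0 hM0 k k' hk hk')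
      refine ⟨trivial, ?_⟩
      simpa only [div_one] using hω.2)
  have Lc : T.LS pk.M p q q [T.fld p itsV2] ([itsX, itsB, itsH].map (T.fld p)) a.ns η' := by
    unfold Tan.LS
    refine le_trans (ent_pr_mono _ fun ω hω hlt => ?_) LB
    exact ⟨hsupp ω hω, hlt⟩
  have Ec := it_k_E_of_LS T h0 h1 pk.M p q hpq.le _ _ _ _ hη'0.le (min_le_right _ _) Lc
  have hx : T.fld p (itsxl 0) = T.cx p 0 := it_s_fld_xl T p 0 hquad
  have C1 := it_k_chain T pk.M p q [T.fld p itsV2] [T.fld p itsX, T.fld p itsB, T.cH p] []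
  have C2 := it_k_chain T pk.M p q [T.cx p 0] [T.fld p itsX, T.fld p itsB, T.cH p] []
  have Lin := it_sk_lin T a pk hAdm.t0 p q A0 hp.le hA01 [itsxl 0, itsX, itsB, itsH] [itsV2, itsX, itsB, itsH] [] (by
    intro u hu
    simp only [List.mem_cons, List.not_mem_nil, or_false] at hu
    rcases hu with rfl | rfl | rfl | rfl
    · refine ⟨fun k _ Ξ => if k = 0 then 1 else if k = 1 then (Ξ 0).r * (Ξ 0).th else if k = 2 then (Ξ 0).r else 0,
        fun k f Ξ Ξ' e => ?_, fun k f Ξ _ hb => ?_, fun f Ξ x => ?_⟩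
      · simp only [e 0 hM0]
      · dsimp only
        have b0 := (hb 0 hM0).1
        have b1 := (hb 0 hM0).2.1
        split_ifs
        · simp; linarith
        · rw [abs_mul]
          calc |(Ξ 0).r| * |(Ξ 0).th| ≤ (a.B0 + 1) * (a.B0 + 1) := mul_le_mul b1 b0 (abs_nonneg _) (by linarith)
            _ ≤ A0 := by nlinarith
        · linarith
        · simp; linarith
      · simp [Finset.sum_range_succ, itsV2, itsX, itcX, itsB, itcB, itsxl, itcxl, itsH, itDot] <;> ring
    · refine ⟨fun k _ _ => if k = 1 then 1 else 0, fun _ _ _ _ _ => rfl, fun k f Ξ _ _ => ?_, fun f Ξ x => ?_⟩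
      · dsimp only
        split_ifs <;> simp <;> linarith
      · simp [Finset.sum_range_succ]
    · refine ⟨fun k _ _ => if k = 2 then 1 else 0, fun _ _ _ _ _ => rfl, fun k f Ξ _ _ => ?_, fun f Ξ x => ?_⟩
      · dsimp only
        split_ifs <;> simp <;> linarith
      · simp [Finset.sum_range_succ]
    · refine ⟨fun k _ _ => if k = 3 then 1 else 0, fun _ _ _ _ _ => rfl, fun k f Ξ _ _ => ?_, fun f Ξ x => ?_⟩
      · dsimp only
        split_ifs <;> simp <;> linarith
      · simp [Finset.sum_range_succ])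
  have hcl := it_cb_const_le T acc cst (η / 2 * (q - p)) (by positivity) h0 hAdm.small hacc1
  simp only [List.map_cons, List.map_nil, hx, it_s_fld_H, List.cons_append, List.nil_append, List.append_nil,
    List.length_cons, List.length_nil] at Ec C1 C2 Lin
  have hAr := it_l2_arith1 a.ns η η' ((q - p) * T.L) hns1 hη'0.le (min_le_left _ _) hX
  push_cast at Lin
  norm_num at Lin
  nlinarith

/-- (modes-lin) 1 : `|W_0 | H| ≥ l_*` -/
theorem it_l2_WH (a : ItPar) (ha : a.Ok) (hm : 0 < a.m) :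
    ItLayer false false false a (fun T pk p q η => (a.ls - η) * (q - p) * T.L ≤ T.hh pk.M p q [T.cW 0] [T.cH p]) := by
  intro η hη
  show ItLayerAt false false false a _
  obtain ⟨hc0, hd0, hd1, hm0, hm1, hν0, hν1, -, hB0⟩ := id ha
  obtain ⟨A1, hA1, hReg⟩ := it_s_regU_list [itsB, itsH, itsW 0, itsX2] 1 a.B0 (by
    intro U hU
    simp only [List.mem_cons, List.not_mem_nil, or_false] at hU
    rcases hU with rfl | rfl | rfl | rfl
    exacts [it_s_regU_mono (by omega) (it_s_regU_B _), it_s_regU_mono (by omega) (it_s_regU_H _), it_s_regU_W 0 _,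
      it_s_regU_mono (by omega) (it_l2_regU_X2 _)])
  set A0 := max A1 (a.B0 + 1) with hA0
  have hA0B : a.B0 + 1 ≤ A0 := le_max_right _ _
  have hA01 : 1 ≤ A0 := le_trans (by linarith) hA0B
  have hReg' : ∀ U ∈ [itsB, itsH, itsW 0, itsX2], ∀ M, 1 ≤ M → ItSym.Reg U M a.B0 A0 := fun U hU M hM =>
    it_s_reg_mono (le_max_left _ _) (hReg U hU M hM)
  have hls0 : 0 < a.ls := lt_min one_pos (by linarith)
  have hls1 : a.ls ≤ 1 := min_le_left _ _
  set η' := min (η / 4) a.ls with hη'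
  have hη'0 : 0 < η' := lt_min (by positivity) hls0
  obtain ⟨n, η1, hn, hη1, FB⟩ := it_boost false a ha A0 a.m a.d hm hm1 hd0 hd1 η' hη'0
  have F2 := it_mode_ang false a ha hm A0 n hn η1 hη1
  have F3 := it_slope_time false a ha n hn η1 hη1
  refine it_cb_imp (it_cb_and F2 (it_cb_and F3 FB)) 1 one_pos ?_
  intro p q hp hpq _
  refine ⟨itPk0 1 1, 1, it_cb_pk0_pre 1 1 one_pos, one_pos, ?_⟩
  rintro pk acc τ κ0 T hpk hle hacc hacc1 hquad hAdm - - ⟨G2, G3, GB⟩
  have h0 := hAdm.t0.δ0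
  have h1 := hAdm.t0.δ1
  have hM : 1 ≤ pk.M := it_cb_pk0_M hle
  have hM0 : 0 < pk.M := hM
  have hL := it_cb_L_pos T h0 h1
  have hqp : 0 < q - p := by linarith
  have hX : 0 ≤ (q - p) * T.L := mul_nonneg hqp.le hL.le
  have rB := hReg' itsB (by simp) pk.M hM
  have rH := hReg' itsH (by simp) pk.M hM
  have rW := hReg' (itsW 0) (by simp) pk.M hM
  have rX := hReg' itsX2 (by simp) pk.M hM
  -- the residual of the boost: the angular mode `ℓ_0`
  have Lres : ∀ k, 1 ≤ k → k ≤ n →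
      T.LS pk.M p (itS p q n k) q [T.fld p itsX2] (T.fld p (itsW 0) :: [itsH].map (T.fld p)) a.m η1 := by
    refine G2 0 hM0 itsX2 [itsW 0, itsH] rX (by
      intro v hv
      simp only [List.mem_cons, List.not_mem_nil, or_false] at hv
      rcases hv with rfl | rfl
      exacts [rW, rH]) (by simp) ?_ ?_
    · intro v hv f Ξ
      simp only [List.mem_cons, List.not_mem_nil, or_false] at hv
      rcases hv with rfl | rfl
      · simp [itsW, itcW, itvEll, itDot]
      · simp [itsH, itcH, itvEll, itDot] <;> ring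
    · exact it_sk_one_nondeg T h0 h1 _ _ (it_sk_chi_pos p q n η1 hpq hn hη1) (by positivity) _ (by
        intro ω
        simp [Tan.fld, itsX2, itvEll, itDot])
  have hsupp : ∀ ω, T.P.p ω ≠ 0 → |(T.mrk 0 ω).th| ≤ A0 := fun ω hω => by
    have := (hAdm.t0.bdM ω hω 0 hM0).1
    linarith
  have LB := GB 0 hM0 itsX2 itsB (itsW 0) [itsH] (fun _ _ => 1) (fun _ Ξ => (Ξ 0).th) (fun ω => |(T.mrk 0 ω).th| ≤ A0) rX rB rW (by
      intro v hv
      simp only [List.mem_cons, List.not_mem_nil, or_false] at hv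
      subst hv
      exact ⟨rH, fun _ _ _ _ => rfl⟩) (by simp)
    (fun _ _ _ _ => rfl) (fun _ _ _ _ => rfl)
    (by
      intro ω e
      simpa using e)
    (fun f Ξ Ξ' e => ⟨rfl, by rw [e 0 hM0]⟩)
    (by
      intro f Ξ x
      simp [itsW, itcW, itsX2, itsB, itcB, itDot] <;> ring)
    (by
      rw [ent_pr_eq_zero]
      · exact hη1.le
      · rintro ω - ⟨-, hω⟩
        rw [abs_one] at hω
        exact absurd hω (not_lt.2 (it_sk_rpow_lt_one T h0 h1 _ (by positivity)).le))
    Lres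
    (by
      intro k k' hk hk'
      refine le_trans (ent_pr_mono _ fun ω _ hω => ?_) (G3 0 hM0 k k' hk hk')
      refine ⟨trivial, ?_⟩
      simpa only [div_one] using hω.2)
  have Lc : T.LS pk.M p q q [T.fld p (itsW 0)] ([itsH].map (T.fld p)) a.ls η' := by
    unfold Tan.LS
    refine le_trans (ent_pr_mono _ fun ω hω hlt => ?_) LB
    exact ⟨hsupp ω hω, hlt⟩
  have Ec := it_k_E_of_LS T h0 h1 pk.M p q hpq.le _ _ _ _ hη'0.le (min_le_right _ _) Lc
  simp only [List.map_cons, List.map_nil, it_s_fld_H, it_s_fld_W] at Ec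
  have hAr := it_l2_arith1 a.ls η η' ((q - p) * T.L) hls1 hη'0.le (min_le_left _ _) hX
  nlinarith

/-- (mix-l) 1 : `|x_0| ≥ n_*` -/
theorem it_l2_mix1 (a : ItPar) (ha : a.Ok) (hm : 0 < a.m) (hc : a.c < 1) (hν : 0 < a.ν) :
    ItLayer false false true a (fun T pk p q η => (a.ns - η) * (q - p) * T.L ≤ T.hh pk.M p q [T.cx p 0] []) := by
  intro η hη
  show ItLayerAt false false true a _
  refine it_cb_imp (it_cb_flags (av' := false) (cr' := true) (fun e => e) (fun e => by simp at e) (it_l2_xn a ha hm hc hν η hη))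
    1 one_pos ?_
  intro p q hp hpq _
  refine ⟨itPk0 0 1, 1, it_cb_pk0_pre 0 1 one_pos, one_pos, ?_⟩
  rintro pk acc τ κ0 T - - - - - - - - h
  exact h.trans (it_k_anti T pk.M p q [T.cx p 0] [] [T.fld p itsX, T.fld p itsB, T.cH p])

/-- (mix-l) 2 : `|π_0| ≥ 2 l_* + n_*`, from the exit `hH` of the sub-block H-WALK (`|H| ≥ l_*`, Lemma int:many-leg) -/
theorem it_l2_mix2 (a : ItPar) (ha : a.Ok) (hm : 0 < a.m) (hc : a.c < 1) (hν : 0 < a.ν)
    (hH : ItLayer false false false a (fun T pk p q η => (a.ls - η) * (q - p) * T.L ≤ T.hh pk.M p q [T.cH p] [])) :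
    ItLayer false false true a (fun T pk p q η => (2 * a.ls + a.ns - η) * (q - p) * T.L ≤ T.hh pk.M p q (T.rPi p 0) []) := by
  intro η hη
  show ItLayerAt false false true a _
  obtain ⟨hc0, hd0, hd1, hm0, hm1, hν0, hν1, -, hB0⟩ := id ha
  have hη4 : 0 < η / 4 := by positivity
  refine it_cb_imp (it_cb_flags (av' := false) (cr' := true) (fun e => e) (fun e => by simp at e)
    (it_cb_and (it_l2_xn a ha hm hc hν (η / 4) hη4) (it_cb_and (it_l2_WH a ha hm (η / 4) hη4) (hH (η / 4) hη4)))) 1 one_pos ?_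
  intro p q hp hpq _
  set A0 := a.B0 + 1 with hA0
  have hA01 : 1 ≤ A0 := by linarith
  set cst := (4 : ℝ) * Real.log (A0 * 3 + 2) with hcst
  refine ⟨itPk0 1 1, Real.exp (-(cst / (η / 4 * (q - p)))), it_cb_pk0_pre 1 1 one_pos, Real.exp_pos _, ?_⟩
  rintro pk acc τ κ0 T hpk hle hacc hacc1 hquad hAdm - - ⟨Gx, GW, GH⟩
  have h0 := hAdm.t0.δ0
  have h1 := hAdm.t0.δ1
  have hM : 1 ≤ pk.M := it_cb_pk0_M hle
  have hM0 : 0 < pk.M := hM
  have hL := it_cb_L_pos T h0 h1
  have hqp : 0 < q - p := by linarith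
  have hX : 0 ≤ (q - p) * T.L := mul_nonneg hqp.le hL.le
  have hPi : T.rPi p 0 = [T.cW 0, T.cH p, T.cx p 0] := rfl
  rw [hPi]
  -- chain rules
  have P1 := it_k_perm T pk.M p q [T.cW 0, T.cH p, T.cx p 0] [T.cx p 0, T.cW 0, T.cH p] [] []
    (by
      have : [T.cW 0, T.cH p, T.cx p 0] = [T.cW 0, T.cH p] ++ [T.cx p 0] := rfl
      rw [this]
      exact List.perm_append_comm) (List.Perm.refl _)
  have C1 := it_k_chain T pk.M p q [T.cx p 0] [T.cW 0, T.cH p] []
  have C2 := it_k_chain T pk.M p q [T.cW 0] [T.cH p] []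
  have An := it_k_anti T pk.M p q [T.cx p 0] [T.cW 0, T.cH p] [T.fld p itsX, T.fld p itsB]
  have C3 := it_k_chain T pk.M p q [T.cx p 0] [T.cW 0, T.cH p, T.fld p itsX, T.fld p itsB] []
  have C4 := it_k_chain T pk.M p q [T.cx p 0] [T.fld p itsX, T.fld p itsB, T.cH p] []
  have Mo := it_k_mono T pk.M p q [T.cx p 0, T.fld p itsX, T.fld p itsB, T.cH p] [T.cW 0] []
  have P2 := it_k_perm T pk.M p q ([T.cx p 0, T.fld p itsX, T.fld p itsB, T.cH p] ++ [T.cW 0])
    [T.cx p 0, T.cW 0, T.cH p, T.fld p itsX, T.fld p itsB] [] []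
    (it_l2_perm5 _ _ _ _ _) (List.Perm.refl _)
  have Lin := it_sk_lin T a pk hAdm.t0 p q A0 hp.le hA01 [itsX, itsB, itsH] [itsW 0, itsH, itsX, itsB] [] (by
    intro u hu
    simp only [List.mem_cons, List.not_mem_nil, or_false] at hu
    rcases hu with rfl | rfl | rfl | rfl
    · refine ⟨fun k _ Ξ => if k = 0 then (Ξ 0).th else if k = 1 then 1 else 0,
        fun k f Ξ Ξ' e => ?_, fun k f Ξ _ hb => ?_, fun f Ξ x => ?_⟩
      · simp only [e 0 hM0]
      · dsimp only
        have b0 := (hb 0 hM0).1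
        split_ifs
        · exact b0
        · simp; linarith
        · simp; linarith
      · simp [Finset.sum_range_succ, itsX, itcX, itsB, itcB, itsW, itcW, itDot]
    · refine ⟨fun k _ _ => if k = 2 then 1 else 0, fun _ _ _ _ _ => rfl, fun k f Ξ _ _ => ?_, fun f Ξ x => ?_⟩
      · dsimp only
        split_ifs <;> simp <;> linarith
      · simp [Finset.sum_range_succ]
    · refine ⟨fun k _ _ => if k = 0 then 1 else 0, fun _ _ _ _ _ => rfl, fun k f Ξ _ _ => ?_, fun f Ξ x => ?_⟩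
      · dsimp only
        split_ifs <;> simp <;> linarith
      · simp [Finset.sum_range_succ]
    · refine ⟨fun k _ _ => if k = 1 then 1 else 0, fun _ _ _ _ _ => rfl, fun k f Ξ _ _ => ?_, fun f Ξ x => ?_⟩
      · dsimp only
        split_ifs <;> simp <;> linarith
      · simp [Finset.sum_range_succ])
  have hcl := it_cb_const_le T acc cst (η / 4 * (q - p)) (by positivity) h0 hAdm.small hacc1
  simp only [List.map_cons, List.map_nil, it_s_fld_H, it_s_fld_W, List.cons_append, List.nil_append, List.append_nil,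
    List.length_cons, List.length_nil] at P1 C1 C2 An C3 C4 Mo P2 Lin
  push_cast at Lin
  norm_num at Lin
  nlinarith

/-- (mix-l) 3 : `α ≥ |π_0| + m + ν` -/
theorem it_l2_mix3 (a : ItPar) (ha : a.Ok) (hm : 0 < a.m) (hc : a.c < 1) (hν : 0 < a.ν) :
    ItLayer false false true a (fun T pk p q η =>
      T.hh pk.M p q (T.rPi p 0) [] + (a.m + a.ν - η) * (q - p) * T.L ≤ T.hF pk.M p q) := by
  intro η hη
  show ItLayerAt false false true a _
  obtain ⟨hc0, hd0, hd1, hm0, hm1, hν0, hν1, -, hB0⟩ := id ha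
  obtain ⟨A1, hA1, hReg⟩ := it_s_regU_list [itsN, itsX, itsW 0, itsH, itsxl 0] 1 a.B0 (by
    intro U hU
    simp only [List.mem_cons, List.not_mem_nil, or_false] at hU
    rcases hU with rfl | rfl | rfl | rfl | rfl
    exacts [it_s_regU_mono (by omega) (it_s_regU_N _), it_s_regU_mono (by omega) (it_s_regU_X _), it_s_regU_W 0 _,
      it_s_regU_mono (by omega) (it_s_regU_H _), it_s_regU_xl 0 _])
  set A0 := max A1 1 with hA0
  have hA01 : 1 ≤ A0 := le_max_right _ _
  have hReg' : ∀ U ∈ [itsN, itsX, itsW 0, itsH, itsxl 0], ∀ M, 1 ≤ M → ItSym.Reg U M a.B0 A0 := fun U hU M hM =>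
    it_s_reg_mono (le_max_left _ _) (hReg U hU M hM)
  set η' := min (η / 8) (min a.m a.ν) with hη'
  have hη'0 : 0 < η' := lt_min (by positivity) (lt_min hm hν)
  have F1 := it_mot_r false a ha hm hc A0 1 one_pos η' hη'0
  have F2 := it_mode_ang false a ha hm A0 1 one_pos η' hη'0
  refine it_cb_imp (it_cb_flags (av' := false) (cr' := true) (fun e => e) (fun e => by simp at e) (it_cb_and F1 F2)) 1 one_pos ?_
  intro p q hp hpq _
  set cst := (5 : ℝ) * Real.log (A0 * 6 + 2) with hcst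
  refine ⟨itPk0 1 1, Real.exp (-(cst / (η / 2 * (q - p)))), it_cb_pk0_pre 1 1 one_pos, Real.exp_pos _, ?_⟩
  rintro pk acc τ κ0 T hpk hle hacc hacc1 hquad hAdm - - ⟨G1, G2⟩
  have h0 := hAdm.t0.δ0
  have h1 := hAdm.t0.δ1
  have hM : 1 ≤ pk.M := it_cb_pk0_M hle
  have hM0 : 0 < pk.M := hM
  have hL := it_cb_L_pos T h0 h1
  have hqp : 0 < q - p := by linarith
  have hX : 0 ≤ (q - p) * T.L := mul_nonneg hqp.le hL.le
  have rN := hReg' itsN (by simp) pk.M hM
  have rX := hReg' itsX (by simp) pk.M hM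
  have rW := hReg' (itsW 0) (by simp) pk.M hM
  have rH := hReg' itsH (by simp) pk.M hM
  have rx := hReg' (itsxl 0) (by simp) pk.M hM
  -- `dN` reads the `r_0`-innovation, `(X, π_0)` held
  have La : T.LS pk.M p q q [T.fld p itsN] ([itsX, itsW 0, itsH, itsxl 0].map (T.fld p)) a.ν η' := by
    have := G1 0 hM0 itsN [itsX, itsW 0, itsH, itsxl 0] 1 (fun _ _ => 1) rN (fun _ _ _ _ _ _ => rfl) (by
      intro v hv
      simp only [List.mem_cons, List.not_mem_nil, or_false] at hv
      rcases hv with rfl | rfl | rfl | rfl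
      exacts [⟨rX, fun _ _ _ _ _ _ => rfl⟩, ⟨rW, fun f Ξ Ξ' _ e1 _ => by simp only [itsW, itcW, e1]⟩, ⟨rH, fun _ _ _ _ _ _ => rfl⟩,
        ⟨rx, fun f Ξ Ξ' _ e1 e2 => by simp only [itsxl, itcxl, e1, e2]⟩]) (by simp) (Or.inl rfl) (by
      intro v hv f Ξ A
      simp only [List.mem_cons, List.not_mem_nil, or_false] at hv
      rcases hv with rfl | rfl | rfl | rfl
      · simp [itsX, itcX, itvR, itDot]
      · simp [itsW, itcW, itvR, itDot]
      · simp [itsH, itcH, itvR, itDot]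
      · simp [itsxl, itcxl, itvR, itDot] <;> ring) (by
      intro f Ξ A
      simp [itsN, itcN, itvR, itDot])
      (it_sk_one_nondeg T h0 h1 _ _ (it_sk_chi_pos p q 1 η' hpq one_pos hη'0) (by positivity) _ (by intro ω; simp)) 1 le_rfl le_rfl
    rwa [it_sk_itS] at this
  -- the angular mode, `π_0` held
  have Lb : T.LS pk.M p q q [T.fld p itsX] ([itsW 0, itsH, itsxl 0].map (T.fld p)) a.m η' := by
    have := G2 0 hM0 itsX [itsW 0, itsH, itsxl 0] rX (by
      intro v hv
      simp only [List.mem_cons, List.not_mem_nil, or_false] at hv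
      rcases hv with rfl | rfl | rfl
      exacts [rW, rH, rx]) (by simp) (by
      intro v hv f Ξ
      simp only [List.mem_cons, List.not_mem_nil, or_false] at hv
      rcases hv with rfl | rfl | rfl
      · simp [itsW, itcW, itvEll, itDot]
      · simp [itsH, itcH, itvEll, itDot] <;> ring
      · simp [itsxl, itcxl, itvEll, itDot] <;> ring) (it_sk_one_nondeg T h0 h1 _ _ (it_sk_chi_pos p q 1 η' hpq one_pos hη'0) (by positivity) _ (by
      intro ω
      simp [Tan.fld, itsX, itcX, itvEll, itDot])) 1 le_rfl le_rfl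
    rwa [it_sk_itS] at this
  have Ea := it_k_E_of_LS T h0 h1 pk.M p q hpq.le _ _ _ _ hη'0.le ((min_le_right _ _).trans (min_le_right _ _)) La
  have Eb := it_k_E_of_LS T h0 h1 pk.M p q hpq.le _ _ _ _ hη'0.le ((min_le_right _ _).trans (min_le_left _ _)) Lb
  have hx : T.fld p (itsxl 0) = T.cx p 0 := it_s_fld_xl T p 0 hquad
  have C1 := it_k_chain T pk.M p q [T.fld p itsN] [T.fld p itsX, T.cW 0, T.cH p, T.cx p 0] []
  have C2 := it_k_chain T pk.M p q [T.fld p itsX] [T.cW 0, T.cH p, T.cx p 0] []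
  have Fle := it_sk_le_F T a pk hAdm.t0 p q A0 hp.le hpq.le hA01 [itsN, itsX, itsW 0, itsH, itsxl 0] (by
    intro u hu
    exact hReg' u hu pk.M hM)
  have hcl := it_cb_const_le T acc cst (η / 2 * (q - p)) (by positivity) h0 hAdm.small hacc1
  have hPi : T.rPi p 0 = [T.cW 0, T.cH p, T.cx p 0] := rfl
  rw [hPi]
  simp only [List.map_cons, List.map_nil, hx, it_s_fld_W, it_s_fld_H, List.cons_append, List.nil_append, List.append_nil,
    List.length_cons, List.length_nil] at Ea Eb C1 C2 Fle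
  have hAr1 := it_l2_arith1 a.ν (η / 2) η' ((q - p) * T.L) hν1 hη'0.le ((min_le_left _ _).trans (by linarith)) hX
  have hAr2 := it_l2_arith1 a.m (η / 2) η' ((q - p) * T.L) hm1 hη'0.le ((min_le_left _ _).trans (by linarith)) hX
  push_cast at Fle
  norm_num at Fle
  nlinarith

/-- the exit of H-WALK in lower-score form gives the expected form consumed by `it_l2_mix2` -/
theorem it_l2_H_of_LS (a : ItPar) (ha : a.Ok)
    (hLS : ItLayer false false false a (fun T pk p q η => T.LS pk.M p q q [T.cH p] [] a.ls η)) :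
    ItLayer false false false a (fun T pk p q η => (a.ls - η) * (q - p) * T.L ≤ T.hh pk.M p q [T.cH p] []) := by
  intro η hη
  show ItLayerAt false false false a _
  obtain ⟨hc0, hd0, hd1, hm0, hm1, -⟩ := id ha
  have hls0 : 0 < a.ls := lt_min one_pos (by linarith)
  have hls1 : a.ls ≤ 1 := min_le_left _ _
  set η' := min (η / 4) a.ls with hη'
  have hη'0 : 0 < η' := lt_min (by positivity) hls0
  refine it_cb_imp (hLS η' hη'0) 1 one_pos ?_
  intro p q hp hpq _
  refine ⟨itPk0 0 1, 1, it_cb_pk0_pre 0 1 one_pos, one_pos, ?_⟩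
  rintro pk acc τ κ0 T - - - - - hAdm - - h
  have h0 := hAdm.t0.δ0
  have h1 := hAdm.t0.δ1
  have hL := it_cb_L_pos T h0 h1
  have hX : 0 ≤ (q - p) * T.L := mul_nonneg (by linarith) hL.le
  have Ec := it_k_E_of_LS T h0 h1 pk.M p q hpq.le _ _ _ _ hη'0.le (min_le_right _ _) h
  have hAr := it_l2_arith1 a.ls η η' ((q - p) * T.L) hls1 hη'0.le (min_le_left _ _) hX
  nlinarith

/-- (mix-l) 2 from the lower-score form of H-WALK -/
theorem it_l2_mix2_LS (a : ItPar) (ha : a.Ok) (hm : 0 < a.m) (hc : a.c < 1) (hν : 0 < a.ν)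
    (hLS : ItLayer false false false a (fun T pk p q η => T.LS pk.M p q q [T.cH p] [] a.ls η)) :
    ItLayer false false true a (fun T pk p q η => (2 * a.ls + a.ns - η) * (q - p) * T.L ≤ T.hh pk.M p q (T.rPi p 0) []) :=
  it_l2_mix2 a ha hm hc hν (it_l2_H_of_LS a ha hLS)

end Claimed.Agent.R256
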