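import Claimed.Agent.R256.Int.SymKit
import Claimed.Agent.R256.Int.Meta

/-!
# Row 256, Sec. 5, block RL3: Proposition int:double (two time innovations), 05 l.896-950      (helper6; prefix `it_l3_`)

`it_l3_dbl1, it_l3_dbl2, it_l3_dbl3` = the statements `it_l_dbl1, it_l_dbl2, it_l_dbl3` of `Int/Contract.lean`, VERBATIM, proved from the tests `it_mot_two`, `it_mode_ang`, `it_boost`, `it_slope_time`
of `Int/Meta.lean` and the kit.   All identities of report 858 (1)c are checked by `ring` below.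
-/

set_option autoImplicit false
set_option linter.unreachableTactic false
set_option linter.unusedTactic false
set_option linter.unnecessarySeqFocus false

namespace Claimed.Agent.R256

open Claimed.Agent.R255
open Claimed.Agent.R255.FLaw (pair)
open scoped BigOperators
open Classical

/-- arithmetic of the tolerances: two lower scores `ρ1, ρ2 ≤ 2` at tolerance `η' ≤ η/10` -/
theorem it_l3_arith (ρ1 ρ2 η η' X : ℝ) (h1 : ρ1 ≤ 2) (h2 : ρ2 ≤ 2) (hη' : 0 ≤ η') (hη : η' ≤ η / 12) (hX : 0 ≤ X) :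
    (ρ1 + ρ2 - η / 2) * X ≤ (ρ1 - η') * (1 - η') * X + (ρ2 - η') * (1 - η') * X := by
  have : ρ1 + ρ2 - η / 2 ≤ (ρ1 - η') * (1 - η') + (ρ2 - η') * (1 - η') := by nlinarith
  nlinarith

/-- (double) 2 : `α - m - |x_0| ≥ 2d`  (`c = 1`) -/
theorem it_l3_dbl2 (a : ItPar) (ha : a.Ok) (hm : 0 < a.m) (hc : a.c = 1) :
    ItLayer false false true a (fun T pk p q η =>
      T.hh pk.M p q [T.cx p 0] [] + (a.m + 2 * a.d - η) * (q - p) * T.L ≤ T.hF pk.M p q) := by
  intro η hη
  show ItLayerAt false false true a _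
  obtain ⟨hc0, hd0, hd1, hm0, hm1, -⟩ := id ha
  obtain ⟨A1, hA1, hReg⟩ := it_s_regU_list [itsX, itsW 0, itsH, itsxl 0] 1 a.B0 (by
    intro U hU
    simp only [List.mem_cons, List.not_mem_nil, or_false] at hU
    rcases hU with rfl | rfl | rfl | rfl
    exacts [it_s_regU_mono (by omega) (it_s_regU_X _), it_s_regU_W 0 _, it_s_regU_mono (by omega) (it_s_regU_H _), it_s_regU_xl 0 _])
  set A0 := max A1 1 with hA0
  have hA01 : 1 ≤ A0 := le_max_right _ _
  have hReg' : ∀ U ∈ [itsX, itsW 0, itsH, itsxl 0], ∀ M, 1 ≤ M → ItSym.Reg U M a.B0 A0 := fun U hU M hM =>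
    it_s_reg_mono (le_max_left _ _) (hReg U hU M hM)
  set η' := min (η / 12) (min a.m (2 * a.d)) with hη'
  have hη'0 : 0 < η' := lt_min (by positivity) (lt_min hm (by positivity))
  have F1 := it_mot_two a ha hm true (Or.inl ⟨rfl, hc.ge⟩) A0 η' hη'0
  have F2 := it_mode_ang false a ha hm A0 1 one_pos η' hη'0
  refine it_cb_imp (it_cb_flags (av' := false) (cr' := true) (fun e => e) (fun e => by simp at e) (it_cb_and F1 F2)) 1 one_pos ?_
  intro p q hp hpq _
  set cst := (4 : ℝ) * Real.log (A0 * 6 + 2) with hcst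
  refine ⟨itPk0 1 1, Real.exp (-(cst / (η / 2 * (q - p)))), it_cb_pk0_pre 1 1 one_pos, Real.exp_pos _, ?_⟩
  rintro pk acc τ κ0 T hpk hle hacc hacc1 hquad hAdm - - ⟨G1, G2⟩
  have h0 := hAdm.t0.δ0
  have h1 := hAdm.t0.δ1
  have hM : 1 ≤ pk.M := it_cb_pk0_M hle
  have hM0 : 0 < pk.M := hM
  have hL := it_cb_L_pos T h0 h1
  have hX : 0 ≤ (q - p) * T.L := mul_nonneg (by linarith) hL.le
  have rX := hReg' itsX (by simp) pk.M hM
  have rW := hReg' (itsW 0) (by simp) pk.M hM
  have rH := hReg' itsH (by simp) pk.M hM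
  have rx := hReg' (itsxl 0) (by simp) pk.M hM
  -- the two tests
  have La : T.LS pk.M p q q [T.cW 0, T.cH p] ([itsxl 0].map (T.fld p)) (2 * a.d) η' := by
    refine G1 0 hM0 0 hM0 [itsxl 0] (by
      intro v hv
      simp only [List.mem_cons, List.not_mem_nil, or_false] at hv
      subst hv
      exact ⟨rx, fun f Ξ Ξ' _ e1 e2 => by simp only [itsxl, itcxl, e1, e2]⟩) (by simp) ?_
    intro v hv f Ξ A
    simp only [List.mem_cons, List.not_mem_nil, or_false] at hv
    subst hv
    constructor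
    · simp [itsxl, itcxl, itvTh, itDot] <;> ring
    · intro _
      simp [itsxl, itcxl, itvR, itDot] <;> ring
  have Lb : T.LS pk.M p q q [T.fld p itsX] ([itsW 0, itsH, itsxl 0].map (T.fld p)) a.m η' := by
    have := G2 0 hM0 itsX [itsW 0, itsH, itsxl 0] rX (by
      intro v hv
      simp only [List.mem_cons, List.not_mem_nil, or_false] at hv
      rcases hv with rfl | rfl | rfl
      exacts [rW, rH, rx]) (by simp) (by
      intro v hv f Ξ
      simp only [List.mem_cons, List.not_mem_nil, or_false] at hv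
      rcases hv with rfl | rfl | rfl
      · simp [itsW, itcW, itvEll, itDot]
      · simp [itsH, itcH, itvEll, itDot] <;> ring
      · simp [itsxl, itcxl, itvEll, itDot] <;> ring) (it_sk_one_nondeg T h0 h1 _ _ (it_sk_chi_pos p q 1 η' hpq one_pos hη'0) (by positivity) _ (by
      intro ω
      simp [Tan.fld, itsX, itcX, itvEll, itDot])) 1 le_rfl le_rfl
    rwa [it_sk_itS] at this
  have Ea := it_k_E_of_LS T h0 h1 pk.M p q hpq.le _ _ _ _ hη'0.le ((min_le_right _ _).trans (min_le_right _ _)) La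
  have Eb := it_k_E_of_LS T h0 h1 pk.M p q hpq.le _ _ _ _ hη'0.le ((min_le_right _ _).trans (min_le_left _ _)) Lb
  -- chain rule
  have hx : T.fld p (itsxl 0) = T.cx p 0 := it_s_fld_xl T p 0 hquad
  have C1 := it_k_chain T pk.M p q [T.fld p itsX] [T.cW 0, T.cH p, T.cx p 0] []
  have C2 := it_k_chain T pk.M p q [T.cW 0, T.cH p] [T.cx p 0] []
  have Fle := it_sk_le_F T a pk hAdm.t0 p q A0 hp.le hpq.le hA01 [itsX, itsW 0, itsH, itsxl 0] (by
    intro u hu
    exact hReg' u hu pk.M hM)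
  have hqp : 0 < q - p := by linarith
  have hcl := it_cb_const_le T acc cst (η / 2 * (q - p)) (by positivity) h0 hAdm.small hacc1
  simp only [List.map_cons, List.map_nil, hx, it_s_fld_W, it_s_fld_H, List.cons_append, List.nil_append, List.append_nil,
    List.length_cons, List.length_nil] at Ea Eb C1 C2 Fle
  have hAr := it_l3_arith (2 * a.d) a.m η η' ((q - p) * T.L) (by linarith) (by linarith) hη'0.le (min_le_left _ _) hX
  push_cast at Fle
  norm_num at Fle
  nlinarith

/-- (double) 3 : `α - m - |G_0| ≥ 2d`  (`c > 1`) -/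
theorem it_l3_dbl3 (a : ItPar) (ha : a.Ok) (hm : 0 < a.m) (hc : 1 < a.c) :
    ItLayer false false true a (fun T pk p q η =>
      T.hh pk.M p q (T.rG p 0) [] + (a.m + 2 * a.d - η) * (q - p) * T.L ≤ T.hF pk.M p q) := by
  intro η hη
  show ItLayerAt false false true a _
  obtain ⟨hc0, hd0, hd1, hm0, hm1, -⟩ := id ha
  obtain ⟨A1, hA1, hReg⟩ := it_s_regU_list [itsX, itsW 0, itsH, itsGa 0, itsGb 0] 1 a.B0 (by
    intro U hU
    simp only [List.mem_cons, List.not_mem_nil, or_false] at hU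
    rcases hU with rfl | rfl | rfl | rfl | rfl
    exacts [it_s_regU_mono (by omega) (it_s_regU_X _), it_s_regU_W 0 _, it_s_regU_mono (by omega) (it_s_regU_H _), it_s_regU_Ga 0 _,
      it_s_regU_Gb 0 _])
  set A0 := max A1 1 with hA0
  have hA01 : 1 ≤ A0 := le_max_right _ _
  have hReg' : ∀ U ∈ [itsX, itsW 0, itsH, itsGa 0, itsGb 0], ∀ M, 1 ≤ M → ItSym.Reg U M a.B0 A0 := fun U hU M hM =>
    it_s_reg_mono (le_max_left _ _) (hReg U hU M hM)
  set η' := min (η / 12) (min a.m (2 * a.d)) with hη'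
  have hη'0 : 0 < η' := lt_min (by positivity) (lt_min hm (by positivity))
  have F1 := it_mot_two a ha hm false (Or.inr ⟨rfl, Or.inr hc⟩) A0 η' hη'0
  have F2 := it_mode_ang false a ha hm A0 1 one_pos η' hη'0
  refine it_cb_imp (it_cb_flags (av' := false) (cr' := true) (fun e => e) (fun e => by simp at e) (it_cb_and F1 F2)) 1 one_pos ?_
  intro p q hp hpq _
  set cst := (5 : ℝ) * Real.log (A0 * 6 + 2) with hcst
  refine ⟨itPk0 1 1, Real.exp (-(cst / (η / 2 * (q - p)))), it_cb_pk0_pre 1 1 one_pos, Real.exp_pos _, ?_⟩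
  rintro pk acc τ κ0 T hpk hle hacc hacc1 hquad hAdm - - ⟨G1, G2⟩
  have h0 := hAdm.t0.δ0
  have h1 := hAdm.t0.δ1
  have hM : 1 ≤ pk.M := it_cb_pk0_M hle
  have hM0 : 0 < pk.M := hM
  have hL := it_cb_L_pos T h0 h1
  have hX : 0 ≤ (q - p) * T.L := mul_nonneg (by linarith) hL.le
  have rX := hReg' itsX (by simp) pk.M hM
  have rW := hReg' (itsW 0) (by simp) pk.M hM
  have rH := hReg' itsH (by simp) pk.M hM
  have ra := hReg' (itsGa 0) (by simp) pk.M hM
  have rb := hReg' (itsGb 0) (by simp) pk.M hM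
  have La : T.LS pk.M p q q [T.cW 0, T.cH p] ([itsGa 0, itsGb 0].map (T.fld p)) (2 * a.d) η' := by
    refine G1 0 hM0 0 hM0 [itsGa 0, itsGb 0] (by
      intro v hv
      simp only [List.mem_cons, List.not_mem_nil, or_false] at hv
      rcases hv with rfl | rfl
      exacts [⟨ra, fun f Ξ Ξ' _ e1 e2 => by simp only [itsGa, itcGa, e2]⟩,
        ⟨rb, fun f Ξ Ξ' _ e1 e2 => by simp only [itsGb, itcGb, e2]⟩]) (by simp) ?_
    intro v hv f Ξ A
    simp only [List.mem_cons, List.not_mem_nil, or_false] at hv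
    rcases hv with rfl | rfl
    · exact ⟨by simp [itsGa, itcGa, itvTh, itDot] <;> ring, fun e => by simp at e⟩
    · exact ⟨by simp [itsGb, itcGb, itvTh, itDot] <;> ring, fun e => by simp at e⟩
  have Lb : T.LS pk.M p q q [T.fld p itsX] ([itsW 0, itsH, itsGa 0, itsGb 0].map (T.fld p)) a.m η' := by
    have := G2 0 hM0 itsX [itsW 0, itsH, itsGa 0, itsGb 0] rX (by
      intro v hv
      simp only [List.mem_cons, List.not_mem_nil, or_false] at hv
      rcases hv with rfl | rfl | rfl | rfl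
      exacts [rW, rH, ra, rb]) (by simp) (by
      intro v hv f Ξ
      simp only [List.mem_cons, List.not_mem_nil, or_false] at hv
      rcases hv with rfl | rfl | rfl | rfl
      · simp [itsW, itcW, itvEll, itDot]
      · simp [itsH, itcH, itvEll, itDot] <;> ring
      · simp [itsGa, itcGa, itvEll, itDot] <;> ring
      · simp [itsGb, itcGb, itvEll, itDot] <;> ring) (it_sk_one_nondeg T h0 h1 _ _ (it_sk_chi_pos p q 1 η' hpq one_pos hη'0) (by positivity) _ (by
      intro ω
      simp [Tan.fld, itsX, itcX, itvEll, itDot])) 1 le_rfl le_rfl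
    rwa [it_sk_itS] at this
  have Ea := it_k_E_of_LS T h0 h1 pk.M p q hpq.le _ _ _ _ hη'0.le ((min_le_right _ _).trans (min_le_right _ _)) La
  have Eb := it_k_E_of_LS T h0 h1 pk.M p q hpq.le _ _ _ _ hη'0.le ((min_le_right _ _).trans (min_le_left _ _)) Lb
  have hG : T.rG p 0 = [T.fld p (itsGa 0), T.fld p (itsGb 0)] := (it_s_fld_Gl T p 0 hquad).symm
  have C1 := it_k_chain T pk.M p q [T.fld p itsX] [T.cW 0, T.cH p, T.fld p (itsGa 0), T.fld p (itsGb 0)] []
  have C2 := it_k_chain T pk.M p q [T.cW 0, T.cH p] [T.fld p (itsGa 0), T.fld p (itsGb 0)] []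
  have Fle := it_sk_le_F T a pk hAdm.t0 p q A0 hp.le hpq.le hA01 [itsX, itsW 0, itsH, itsGa 0, itsGb 0] (by
    intro u hu
    exact hReg' u hu pk.M hM)
  have hqp : 0 < q - p := by linarith
  have hcl := it_cb_const_le T acc cst (η / 2 * (q - p)) (by positivity) h0 hAdm.small hacc1
  rw [hG]
  simp only [List.map_cons, List.map_nil, it_s_fld_W, it_s_fld_H, List.cons_append, List.nil_append, List.append_nil,
    List.length_cons, List.length_nil] at Ea Eb C1 C2 Fle
  have hAr := it_l3_arith (2 * a.d) a.m η η' ((q - p) * T.L) (by linarith) (by linarith) hη'0.le (min_le_left _ _) hX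
  push_cast at Fle
  nlinarith

/-- `V = dD + θ_0 dN - r_1 W_0` -/
def itsV3 : ItSym := fun _ Ξ => ⟨-(Ξ 1).r * (Ξ 0).th, -(Ξ 1).r, 0, 0, (Ξ 0).th, 1⟩

/-- `-(dN - r_1 dX)` -/
def itsU3 : ItSym := fun _ Ξ => ⟨(Ξ 1).r, 0, 0, 0, -1, 0⟩

theorem it_l3_eqns_cite : True := by
  have := @itsV3.eq_1; have := @itsU3.eq_1
  trivial

theorem it_l3_regU_V (B0 : ℝ) : ItSym.RegU itsV3 2 B0 := by
  apply it_s_reg_mk <;> dsimp only [itsV3] <;>
    repeat' first
      | exact it_s_c_const _ _ _ | exact it_s_c_th _ _ (by omega) _ | exact it_s_c_r _ _ (by omega) _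
      | apply it_s_c_add | apply it_s_c_sub | apply it_s_c_mul | apply it_s_c_neg

theorem it_l3_regU_U (B0 : ℝ) : ItSym.RegU itsU3 2 B0 := by
  apply it_s_reg_mk <;> dsimp only [itsU3] <;>
    repeat' first
      | exact it_s_c_const _ _ _ | exact it_s_c_th _ _ (by omega) _ | exact it_s_c_r _ _ (by omega) _
      | apply it_s_c_add | apply it_s_c_sub | apply it_s_c_mul | apply it_s_c_neg

/-- (double) 1 : `|π_0| ≥ 2d + l_*`  (`c < 1`, `ν = 0`) -/
theorem it_l3_dbl1 (a : ItPar) (ha : a.Ok) (hm : 0 < a.m) (hc : a.c < 1) (hν : a.ν = 0) :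
    ItLayer false false true a (fun T pk p q η => (2 * a.d + a.ls - η) * (q - p) * T.L ≤ T.hh pk.M p q (T.rPi p 0) []) := by
  intro η hη
  show ItLayerAt false false true a _
  obtain ⟨hc0, hd0, hd1, hm0, hm1, -, -, -, hB0⟩ := id ha
  obtain ⟨A1, hA1, hReg⟩ := it_s_regU_list [itsW 0, itsH, itsxl 0, itsV3, itsU3, itsGb 1] 2 a.B0 (by
    intro U hU
    simp only [List.mem_cons, List.not_mem_nil, or_false] at hU
    rcases hU with rfl | rfl | rfl | rfl | rfl | rfl
    exacts [it_s_regU_mono (by omega) (it_s_regU_W 0 _), it_s_regU_mono (by omega) (it_s_regU_H _),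
      it_s_regU_mono (by omega) (it_s_regU_xl 0 _), it_l3_regU_V _, it_l3_regU_U _, it_s_regU_Gb 1 _])
  set A0 := max A1 (2 * (a.B0 + 1)) with hA0
  have hA01 : 1 ≤ A0 := le_trans (by linarith) (le_max_right _ _)
  have hA0B : 2 * (a.B0 + 1) ≤ A0 := le_max_right _ _
  have hReg' : ∀ U ∈ [itsW 0, itsH, itsxl 0, itsV3, itsU3, itsGb 1], ∀ M, 2 ≤ M → ItSym.Reg U M a.B0 A0 := fun U hU M hM =>
    it_s_reg_mono (le_max_left _ _) (hReg U hU M hM)
  set η' := min (η / 12) (min a.m (2 * a.d)) with hη'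
  have hη'0 : 0 < η' := lt_min (by positivity) (lt_min hm (by positivity))
  obtain ⟨n, η1, hn, hη1, FB⟩ := it_boost false a ha A0 a.m a.d hm hm1 hd0 hd1 η' hη'0
  have F1 := it_mot_two a ha hm false (Or.inr ⟨rfl, Or.inl ⟨hc, hν⟩⟩) A0 η' hη'0
  have F2 := it_mode_ang false a ha hm A0 n hn η1 hη1
  have F3 := it_slope_time false a ha n hn η1 hη1
  refine it_cb_imp (it_cb_flags (av' := false) (cr' := true) (fun e => e) (fun e => by simp at e)
    (it_cb_and (it_cb_and F1 F2) (it_cb_and F3 FB))) 1 one_pos ?_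
  intro p q hp hpq _
  set cst := (3 : ℝ) * Real.log (A0 * 3 + 2) with hcst
  have hχ := it_sk_chi_pos p q n η1 hpq hn hη1
  refine ⟨itPk0 2 (itChi p q n η1), min (Real.exp (-(cst / (η / 2 * (q - p))))) (η1 / 2), it_cb_pk0_pre 2 _ hχ,
    lt_min (Real.exp_pos _) (by positivity), ?_⟩
  rintro pk acc τ κ0 T hpk hle hacc hacc1 hquad hAdm - hCr ⟨⟨G1, G2⟩, G3, GB⟩
  have hCr := hCr rfl
  have h0 := hAdm.t0.δ0
  have h1 := hAdm.t0.δ1
  have hM : 2 ≤ pk.M := it_cb_pk0_M hle
  have hM0 : 0 < pk.M := by omega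
  have hM1 : 1 < pk.M := by omega
  have hL := it_cb_L_pos T h0 h1
  have hqp : 0 < q - p := by linarith
  have hX : 0 ≤ (q - p) * T.L := mul_nonneg hqp.le hL.le
  have rW := hReg' (itsW 0) (by simp) pk.M hM
  have rH := hReg' itsH (by simp) pk.M hM
  have rx := hReg' (itsxl 0) (by simp) pk.M hM
  have rV := hReg' itsV3 (by simp) pk.M hM
  have rU := hReg' itsU3 (by simp) pk.M hM
  have rb := hReg' (itsGb 1) (by simp) pk.M hM
  -- two time innovations
  have La : T.LS pk.M p q q [T.cW 0, T.cH p] ([itsV3].map (T.fld p)) (2 * a.d) η' := by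
    refine G1 0 hM0 1 hM1 [itsV3] (by
      intro v hv
      simp only [List.mem_cons, List.not_mem_nil, or_false] at hv
      subst hv
      exact ⟨rV, fun f Ξ Ξ' e0 e1 e2 => by simp only [itsV3, e0 0 (by omega), e2]⟩) (by simp) ?_
    intro v hv f Ξ A
    simp only [List.mem_cons, List.not_mem_nil, or_false] at hv
    subst hv
    exact ⟨by simp [itsV3, itvTh, itDot] <;> ring, fun e => by simp at e⟩
  -- the residual of the boost
  have Lres : ∀ k, 1 ≤ k → k ≤ n → T.LS pk.M p (itS p q n k) q [T.fld p itsU3] (T.fld p itsV3 :: ([] : List ItSym).map (T.fld p)) a.m η1 := by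
    refine G2 0 hM0 itsU3 [itsV3] rU (by simpa using rV) (by simp) ?_ ?_
    · intro v hv f Ξ
      simp only [List.mem_cons, List.not_mem_nil, or_false] at hv
      subst hv
      simp [itsV3, itvEll, itDot] <;> ring
    · refine le_trans (ent_pr_mono _ fun ω _ hω => ?_) (hCr.trans (hacc1.trans (min_le_right _ _)))
      have e : itDot (T.fld p itsU3 ω) (itvEll false (T.f0 p ω) (T.mrk 0 ω)) = -((T.mrk 0 ω).r - (T.mrk 1 ω).r) := by
        simp [Tan.fld, itsU3, itvEll, itDot] <;> ring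
      rw [e, abs_neg] at hω
      exact lt_of_lt_of_le hω (Real.rpow_le_rpow_of_exponent_ge h0 h1.le (it_cb_pk0_chi hle))
  -- the boost
  have hsupp : ∀ ω, T.P.p ω ≠ 0 → |(T.mrk 0 ω).th| ≤ A0 := fun ω hω => by
    have := (hAdm.t0.bdM ω hω 0 hM0).1
    linarith
  have LB := GB 0 hM0 itsU3 (itsGb 1) itsV3 [] (fun _ _ => 1) (fun _ Ξ => (Ξ 0).th) (fun ω => |(T.mrk 0 ω).th| ≤ A0) rU rb rV (by simp) (by simp)
    (by
      intro f Ξ Ξ' e
      simp only [itsU3, e 1 (by omega)])
    (by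
      intro f Ξ Ξ' e
      simp only [itsGb, e 1 (by omega)])
    (by
      intro ω e
      simpa using e)
    (fun f Ξ Ξ' e => ⟨rfl, by rw [e 0 hM0]⟩)
    (by
      intro f Ξ x
      simp [itsV3, itsU3, itsGb, itcGb, itDot] <;> ring)
    (by
      rw [ent_pr_eq_zero]
      · exact hη1.le
      · rintro ω - ⟨-, hω⟩
        rw [abs_one] at hω
        exact absurd hω (not_lt.2 (it_sk_rpow_lt_one T h0 h1 _ (by positivity)).le))
    Lres
    (by
      intro k k' hk hk'
      refine le_trans (ent_pr_mono _ fun ω _ hω => ?_) (G3 0 hM0 k k' hk hk')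
      refine ⟨trivial, ?_⟩
      simpa only [div_one] using hω.2)
  have Lc : T.LS pk.M p q q [T.fld p itsV3] [] a.ls η' := by
    unfold Tan.LS
    refine le_trans (ent_pr_mono _ fun ω hω hlt => ?_) LB
    exact ⟨hsupp ω hω, hlt⟩
  have hls : a.m ≤ a.ls := le_min hm1 (by linarith)
  have hls2 : a.ls ≤ 2 := (min_le_left _ _).trans (by norm_num)
  have Ea := it_k_E_of_LS T h0 h1 pk.M p q hpq.le _ _ _ _ hη'0.le ((min_le_right _ _).trans (min_le_right _ _)) La
  have Ec := it_k_E_of_LS T h0 h1 pk.M p q hpq.le _ _ _ _ hη'0.le (((min_le_right _ _).trans (min_le_left _ _)).trans hls) Lc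
  have hx : T.fld p (itsxl 0) = T.cx p 0 := it_s_fld_xl T p 0 hquad
  have C2 := it_k_chain T pk.M p q [T.cW 0, T.cH p] [T.fld p itsV3] []
  have Lin := it_sk_lin T a pk hAdm.t0 p q A0 hp.le hA01 [itsW 0, itsH, itsxl 0] [itsW 0, itsH, itsV3] [] (by
    intro u hu
    simp only [List.mem_cons, List.not_mem_nil, or_false] at hu
    rcases hu with rfl | rfl | rfl
    · refine ⟨fun k _ _ => if k = 0 then 1 else 0, fun _ _ _ _ _ => rfl, fun k f Ξ _ _ => ?_, fun f Ξ x => ?_⟩
      · dsimp only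
        split_ifs <;> simp <;> linarith
      · simp [Finset.sum_range_succ]
    · refine ⟨fun k _ _ => if k = 1 then 1 else 0, fun _ _ _ _ _ => rfl, fun k f Ξ _ _ => ?_, fun f Ξ x => ?_⟩
      · dsimp only
        split_ifs <;> simp <;> linarith
      · simp [Finset.sum_range_succ]
    · refine ⟨fun k _ Ξ => if k = 0 then (Ξ 0).r - (Ξ 1).r else if k = 1 then 0 else 1, fun k f Ξ Ξ' e => ?_, fun k f Ξ _ hb => ?_,
        fun f Ξ x => ?_⟩
      · simp only [e 0 hM0, e 1 hM1]
      · dsimp only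
        have b0 := (hb 0 hM0).2.1
        have b1 := (hb 1 hM1).2.1
        split_ifs
        · calc |(Ξ 0).r - (Ξ 1).r| ≤ |(Ξ 0).r| + |(Ξ 1).r| := abs_sub _ _
            _ ≤ A0 := by linarith
        · simp; linarith
        · simp; linarith
      · simp [Finset.sum_range_succ, itsV3, itsW, itcW, itsxl, itcxl, itsH, itDot] <;> ring)
  have hcl := it_cb_const_le T acc cst (η / 2 * (q - p)) (by positivity) h0 hAdm.small (hacc1.trans (min_le_left _ _))
  have hPi : T.rPi p 0 = [T.cW 0, T.cH p, T.cx p 0] := rfl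
  rw [hPi]
  simp only [List.map_cons, List.map_nil, hx, it_s_fld_W, it_s_fld_H, List.cons_append, List.nil_append, List.append_nil,
    List.length_cons, List.length_nil] at Ea Ec C2 Lin
  have hAr := it_l3_arith (2 * a.d) a.ls η η' ((q - p) * T.L) (by linarith) hls2 hη'0.le (min_le_left _ _) hX
  push_cast at Lin
  nlinarith

end Claimed.Agent.R256
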