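import Claimed.Agent.R256.Int.Rq2
import Claimed.Agent.R256.Int.RadTan
import Claimed.Agent.R256.Int.SymKit
import Claimed.Agent.R256.Int.BinLA

/-!
# Row 256, Sec. 5, rate block RQ1 (quadratic case: centre, horizontal part, the pair `G_0, G_1`)      (helper172; prefix `it_q1_`)

Exits, VERBATIM the stubs of `Int/Rates.lean`:
 * `it_q1_centre` = `it_q_centre`  : `|C_z| - |x_0| ≥ m + l_*`
 * `it_q1_hor`    = `it_q_hor`     : `α - |C_z| ≥ 2m + l_*`
 * `it_q1_G1`     = `it_q_G1`      : `|G_0| ≥ 2m + |x_0|`      (`c > 1`)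
 * `it_q1_G2`     = `it_q_G2`      : `2 |G_0| ≥ α - 1`         (`c > 1`)
Tools: `it_q1_ci_sup` (sup over a conditionally independent record), `it_q1_line_sep` (line avoidance with a line chosen by the OTHER records), `it_q1_sep_k/_k1/_th/_r` (separations of the pair of marks `0, 1`),
`itPkG u` (package requirement: `u` is a grid depth), `itAccA` (accuracy at which the bound of `Avoid` is `≤ ε`), `it_q1_rboost` (boost with the hereditary radial slopes, both charts at once).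
Meta tests used: `it_mode_com`, `it_mode_ang`, `it_boost`, `it_slope_rad`.   (Gq) 2 uses the linear algebra `it_n_la_main1/2` of `Int/BinLA.lean` (helper267).
-/

set_option autoImplicit false
set_option linter.unreachableTactic false
set_option linter.unusedTactic false

namespace Claimed.Agent.R256

open Claimed.Agent.R255
open Claimed.Agent.R255.FLaw (pair)
open scoped BigOperators
open Classical

/-- SUP OVER THE INDEPENDENT RECORD.  `X ⊥ V | Z`: an event `Φ (X, V, Z)` is at most as likely as `Φ (X, v*(Z), Z)` for the worst value `v*` chosen by `Z`. -/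
theorem it_q1_ci_sup {Ω μ β ζ : Type} [Fintype Ω] (P : FLaw Ω) (X : Ω → μ) (V : Ω → β) (Z : Ω → ζ) (h : P.CI X V Z)
    (Φ : μ → β → ζ → Prop) :
    ∃ vs : ζ → β, P.pr (fun ω => Φ (X ω) (V ω) (Z ω)) ≤ P.pr (fun ω => Φ (X ω) (vs (Z ω)) (Z ω)) := by
  obtain ⟨ω₁, _⟩ := ent_exists_supp P
  obtain ⟨SV, hSV⟩ : ∃ SV : Finset β, SV = Finset.univ.image V := ⟨_, rfl⟩
  obtain ⟨SZ, hSZ⟩ : ∃ SZ : Finset ζ, SZ = Finset.univ.image Z := ⟨_, rfl⟩
  have hne : SV.Nonempty := ⟨V ω₁, by rw [hSV]; exact Finset.mem_image_of_mem _ (Finset.mem_univ _)⟩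
  obtain ⟨g, hg⟩ : ∃ g : ζ → β → ℝ, g = fun z v => P.pr (fun ω => Φ (X ω) v z ∧ Z ω = z) := ⟨_, rfl⟩
  have hmax : ∀ z, ∃ v ∈ SV, ∀ v' ∈ SV, g z v' ≤ g z v := fun z => Finset.exists_max_image SV (g z) hne
  choose vs hvs1 hvs2 using hmax
  refine ⟨vs, ?_⟩
  rw [ent_pr_sum_values P _ Z SZ (fun ω _ _ => by rw [hSZ]; exact Finset.mem_image_of_mem _ (Finset.mem_univ _)),
    ent_pr_sum_values P (fun ω => Φ (X ω) (vs (Z ω)) (Z ω)) Z SZ
      (fun ω _ _ => by rw [hSZ]; exact Finset.mem_image_of_mem _ (Finset.mem_univ _))]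
  refine Finset.sum_le_sum fun z _ => ?_
  have e2 : P.pr (fun ω => Φ (X ω) (vs (Z ω)) (Z ω) ∧ Z ω = z) = g z (vs z) := by
    rw [hg]
    refine ent_pr_congr P fun ω _ => ⟨fun hh => ?_, fun hh => ?_⟩
    · obtain ⟨h1, h2⟩ := hh
      subst h2
      exact ⟨h1, rfl⟩
    · obtain ⟨h1, h2⟩ := hh
      subst h2
      exact ⟨h1, rfl⟩
  rw [e2, ent_pr_sum_values P _ V SV (fun ω _ _ => by rw [hSV]; exact Finset.mem_image_of_mem _ (Finset.mem_univ _))]
  obtain ⟨π, hπ⟩ : ∃ π, π = P.pr (fun ω => Z ω = z) := ⟨_, rfl⟩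
  have hπ0 : 0 ≤ π := hπ ▸ ent_pr_nonneg _ _
  rcases hπ0.eq_or_lt with h0 | hpos
  · refine le_trans (le_of_eq (Finset.sum_eq_zero fun v _ => ?_)) (by rw [hg]; exact ent_pr_nonneg _ _)
    refine le_antisymm ?_ (ent_pr_nonneg _ _)
    rw [h0, hπ]
    exact ent_pr_mono P fun ω _ hh => hh.1.2
  · have hterm : ∀ v ∈ SV, P.pr (fun ω => (Φ (X ω) (V ω) (Z ω) ∧ Z ω = z) ∧ V ω = v)
        ≤ g z (vs z) * (P.pr (fun ω => V ω = v ∧ Z ω = z) / π) := by
      intro v hv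
      have hci := ent_ci_comp P X V Z h (fun x _ => Φ x v z) (fun v' _ => v') True v z
      have e3 : P.pr (fun ω => (Φ (X ω) (V ω) (Z ω) ∧ Z ω = z) ∧ V ω = v)
          = P.pr (fun ω => Φ (X ω) v z = True ∧ V ω = v ∧ Z ω = z) := by
        refine ent_pr_congr P fun ω _ => ⟨fun hh => ?_, fun hh => ?_⟩
        · obtain ⟨⟨h1, h2⟩, h3⟩ := hh
          subst h2 h3
          exact ⟨eq_true h1, rfl, rfl⟩
        · obtain ⟨h1, h2, h3⟩ := hh
          subst h2 h3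
          exact ⟨⟨of_eq_true h1, rfl⟩, rfl⟩
      have e4 : P.pr (fun ω => Φ (X ω) v z = True ∧ Z ω = z) = g z v := by
        rw [hg]
        exact ent_pr_congr P fun ω _ => by simp
      rw [e3]
      rw [e4, ← hπ] at hci
      have h5 : P.pr (fun ω => Φ (X ω) v z = True ∧ V ω = v ∧ Z ω = z) = g z v * (P.pr (fun ω => V ω = v ∧ Z ω = z) / π) := by
        field_simp
        exact hci
      rw [h5]
      exact mul_le_mul_of_nonneg_right (hvs2 z v hv) (div_nonneg (ent_pr_nonneg _ _) hπ0)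
    refine (Finset.sum_le_sum hterm).trans ?_
    rw [← Finset.mul_sum, ← Finset.sum_div]
    have e5 : ∑ v ∈ SV, P.pr (fun ω => V ω = v ∧ Z ω = z) = π := by
      rw [hπ, ent_pr_sum_values P (fun ω => Z ω = z) V SV (fun ω _ _ => by rw [hSV]; exact Finset.mem_image_of_mem _ (Finset.mem_univ _))]
      exact Finset.sum_congr rfl fun v _ => ent_pr_congr P fun ω _ => and_comm
    rw [e5, div_self hpos.ne', mul_one]

/-- LINE SEPARATION.  The planar mark of the record `j` avoids every line chosen by the side and the OTHER records (`Avoid` + conditional independence + identical laws). -/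
theorem it_q1_line_sep (T : Tan) (a : ItPar) (pk : ItPk) (acc : ℝ) (h0 : T.Adm0 a pk) (hav : T.Avoid a pk acc) (j : ℕ) (hj : j < pk.M)
    (u : ℝ) (hu : u ∈ pk.G) (a1 b1 g1 : T.ζ → (Fin pk.M → ItMk) → ℝ) (hn : ∀ z v, 1 ≤ a1 z v ^ 2 + b1 z v ^ 2) :
    T.P.pr (fun ω => |a1 (T.Zs ω) (T.XiE pk.M j ω) * (T.mrk j ω).th + b1 (T.Zs ω) (T.XiE pk.M j ω) * (T.mrk j ω).r
      - g1 (T.Zs ω) (T.XiE pk.M j ω)| ≤ T.δ ^ u) ≤ T.δ ^ (a.e0 * u - acc) := by
  have hM : 0 < pk.M := by omega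
  obtain ⟨vs, hvs⟩ := it_q1_ci_sup T.P (T.mrk j) (T.XiE pk.M j) T.Zs (it_r_ci T a pk h0 j hj)
    (fun μ v z => |a1 z v * μ.th + b1 z v * μ.r - g1 z v| ≤ T.δ ^ u)
  refine hvs.trans ?_
  have hid := (it_r_ident (α' := Unit) (β' := Unit) T.P T.Zs (T.mrk j) (T.mrk 0) (fun z v => h0.ident z v j hj 0 hM)).1
    (fun z μ => |a1 z (vs z) * μ.th + b1 z (vs z) * μ.r - g1 z (vs z)| ≤ T.δ ^ u)
  rw [hid]
  obtain ⟨N, hN⟩ : ∃ N : T.ζ → ℝ, N = fun z => Real.sqrt (a1 z (vs z) ^ 2 + b1 z (vs z) ^ 2) := ⟨_, rfl⟩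
  have hN1 : ∀ z, 1 ≤ N z := fun z => by
    rw [hN]
    exact Real.one_le_sqrt.2 (hn z (vs z))
  have hN2 : ∀ z, N z ^ 2 = a1 z (vs z) ^ 2 + b1 z (vs z) ^ 2 := fun z => by
    rw [hN]
    exact Real.sq_sqrt (by linarith [hn z (vs z)])
  refine le_trans (ent_pr_mono T.P fun ω _ hω => ?_)
    (hav u hu (fun z => a1 z (vs z) / N z) (fun z => b1 z (vs z) / N z) (fun z => g1 z (vs z) / N z) (fun z => by
      have := hN1 z
      rw [div_pow, div_pow, ← add_div, ← hN2 z]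
      exact div_self (by positivity)))
  have hp : 0 < N (T.Zs ω) := by linarith [hN1 (T.Zs ω)]
  have e : a1 (T.Zs ω) (vs (T.Zs ω)) / N (T.Zs ω) * (T.mrk 0 ω).th + b1 (T.Zs ω) (vs (T.Zs ω)) / N (T.Zs ω) * (T.mrk 0 ω).r
      - g1 (T.Zs ω) (vs (T.Zs ω)) / N (T.Zs ω)
      = (a1 (T.Zs ω) (vs (T.Zs ω)) * (T.mrk 0 ω).th + b1 (T.Zs ω) (vs (T.Zs ω)) * (T.mrk 0 ω).r - g1 (T.Zs ω) (vs (T.Zs ω))) / N (T.Zs ω) := by
    field_simp
  rw [e, abs_div, abs_of_pos hp]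
  exact (div_le_self (abs_nonneg _) (hN1 _)).trans hω

/-- the record `1` avoids the lines chosen by the record `0` -/
theorem it_q1_sep01 (T : Tan) (a : ItPar) (pk : ItPk) (hpk : pk.Ok) (acc : ℝ) (h0 : T.Adm0 a pk) (hav : T.Avoid a pk acc)
    (u : ℝ) (hu : u ∈ pk.G) (A B G : ItMk → ℝ) (hn : ∀ μ, 1 ≤ A μ ^ 2 + B μ ^ 2) :
    T.P.pr (fun ω => |A (T.mrk 0 ω) * (T.mrk 1 ω).th + B (T.mrk 0 ω) * (T.mrk 1 ω).r - G (T.mrk 0 ω)| < T.δ ^ u)
      ≤ T.δ ^ (a.e0 * u - acc) := by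
  have hM0 : 0 < pk.M := by have := hpk.1; omega
  have hM1 : 1 < pk.M := by have := hpk.1; omega
  refine le_trans (ent_pr_mono T.P fun ω _ hω => ?_) (it_q1_line_sep T a pk acc h0 hav 1 hM1 u hu
    (fun _ v => A (v ⟨0, hM0⟩)) (fun _ v => B (v ⟨0, hM0⟩)) (fun _ v => G (v ⟨0, hM0⟩)) (fun _ v => hn _))
  have e : T.XiE pk.M 1 ω ⟨0, hM0⟩ = T.mrk 0 ω := by simp [Tan.XiE]
  simp only [e]
  exact hω.le

/-- `δ^c ≤ ε` at sufficient accuracy -/
theorem it_q1_small (δ acc c ε : ℝ) (h0 : 0 < δ) (h : δ < acc) (hc : 0 < c) (hε : 0 < ε) (hacc : acc ≤ ε ^ (1 / c)) : δ ^ c ≤ ε := by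
  calc δ ^ c ≤ acc ^ c := Real.rpow_le_rpow h0.le h.le hc.le
    _ ≤ (ε ^ (1 / c)) ^ c := Real.rpow_le_rpow (h0.trans h).le hacc hc.le
    _ = ε := by rw [← Real.rpow_mul hε.le, one_div, inv_mul_cancel₀ hc.ne', Real.rpow_one]

/-- the bound of `Avoid` is `≤ ε` at sufficient accuracy -/
theorem it_q1_avoid_small (δ acc e0 u ε : ℝ) (h0 : 0 < δ) (h1 : δ < 1) (h : δ < acc) (he : 0 < e0) (hu : 0 < u) (hε : 0 < ε)
    (hacc1 : acc ≤ e0 * u / 2) (hacc : acc ≤ ε ^ (1 / (e0 * u / 2))) : δ ^ (e0 * u - acc) ≤ ε :=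
  (Real.rpow_le_rpow_of_exponent_ge h0 h1.le (by linarith)).trans
    (it_q1_small δ acc (e0 * u / 2) ε h0 h (by positivity) hε hacc)

/-! ## (Gq) 1 -/

theorem it_q1_Snn (p q : ℝ) (n : ℕ) (hn : 0 < n) : itS p q n n = q := by
  unfold itS
  have : (n : ℝ) ≠ 0 := by exact_mod_cast hn.ne'
  field_simp
  ring

/-- absorbing the tolerances: `(ρ - c η') w - C ≤ X`, `C ≤ (η/2) w`, `c η' ≤ η / 2`  =>  `(ρ - η) w ≤ X` -/
theorem it_q1_absorb (ρ η η' c C w X : ℝ) (hw : 0 ≤ w) (h1 : (ρ - c * η') * w - C ≤ X) (h2 : C ≤ η / 2 * w) (h3 : c * η' ≤ η / 2) :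
    (ρ - η) * w ≤ X := by
  have : 0 ≤ (η / 2 - c * η') * w := mul_nonneg (by linarith) hw
  nlinarith

/-- the line test of (Gq): `|r_1 - r_0 - 𝔨_0 (θ_1 - θ_0)|` is separated -/
theorem it_q1_sep_k (T : Tan) (a : ItPar) (pk : ItPk) (hpk : pk.Ok) (acc : ℝ) (h0 : T.Adm0 a pk) (hav : T.Avoid a pk acc)
    (u : ℝ) (hu : u ∈ pk.G) :
    T.P.pr (fun ω => |(T.mrk 1 ω).r - (T.mrk 0 ω).r - (T.mrk 0 ω).k * ((T.mrk 1 ω).th - (T.mrk 0 ω).th)| < T.δ ^ u)
      ≤ T.δ ^ (a.e0 * u - acc) := by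
  refine le_trans (ent_pr_mono T.P fun ω _ hω => ?_) (it_q1_sep01 T a pk hpk acc h0 hav u hu (fun μ => -μ.k) (fun _ => 1)
    (fun μ => μ.r - μ.k * μ.th) (fun μ => by nlinarith [sq_nonneg μ.k]))
  have e : -(T.mrk 0 ω).k * (T.mrk 1 ω).th + 1 * (T.mrk 1 ω).r - ((T.mrk 0 ω).r - (T.mrk 0 ω).k * (T.mrk 0 ω).th)
      = (T.mrk 1 ω).r - (T.mrk 0 ω).r - (T.mrk 0 ω).k * ((T.mrk 1 ω).th - (T.mrk 0 ω).th) := by ring
  simp only [e]
  exact hω

theorem it_q1_sep_th (T : Tan) (a : ItPar) (pk : ItPk) (hpk : pk.Ok) (acc : ℝ) (h0 : T.Adm0 a pk) (hav : T.Avoid a pk acc)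
    (u : ℝ) (hu : u ∈ pk.G) :
    T.P.pr (fun ω => |(T.mrk 0 ω).th - (T.mrk 1 ω).th| < T.δ ^ u) ≤ T.δ ^ (a.e0 * u - acc) := by
  refine le_trans (ent_pr_mono T.P fun ω _ hω => ?_) (it_q1_sep01 T a pk hpk acc h0 hav u hu (fun _ => 1) (fun _ => 0)
    (fun μ => μ.th) (fun μ => by norm_num))
  have e : (1 : ℝ) * (T.mrk 1 ω).th + 0 * (T.mrk 1 ω).r - (T.mrk 0 ω).th = -((T.mrk 0 ω).th - (T.mrk 1 ω).th) := by ring
  simp only [e, abs_neg]
  exact hω

theorem it_q1_sep_r (T : Tan) (a : ItPar) (pk : ItPk) (hpk : pk.Ok) (acc : ℝ) (h0 : T.Adm0 a pk) (hav : T.Avoid a pk acc)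
    (u : ℝ) (hu : u ∈ pk.G) :
    T.P.pr (fun ω => |(T.mrk 0 ω).r - (T.mrk 1 ω).r| < T.δ ^ u) ≤ T.δ ^ (a.e0 * u - acc) := by
  refine le_trans (ent_pr_mono T.P fun ω _ hω => ?_) (it_q1_sep01 T a pk hpk acc h0 hav u hu (fun _ => 0) (fun _ => 1)
    (fun μ => μ.r) (fun μ => by norm_num))
  have e : (0 : ℝ) * (T.mrk 1 ω).th + 1 * (T.mrk 1 ω).r - (T.mrk 0 ω).r = -((T.mrk 0 ω).r - (T.mrk 1 ω).r) := by ring
  simp only [e, abs_neg]
  exact hω

/-- package requirement: two records and one depth of the grid -/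
def itPkG (u : ℝ) : ItPk := ⟨2, 0, 0, 1, {u}, ∅⟩

theorem it_q1_eqns_cite : True := by
  have := @itPkG.eq_1
  trivial

theorem it_q1_pkG_pre (u : ℝ) (hu : 0 ≤ u) : (itPkG u).Pre := ⟨one_pos, fun q hq => by
  simp only [itPkG, Finset.mem_singleton] at hq
  rw [hq]; exact hu⟩

theorem it_q1_pkG_mem {u : ℝ} {pk : ItPk} (h : (itPkG u).le pk) : u ∈ pk.G := h.2.2.2.2 (by simp [itPkG])

/-- `x_0 = G3_0 + θ_0 G2_0` -/
theorem it_q1_x_G (f : ItPh) (μ : ItMk) (x : ItPh) :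
    itDot (itcxq f μ) x = μ.th * itDot (itcG2 f μ) x + itDot (itcG3 f μ) x := by
  simp only [itcxq, itcG2, itcG3, ItMk.be, itDot]
  ring

/-- `G2_i = J - 𝔨_i H` -/
theorem it_q1_G2_HJ (T : Tan) (p : ℝ) (i : ℕ) (ω : T.Ω) (x : ItPh) :
    itDot (T.fld p (itsG2 i) ω) x = -(T.mrk i ω).k * itDot (T.cH p ω) x + itDot (T.cJ p ω) x := by
  simp only [Tan.fld, itsG2, itcG2, Tan.cH, Tan.cJ, itcH, itcJ, itDot]
  ring

/-- (Gq) 1, pointwise in the datum -/
theorem it_q1_G1_pt (T : Tan) (a : ItPar) (ha : a.Ok) (pk : ItPk) (hpk : pk.Ok) (h : T.Adm0 a pk) (hq : T.quad = true) (p q : ℝ) (hpq : p ≤ q)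
    (ρ1 ρ2 η : ℝ) (hη : 0 ≤ η) (hρ1 : 0 ≤ ρ1) (hρ2 : 0 ≤ ρ2)
    (t1 : T.LS pk.M p q q [T.fld p (itsG2 0)] [T.cx p 0] ρ1 η) (t2 : T.LS pk.M p q q [T.cL 0] (T.rCz p) ρ2 η) :
    (ρ1 + ρ2 - (2 + ρ1 + ρ2) * η) * ((q - p) * T.L) - 5 * Real.log (a.B0 * 3 + 2) + T.hh pk.M p q [T.cx p 0] []
      ≤ T.hh pk.M p q (T.rG p 0) [] := by
  have h0 := h.δ0
  have h1 := h.δ1
  have hB : 1 ≤ a.B0 := ha.2.2.2.2.2.2.2.2
  have hM : 0 < pk.M := by have := hpk.1; omega
  have e1 := it_q2_E T h0 h1 pk.M p q hpq _ _ ρ1 η hη hρ1 t1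
  have e2 := it_q2_E T h0 h1 pk.M p q hpq _ _ ρ2 η hη hρ2 t2
  have c1 := it_k_chain T pk.M p q [T.cL 0] [T.fld p (itsG2 0), T.cx p 0] []
  have c2 := it_k_chain T pk.M p q [T.fld p (itsG2 0)] [T.cx p 0] []
  have hmk : ∀ c ∈ [fun ω => -(T.mrk 0 ω).k, fun ω => -(T.mrk 0 ω).r, fun ω => (T.mrk 0 ω).th, fun _ => (1 : ℝ), fun _ => (0 : ℝ)],
      (∀ ω ω', T.base pk.M p ω = T.base pk.M p ω' → (c : T.Ω → ℝ) ω = c ω') ∧ ∀ ω, T.P.p ω ≠ 0 → |(c : T.Ω → ℝ) ω| ≤ a.B0 := by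
    intro c hc
    simp only [List.mem_cons, List.not_mem_nil, or_false] at hc
    refine ⟨fun ω ω' hb => ?_, fun ω hω => ?_⟩
    · have := it_q2_mrk_base T pk.M p 0 hM ω ω' hb
      rcases hc with rfl | rfl | rfl | rfl | rfl <;> simp [this]
    · have := h.bdM ω hω 0 hM
      rcases hc with rfl | rfl | rfl | rfl | rfl
      · simpa using this.2.2
      · simpa using this.2.1
      · exact this.1
      · simpa using hB
      · simp; linarith
  have l1 := it_k_lin T h0 h1 pk.M p q a.B0 hB (T.rG p 0) [T.cL 0, T.fld p (itsG2 0), T.cx p 0] [] (by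
    intro u' hu'
    simp only [List.mem_cons, List.not_mem_nil, or_false] at hu'
    rcases hu' with rfl | rfl | rfl
    · refine it_q2_comb T pk.M p a.B0 (by linarith) _ _ [fun _ => 1, fun _ => 0, fun _ => 0]
        (fun c hc => (hmk c (by simp only [List.mem_cons, List.not_mem_nil, or_false] at hc ⊢; tauto)).1)
        (fun c hc => (hmk c (by simp only [List.mem_cons, List.not_mem_nil, or_false] at hc ⊢; tauto)).2) ?_
      intro ω _ x
      simp [Tan.rG, hq, Finset.sum_range_succ]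
    · refine it_q2_comb T pk.M p a.B0 (by linarith) _ _ [fun _ => 0, fun _ => 1, fun _ => 0]
        (fun c hc => (hmk c (by simp only [List.mem_cons, List.not_mem_nil, or_false] at hc ⊢; tauto)).1)
        (fun c hc => (hmk c (by simp only [List.mem_cons, List.not_mem_nil, or_false] at hc ⊢; tauto)).2) ?_
      intro ω _ x
      simp [Tan.rG, hq, Finset.sum_range_succ, Tan.fld, itsG2]
    · refine it_q2_comb T pk.M p a.B0 (by linarith) _ _ [fun _ => 0, fun ω => (T.mrk 0 ω).th, fun _ => 1]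
        (fun c hc => (hmk c (by simp only [List.mem_cons, List.not_mem_nil, or_false] at hc ⊢; tauto)).1)
        (fun c hc => (hmk c (by simp only [List.mem_cons, List.not_mem_nil, or_false] at hc ⊢; tauto)).2) ?_
      intro ω _ x
      simp only [Tan.cx, hq, if_true, it_q1_x_G]
      simp [Tan.rG, hq, Finset.sum_range_succ])
  have l2 := it_q2_held T h0 h1 pk.M p q a.B0 hB [T.cL 0] [T.fld p (itsG2 0), T.cx p 0] (T.rCz p) (by
    intro u' hu'
    simp only [List.mem_cons, List.not_mem_nil, or_false] at hu'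
    rcases hu' with rfl | rfl
    · refine it_q2_comb T pk.M p a.B0 (by linarith) _ _ [fun ω => -(T.mrk 0 ω).k, fun _ => 1, fun _ => 0]
        (fun c hc => (hmk c (by simp only [List.mem_cons, List.not_mem_nil, or_false] at hc ⊢; tauto)).1)
        (fun c hc => (hmk c (by simp only [List.mem_cons, List.not_mem_nil, or_false] at hc ⊢; tauto)).2) ?_
      intro ω _ x
      rw [it_q1_G2_HJ]
      simp [Tan.rCz, Finset.sum_range_succ]
    · refine it_q2_comb T pk.M p a.B0 (by linarith) _ _ [fun ω => -(T.mrk 0 ω).r, fun ω => (T.mrk 0 ω).th, fun _ => 1]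
        (fun c hc => (hmk c (by simp only [List.mem_cons, List.not_mem_nil, or_false] at hc ⊢; tauto)).1)
        (fun c hc => (hmk c (by simp only [List.mem_cons, List.not_mem_nil, or_false] at hc ⊢; tauto)).2) ?_
      intro ω _ x
      rw [it_q2_x_HJK T hq]
      simp [Tan.rCz, Finset.sum_range_succ])
  simp only [List.cons_append, List.nil_append, List.append_nil] at c1 c2
  have hlen : (T.rG p 0).length = 3 := by simp [Tan.rG, hq]
  rw [hlen] at l1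
  simp only [Tan.rCz, List.length_cons, List.length_nil] at l1 l2
  simp only [Tan.rCz] at e2
  push_cast at l1 l2
  norm_num at l1 l2
  have e : (ρ1 + ρ2 - (2 + ρ1 + ρ2) * η) * ((q - p) * T.L)
      = (ρ1 - (1 + ρ1) * η) * (q - p) * T.L + (ρ2 - (1 + ρ2) * η) * (q - p) * T.L := by ring
  rw [e]
  linarith

/-- accuracy needed by one use of `Avoid` at the depth `u` with the target probability `ε` -/
noncomputable def itAccA (e0 u ε : ℝ) : ℝ := min (e0 * u / 2) (ε ^ (1 / (e0 * u / 2)))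

theorem it_q1_eqns_cite2 : True := by
  have := @itAccA.eq_1
  trivial

theorem it_q1_accA_pos (e0 u ε : ℝ) (he : 0 < e0) (hu : 0 < u) (hε : 0 < ε) : 0 < itAccA e0 u ε :=
  lt_min (by positivity) (Real.rpow_pos_of_pos hε _)

theorem it_q1_accA (T : Tan) (a : ItPar) (ha : a.Ok) (pk : ItPk) (τ κ0 acc u ε : ℝ) (hadm : T.Adm a pk τ κ0 acc) (hu : 0 < u) (hε : 0 < ε)
    (hacc : acc ≤ itAccA a.e0 u ε) : T.δ ^ (a.e0 * u - acc) ≤ ε :=
  it_q1_avoid_small T.δ acc a.e0 u ε hadm.t0.δ0 hadm.t0.δ1 hadm.small ha.2.2.2.2.2.2.2.1 hu hε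
    (hacc.trans (min_le_left _ _)) (hacc.trans (min_le_right _ _))

theorem it_q1_cen_xq (i : ℕ) : (itsxq i).Cen := by
  intro f Ξ
  simp only [itsxq, itcxq]
  refine ⟨trivial, trivial, by ring⟩

theorem it_q1_cen_G2 (i : ℕ) : (itsG2 i).Cen := by
  intro f Ξ
  simp only [itsG2, itcG2]
  refine ⟨trivial, by simp, by ring⟩

/-- (Gq) 1 : `|G_0| ≥ 2m + |x_0|`   (= `it_q_G1` of `Int/Rates.lean`, verbatim) -/
theorem it_q1_G1 (a : ItPar) (ha : a.Ok) (hm : 0 < a.m) (hc : 1 < a.c) :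
    ItLayer true true false a (fun T pk p q η =>
      (2 * a.m - η) * (q - p) * T.L + T.hh pk.M p q [T.cx p 0] [] ≤ T.hh pk.M p q (T.rG p 0) []) := by
  intro η hη
  obtain ⟨A0, hA0, hreg⟩ := it_s_regU_list [itsG2 0, itsxq 0, itsL 0, itsH, itsJ, itsK] 1 a.B0 (by
    intro U hU
    simp only [List.mem_cons, List.not_mem_nil, or_false] at hU
    rcases hU with rfl | rfl | rfl | rfl | rfl | rfl
    · exact it_s_regU_G2 0 a.B0
    · exact it_s_regU_xq 0 a.B0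
    · exact it_s_regU_L 0 a.B0
    · exact it_s_regU_mono (by omega) (it_s_regU_H a.B0)
    · exact it_s_regU_mono (by omega) (it_s_regU_J a.B0)
    · exact it_s_regU_mono (by omega) (it_s_regU_K a.B0))
  have hm1 : a.m ≤ 1 := ha.2.2.2.2.1
  have t1 := it_mode_com a ha hm A0 1 one_pos (η / 8) (by positivity)
  have t2 := it_mode_ang true a ha hm A0 1 one_pos (η / 8) (by positivity)
  refine it_cb_imp (it_cb_flags (av' := true) (cr' := false) (by simp) (by simp) (it_cb_and t1 t2)) 1 one_pos ?_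
  intro p q hp hpq _
  have hχ := it_sk_chi_pos p q 1 (η / 8) hpq one_pos (by positivity)
  have hqp : 0 < q - p := by linarith
  refine ⟨itPkG (itChi p q 1 (η / 8)),
    min (Real.exp (-(5 * Real.log (a.B0 * 3 + 2) / (η / 2 * (q - p))))) (itAccA a.e0 (itChi p q 1 (η / 8)) (η / 16)),
    it_q1_pkG_pre _ hχ.le, lt_min (Real.exp_pos _) (it_q1_accA_pos _ _ _ ha.2.2.2.2.2.2.2.1 hχ (by positivity)),
    fun pk acc τ κ0 T hpk hle hacc hacc1 hquad hadm hav _ ⟨h1, h2⟩ => ?_⟩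
  have h0 := hadm.t0.δ0
  have hδ1 := hadm.t0.δ1
  have hM0 : 0 < pk.M := by have := hpk.1; omega
  have hM1 : 1 < pk.M := by have := hpk.1; omega
  have hM : 1 ≤ pk.M := hM0
  have hsep := (it_q1_sep_k T a pk hpk acc hadm.t0 (hav rfl) _ (it_q1_pkG_mem hle)).trans
    (it_q1_accA T a ha pk τ κ0 acc _ (η / 16) hadm hχ (by positivity) (hacc1.trans (min_le_right _ _)))
  have s1 := h1 0 hM0 1 hM1 (by norm_num) (itsG2 0) [itsxq 0] (hreg _ (by simp) _ hM) (it_q1_cen_G2 0) (by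
      intro v hv
      simp only [List.mem_cons, List.not_mem_nil, or_false] at hv
      subst hv
      exact ⟨hreg _ (by simp) _ hM, it_q1_cen_xq 0⟩) (by simp) (by
      intro v hv f Ξ
      simp only [List.mem_cons, List.not_mem_nil, or_false] at hv
      subst hv
      simp only [itsxq, itcxq, itCom]
      ring) (by
      refine le_trans (ent_pr_mono T.P fun ω _ hω => ?_) (hsep.trans (by linarith))
      have e : itCom (T.fld p (itsG2 0) ω) (T.mrk 0 ω) (T.mrk 1 ω)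
          = -((T.mrk 1 ω).r - (T.mrk 0 ω).r - (T.mrk 0 ω).k * ((T.mrk 1 ω).th - (T.mrk 0 ω).th)) := by
        simp only [Tan.fld, itsG2, itcG2, itCom]
        ring
      rw [e, abs_neg] at hω
      exact hω) 1 le_rfl le_rfl
  have s2 := h2 1 hM1 (itsL 0) [itsH, itsJ, itsK] (hreg _ (by simp) _ hM) (by
      intro v hv
      exact hreg v (by simp only [List.mem_cons, List.not_mem_nil, or_false] at hv ⊢; tauto) _ hM) (by simp) (by
      intro v hv f Ξ
      simp only [List.mem_cons, List.not_mem_nil, or_false] at hv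
      rcases hv with rfl | rfl | rfl
      · simp only [itsH, itcH, itvEll, if_true, itDot]; ring
      · simp only [itsJ, itcJ, itvEll, if_true, itDot]; ring
      · simp only [itsK, itcK, itvEll, if_true, itDot]; ring) (by
      refine le_trans (ent_pr_mono T.P fun ω _ hω => ?_) (hsep.trans (by linarith))
      have e : itDot (T.fld p (itsL 0) ω) (itvEll true (T.f0 p ω) (T.mrk 1 ω))
          = 2 * ((T.mrk 1 ω).r - (T.mrk 0 ω).r - (T.mrk 0 ω).k * ((T.mrk 1 ω).th - (T.mrk 0 ω).th)) := by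
        simp only [Tan.fld, itsL, itcL, ItMk.be, itvEll, if_true, itDot]
        ring
      rw [e, abs_mul, abs_two] at hω
      have := abs_nonneg ((T.mrk 1 ω).r - (T.mrk 0 ω).r - (T.mrk 0 ω).k * ((T.mrk 1 ω).th - (T.mrk 0 ω).th))
      show _ < _
      linarith) 1 le_rfl le_rfl
  rw [it_q2_S11] at s1 s2
  simp only [List.map_cons, List.map_nil, it_s_fld_H, it_s_fld_J, it_s_fld_K, it_s_fld_L, it_s_fld_xq T p 0 hquad] at s1 s2
  have key := it_q1_G1_pt T a ha pk hpk hadm.t0 hquad p q hpq.le a.m a.m (η / 8) (by positivity) hm.le hm.le s1 s2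
  have hcst := it_cb_const_le T acc (5 * Real.log (a.B0 * 3 + 2)) (η / 2 * (q - p)) (by positivity) h0 hadm.small
    (hacc1.trans (min_le_left _ _))
  have hL := it_cb_L_pos T h0 hδ1
  have hw : 0 ≤ (q - p) * T.L := mul_nonneg hqp.le hL.le
  have fin := it_q1_absorb (a.m + a.m) η (η / 8) (2 + a.m + a.m) (5 * Real.log (a.B0 * 3 + 2)) ((q - p) * T.L)
    (T.hh pk.M p q (T.rG p 0) [] - T.hh pk.M p q [T.cx p 0] []) hw (by linarith) (by linarith) (by nlinarith)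
  have e : (2 * a.m - η) * (q - p) * T.L = (a.m + a.m - η) * ((q - p) * T.L) := by ring
  show (2 * a.m - η) * (q - p) * T.L + T.hh pk.M p q [T.cx p 0] [] ≤ T.hh pk.M p q (T.rG p 0) []
  rw [e]
  linarith

/-! ## boost with radial slopes (two charts) -/

/-- BOOST WITH RADIAL SLOPES, moving record `1`, pin `0`.  `w = Δθ u2a - Δr u1a = Δr u2b - Δθ u1b` (`Δ = ξ_0 - ξ_1`), residual `Mr` of `u1a` and of `u1b` at the prefixes
=>  `|w | V| ≥ min(1, d + Mr)` in LS form.   (Chart a: `|Δr| ≤ |Δθ|`, chart b: `|Δθ| ≤ |Δr|`; `Δθ`, `Δr` are separated by `Avoid`.) -/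
theorem it_q1_rboost (a : ItPar) (ha : a.Ok) (A0 Mr : ℝ) (hA0 : 1 ≤ A0) (hM : 0 < Mr) (hM1 : Mr ≤ 1)
    (η : ℝ) (hη : 0 < η) : ∃ (n : ℕ) (η1 : ℝ), 0 < n ∧ 0 < η1 ∧
    ItLayerAt true true false a (fun T pk p q => ∀ (u1a u2a u1b u2b w : ItSym) (V : List ItSym),
      u1a.Reg pk.M a.B0 A0 → u2a.Reg pk.M a.B0 A0 → u1b.Reg pk.M a.B0 A0 → u2b.Reg pk.M a.B0 A0 → w.Reg pk.M a.B0 A0 →
      (∀ v ∈ V, ItSym.Reg v pk.M a.B0 A0 ∧ ItSym.Free v 1) → V.length ≤ 6 →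
      u1a.Free 1 → u2a.Free 1 → u1b.Free 1 → u2b.Free 1 →
      (∀ f Ξ x, itDot (w f Ξ) x = ((Ξ 0).th - (Ξ 1).th) * itDot (u2a f Ξ) x - ((Ξ 0).r - (Ξ 1).r) * itDot (u1a f Ξ) x) →
      (∀ f Ξ x, itDot (w f Ξ) x = ((Ξ 0).r - (Ξ 1).r) * itDot (u2b f Ξ) x - ((Ξ 0).th - (Ξ 1).th) * itDot (u1b f Ξ) x) →
      (∀ k, 1 ≤ k → k ≤ n → T.LS pk.M p (itS p q n k) q [T.fld p u1a] (T.fld p w :: V.map (T.fld p)) Mr η1) →
      (∀ k, 1 ≤ k → k ≤ n → T.LS pk.M p (itS p q n k) q [T.fld p u1b] (T.fld p w :: V.map (T.fld p)) Mr η1) →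
      T.LS pk.M p q q [T.fld p w] (V.map (T.fld p)) (min 1 (a.d + Mr)) η) := by
  obtain ⟨n, η1, hn, hη1, hb⟩ := it_boost true a ha A0 Mr a.d hM hM1 ha.2.1 ha.2.2.1 (η / 2) (by positivity)
  refine ⟨n, η1, hn, hη1, ?_⟩
  have t2 := it_slope_rad true a ha n hn η1 hη1
  refine it_cb_imp (it_cb_and (it_cb_flags (av' := true) (cr' := false) (by simp) (by simp) hb) t2) 1 one_pos ?_
  intro p q hp hpq _
  have hqp : 0 < q - p := by linarith
  have hu : 0 < η1 * (q - p) := by positivity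
  refine ⟨itPkG (η1 * (q - p)), itAccA a.e0 (η1 * (q - p)) η1, it_q1_pkG_pre _ hu.le,
    it_q1_accA_pos _ _ _ ha.2.2.2.2.2.2.2.1 hu hη1,
    fun pk acc τ κ0 T hpk hle hacc hacc1 hquad hadm hav _ ⟨h1, h2⟩ => ?_⟩
  intro u1a u2a u1b u2b w V r1a r2a r1b r2b rw rV lV f1a f2a f1b f2b hwa hwb resa resb
  have hM0 : 0 < pk.M := by have := hpk.1; omega
  have hM1' : 1 < pk.M := by have := hpk.1; omega
  have hsm := it_q1_accA T a ha pk τ κ0 acc _ η1 hadm hu hη1 hacc1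
  have hsl := h2 0 hM0 1 hM1' (by norm_num)
  have ka := h1 1 hM1' u1a u2a w V (fun _ Ξ => (Ξ 0).th - (Ξ 1).th) (fun _ Ξ => (Ξ 0).r - (Ξ 1).r)
    (fun ω => |(T.mrk 0 ω).r - (T.mrk 1 ω).r| ≤ |(T.mrk 0 ω).th - (T.mrk 1 ω).th|) r1a r2a rw rV lV f1a f2a
    (fun ω h => h.trans (le_mul_of_one_le_left (abs_nonneg _) hA0))
    (fun f Ξ Ξ' e => ⟨by rw [e 0 hM0, e 1 hM1'], by rw [e 0 hM0, e 1 hM1']⟩) hwa
    (le_trans (ent_pr_mono T.P fun ω _ h => h.2)
      ((it_q1_sep_th T a pk hpk acc hadm.t0 (hav rfl) _ (it_q1_pkG_mem hle)).trans hsm)) resa hsl.1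
  have kb := h1 1 hM1' u1b u2b w V (fun _ Ξ => (Ξ 0).r - (Ξ 1).r) (fun _ Ξ => (Ξ 0).th - (Ξ 1).th)
    (fun ω => |(T.mrk 0 ω).th - (T.mrk 1 ω).th| ≤ |(T.mrk 0 ω).r - (T.mrk 1 ω).r|) r1b r2b rw rV lV f1b f2b
    (fun ω h => h.trans (le_mul_of_one_le_left (abs_nonneg _) hA0))
    (fun f Ξ Ξ' e => ⟨by rw [e 0 hM0, e 1 hM1'], by rw [e 0 hM0, e 1 hM1']⟩) hwb
    (le_trans (ent_pr_mono T.P fun ω _ h => h.2)
      ((it_q1_sep_r T a pk hpk acc hadm.t0 (hav rfl) _ (it_q1_pkG_mem hle)).trans hsm)) resb hsl.2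
  have hL := it_cb_L_pos T hadm.t0.δ0 hadm.t0.δ1
  unfold Tan.LS
  have hsum : η / 2 + η / 2 = η := by ring
  rw [← hsum]
  refine le_trans (le_trans (ent_pr_mono T.P fun ω _ hbad => ?_) (ent_pr_or_le T.P _ _)) (add_le_add ka kb)
  have hlt : T.P.surC (T.rd p q [T.fld p w]) (pair (T.rd p q (V.map (T.fld p))) (T.base pk.M p)) ω
      < (min 1 (a.d + Mr) - η / 2) * (q - p) * T.L := by
    refine lt_of_lt_of_le hbad ?_
    have : 0 ≤ (q - p) * T.L := mul_nonneg hqp.le hL.le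
    nlinarith
  rcases le_total |(T.mrk 0 ω).r - (T.mrk 1 ω).r| |(T.mrk 0 ω).th - (T.mrk 1 ω).th| with hc | hc
  · exact Or.inl ⟨hc, hlt⟩
  · exact Or.inr ⟨hc, hlt⟩

/-! ## (modes) 2 -/

/-- `-H` -/
def itsHm : ItSym := fun f _ => ⟨0, 2 * f.X, 0, -1, 0, 0⟩
/-- `(r_0 - r_1) H - (θ_0 - θ_1) J` : the projection of the centre with kernel `b_01` (given `x_0`) -/
def itsCw : ItSym := fun f Ξ =>
  ⟨((Ξ 0).th - (Ξ 1).th) * f.P, -2 * f.X * ((Ξ 0).r - (Ξ 1).r), 0, (Ξ 0).r - (Ξ 1).r, -((Ξ 0).th - (Ξ 1).th), 0⟩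

theorem it_q1_eqns_cite3 : True := by
  have := @itsHm.eq_1; have := @itsCw.eq_1
  trivial

theorem it_q1_regU_Hm (B0 : ℝ) : ItSym.RegU itsHm 0 B0 := by
  apply it_s_reg_mk <;> dsimp only [itsHm] <;>
    repeat' first
      | exact it_s_c_const _ _ _ | exact it_s_c_X _ _ | exact it_s_c_B _ _ | exact it_s_c_P _ _ | exact it_s_c_Y _ _ | exact it_s_c_N _ _
      | exact it_s_c_D _ _ | exact it_s_c_th _ _ (by omega) _ | exact it_s_c_r _ _ (by omega) _ | exact it_s_c_k _ _ (by omega) _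
      | apply it_s_c_add | apply it_s_c_sub | apply it_s_c_mul | apply it_s_c_neg | apply it_s_c_pow

theorem it_q1_regU_Cw (B0 : ℝ) : ItSym.RegU itsCw 2 B0 := by
  apply it_s_reg_mk <;> dsimp only [itsCw] <;>
    repeat' first
      | exact it_s_c_const _ _ _ | exact it_s_c_X _ _ | exact it_s_c_B _ _ | exact it_s_c_P _ _ | exact it_s_c_Y _ _ | exact it_s_c_N _ _
      | exact it_s_c_D _ _ | exact it_s_c_th _ _ (by omega) _ | exact it_s_c_r _ _ (by omega) _ | exact it_s_c_k _ _ (by omega) _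
      | apply it_s_c_add | apply it_s_c_sub | apply it_s_c_mul | apply it_s_c_neg | apply it_s_c_pow

theorem it_q1_cen_Hm : itsHm.Cen := by
  intro f Ξ
  simp only [itsHm]
  refine ⟨trivial, by simp, by ring⟩

theorem it_q1_cen_J : itsJ.Cen := by
  intro f Ξ
  simp only [itsJ, itcJ]
  refine ⟨trivial, by simp, by simp⟩

theorem it_q1_cen_Cw : itsCw.Cen := by
  intro f Ξ
  simp only [itsCw]
  refine ⟨trivial, by ring, by ring⟩

/-- bounded functions of the first two marks, as coefficient data -/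
theorem it_q1_coef (T : Tan) (a : ItPar) (pk : ItPk) (hpk : pk.Ok) (h : T.Adm0 a pk) (p A : ℝ) (g : ItMk → ItMk → ℝ)
    (hg : ∀ μ μ' : ItMk, |μ.th| ≤ a.B0 → |μ.r| ≤ a.B0 → |μ.k| ≤ a.B0 → |μ'.th| ≤ a.B0 → |μ'.r| ≤ a.B0 → |μ'.k| ≤ a.B0 → |g μ μ'| ≤ A) :
    (∀ ω ω', T.base pk.M p ω = T.base pk.M p ω' → g (T.mrk 0 ω) (T.mrk 1 ω) = g (T.mrk 0 ω') (T.mrk 1 ω')) ∧
      ∀ ω, T.P.p ω ≠ 0 → |g (T.mrk 0 ω) (T.mrk 1 ω)| ≤ A := by
  have hM0 : 0 < pk.M := by have := hpk.1; omega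
  have hM1 : 1 < pk.M := by have := hpk.1; omega
  refine ⟨fun ω ω' hb => by rw [it_q2_mrk_base T pk.M p 0 hM0 ω ω' hb, it_q2_mrk_base T pk.M p 1 hM1 ω ω' hb], fun ω hω => ?_⟩
  obtain ⟨a1, a2, a3⟩ := h.bdM ω hω 0 hM0
  obtain ⟨b1, b2, b3⟩ := h.bdM ω hω 1 hM1
  exact hg _ _ a1 a2 a3 b1 b2 b3

theorem it_q1_abs_sub {x y B : ℝ} (hx : |x| ≤ B) (hy : |y| ≤ B) : |x - y| ≤ 2 * B := by
  have := abs_sub x y
  linarith

/-- (modes) 2, pointwise in the datum -/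
theorem it_q1_centre_pt (T : Tan) (a : ItPar) (ha : a.Ok) (pk : ItPk) (hpk : pk.Ok) (h : T.Adm0 a pk) (hq : T.quad = true) (p q : ℝ)
    (hpq : p ≤ q) (ρ1 ρ2 η : ℝ) (hη : 0 ≤ η) (hρ1 : 0 ≤ ρ1) (hρ2 : 0 ≤ ρ2)
    (t1 : T.LS pk.M p q q [T.fld p itsCw] [T.cx p 0] ρ1 η) (t2 : T.LS pk.M p q q [T.fld p itsHm] [T.fld p itsCw, T.cx p 0] ρ2 η) :
    (ρ1 + ρ2 - (2 + ρ1 + ρ2) * η) * ((q - p) * T.L) - 3 * Real.log (2 * a.B0 * 3 + 2)
      ≤ T.hh pk.M p q (T.rCz p) [] - T.hh pk.M p q [T.cx p 0] [] := by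
  have h0 := h.δ0
  have h1 := h.δ1
  have hB : 1 ≤ a.B0 := ha.2.2.2.2.2.2.2.2
  have e1 := it_q2_E T h0 h1 pk.M p q hpq _ _ ρ1 η hη hρ1 t1
  have e2 := it_q2_E T h0 h1 pk.M p q hpq _ _ ρ2 η hη hρ2 t2
  have c1 := it_k_chain T pk.M p q [T.fld p itsHm] [T.fld p itsCw, T.cx p 0] []
  have c2 := it_k_chain T pk.M p q [T.fld p itsCw] [T.cx p 0] []
  have k0 := it_q1_coef T a pk hpk h p (2 * a.B0) (fun _ _ => 0) (fun _ _ _ _ _ _ _ _ => by simp; linarith)
  have k1 := it_q1_coef T a pk hpk h p (2 * a.B0) (fun _ _ => 1) (fun _ _ _ _ _ _ _ _ => by simp; linarith)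
  have km := it_q1_coef T a pk hpk h p (2 * a.B0) (fun _ _ => -1) (fun _ _ _ _ _ _ _ _ => by simp; linarith)
  have kr := it_q1_coef T a pk hpk h p (2 * a.B0) (fun μ μ' => μ.r - μ'.r) (fun _ _ _ x _ _ y _ => it_q1_abs_sub x y)
  have kt := it_q1_coef T a pk hpk h p (2 * a.B0) (fun μ μ' => -(μ.th - μ'.th)) (fun _ _ x _ _ y _ _ => by
    rw [abs_neg]; exact it_q1_abs_sub x y)
  have kr0 := it_q1_coef T a pk hpk h p (2 * a.B0) (fun μ _ => -μ.r) (fun _ _ _ x _ _ _ _ => by rw [abs_neg]; linarith)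
  have kt0 := it_q1_coef T a pk hpk h p (2 * a.B0) (fun μ _ => μ.th) (fun _ _ x _ _ _ _ _ => by linarith)
  have l1 := it_k_lin T h0 h1 pk.M p q (2 * a.B0) (by linarith) (T.rCz p) [T.fld p itsHm, T.fld p itsCw, T.cx p 0] [] (by
    intro u' hu'
    simp only [List.mem_cons, List.not_mem_nil, or_false] at hu'
    rcases hu' with rfl | rfl | rfl
    · refine it_q2_comb T pk.M p (2 * a.B0) (by linarith) _ _ [fun _ => -1, fun _ => 0, fun _ => 0] ?_ ?_ ?_
      · intro c hc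
        simp only [List.mem_cons, List.not_mem_nil, or_false] at hc
        rcases hc with rfl | rfl | rfl
        exacts [km.1, k0.1, k0.1]
      · intro c hc
        simp only [List.mem_cons, List.not_mem_nil, or_false] at hc
        rcases hc with rfl | rfl | rfl
        exacts [km.2, k0.2, k0.2]
      · intro ω _ x
        have e : itDot (T.fld p itsHm ω) x = -1 * itDot (T.cH p ω) x := by
          simp only [Tan.fld, itsHm, Tan.cH, itcH, itDot]; ring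
        rw [e]
        simp [Tan.rCz, Finset.sum_range_succ]
    · refine it_q2_comb T pk.M p (2 * a.B0) (by linarith) _ _
        [fun ω => (T.mrk 0 ω).r - (T.mrk 1 ω).r, fun ω => -((T.mrk 0 ω).th - (T.mrk 1 ω).th), fun _ => 0] ?_ ?_ ?_
      · intro c hc
        simp only [List.mem_cons, List.not_mem_nil, or_false] at hc
        rcases hc with rfl | rfl | rfl
        exacts [kr.1, kt.1, k0.1]
      · intro c hc
        simp only [List.mem_cons, List.not_mem_nil, or_false] at hc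
        rcases hc with rfl | rfl | rfl
        exacts [kr.2, kt.2, k0.2]
      · intro ω _ x
        have e : itDot (T.fld p itsCw ω) x = ((T.mrk 0 ω).r - (T.mrk 1 ω).r) * itDot (T.cH p ω) x
            + -((T.mrk 0 ω).th - (T.mrk 1 ω).th) * itDot (T.cJ p ω) x := by
          simp only [Tan.fld, itsCw, Tan.cH, itcH, Tan.cJ, itcJ, itDot]; ring
        rw [e]
        simp [Tan.rCz, Finset.sum_range_succ]
    · refine it_q2_comb T pk.M p (2 * a.B0) (by linarith) _ _ [fun ω => -(T.mrk 0 ω).r, fun ω => (T.mrk 0 ω).th, fun _ => 1] ?_ ?_ ?_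
      · intro c hc
        simp only [List.mem_cons, List.not_mem_nil, or_false] at hc
        rcases hc with rfl | rfl | rfl
        exacts [kr0.1, kt0.1, k1.1]
      · intro c hc
        simp only [List.mem_cons, List.not_mem_nil, or_false] at hc
        rcases hc with rfl | rfl | rfl
        exacts [kr0.2, kt0.2, k1.2]
      · intro ω _ x
        rw [it_q2_x_HJK T hq]
        simp [Tan.rCz, Finset.sum_range_succ])
  simp only [List.cons_append, List.nil_append, List.append_nil] at c1 c2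
  simp only [Tan.rCz, List.length_cons, List.length_nil] at l1 ⊢
  push_cast at l1
  norm_num at l1
  have e : (ρ1 + ρ2 - (2 + ρ1 + ρ2) * η) * ((q - p) * T.L)
      = (ρ1 - (1 + ρ1) * η) * (q - p) * T.L + (ρ2 - (1 + ρ2) * η) * (q - p) * T.L := by ring
  rw [e]
  linarith

/-- (modes) 2 : `|C_z| - |x_0| ≥ m + l_*`   (= `it_q_centre` of `Int/Rates.lean`, verbatim) -/
theorem it_q1_centre (a : ItPar) (ha : a.Ok) (hm : 0 < a.m) :
    ItLayer true true false a (fun T pk p q η =>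
      (a.m + a.ls - η) * (q - p) * T.L ≤ T.hh pk.M p q (T.rCz p) [] - T.hh pk.M p q [T.cx p 0] []) := by
  intro η hη
  obtain ⟨A1, hA1, hreg1⟩ := it_s_regU_list [itsHm, itsJm, itsH, itsJ, itsCw, itsxq 0] 2 a.B0 (by
    intro U hU
    simp only [List.mem_cons, List.not_mem_nil, or_false] at hU
    rcases hU with rfl | rfl | rfl | rfl | rfl | rfl
    · exact it_s_regU_mono (by omega) (it_q1_regU_Hm a.B0)
    · exact it_s_regU_mono (by omega) (it_q2_regU_Jm a.B0)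
    · exact it_s_regU_mono (by omega) (it_s_regU_H a.B0)
    · exact it_s_regU_mono (by omega) (it_s_regU_J a.B0)
    · exact it_q1_regU_Cw a.B0
    · exact it_s_regU_mono (by omega) (it_s_regU_xq 0 a.B0))
  obtain ⟨A0, hA0, hreg⟩ : ∃ A0 : ℝ, 1 ≤ A0 ∧ ∀ U ∈ [itsHm, itsJm, itsH, itsJ, itsCw, itsxq 0], ∀ M, 2 ≤ M → ItSym.Reg U M a.B0 A0 :=
    ⟨max A1 1, le_max_right _ _, fun U hU M hM => it_s_reg_mono (le_max_left _ _) (hreg1 U hU M hM)⟩
  have hm1 : a.m ≤ 1 := ha.2.2.2.2.1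
  have hls0 : 0 ≤ a.ls := le_min zero_le_one (by linarith [ha.2.1])
  have hls1 : a.ls ≤ 1 := min_le_left _ _
  obtain ⟨n, η1, hn, hη1, hb⟩ := it_q1_rboost a ha A0 a.m hA0 hm hm1 (η / 8) (by positivity)
  have t1 := it_mode_com a ha hm A0 n hn η1 hη1
  have t3 := it_mode_com a ha hm A0 1 one_pos (η / 8) (by positivity)
  refine it_cb_imp (it_cb_and hb (it_cb_flags (av' := true) (cr' := false) (by simp) (by simp) (it_cb_and t1 t3))) 1 one_pos ?_
  intro p q hp hpq _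
  have hχ1 := it_sk_chi_pos p q n η1 hpq hn hη1
  have hχ3 := it_sk_chi_pos p q 1 (η / 8) hpq one_pos (by positivity)
  have hqp : 0 < q - p := by linarith
  have he0 := ha.2.2.2.2.2.2.2.1
  refine ⟨(itPkG (itChi p q n η1)).sup (itPkG (itChi p q 1 (η / 8))),
    min (Real.exp (-(3 * Real.log (2 * a.B0 * 3 + 2) / (η / 2 * (q - p)))))
      (min (itAccA a.e0 (itChi p q n η1) (η1 / 2)) (itAccA a.e0 (itChi p q 1 (η / 8)) (η / 16))),
    it_cb_sup_pre (it_q1_pkG_pre _ hχ1.le) (it_q1_pkG_pre _ hχ3.le),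
    lt_min (Real.exp_pos _) (lt_min (it_q1_accA_pos _ _ _ he0 hχ1 (by positivity)) (it_q1_accA_pos _ _ _ he0 hχ3 (by positivity))),
    fun pk acc τ κ0 T hpk hle hacc hacc1 hquad hadm hav _ ⟨h1, h2, h3⟩ => ?_⟩
  have h0 := hadm.t0.δ0
  have hδ1 := hadm.t0.δ1
  have hM0 : 0 < pk.M := by have := hpk.1; omega
  have hM1 : 1 < pk.M := by have := hpk.1; omega
  have hM : 2 ≤ pk.M := hpk.1
  have hG1 := it_q1_pkG_mem (it_cb_sup_left hle)
  have hG3 := it_q1_pkG_mem (it_cb_sup_right hle)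
  have ac1 := it_q1_accA T a ha pk τ κ0 acc _ (η1 / 2) hadm hχ1 (by positivity)
    ((hacc1.trans (min_le_right _ _)).trans (min_le_left _ _))
  have ac3 := it_q1_accA T a ha pk τ κ0 acc _ (η / 16) hadm hχ3 (by positivity)
    ((hacc1.trans (min_le_right _ _)).trans (min_le_right _ _))
  have hVreg : ∀ v ∈ [itsCw, itsxq 0], ItSym.Reg v pk.M a.B0 A0 ∧ ItSym.Cen v := by
    intro v hv
    simp only [List.mem_cons, List.not_mem_nil, or_false] at hv
    rcases hv with rfl | rfl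
    · exact ⟨hreg _ (by simp) _ hM, it_q1_cen_Cw⟩
    · exact ⟨hreg _ (by simp) _ hM, it_q1_cen_xq 0⟩
  have hVkill : ∀ v ∈ [itsCw, itsxq 0], ∀ f Ξ, itCom ((v : ItSym) f Ξ) (Ξ 0) (Ξ 1) = 0 := by
    intro v hv f Ξ
    simp only [List.mem_cons, List.not_mem_nil, or_false] at hv
    rcases hv with rfl | rfl
    · simp only [itsCw, itCom]; ring
    · simp only [itsxq, itcxq, itCom]; ring
  have eHm : ∀ ω, itCom (T.fld p itsHm ω) (T.mrk 0 ω) (T.mrk 1 ω) = -((T.mrk 0 ω).th - (T.mrk 1 ω).th) := by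
    intro ω
    simp only [Tan.fld, itsHm, itCom]; ring
  have eJ : ∀ ω, itCom (T.fld p itsJ ω) (T.mrk 0 ω) (T.mrk 1 ω) = (T.mrk 0 ω).r - (T.mrk 1 ω).r := by
    intro ω
    simp only [Tan.fld, itsJ, itcJ, itCom]; ring
  have resa := h2 0 hM0 1 hM1 (by norm_num) itsHm [itsCw, itsxq 0] (hreg _ (by simp) _ hM) it_q1_cen_Hm hVreg (by simp) hVkill (by
      simp only [eHm, abs_neg]
      exact (it_q1_sep_th T a pk hpk acc hadm.t0 (hav rfl) _ hG1).trans ac1)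
  have resb := h2 0 hM0 1 hM1 (by norm_num) itsJ [itsCw, itsxq 0] (hreg _ (by simp) _ hM) it_q1_cen_J hVreg (by simp) hVkill (by
      simp only [eJ]
      exact (it_q1_sep_r T a pk hpk acc hadm.t0 (hav rfl) _ hG1).trans ac1)
  have s2 := h3 0 hM0 1 hM1 (by norm_num) itsHm [itsCw, itsxq 0] (hreg _ (by simp) _ hM) it_q1_cen_Hm hVreg (by simp) hVkill (by
      simp only [eHm, abs_neg]
      exact ((it_q1_sep_th T a pk hpk acc hadm.t0 (hav rfl) _ hG3).trans ac3).trans (by linarith)) 1 le_rfl le_rfl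
  have s1 := h1 itsHm itsJm itsJ itsH itsCw [itsxq 0] (hreg _ (by simp) _ hM) (hreg _ (by simp) _ hM) (hreg _ (by simp) _ hM)
    (hreg _ (by simp) _ hM) (hreg _ (by simp) _ hM) (by
      intro v hv
      simp only [List.mem_cons, List.not_mem_nil, or_false] at hv
      subst hv
      refine ⟨hreg _ (by simp) _ hM, fun f Ξ Ξ' h => ?_⟩
      simp only [itsxq, h 0 (by norm_num)]) (by simp)
    (fun _ _ _ _ => rfl) (fun _ _ _ _ => rfl) (fun _ _ _ _ => rfl) (fun _ _ _ _ => rfl) (by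
      intro f Ξ x
      simp only [itsCw, itsJm, itsHm, itDot]; ring) (by
      intro f Ξ x
      simp only [itsCw, itsH, itcH, itsJ, itcJ, itDot]; ring) resa resb
  rw [it_q2_S11] at s2
  simp only [List.map_cons, List.map_nil, it_s_fld_xq T p 0 hquad] at s1 s2
  have key := it_q1_centre_pt T a ha pk hpk hadm.t0 hquad p q hpq.le a.ls a.m (η / 8) (by positivity) hls0 hm.le s1 s2
  have hcst := it_cb_const_le T acc (3 * Real.log (2 * a.B0 * 3 + 2)) (η / 2 * (q - p)) (by positivity) h0 hadm.small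
    (hacc1.trans (min_le_left _ _))
  have hL := it_cb_L_pos T h0 hδ1
  have hw : 0 ≤ (q - p) * T.L := mul_nonneg hqp.le hL.le
  have fin := it_q1_absorb (a.ls + a.m) η (η / 8) (2 + a.ls + a.m) (3 * Real.log (2 * a.B0 * 3 + 2)) ((q - p) * T.L)
    (T.hh pk.M p q (T.rCz p) [] - T.hh pk.M p q [T.cx p 0] []) hw key (by linarith) (by nlinarith)
  have e : (a.m + a.ls - η) * (q - p) * T.L = (a.ls + a.m - η) * ((q - p) * T.L) := by ring
  show (a.m + a.ls - η) * (q - p) * T.L ≤ T.hh pk.M p q (T.rCz p) [] - T.hh pk.M p q [T.cx p 0] []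
  rw [e]
  exact fin

/-! ## (modes) 3 -/

/-- `dP - 2 r_0 dX` -/
def itsPq : ItSym := fun _ Ξ => ⟨-2 * (Ξ 0).r, 0, 1, 0, 0, 0⟩
/-- `-(dP - 2 r_0 dX)` -/
def itsPqm : ItSym := fun _ Ξ => ⟨2 * (Ξ 0).r, 0, -1, 0, 0, 0⟩
/-- `2 W_0` -/
def itsW2 : ItSym := fun _ Ξ => ⟨2 * (Ξ 0).th, 2, 0, 0, 0, 0⟩
/-- `-2 W_0` -/
def itsW2m : ItSym := fun _ Ξ => ⟨-2 * (Ξ 0).th, -2, 0, 0, 0, 0⟩
/-- `2 (r_0 - r_1) W_0 + (θ_0 - θ_1)(dP - 2 r_0 dX)` : the projection of the horizontal quotient with kernel `ℓ_1` -/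
def itsHw : ItSym := fun _ Ξ =>
  ⟨2 * ((Ξ 0).r - (Ξ 1).r) * (Ξ 0).th - 2 * (Ξ 0).r * ((Ξ 0).th - (Ξ 1).th), 2 * ((Ξ 0).r - (Ξ 1).r), (Ξ 0).th - (Ξ 1).th, 0, 0, 0⟩

theorem it_q1_eqns_cite4 : True := by
  have := @itsPq.eq_1; have := @itsPqm.eq_1; have := @itsW2.eq_1; have := @itsW2m.eq_1; have := @itsHw.eq_1
  trivial

theorem it_q1_regU_Pq (B0 : ℝ) : ItSym.RegU itsPq 1 B0 := by
  apply it_s_reg_mk <;> dsimp only [itsPq] <;>
    repeat' first
      | exact it_s_c_const _ _ _ | exact it_s_c_X _ _ | exact it_s_c_B _ _ | exact it_s_c_P _ _ | exact it_s_c_Y _ _ | exact it_s_c_N _ _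
      | exact it_s_c_D _ _ | exact it_s_c_th _ _ (by omega) _ | exact it_s_c_r _ _ (by omega) _ | exact it_s_c_k _ _ (by omega) _
      | apply it_s_c_add | apply it_s_c_sub | apply it_s_c_mul | apply it_s_c_neg | apply it_s_c_pow

theorem it_q1_regU_Pqm (B0 : ℝ) : ItSym.RegU itsPqm 1 B0 := by
  apply it_s_reg_mk <;> dsimp only [itsPqm] <;>
    repeat' first
      | exact it_s_c_const _ _ _ | exact it_s_c_X _ _ | exact it_s_c_B _ _ | exact it_s_c_P _ _ | exact it_s_c_Y _ _ | exact it_s_c_N _ _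
      | exact it_s_c_D _ _ | exact it_s_c_th _ _ (by omega) _ | exact it_s_c_r _ _ (by omega) _ | exact it_s_c_k _ _ (by omega) _
      | apply it_s_c_add | apply it_s_c_sub | apply it_s_c_mul | apply it_s_c_neg | apply it_s_c_pow

theorem it_q1_regU_W2 (B0 : ℝ) : ItSym.RegU itsW2 1 B0 := by
  apply it_s_reg_mk <;> dsimp only [itsW2] <;>
    repeat' first
      | exact it_s_c_const _ _ _ | exact it_s_c_X _ _ | exact it_s_c_B _ _ | exact it_s_c_P _ _ | exact it_s_c_Y _ _ | exact it_s_c_N _ _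
      | exact it_s_c_D _ _ | exact it_s_c_th _ _ (by omega) _ | exact it_s_c_r _ _ (by omega) _ | exact it_s_c_k _ _ (by omega) _
      | apply it_s_c_add | apply it_s_c_sub | apply it_s_c_mul | apply it_s_c_neg | apply it_s_c_pow

theorem it_q1_regU_W2m (B0 : ℝ) : ItSym.RegU itsW2m 1 B0 := by
  apply it_s_reg_mk <;> dsimp only [itsW2m] <;>
    repeat' first
      | exact it_s_c_const _ _ _ | exact it_s_c_X _ _ | exact it_s_c_B _ _ | exact it_s_c_P _ _ | exact it_s_c_Y _ _ | exact it_s_c_N _ _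
      | exact it_s_c_D _ _ | exact it_s_c_th _ _ (by omega) _ | exact it_s_c_r _ _ (by omega) _ | exact it_s_c_k _ _ (by omega) _
      | apply it_s_c_add | apply it_s_c_sub | apply it_s_c_mul | apply it_s_c_neg | apply it_s_c_pow

theorem it_q1_regU_Hw (B0 : ℝ) : ItSym.RegU itsHw 2 B0 := by
  apply it_s_reg_mk <;> dsimp only [itsHw] <;>
    repeat' first
      | exact it_s_c_const _ _ _ | exact it_s_c_X _ _ | exact it_s_c_B _ _ | exact it_s_c_P _ _ | exact it_s_c_Y _ _ | exact it_s_c_N _ _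
      | exact it_s_c_D _ _ | exact it_s_c_th _ _ (by omega) _ | exact it_s_c_r _ _ (by omega) _ | exact it_s_c_k _ _ (by omega) _
      | apply it_s_c_add | apply it_s_c_sub | apply it_s_c_mul | apply it_s_c_neg | apply it_s_c_pow

/-- a symbol that reads only the record `0` is free of the record `1` -/
theorem it_q1_free1 (U : ItSym) (g : ItPh → ItMk → ItPh) (h : ∀ f Ξ, U f Ξ = g f (Ξ 0)) : U.Free 1 := by
  intro f Ξ Ξ' hh
  rw [h, h, hh 0 (by norm_num)]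

set_option maxHeartbeats 1600000 in
/-- (modes) 3 : `α - |C_z| ≥ 2m + l_*`   (= `it_q_hor` of `Int/Rates.lean`, verbatim) -/
theorem it_q1_hor (a : ItPar) (ha : a.Ok) (hm : 0 < a.m) :
    ItLayer true true false a (fun T pk p q η =>
      (2 * a.m + a.ls - η) * (q - p) * T.L ≤ T.hF pk.M p q - T.hh pk.M p q (T.rCz p) []) := by
  intro η hη
  obtain ⟨A1, hA1, hreg1⟩ := it_s_regU_list [itsX, itsW2m, itsHw, itsH, itsJ, itsK, itsPq, itsPqm, itsW2] 2 a.B0 (by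
    intro U hU
    simp only [List.mem_cons, List.not_mem_nil, or_false] at hU
    rcases hU with rfl | rfl | rfl | rfl | rfl | rfl | rfl | rfl | rfl
    · exact it_s_regU_mono (by omega) (it_s_regU_X a.B0)
    · exact it_s_regU_mono (by omega) (it_q1_regU_W2m a.B0)
    · exact it_q1_regU_Hw a.B0
    · exact it_s_regU_mono (by omega) (it_s_regU_H a.B0)
    · exact it_s_regU_mono (by omega) (it_s_regU_J a.B0)
    · exact it_s_regU_mono (by omega) (it_s_regU_K a.B0)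
    · exact it_s_regU_mono (by omega) (it_q1_regU_Pq a.B0)
    · exact it_s_regU_mono (by omega) (it_q1_regU_Pqm a.B0)
    · exact it_s_regU_mono (by omega) (it_q1_regU_W2 a.B0))
  obtain ⟨A0, hA0, hreg⟩ : ∃ A0 : ℝ, 1 ≤ A0 ∧ ∀ U ∈ [itsX, itsW2m, itsHw, itsH, itsJ, itsK, itsPq, itsPqm, itsW2], ∀ M, 2 ≤ M →
      ItSym.Reg U M a.B0 A0 :=
    ⟨max A1 1, le_max_right _ _, fun U hU M hM => it_s_reg_mono (le_max_left _ _) (hreg1 U hU M hM)⟩
  have hm1 : a.m ≤ 1 := ha.2.2.2.2.1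
  have hls0 : 0 ≤ a.ls := le_min zero_le_one (by linarith [ha.2.1])
  have hls1 : a.ls ≤ 1 := min_le_left _ _
  obtain ⟨n, η1, hn, hη1, hb⟩ := it_q1_rboost a ha A0 a.m hA0 hm hm1 (η / 16) (by positivity)
  have t1 := it_mode_ang true a ha hm A0 n hn η1 hη1
  have t3 := it_mode_ang true a ha hm A0 1 one_pos (η / 16) (by positivity)
  refine it_cb_imp (it_cb_and hb (it_cb_flags (av' := true) (cr' := false) (by simp) (by simp) (it_cb_and t1 t3))) 1 one_pos ?_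
  intro p q hp hpq _
  have hχ1 := it_sk_chi_pos p q n η1 hpq hn hη1
  have hχ3 := it_sk_chi_pos p q 1 (η / 16) hpq one_pos (by positivity)
  have hqp : 0 < q - p := by linarith
  have he0 := ha.2.2.2.2.2.2.2.1
  refine ⟨(itPkG (itChi p q n η1)).sup (itPkG (itChi p q 1 (η / 16))),
    min (Real.exp (-(6 * Real.log (A0 * 6 + 2) / (η / 2 * (q - p)))))
      (min (itAccA a.e0 (itChi p q n η1) (η1 / 2)) (itAccA a.e0 (itChi p q 1 (η / 16)) (η / 32))),
    it_cb_sup_pre (it_q1_pkG_pre _ hχ1.le) (it_q1_pkG_pre _ hχ3.le),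
    lt_min (Real.exp_pos _) (lt_min (it_q1_accA_pos _ _ _ he0 hχ1 (by positivity)) (it_q1_accA_pos _ _ _ he0 hχ3 (by positivity))),
    fun pk acc τ κ0 T hpk hle hacc hacc1 hquad hadm hav _ ⟨h1, h2, h3⟩ => ?_⟩
  have h0 := hadm.t0.δ0
  have hδ1 := hadm.t0.δ1
  have hM0 : 0 < pk.M := by have := hpk.1; omega
  have hM1 : 1 < pk.M := by have := hpk.1; omega
  have hM : 2 ≤ pk.M := hpk.1
  have hG1 := it_q1_pkG_mem (it_cb_sup_left hle)
  have hG3 := it_q1_pkG_mem (it_cb_sup_right hle)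
  have ac1 := it_q1_accA T a ha pk τ κ0 acc _ (η1 / 2) hadm hχ1 (by positivity)
    ((hacc1.trans (min_le_right _ _)).trans (min_le_left _ _))
  have ac3 := it_q1_accA T a ha pk τ κ0 acc _ (η / 32) hadm hχ3 (by positivity)
    ((hacc1.trans (min_le_right _ _)).trans (min_le_right _ _))
  have hVreg : ∀ v ∈ [itsHw, itsH, itsJ, itsK], ItSym.Reg v pk.M a.B0 A0 := by
    intro v hv
    exact hreg v (by simp only [List.mem_cons, List.not_mem_nil, or_false] at hv ⊢; tauto) _ hM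
  have hVkill : ∀ v ∈ [itsHw, itsH, itsJ, itsK], ∀ f Ξ, itDot ((v : ItSym) f Ξ) (itvEll true f (Ξ 1)) = 0 := by
    intro v hv f Ξ
    simp only [List.mem_cons, List.not_mem_nil, or_false] at hv
    rcases hv with rfl | rfl | rfl | rfl
    · simp only [itsHw, itvEll, if_true, itDot]; ring
    · simp only [itsH, itcH, itvEll, if_true, itDot]; ring
    · simp only [itsJ, itcJ, itvEll, if_true, itDot]; ring
    · simp only [itsK, itcK, itvEll, if_true, itDot]; ring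
  have eW : ∀ ω, itDot (T.fld p itsW2m ω) (itvEll true (T.f0 p ω) (T.mrk 1 ω)) = -2 * ((T.mrk 0 ω).th - (T.mrk 1 ω).th) := by
    intro ω
    simp only [Tan.fld, itsW2m, itvEll, if_true, itDot]; ring
  have eP : ∀ ω, itDot (T.fld p itsPqm ω) (itvEll true (T.f0 p ω) (T.mrk 1 ω)) = 2 * ((T.mrk 0 ω).r - (T.mrk 1 ω).r) := by
    intro ω
    simp only [Tan.fld, itsPqm, itvEll, if_true, itDot]; ring
  have two : ∀ (x c : ℝ), |-2 * x| < c → |x| < c := fun x c h => by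
    rw [abs_mul, abs_neg, abs_two] at h
    linarith [abs_nonneg x]
  have two' : ∀ (x c : ℝ), |2 * x| < c → |x| < c := fun x c h => by
    rw [abs_mul, abs_two] at h
    linarith [abs_nonneg x]
  have resa := h2 1 hM1 itsW2m [itsHw, itsH, itsJ, itsK] (hreg _ (by simp) _ hM) hVreg (by simp) hVkill (by
      simp only [eW]
      exact (ent_pr_mono T.P fun ω _ h => two _ _ h).trans ((it_q1_sep_th T a pk hpk acc hadm.t0 (hav rfl) _ hG1).trans ac1))
  have resb := h2 1 hM1 itsPqm [itsHw, itsH, itsJ, itsK] (hreg _ (by simp) _ hM) hVreg (by simp) hVkill (by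
      simp only [eP]
      exact (ent_pr_mono T.P fun ω _ h => two' _ _ h).trans ((it_q1_sep_r T a pk hpk acc hadm.t0 (hav rfl) _ hG1).trans ac1))
  have s2 := h3 1 hM1 itsW2m [itsHw, itsH, itsJ, itsK] (hreg _ (by simp) _ hM) hVreg (by simp) hVkill (by
      simp only [eW]
      exact (ent_pr_mono T.P fun ω _ h => two _ _ h).trans
        (((it_q1_sep_th T a pk hpk acc hadm.t0 (hav rfl) _ hG3).trans ac3).trans (by linarith))) 1 le_rfl le_rfl
  have s3 := h3 0 hM0 itsX [itsW2m, itsHw, itsH, itsJ, itsK] (hreg _ (by simp) _ hM) (by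
      intro v hv
      exact hreg v (by simp only [List.mem_cons, List.not_mem_nil, or_false] at hv ⊢; tauto) _ hM) (by simp) (by
      intro v hv f Ξ
      simp only [List.mem_cons, List.not_mem_nil, or_false] at hv
      rcases hv with rfl | rfl | rfl | rfl | rfl
      · simp only [itsW2m, itvEll, if_true, itDot]; ring
      · simp only [itsHw, itvEll, if_true, itDot]; ring
      · simp only [itsH, itcH, itvEll, if_true, itDot]; ring
      · simp only [itsJ, itcJ, itvEll, if_true, itDot]; ring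
      · simp only [itsK, itcK, itvEll, if_true, itDot]; ring)
    (it_sk_one_nondeg T h0 hδ1 _ _ hχ3 (by positivity) _ (by
      intro ω
      simp [Tan.fld, itsX, itcX, itvEll, itDot])) 1 le_rfl le_rfl
  have s1 := h1 itsW2m itsPq itsPqm itsW2 itsHw [itsH, itsJ, itsK] (hreg _ (by simp) _ hM) (hreg _ (by simp) _ hM) (hreg _ (by simp) _ hM)
    (hreg _ (by simp) _ hM) (hreg _ (by simp) _ hM) (by
      intro v hv
      refine ⟨hreg v (by simp only [List.mem_cons, List.not_mem_nil, or_false] at hv ⊢; tauto) _ hM, ?_⟩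
      simp only [List.mem_cons, List.not_mem_nil, or_false] at hv
      rcases hv with rfl | rfl | rfl <;> exact fun _ _ _ _ => rfl) (by simp)
    (it_q1_free1 _ (fun _ μ => ⟨-2 * μ.th, -2, 0, 0, 0, 0⟩) fun _ _ => rfl)
    (it_q1_free1 _ (fun _ μ => ⟨-2 * μ.r, 0, 1, 0, 0, 0⟩) fun _ _ => rfl)
    (it_q1_free1 _ (fun _ μ => ⟨2 * μ.r, 0, -1, 0, 0, 0⟩) fun _ _ => rfl)
    (it_q1_free1 _ (fun _ μ => ⟨2 * μ.th, 2, 0, 0, 0, 0⟩) fun _ _ => rfl) (by
      intro f Ξ x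
      simp only [itsHw, itsPq, itsW2m, itDot]; ring) (by
      intro f Ξ x
      simp only [itsHw, itsW2, itsPqm, itDot]; ring) resa resb
  rw [it_q2_S11] at s2 s3
  have Fle := it_sk_le_F T a pk hadm.t0 p q A0 hp.le hpq.le hA0 [itsX, itsW2m, itsHw, itsH, itsJ, itsK] (by
    intro v hv
    exact hreg v (by simp only [List.mem_cons, List.not_mem_nil, or_false] at hv ⊢; tauto) _ hM)
  simp only [List.map_cons, List.map_nil, it_s_fld_H, it_s_fld_J, it_s_fld_K, List.length_cons, List.length_nil] at s1 s2 s3 Fle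
  have e1 := it_q2_E T h0 hδ1 pk.M p q hpq.le _ _ a.ls (η / 16) (by positivity) hls0 s1
  have e2 := it_q2_E T h0 hδ1 pk.M p q hpq.le _ _ a.m (η / 16) (by positivity) hm.le s2
  have e3 := it_q2_E T h0 hδ1 pk.M p q hpq.le _ _ a.m (η / 16) (by positivity) hm.le s3
  have c1 := it_k_chain T pk.M p q [T.fld p itsX] [T.fld p itsW2m, T.fld p itsHw, T.cH p, T.cJ p, T.cK p] []
  have c2 := it_k_chain T pk.M p q [T.fld p itsW2m] [T.fld p itsHw, T.cH p, T.cJ p, T.cK p] []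
  have c3 := it_k_chain T pk.M p q [T.fld p itsHw] [T.cH p, T.cJ p, T.cK p] []
  simp only [List.cons_append, List.nil_append, List.append_nil] at c1 c2 c3
  have hcst := it_cb_const_le T acc (6 * Real.log (A0 * 6 + 2)) (η / 2 * (q - p)) (by positivity) h0 hadm.small
    (hacc1.trans (min_le_left _ _))
  have hL := it_cb_L_pos T h0 hδ1
  have hw : 0 ≤ (q - p) * T.L := mul_nonneg hqp.le hL.le
  push_cast at Fle
  norm_num at Fle
  have fin := it_q1_absorb (a.ls + a.m + a.m) η (η / 16) (3 + a.ls + a.m + a.m) (6 * Real.log (A0 * 6 + 2)) ((q - p) * T.L)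
    (T.hF pk.M p q - T.hh pk.M p q (T.rCz p) []) hw (by
      simp only [Tan.rCz]
      have e : (a.ls + a.m + a.m - (3 + a.ls + a.m + a.m) * (η / 16)) * ((q - p) * T.L)
          = (a.ls - (1 + a.ls) * (η / 16)) * (q - p) * T.L + (a.m - (1 + a.m) * (η / 16)) * (q - p) * T.L
            + (a.m - (1 + a.m) * (η / 16)) * (q - p) * T.L := by ring
      rw [e]
      linarith) (by linarith) (by nlinarith)
  have e : (2 * a.m + a.ls - η) * (q - p) * T.L = (a.ls + a.m + a.m - η) * ((q - p) * T.L) := by ring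
  show (2 * a.m + a.ls - η) * (q - p) * T.L ≤ T.hF pk.M p q - T.hh pk.M p q (T.rCz p) []
  rw [e]
  exact fin

/-! ## (Gq) 2 -/

/-- the line test with the line chosen by the record `1` : `|(r_0 - r_1) - 𝔨_1 (θ_0 - θ_1)|` is separated -/
theorem it_q1_sep_k1 (T : Tan) (a : ItPar) (pk : ItPk) (hpk : pk.Ok) (acc : ℝ) (h0 : T.Adm0 a pk) (hav : T.Avoid a pk acc)
    (u : ℝ) (hu : u ∈ pk.G) :
    T.P.pr (fun ω => ¬ (T.δ ^ u < |((T.mrk 0 ω).r - (T.mrk 1 ω).r) - (T.mrk 1 ω).k * ((T.mrk 0 ω).th - (T.mrk 1 ω).th)|))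
      ≤ T.δ ^ (a.e0 * u - acc) := by
  have hM0 : 0 < pk.M := by have := hpk.1; omega
  have hM1 : 1 < pk.M := by have := hpk.1; omega
  refine le_trans (ent_pr_mono T.P fun ω _ hω => ?_) (it_q1_line_sep T a pk acc h0 hav 0 hM0 u hu
    (fun _ v => -(v ⟨1, hM1⟩).k) (fun _ _ => 1) (fun _ v => (v ⟨1, hM1⟩).r - (v ⟨1, hM1⟩).k * (v ⟨1, hM1⟩).th)
    (fun _ v => by nlinarith [sq_nonneg (v ⟨1, hM1⟩).k]))
  have e : T.XiE pk.M 0 ω ⟨1, hM1⟩ = T.mrk 1 ω := by simp [Tan.XiE]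
  simp only [e]
  have e2 : -(T.mrk 1 ω).k * (T.mrk 0 ω).th + 1 * (T.mrk 0 ω).r - ((T.mrk 1 ω).r - (T.mrk 1 ω).k * (T.mrk 1 ω).th)
      = ((T.mrk 0 ω).r - (T.mrk 1 ω).r) - (T.mrk 1 ω).k * ((T.mrk 0 ω).th - (T.mrk 1 ω).th) := by ring
  rw [e2]
  exact not_lt.1 hω

/-- `G_1` and `G_0` have the same layer entropy (exchangeability of the records) -/
theorem it_q1_swG (T : Tan) (a : ItPar) (pk : ItPk) (h : T.Adm0 a pk) (hq : T.quad = true) (hM : 2 ≤ pk.M) (p q : ℝ) :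
    T.hh pk.M p q (T.rG p 1) [] = T.hh pk.M p q (T.rG p 0) [] := by
  have hs := it_k_swap T a pk h p q 0 1 (by omega) (by omega) [itsL 0, itsG2 0, itsG3 0] [] (by
    intro u hu f Ξ Ξ' hΞ
    have h0 := hΞ 0 (by omega)
    simp only [List.append_nil, List.mem_cons, List.not_mem_nil, or_false] at hu
    rcases hu with rfl | rfl | rfl
    · simp only [itsL, h0]
    · simp only [itsG2, h0]
    · simp only [itsG3, h0])
  rw [it_s_fld_Gq T p 0 hq] at hs
  rw [← it_s_fld_Gq T p 1 hq]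
  exact hs.symm

/-- (Gq) 2 : `2 |G_0| ≥ α - 1`   (= `it_q_G2` of `Int/Rates.lean`, verbatim).   `(G_0, G_1)` lists `V5 = (L_0, L_1, H, J, K)` and `V5` + one scalar lists `F` on the good event of the line test
(`it_n_la_main1/2` of `Int/BinLA.lean`, helper267). -/
theorem it_q1_G2 (a : ItPar) (ha : a.Ok) (hm : 0 < a.m) (hc : 1 < a.c) :
    ItLayer true true false a (fun T pk p q η =>
      T.hF pk.M p q - (1 + η) * (q - p) * T.L ≤ 2 * T.hh pk.M p q (T.rG p 0) []) := by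
  intro η hη
  obtain ⟨C1, hC1, L1⟩ := it_n_la_main1 a ha
  obtain ⟨C2, hC2, L2⟩ := it_n_la_main2 a ha
  refine it_cb_imp (it_cb_true true true false a) 1 one_pos ?_
  intro p q hp hpq _
  have hqp : 0 < q - p := by linarith
  obtain ⟨C, hC⟩ : ∃ C : ℝ, C = C1 + C2 + 1 := ⟨_, rfl⟩
  have hC0 : 0 < C := by rw [hC]; linarith
  obtain ⟨u, hu⟩ : ∃ u : ℝ, u = η * (q - p) / (4 * C) := ⟨_, rfl⟩
  have hu0 : 0 < u := by rw [hu]; positivity
  obtain ⟨ε, hε⟩ : ∃ ε : ℝ, ε = min 1 (η / (4 * C)) := ⟨_, rfl⟩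
  have hε0 : 0 < ε := by rw [hε]; exact lt_min one_pos (by positivity)
  refine ⟨itPkG u, min (Real.exp (-(C / (η / 4 * (q - p))))) (itAccA a.e0 u ε), it_q1_pkG_pre _ hu0.le,
    lt_min (Real.exp_pos _) (it_q1_accA_pos _ _ _ ha.2.2.2.2.2.2.2.1 hu0 hε0),
    fun pk acc τ κ0 T hpk hle hacc hacc1 hquad hadm hav _ _ => ?_⟩
  have h0 := hadm.t0.δ0
  have hδ1 := hadm.t0.δ1
  have hM : 2 ≤ pk.M := hpk.1
  have hL := it_cb_L_pos T h0 hδ1
  have hw : 0 ≤ (q - p) * T.L := mul_nonneg hqp.le hL.le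
  have hpr := (it_q1_sep_k1 T a pk hpk acc hadm.t0 (hav rfl) u (it_q1_pkG_mem hle)).trans
    (it_q1_accA T a ha pk τ κ0 acc u ε hadm hu0 hε0 (hacc1.trans (min_le_right _ _)))
  have hε1 : ε ≤ 1 := by rw [hε]; exact min_le_left _ _
  have k1 := L1 T pk p q u ε hadm.t0 hM hp hpq.le hu0.le hε1 hpr
  have k2 := L2 T pk p q u ε hadm.t0 hquad hM hp hpq.le hu0.le hε1 hpr
  have k3 := it_k_subadd T pk.M p q (T.rG p 0) (T.rG p 1) []
  rw [it_q1_swG T a pk hadm.t0 hquad hM p q] at k3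
  have k4 := it_k_mono T pk.M p q (itRF T.Ω) (T.cL 0 :: T.cL 1 :: T.rCz p) []
  have k5 := it_k_chain T pk.M p q (itRF T.Ω) (T.cL 0 :: T.cL 1 :: T.rCz p) []
  rw [List.append_nil] at k5
  have hcst := it_cb_const_le T acc C (η / 4 * (q - p)) (by positivity) h0 hadm.small (hacc1.trans (min_le_left _ _))
  show T.hF pk.M p q - (1 + η) * (q - p) * T.L ≤ 2 * T.hh pk.M p q (T.rG p 0) []
  rw [it_k_F T h0 hδ1 pk.M p q hpq.le]
  obtain ⟨R, hR⟩ : ∃ R : ℝ, R = u * T.L + ε * ((q - p) * T.L) + 1 := ⟨_, rfl⟩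
  rw [← hR] at k1 k2
  have hR0 : 0 ≤ R := by rw [hR]; positivity
  have e1 : C * (u * T.L) = η / 4 * ((q - p) * T.L) := by
    rw [hu]; field_simp
  have e2 : C * (ε * ((q - p) * T.L)) ≤ η / 4 * ((q - p) * T.L) := by
    have : C * ε ≤ η / 4 := by
      have h1 : ε ≤ η / (4 * C) := by rw [hε]; exact min_le_right _ _
      calc C * ε ≤ C * (η / (4 * C)) := mul_le_mul_of_nonneg_left h1 hC0.le
        _ = η / 4 := by field_simp
    calc C * (ε * ((q - p) * T.L)) = (C * ε) * ((q - p) * T.L) := by ring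
      _ ≤ η / 4 * ((q - p) * T.L) := mul_le_mul_of_nonneg_right this hw
  have e3 : C * R ≤ 3 * (η / 4 * ((q - p) * T.L)) := by
    rw [hR]
    have : η / 4 * (q - p) * T.L = η / 4 * ((q - p) * T.L) := by ring
    rw [this] at hcst
    nlinarith
  have e4 : C1 * R + C2 * R ≤ C * R := by
    rw [hC]; nlinarith
  have e5 : (1 + η) * (q - p) * T.L = (q - p) * T.L + 4 * (η / 4 * ((q - p) * T.L)) := by ring
  have e6 : 0 ≤ η / 4 * ((q - p) * T.L) := by positivity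
  rw [e5]
  linarith

end Claimed.Agent.R256
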