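import Claimed.Agent.R256.Int.Rq2Cross

/-!
# Row 256, Sec. 5, block RQ2 = Prop int:orientation-rates, quadratic part      (helper172; prefix `it_q2_`; no sorry in this file)

EXITS (VERBATIM the stubs of `Int/Rates.lean`):  `it_q2_cross` (file Rq2Cross) = `it_q_cross`, `it_q2_mix1/3/4` = `it_q_mix1/3/4`, `it_q2_W` = `it_q_W`, `it_q2_lW` = `it_l_W`.
* (mix-q) 3 : `(J, H, x_0)` is a unimodular change of `C_z = (H, J, K)`; chain rule; `|H | x_0| ≥ a_*` (`it_mot_th`, `r_0` held), `|J | H, x_0| ≥ ν` (`it_mot_r`, `θ_0` held).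
* (mix-q) 4 : chain rule on `π_0 = (W_0, H, x_0)`; `|W_0 | H, x_0| ≥ |W_0 | C_z| - const ≥ l_*` (`it_q2_W_cz` = boost with time slopes, residual `m` from `it_mode_ang`).
* (mix-q) 1 : `ν = 0` : (cross-q);  `ν > 0` : boost with time slopes on the planar pair `(J, K)` given `H`, residual `ν` from `it_mot_r`; `K + θ_0 J = x_0 + r_0 H`.
Also exported, LS forms: `it_q2_W_cz` (`|W_0 | C_z| ≥ l_*`), `it_q2_lW_LS` (`|W_0 | H| ≥ l_*`, linear), `it_q2_cross_LS`;  `it_q2_E_layer` : LS pattern => E pattern.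
-/

set_option autoImplicit false
set_option linter.unreachableTactic false
set_option linter.unusedTactic false

namespace Claimed.Agent.R256

open Claimed.Agent.R255
open Claimed.Agent.R255.FLaw (pair)
open scoped BigOperators
open Classical

variable (T : Tan)

/-- `x_i` never reads `𝔨_j` -/
theorem it_q2_kfree_xq (i j : ℕ) : (itsxq i).KFree j := by
  intro f Ξ Ξ' h h1 h2
  by_cases hij : i = j
  · subst hij
    simp only [itsxq, itcxq, h1, h2]
  · simp only [itsxq, h i hij]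

/-- `x_0 = K + θ_0 J - r_0 H` -/
theorem it_q2_x_HJK (hq : T.quad = true) (p : ℝ) (i : ℕ) (ω : T.Ω) (x : ItPh) :
    itDot (T.cx p i ω) x = -(T.mrk i ω).r * itDot (T.cH p ω) x + (T.mrk i ω).th * itDot (T.cJ p ω) x + itDot (T.cK p ω) x := by
  simp only [Tan.cx, hq, if_true, itcxq, Tan.cH, Tan.cJ, Tan.cK, itcH, itcJ, itcK, itDot]
  ring

/-- (mix-q) 3, pointwise in the datum -/
theorem it_q2_mix3_pt (a : ItPar) (ha : a.Ok) (pk : ItPk) (hpk : pk.Ok) (h : T.Adm0 a pk) (hq : T.quad = true) (p q : ℝ) (hpq : p ≤ q)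
    (ρ1 ρ2 η : ℝ) (hη : 0 ≤ η) (hρ1 : 0 ≤ ρ1) (hρ2 : 0 ≤ ρ2)
    (t1 : T.LS pk.M p q q [T.cH p] [T.cx p 0] ρ1 η) (t2 : T.LS pk.M p q q [T.cJ p] [T.cH p, T.cx p 0] ρ2 η) :
    (ρ1 + ρ2 - (2 + ρ1 + ρ2) * η) * (q - p) * T.L - 3 * Real.log (a.B0 * 3 + 2)
      ≤ T.hh pk.M p q (T.rCz p) [] - T.hh pk.M p q [T.cx p 0] [] := by
  have h0 := h.δ0
  have h1 := h.δ1
  have hB : 1 ≤ a.B0 := ha.2.2.2.2.2.2.2.2
  have hM : 0 < pk.M := by have := hpk.1; omega
  have e1 := it_q2_E T h0 h1 pk.M p q hpq _ _ ρ1 η hη hρ1 t1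
  have e2 := it_q2_E T h0 h1 pk.M p q hpq _ _ ρ2 η hη hρ2 t2
  have c1 := it_k_chain T pk.M p q [T.cJ p] [T.cH p, T.cx p 0] []
  have c2 := it_k_chain T pk.M p q [T.cH p] [T.cx p 0] []
  have l := it_k_lin T h0 h1 pk.M p q a.B0 hB (T.rCz p) [T.cJ p, T.cH p, T.cx p 0] [] (by
    intro u' hu'
    simp only [List.mem_cons, List.not_mem_nil, or_false] at hu'
    rcases hu' with rfl | rfl | rfl
    · refine it_q2_comb T pk.M p a.B0 (by linarith) _ _ [fun _ => 0, fun _ => 1, fun _ => 0] (by simp) ?_ ?_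
      · intro c hc ω _
        simp only [List.mem_cons, List.not_mem_nil, or_false] at hc
        rcases hc with rfl | rfl | rfl <;> simp <;> linarith
      · intro ω _ x
        simp [Tan.rCz, Finset.sum_range_succ]
    · refine it_q2_comb T pk.M p a.B0 (by linarith) _ _ [fun _ => 1, fun _ => 0, fun _ => 0] (by simp) ?_ ?_
      · intro c hc ω _
        simp only [List.mem_cons, List.not_mem_nil, or_false] at hc
        rcases hc with rfl | rfl | rfl <;> simp <;> linarith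
      · intro ω _ x
        simp [Tan.rCz, Finset.sum_range_succ]
    · refine it_q2_comb T pk.M p a.B0 (by linarith) _ _ [fun ω => -(T.mrk 0 ω).r, fun ω => (T.mrk 0 ω).th, fun _ => 1] ?_ ?_ ?_
      · intro c hc ω ω' hb
        have := it_q2_mrk_base T pk.M p 0 hM ω ω' hb
        simp only [List.mem_cons, List.not_mem_nil, or_false] at hc
        rcases hc with rfl | rfl | rfl <;> simp [this]
      · intro c hc ω hω
        have := h.bdM ω hω 0 hM
        simp only [List.mem_cons, List.not_mem_nil, or_false] at hc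
        rcases hc with rfl | rfl | rfl
        · simpa using this.2.1
        · exact this.1
        · simpa using hB
      · intro ω _ x
        rw [it_q2_x_HJK T hq]
        simp [Tan.rCz, Finset.sum_range_succ])
  simp only [List.cons_append, List.nil_append, List.append_nil] at c1 c2
  simp only [Tan.rCz, List.length_cons, List.length_nil] at l ⊢
  push_cast at l
  have e : (ρ1 + ρ2 - (2 + ρ1 + ρ2) * η) * (q - p) * T.L
      = (ρ1 - (1 + ρ1) * η) * (q - p) * T.L + (ρ2 - (1 + ρ2) * η) * (q - p) * T.L := by ring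
  rw [e]
  linarith


/-- (mix-q) 3 : `|C_z| - |x_0| ≥ a_* + ν` -/
theorem it_q2_mix3 (a : ItPar) (ha : a.Ok) (hm : 0 < a.m) (hc : a.c < 1) :
    ItLayer true true false a (fun T pk p q η =>
      (a.as + a.ν - η) * (q - p) * T.L ≤ T.hh pk.M p q (T.rCz p) [] - T.hh pk.M p q [T.cx p 0] []) := by
  intro η hη
  obtain ⟨A0, hA0, hreg⟩ := it_s_regU_list [itsH, itsJ, itsxq 0] 1 a.B0 (by
    intro U hU
    simp only [List.mem_cons, List.not_mem_nil, or_false] at hU
    rcases hU with rfl | rfl | rfl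
    · exact it_s_regU_mono (by omega) (it_s_regU_H a.B0)
    · exact it_s_regU_mono (by omega) (it_s_regU_J a.B0)
    · exact it_s_regU_xq 0 a.B0)
  have hd1 : a.d ≤ 1 := ha.2.2.1
  have hν0 : 0 ≤ a.ν := ha.2.2.2.2.2.1
  have hν1 : a.ν ≤ 1 := ha.2.2.2.2.2.2.1
  have has0 : 0 ≤ a.as := le_max_right _ _
  have has1 : a.as ≤ 1 := max_le (by nlinarith [ha.1]) zero_le_one
  have t1 := it_mot_th true a ha hm (Or.inl hc) A0 (η / 8) (by positivity)
  have t2 := it_mot_r true a ha hm hc A0 1 one_pos (η / 8) (by positivity)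
  refine it_cb_flags (av := false) (cr := false) (by simp) (by simp) (it_cb_imp (it_cb_and t1 t2) 1 one_pos ?_)
  intro p q hp hpq _
  refine ⟨itPk0 2 1, Real.exp (-(3 * Real.log (a.B0 * 3 + 2) / (η / 2 * (q - p)))), it_cb_pk0_pre 2 1 one_pos, Real.exp_pos _,
    fun pk acc τ κ0 T hpk _ hacc hacc1 hquad hadm _ _ ⟨h1, h2⟩ => ?_⟩
  have h0 := hadm.t0.δ0
  have hδ1 := hadm.t0.δ1
  have hM : 0 < pk.M := by have := hpk.1; omega
  have hM1 : 1 ≤ pk.M := hM
  have hχ : 0 ≤ itChi p q 1 (η / 8) := by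
    unfold itChi
    have : 0 < q - p := by linarith
    positivity
  have s1 := h1 0 hM itsH [itsxq 0] 2 (fun _ _ => 1) (hreg _ (by simp) _ hM1) (fun _ _ _ _ _ _ => rfl) (by
      intro v hv
      simp only [List.mem_cons, List.not_mem_nil, or_false] at hv
      subst hv
      exact ⟨hreg _ (by simp) _ hM1, it_q2_kfree_xq 0 0⟩) (by simp) (Or.inr rfl) (by
      intro v hv f Ξ A
      simp only [List.mem_cons, List.not_mem_nil, or_false] at hv
      subst hv
      simp only [itsxq, itcxq, itvTh, if_true, itDot]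
      ring) (by
      intro f Ξ A
      simp only [itsH, itcH, itvTh, if_true, itDot]
      ring) (it_q2_sep_one T h0 hδ1 _ (by simp) _ _ hχ (by positivity))
  have s2 := h2 0 hM itsJ [itsH, itsxq 0] 2 (fun _ _ => 1) (hreg _ (by simp) _ hM1) (fun _ _ _ _ _ _ => rfl) (by
      intro v hv
      simp only [List.mem_cons, List.not_mem_nil, or_false] at hv
      rcases hv with rfl | rfl
      · exact ⟨hreg _ (by simp) _ hM1, fun _ _ _ _ _ _ => rfl⟩
      · exact ⟨hreg _ (by simp) _ hM1, it_q2_kfree_xq 0 0⟩) (by simp) (Or.inr rfl) (by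
      intro v hv f Ξ A
      simp only [List.mem_cons, List.not_mem_nil, or_false] at hv
      rcases hv with rfl | rfl
      · simp only [itsH, itcH, itvR, if_true, itDot]
        ring
      · simp only [itsxq, itcxq, itvR, if_true, itDot]
        ring) (by
      intro f Ξ A
      simp only [itsJ, itcJ, itvR, if_true, itDot]
      ring) (it_q2_sep_one T h0 hδ1 _ (by simp) _ _ hχ (by positivity)) 1 le_rfl le_rfl
  rw [it_q2_S11] at s2
  simp only [List.map_cons, List.map_nil, it_s_fld_H, it_s_fld_J, it_s_fld_xq T p 0 hquad] at s1 s2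
  have hrth : a.rth = a.as := by simp [ItPar.rth, hc]
  rw [hrth] at s1
  have key := it_q2_mix3_pt T a ha pk hpk hadm.t0 hquad p q hpq.le a.as a.ν (η / 8) (by positivity) has0 hν0 s1 s2
  have hcst := it_cb_const_le T acc (3 * Real.log (a.B0 * 3 + 2)) (η / 2 * (q - p)) (by
    have : 0 < q - p := by linarith
    positivity) h0 hadm.small hacc1
  have hL := it_cb_L_pos T h0 hδ1
  have hw : 0 ≤ (q - p) * T.L := mul_nonneg (by linarith) hL.le
  have e : (a.as + a.ν - η) * (q - p) * T.L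
      ≤ (a.as + a.ν - (2 + a.as + a.ν) * (η / 8)) * (q - p) * T.L - η / 2 * (q - p) * T.L := by
    have : (a.as + a.ν - (2 + a.as + a.ν) * (η / 8)) * (q - p) * T.L - η / 2 * (q - p) * T.L - (a.as + a.ν - η) * (q - p) * T.L
        = (η / 2 - (2 + a.as + a.ν) * (η / 8)) * ((q - p) * T.L) := by ring
    have h2 : 0 ≤ (η / 2 - (2 + a.as + a.ν) * (η / 8)) := by nlinarith
    have := mul_nonneg h2 hw
    linarith
  linarith

/-! ## more symbols -/

/-- `-dX` -/
def itsXm : ItSym := fun _ _ => ⟨-1, 0, 0, 0, 0, 0⟩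
/-- `-J` -/
def itsJm : ItSym := fun f _ => ⟨f.P, 0, 0, 0, -1, 0⟩
/-- `K + θ_i J` -/
def itsKJ (i : ℕ) : ItSym := fun f Ξ => ⟨-(Ξ i).th * f.P, -f.P, 0, 0, (Ξ i).th, 1⟩

theorem it_q2_eqns_cite : True := by
  have := @itsXm.eq_1; have := @itsJm.eq_1; have := @itsKJ.eq_1
  trivial

theorem it_q2_regU_Xm (B0 : ℝ) : ItSym.RegU itsXm 0 B0 := by
  apply it_s_reg_mk <;> dsimp only [itsXm] <;>
    repeat' first
      | exact it_s_c_const _ _ _ | exact it_s_c_X _ _ | exact it_s_c_B _ _ | exact it_s_c_P _ _ | exact it_s_c_Y _ _ | exact it_s_c_N _ _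
      | exact it_s_c_D _ _ | exact it_s_c_th _ _ (by omega) _ | exact it_s_c_r _ _ (by omega) _ | exact it_s_c_k _ _ (by omega) _
      | apply it_s_c_add | apply it_s_c_sub | apply it_s_c_mul | apply it_s_c_neg | apply it_s_c_pow

theorem it_q2_regU_Jm (B0 : ℝ) : ItSym.RegU itsJm 0 B0 := by
  apply it_s_reg_mk <;> dsimp only [itsJm] <;>
    repeat' first
      | exact it_s_c_const _ _ _ | exact it_s_c_X _ _ | exact it_s_c_B _ _ | exact it_s_c_P _ _ | exact it_s_c_Y _ _ | exact it_s_c_N _ _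
      | exact it_s_c_D _ _ | exact it_s_c_th _ _ (by omega) _ | exact it_s_c_r _ _ (by omega) _ | exact it_s_c_k _ _ (by omega) _
      | apply it_s_c_add | apply it_s_c_sub | apply it_s_c_mul | apply it_s_c_neg | apply it_s_c_pow

theorem it_q2_regU_KJ (i : ℕ) (B0 : ℝ) : ItSym.RegU (itsKJ i) (i + 1) B0 := by
  apply it_s_reg_mk <;> dsimp only [itsKJ] <;>
    repeat' first
      | exact it_s_c_const _ _ _ | exact it_s_c_X _ _ | exact it_s_c_B _ _ | exact it_s_c_P _ _ | exact it_s_c_Y _ _ | exact it_s_c_N _ _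
      | exact it_s_c_D _ _ | exact it_s_c_th _ _ (by omega) _ | exact it_s_c_r _ _ (by omega) _ | exact it_s_c_k _ _ (by omega) _
      | apply it_s_c_add | apply it_s_c_sub | apply it_s_c_mul | apply it_s_c_neg | apply it_s_c_pow

/-- `|W_0 | C_z| ≥ l_*` in LS form (part of (modes)) -/
theorem it_q2_W_cz (a : ItPar) (ha : a.Ok) (hm : 0 < a.m) :
    ItLayer true false false a (fun T pk p q η => T.LS pk.M p q q [T.cW 0] (T.rCz p) a.ls η) := by
  intro η hη
  obtain ⟨A1, hA1, hreg1⟩ := it_s_regU_list [itsXm, itsB, itsW 0, itsH, itsJ, itsK] 1 a.B0 (by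
    intro U hU
    simp only [List.mem_cons, List.not_mem_nil, or_false] at hU
    rcases hU with rfl | rfl | rfl | rfl | rfl | rfl
    · exact it_s_regU_mono (by omega) (it_q2_regU_Xm a.B0)
    · exact it_s_regU_mono (by omega) (it_s_regU_B a.B0)
    · exact it_s_regU_W 0 a.B0
    · exact it_s_regU_mono (by omega) (it_s_regU_H a.B0)
    · exact it_s_regU_mono (by omega) (it_s_regU_J a.B0)
    · exact it_s_regU_mono (by omega) (it_s_regU_K a.B0))
  obtain ⟨A0, hA0, hreg⟩ : ∃ A0 : ℝ, a.B0 ≤ A0 ∧ ∀ U ∈ [itsXm, itsB, itsW 0, itsH, itsJ, itsK], ∀ M, 1 ≤ M → ItSym.Reg U M a.B0 A0 :=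
    ⟨max A1 a.B0, le_max_right _ _, fun U hU M hM => it_s_reg_mono (le_max_left _ _) (hreg1 U hU M hM)⟩
  obtain ⟨n, η1, hn, hη1, hb⟩ := it_q2_tboost true a ha A0 a.m hA0 hm ha.2.2.2.2.1 η hη
  have t1 := it_mode_ang true a ha hm A0 n hn η1 hη1
  refine it_cb_imp (it_cb_and hb t1) 1 one_pos ?_
  intro p q hp hpq _
  refine ⟨itPk0 2 1, 1, it_cb_pk0_pre 2 1 one_pos, one_pos,
    fun pk acc τ κ0 T hpk _ hacc hacc1 hquad hadm _ _ ⟨h1, h2⟩ => ?_⟩
  have h0 := hadm.t0.δ0
  have hδ1 := hadm.t0.δ1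
  have hM : 0 < pk.M := by have := hpk.1; omega
  have hM1 : 1 ≤ pk.M := hM
  have hχ : 0 ≤ itChi p q n η1 := by
    unfold itChi
    have : 0 < q - p := by linarith
    positivity
  have res := h2 0 hM itsXm [itsW 0, itsH, itsJ, itsK] (hreg _ (by simp) _ hM1) (by
      intro v hv
      exact hreg v (by simp only [List.mem_cons, List.not_mem_nil, or_false] at hv ⊢; tauto) _ hM1) (by simp) (by
      intro v hv f Ξ
      simp only [List.mem_cons, List.not_mem_nil, or_false] at hv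
      rcases hv with rfl | rfl | rfl | rfl
      · simp only [itsW, itcW, itvEll, if_true, itDot]; ring
      · simp only [itsH, itcH, itvEll, if_true, itDot]; ring
      · simp only [itsJ, itcJ, itvEll, if_true, itDot]; ring
      · simp only [itsK, itcK, itvEll, if_true, itDot]; ring)
    (it_q2_sep_one T h0 hδ1 _ (by
      intro ω
      simp only [Tan.fld, itsXm, itvEll, if_true, itDot]
      norm_num) _ _ hχ (by positivity))
  have key := h1 0 hM itsXm itsB (itsW 0) [itsH, itsJ, itsK] (hreg _ (by simp) _ hM1) (hreg _ (by simp) _ hM1) (hreg _ (by simp) _ hM1) (by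
      intro v hv
      refine ⟨hreg v (by simp only [List.mem_cons, List.not_mem_nil, or_false] at hv ⊢; tauto) _ hM1, ?_⟩
      simp only [List.mem_cons, List.not_mem_nil, or_false] at hv
      rcases hv with rfl | rfl | rfl <;> intro f Ξ Ξ' _ <;> rfl) (by simp)
    (fun _ _ _ _ => rfl) (fun _ _ _ _ => rfl) (by
      intro f Ξ x
      simp only [itsW, itcW, itsB, itcB, itsXm, itDot]
      ring) res
  exact key

/-- LS to E on a layer pattern: `LS U V ρ` for all tolerances gives `(ρ - η)(q - p) L ≤ hh U V`   (`0 ≤ ρ ≤ 1`) -/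
theorem it_q2_E_layer (quad av cr : Bool) (a : ItPar) (ρ : ℝ) (hρ0 : 0 ≤ ρ) (hρ1 : ρ ≤ 1)
    (U V : (T : Tan) → ℝ → List (T.Ω → ItPh))
    (h : ItLayer quad av cr a (fun T pk p q η => T.LS pk.M p q q (U T p) (V T p) ρ η)) :
    ItLayer quad av cr a (fun T pk p q η => (ρ - η) * (q - p) * T.L ≤ T.hh pk.M p q (U T p) (V T p)) := by
  intro η hη
  refine it_cb_imp (h (η / 2) (by positivity)) 1 one_pos ?_
  intro p q hp hpq _
  refine ⟨itPk0 0 1, 1, it_cb_pk0_pre 0 1 one_pos, one_pos,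
    fun pk acc τ κ0 T hpk _ hacc hacc1 hquad hadm _ _ h1 => ?_⟩
  have h0 := hadm.t0.δ0
  have hδ1 := hadm.t0.δ1
  have e := it_q2_E T h0 hδ1 pk.M p q hpq.le _ _ ρ (η / 2) (by positivity) hρ0 h1
  have hL := it_cb_L_pos T h0 hδ1
  have hw : 0 ≤ (q - p) * T.L := mul_nonneg (by linarith) hL.le
  have : (ρ - (1 + ρ) * (η / 2)) * (q - p) * T.L - (ρ - η) * (q - p) * T.L = (η - (1 + ρ) * (η / 2)) * ((q - p) * T.L) := by ring
  have h2 : 0 ≤ η - (1 + ρ) * (η / 2) := by nlinarith
  have := mul_nonneg h2 hw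
  linarith

/-- (modes) 1 : `|W_0 | C_z| ≥ l_*`   (= `it_q_W` of `Int/Rates.lean`, verbatim) -/
theorem it_q2_W (a : ItPar) (ha : a.Ok) (hm : 0 < a.m) :
    ItLayer true false false a (fun T pk p q η => (a.ls - η) * (q - p) * T.L ≤ T.hh pk.M p q [T.cW 0] (T.rCz p)) :=
  it_q2_E_layer true false false a a.ls (le_min zero_le_one (by linarith [ha.2.1])) (min_le_left _ _)
    (fun T _ => [T.cW 0]) (fun T p => T.rCz p) (it_q2_W_cz a ha hm)

/-- `|W_0 | H| ≥ l_*` in LS form, linear case (part of (modes-lin)) -/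
theorem it_q2_lW_LS (a : ItPar) (ha : a.Ok) (hm : 0 < a.m) :
    ItLayer false false false a (fun T pk p q η => T.LS pk.M p q q [T.cW 0] [T.cH p] a.ls η) := by
  intro η hη
  obtain ⟨A1, hA1, hreg1⟩ := it_s_regU_list [itsXm, itsB, itsW 0, itsH] 1 a.B0 (by
    intro U hU
    simp only [List.mem_cons, List.not_mem_nil, or_false] at hU
    rcases hU with rfl | rfl | rfl | rfl
    · exact it_s_regU_mono (by omega) (it_q2_regU_Xm a.B0)
    · exact it_s_regU_mono (by omega) (it_s_regU_B a.B0)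
    · exact it_s_regU_W 0 a.B0
    · exact it_s_regU_mono (by omega) (it_s_regU_H a.B0))
  obtain ⟨A0, hA0, hreg⟩ : ∃ A0 : ℝ, a.B0 ≤ A0 ∧ ∀ U ∈ [itsXm, itsB, itsW 0, itsH], ∀ M, 1 ≤ M → ItSym.Reg U M a.B0 A0 :=
    ⟨max A1 a.B0, le_max_right _ _, fun U hU M hM => it_s_reg_mono (le_max_left _ _) (hreg1 U hU M hM)⟩
  obtain ⟨n, η1, hn, hη1, hb⟩ := it_q2_tboost false a ha A0 a.m hA0 hm ha.2.2.2.2.1 η hη
  have t1 := it_mode_ang false a ha hm A0 n hn η1 hη1
  refine it_cb_imp (it_cb_and hb t1) 1 one_pos ?_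
  intro p q hp hpq _
  refine ⟨itPk0 2 1, 1, it_cb_pk0_pre 2 1 one_pos, one_pos,
    fun pk acc τ κ0 T hpk _ hacc hacc1 hquad hadm _ _ ⟨h1, h2⟩ => ?_⟩
  have h0 := hadm.t0.δ0
  have hδ1 := hadm.t0.δ1
  have hM : 0 < pk.M := by have := hpk.1; omega
  have hM1 : 1 ≤ pk.M := hM
  have hχ : 0 ≤ itChi p q n η1 := by
    unfold itChi
    have : 0 < q - p := by linarith
    positivity
  have res := h2 0 hM itsXm [itsW 0, itsH] (hreg _ (by simp) _ hM1) (by
      intro v hv
      exact hreg v (by simp only [List.mem_cons, List.not_mem_nil, or_false] at hv ⊢; tauto) _ hM1) (by simp) (by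
      intro v hv f Ξ
      simp only [List.mem_cons, List.not_mem_nil, or_false] at hv
      rcases hv with rfl | rfl
      · simp [itsW, itcW, itvEll, itDot]
      · simp only [itsH, itcH, itvEll, itDot]; simp; ring)
    (it_q2_sep_one T h0 hδ1 _ (by
      intro ω
      simp [Tan.fld, itsXm, itvEll, itDot]) _ _ hχ (by positivity))
  have key := h1 0 hM itsXm itsB (itsW 0) [itsH] (hreg _ (by simp) _ hM1) (hreg _ (by simp) _ hM1) (hreg _ (by simp) _ hM1) (by
      intro v hv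
      simp only [List.mem_cons, List.not_mem_nil, or_false] at hv
      subst hv
      exact ⟨hreg _ (by simp) _ hM1, fun _ _ _ _ => rfl⟩) (by simp)
    (fun _ _ _ _ => rfl) (fun _ _ _ _ => rfl) (by
      intro f Ξ x
      simp only [itsW, itcW, itsB, itcB, itsXm, itDot]
      ring) res
  exact key

/-- (modes-lin) 1 : `|W_0 | H| ≥ l_*`   (= `it_l_W` of `Int/Rates.lean`, verbatim) -/
theorem it_q2_lW (a : ItPar) (ha : a.Ok) (hm : 0 < a.m) :
    ItLayer false false false a (fun T pk p q η => (a.ls - η) * (q - p) * T.L ≤ T.hh pk.M p q [T.cW 0] [T.cH p]) :=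
  it_q2_E_layer false false false a a.ls (le_min zero_le_one (by linarith [ha.2.1])) (min_le_left _ _)
    (fun T _ => [T.cW 0]) (fun T p => [T.cH p]) (it_q2_lW_LS a ha hm)

/-- (mix-q) 4, pointwise in the datum -/
theorem it_q2_mix4_pt (a : ItPar) (ha : a.Ok) (pk : ItPk) (hpk : pk.Ok) (h : T.Adm0 a pk) (hq : T.quad = true) (p q : ℝ) (hpq : p ≤ q)
    (ρ1 ρ2 η : ℝ) (hη : 0 ≤ η) (hρ1 : 0 ≤ ρ1) (hρ2 : 0 ≤ ρ2)
    (t1 : T.LS pk.M p q q [T.cH p] [T.cx p 0] ρ1 η) (t2 : T.LS pk.M p q q [T.cW 0] (T.rCz p) ρ2 η) :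
    (ρ1 + ρ2 - (2 + ρ1 + ρ2) * η) * (q - p) * T.L - 2 * Real.log (a.B0 * 3 + 2) + T.hh pk.M p q [T.cx p 0] []
      ≤ T.hh pk.M p q (T.rPi p 0) [] := by
  have h0 := h.δ0
  have h1 := h.δ1
  have hB : 1 ≤ a.B0 := ha.2.2.2.2.2.2.2.2
  have hM : 0 < pk.M := by have := hpk.1; omega
  have e1 := it_q2_E T h0 h1 pk.M p q hpq _ _ ρ1 η hη hρ1 t1
  have e2 := it_q2_E T h0 h1 pk.M p q hpq _ _ ρ2 η hη hρ2 t2
  have c1 := it_k_chain T pk.M p q [T.cW 0] [T.cH p, T.cx p 0] []
  have c2 := it_k_chain T pk.M p q [T.cH p] [T.cx p 0] []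
  have l := it_q2_held T h0 h1 pk.M p q a.B0 hB [T.cW 0] [T.cH p, T.cx p 0] (T.rCz p) (by
    intro u' hu'
    simp only [List.mem_cons, List.not_mem_nil, or_false] at hu'
    rcases hu' with rfl | rfl
    · refine it_q2_comb T pk.M p a.B0 (by linarith) _ _ [fun _ => 1, fun _ => 0, fun _ => 0] (by simp) ?_ ?_
      · intro c hc ω _
        simp only [List.mem_cons, List.not_mem_nil, or_false] at hc
        rcases hc with rfl | rfl | rfl <;> simp <;> linarith
      · intro ω _ x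
        simp [Tan.rCz, Finset.sum_range_succ]
    · refine it_q2_comb T pk.M p a.B0 (by linarith) _ _ [fun ω => -(T.mrk 0 ω).r, fun ω => (T.mrk 0 ω).th, fun _ => 1] ?_ ?_ ?_
      · intro c hc ω ω' hb
        have := it_q2_mrk_base T pk.M p 0 hM ω ω' hb
        simp only [List.mem_cons, List.not_mem_nil, or_false] at hc
        rcases hc with rfl | rfl | rfl <;> simp [this]
      · intro c hc ω hω
        have := h.bdM ω hω 0 hM
        simp only [List.mem_cons, List.not_mem_nil, or_false] at hc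
        rcases hc with rfl | rfl | rfl
        · simpa using this.2.1
        · exact this.1
        · simpa using hB
      · intro ω _ x
        rw [it_q2_x_HJK T hq]
        simp [Tan.rCz, Finset.sum_range_succ])
  simp only [List.cons_append, List.nil_append, List.append_nil] at c1 c2
  simp only [Tan.rCz, List.length_cons, List.length_nil] at l
  simp only [Tan.rPi]
  simp only [Tan.rCz] at e2
  push_cast at l
  have e : (ρ1 + ρ2 - (2 + ρ1 + ρ2) * η) * (q - p) * T.L
      = (ρ1 - (1 + ρ1) * η) * (q - p) * T.L + (ρ2 - (1 + ρ2) * η) * (q - p) * T.L := by ring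
  rw [e]
  norm_num at l
  linarith

/-- (mix-q) 4 : `|π_0| ≥ l_* + a_* + |x_0|` -/
theorem it_q2_mix4 (a : ItPar) (ha : a.Ok) (hm : 0 < a.m) (hc : a.c < 1) :
    ItLayer true true false a (fun T pk p q η =>
      (a.ls + a.as - η) * (q - p) * T.L + T.hh pk.M p q [T.cx p 0] [] ≤ T.hh pk.M p q (T.rPi p 0) []) := by
  intro η hη
  obtain ⟨A0, hA0, hreg⟩ := it_s_regU_list [itsH, itsxq 0] 1 a.B0 (by
    intro U hU
    simp only [List.mem_cons, List.not_mem_nil, or_false] at hU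
    rcases hU with rfl | rfl
    · exact it_s_regU_mono (by omega) (it_s_regU_H a.B0)
    · exact it_s_regU_xq 0 a.B0)
  have hd1 : a.d ≤ 1 := ha.2.2.1
  have hν0 : 0 ≤ a.ν := ha.2.2.2.2.2.1
  have has0 : 0 ≤ a.as := le_max_right _ _
  have has1 : a.as ≤ 1 := max_le (by nlinarith [ha.1]) zero_le_one
  have hls0 : 0 ≤ a.ls := le_min zero_le_one (by linarith [ha.2.1])
  have hls1 : a.ls ≤ 1 := min_le_left _ _
  have t1 := it_mot_th true a ha hm (Or.inl hc) A0 (η / 8) (by positivity)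
  have t2 := it_q2_W_cz a ha hm (η / 8) (by positivity)
  refine it_cb_flags (av := false) (cr := false) (by simp) (by simp) (it_cb_imp (it_cb_and t1 t2) 1 one_pos ?_)
  intro p q hp hpq _
  refine ⟨itPk0 2 1, Real.exp (-(2 * Real.log (a.B0 * 3 + 2) / (η / 2 * (q - p)))), it_cb_pk0_pre 2 1 one_pos, Real.exp_pos _,
    fun pk acc τ κ0 T hpk _ hacc hacc1 hquad hadm _ _ ⟨h1, s2⟩ => ?_⟩
  have h0 := hadm.t0.δ0
  have hδ1 := hadm.t0.δ1
  have hM : 0 < pk.M := by have := hpk.1; omega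
  have hM1 : 1 ≤ pk.M := hM
  have hχ : 0 ≤ itChi p q 1 (η / 8) := by
    unfold itChi
    have : 0 < q - p := by linarith
    positivity
  have s1 := h1 0 hM itsH [itsxq 0] 2 (fun _ _ => 1) (hreg _ (by simp) _ hM1) (fun _ _ _ _ _ _ => rfl) (by
      intro v hv
      simp only [List.mem_cons, List.not_mem_nil, or_false] at hv
      subst hv
      exact ⟨hreg _ (by simp) _ hM1, it_q2_kfree_xq 0 0⟩) (by simp) (Or.inr rfl) (by
      intro v hv f Ξ A
      simp only [List.mem_cons, List.not_mem_nil, or_false] at hv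
      subst hv
      simp only [itsxq, itcxq, itvTh, if_true, itDot]
      ring) (by
      intro f Ξ A
      simp only [itsH, itcH, itvTh, if_true, itDot]
      ring) (it_q2_sep_one T h0 hδ1 _ (by simp) _ _ hχ (by positivity))
  simp only [List.map_cons, List.map_nil, it_s_fld_H, it_s_fld_xq T p 0 hquad] at s1
  have hrth : a.rth = a.as := by simp [ItPar.rth, hc]
  rw [hrth] at s1
  have key := it_q2_mix4_pt T a ha pk hpk hadm.t0 hquad p q hpq.le a.as a.ls (η / 8) (by positivity) has0 hls0 s1 s2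
  have hcst := it_cb_const_le T acc (2 * Real.log (a.B0 * 3 + 2)) (η / 2 * (q - p)) (by
    have : 0 < q - p := by linarith
    positivity) h0 hadm.small hacc1
  have hL := it_cb_L_pos T h0 hδ1
  have hw : 0 ≤ (q - p) * T.L := mul_nonneg (by linarith) hL.le
  have e : (a.ls + a.as - η) * (q - p) * T.L
      ≤ (a.as + a.ls - (2 + a.as + a.ls) * (η / 8)) * (q - p) * T.L - η / 2 * (q - p) * T.L := by
    have : (a.as + a.ls - (2 + a.as + a.ls) * (η / 8)) * (q - p) * T.L - η / 2 * (q - p) * T.L - (a.ls + a.as - η) * (q - p) * T.L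
        = (η / 2 - (2 + a.as + a.ls) * (η / 8)) * ((q - p) * T.L) := by ring
    have h2 : 0 ≤ (η / 2 - (2 + a.as + a.ls) * (η / 8)) := by nlinarith
    have := mul_nonneg h2 hw
    linarith
  linarith

/-- `K + θ_0 J = x_0 + r_0 H` -/
theorem it_q2_KJ_xH (hq : T.quad = true) (p : ℝ) (i : ℕ) (ω : T.Ω) (x : ItPh) :
    itDot (T.fld p (itsKJ i) ω) x = itDot (T.cx p i ω) x + (T.mrk i ω).r * itDot (T.cH p ω) x := by
  simp only [Tan.fld, itsKJ, Tan.cx, hq, if_true, itcxq, Tan.cH, itcH, itDot]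
  ring

/-- (mix-q) 1, pointwise in the datum -/
theorem it_q2_mix1_pt (a : ItPar) (ha : a.Ok) (pk : ItPk) (hpk : pk.Ok) (h : T.Adm0 a pk) (hq : T.quad = true) (p q : ℝ) (hpq : p ≤ q)
    (ρ η : ℝ) (hη : 0 ≤ η) (hρ : 0 ≤ ρ) (t1 : T.LS pk.M p q q [T.fld p (itsKJ 0)] [T.cH p] ρ η) :
    (ρ - (1 + ρ) * η) * (q - p) * T.L - Real.log (a.B0 * 2 + 2) ≤ T.hh pk.M p q [T.cx p 0] [] := by
  have h0 := h.δ0
  have h1 := h.δ1
  have hB : 1 ≤ a.B0 := ha.2.2.2.2.2.2.2.2
  have hM : 0 < pk.M := by have := hpk.1; omega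
  have e1 := it_q2_E T h0 h1 pk.M p q hpq _ _ ρ η hη hρ t1
  have c1 := it_k_anti T pk.M p q [T.cx p 0] [] [T.cH p]
  have l := it_q2_lin T h0 h1 pk.M p q a.B0 hB [T.cx p 0] [T.fld p (itsKJ 0)] [T.cH p] (by
    intro u' hu'
    simp only [List.mem_cons, List.not_mem_nil, or_false] at hu'
    subst hu'
    refine it_q2_comb T pk.M p a.B0 (by linarith) _ _ [fun _ => 1, fun ω => (T.mrk 0 ω).r] ?_ ?_ ?_
    · intro c hc ω ω' hb
      have := it_q2_mrk_base T pk.M p 0 hM ω ω' hb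
      simp only [List.mem_cons, List.not_mem_nil, or_false] at hc
      rcases hc with rfl | rfl <;> simp [this]
    · intro c hc ω hω
      have := h.bdM ω hω 0 hM
      simp only [List.mem_cons, List.not_mem_nil, or_false] at hc
      rcases hc with rfl | rfl
      · simpa using hB
      · exact this.2.1
    · intro ω _ x
      rw [it_q2_KJ_xH T hq]
      simp [Finset.sum_range_succ])
  simp only [List.cons_append, List.nil_append, List.length_cons, List.length_nil] at c1 l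
  push_cast at l
  norm_num at l
  linarith

/-- (mix-q) 1 : `|x_0| ≥ n_*` -/
theorem it_q2_mix1 (a : ItPar) (ha : a.Ok) (hm : 0 < a.m) (hc : a.c < 1) :
    ItLayer true true false a (fun T pk p q η => (a.ns - η) * (q - p) * T.L ≤ T.hh pk.M p q [T.cx p 0] []) := by
  have hν0 : 0 ≤ a.ν := ha.2.2.2.2.2.1
  rcases hν0.eq_or_lt with hν | hν
  · have e : a.ns = a.d := by
      unfold ItPar.ns
      rw [← hν, add_zero]
      exact min_eq_right ha.2.2.1
    rw [e]
    exact it_q2_cross a ha hm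
  intro η hη
  obtain ⟨A1, hA1, hreg1⟩ := it_s_regU_list [itsJm, itsK, itsKJ 0, itsH] 1 a.B0 (by
    intro U hU
    simp only [List.mem_cons, List.not_mem_nil, or_false] at hU
    rcases hU with rfl | rfl | rfl | rfl
    · exact it_s_regU_mono (by omega) (it_q2_regU_Jm a.B0)
    · exact it_s_regU_mono (by omega) (it_s_regU_K a.B0)
    · exact it_q2_regU_KJ 0 a.B0
    · exact it_s_regU_mono (by omega) (it_s_regU_H a.B0))
  obtain ⟨A0, hA0, hreg⟩ : ∃ A0 : ℝ, a.B0 ≤ A0 ∧ ∀ U ∈ [itsJm, itsK, itsKJ 0, itsH], ∀ M, 1 ≤ M → ItSym.Reg U M a.B0 A0 :=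
    ⟨max A1 a.B0, le_max_right _ _, fun U hU M hM => it_s_reg_mono (le_max_left _ _) (hreg1 U hU M hM)⟩
  obtain ⟨n, η1, hn, hη1, hb⟩ := it_q2_tboost true a ha A0 a.ν hA0 hν ha.2.2.2.2.2.2.1 (η / 4) (by positivity)
  have t1 := it_mot_r true a ha hm hc A0 n hn η1 hη1
  refine it_cb_flags (av := false) (cr := false) (by simp) (by simp) (it_cb_imp (it_cb_and hb t1) 1 one_pos ?_)
  intro p q hp hpq _
  refine ⟨itPk0 2 1, Real.exp (-(Real.log (a.B0 * 2 + 2) / (η / 2 * (q - p)))), it_cb_pk0_pre 2 1 one_pos, Real.exp_pos _,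
    fun pk acc τ κ0 T hpk _ hacc hacc1 hquad hadm _ _ ⟨h1, h2⟩ => ?_⟩
  have h0 := hadm.t0.δ0
  have hδ1 := hadm.t0.δ1
  have hM : 0 < pk.M := by have := hpk.1; omega
  have hM1 : 1 ≤ pk.M := hM
  have hχ : 0 ≤ itChi p q n η1 := by
    unfold itChi
    have : 0 < q - p := by linarith
    positivity
  have res := h2 0 hM itsJm [itsKJ 0, itsH] 2 (fun _ _ => -1) (hreg _ (by simp) _ hM1) (fun _ _ _ _ _ _ => rfl) (by
      intro v hv
      refine ⟨hreg v (by simp only [List.mem_cons, List.not_mem_nil, or_false] at hv ⊢; tauto) _ hM1, ?_⟩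
      simp only [List.mem_cons, List.not_mem_nil, or_false] at hv
      rcases hv with rfl | rfl
      · intro f Ξ Ξ' _ h1 _
        simp only [itsKJ, h1]
      · exact fun _ _ _ _ _ _ => rfl) (by simp) (Or.inr rfl) (by
      intro v hv f Ξ A
      simp only [List.mem_cons, List.not_mem_nil, or_false] at hv
      rcases hv with rfl | rfl
      · simp only [itsKJ, itvR, if_true, itDot]; ring
      · simp only [itsH, itcH, itvR, if_true, itDot]; ring) (by
      intro f Ξ A
      simp only [itsJm, itvR, if_true, itDot]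
      ring) (it_q2_sep_one T h0 hδ1 _ (by simp) _ _ hχ (by positivity))
  have key := h1 0 hM itsJm itsK (itsKJ 0) [itsH] (hreg _ (by simp) _ hM1) (hreg _ (by simp) _ hM1) (hreg _ (by simp) _ hM1) (by
      intro v hv
      simp only [List.mem_cons, List.not_mem_nil, or_false] at hv
      subst hv
      exact ⟨hreg _ (by simp) _ hM1, fun _ _ _ _ => rfl⟩) (by simp)
    (fun _ _ _ _ => rfl) (fun _ _ _ _ => rfl) (by
      intro f Ξ x
      simp only [itsKJ, itsK, itcK, itsJm, itDot]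
      ring) res
  simp only [List.map_cons, List.map_nil, it_s_fld_H] at key
  have hns0 : 0 ≤ a.ns := le_min zero_le_one (by linarith [ha.2.1])
  have hns1 : a.ns ≤ 1 := min_le_left _ _
  have fin := it_q2_mix1_pt T a ha pk hpk hadm.t0 hquad p q hpq.le a.ns (η / 4) (by positivity) hns0 key
  have hcst := it_cb_const_le T acc (Real.log (a.B0 * 2 + 2)) (η / 2 * (q - p)) (by
    have : 0 < q - p := by linarith
    positivity) h0 hadm.small hacc1
  have hL := it_cb_L_pos T h0 hδ1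
  have hw : 0 ≤ (q - p) * T.L := mul_nonneg (by linarith) hL.le
  have e : (a.ns - η) * (q - p) * T.L ≤ (a.ns - (1 + a.ns) * (η / 4)) * (q - p) * T.L - η / 2 * (q - p) * T.L := by
    have : (a.ns - (1 + a.ns) * (η / 4)) * (q - p) * T.L - η / 2 * (q - p) * T.L - (a.ns - η) * (q - p) * T.L
        = (η / 2 - (1 + a.ns) * (η / 4)) * ((q - p) * T.L) := by ring
    have h2 : 0 ≤ (η / 2 - (1 + a.ns) * (η / 4)) := by nlinarith
    have := mul_nonneg h2 hw
    linarith
  linarith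

end Claimed.Agent.R256
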