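import Claimed.Agent.R256.Int.WedgeStep
import Claimed.Agent.R256.Int.Meta

/-!
# Row 256, Sec. 5, block WEDGE, file 4: PARAMETERS AND ASSEMBLY      (architect helper49; prefix `it_wd_`)

`it_wd_weak_at`  one step, two angular modes, error `ε L`           `it_wd_strong`  Whitney layer `p' - p ≤ κ1 (2p - z)` : rate `2m + d - η`  (outside input: `it_mark_proj`)
`it_wd_e_weak` = `it_e_weak`, `it_wd_e_q` = `it_e_q`  VERBATIM.
-/

set_option autoImplicit false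

namespace Claimed.Agent.R256

open Claimed.Agent.R255
open Claimed.Agent.R255.FLaw (pair)
open scoped BigOperators
open Classical

variable {a : ItPar}

theorem it_wd_aux_logC (ha : a.Ok) : 0 ≤ Real.log (itwC a.B0) := by
  have hB : 1 ≤ a.B0 := ha.2.2.2.2.2.2.2.2
  refine Real.log_nonneg ?_
  unfold itwC
  have : (1 : ℝ) ≤ (a.B0 + 1) ^ 3 := one_le_pow₀ (by linarith)
  linarith

/-- one step of the horizontal depth, error `ε L` -/
theorem it_wd_weak_at (ha : a.Ok) (τ κ0 ε p p' z : ℝ) (hε : 0 < ε) (hp : 0 ≤ p) (hpp : p ≤ p') (hp'z : p' ≤ z) (hz : z ≤ 2 * p) :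
    ItAt true false false a τ κ0 (fun T pk =>
      T.P.entC (T.wcl p' T.wU) (pair (T.Hn p z) (T.Dd pk.M)) + (2 * a.m * (p' - p) - ε) * T.L
        ≤ T.hW pk.M p' z - T.hW pk.M p z) := by
  obtain ⟨t, ht⟩ : ∃ t, t = p' - p := ⟨_, rfl⟩
  have ht0 : 0 ≤ t := by rw [ht]; linarith
  obtain ⟨c, hc⟩ : ∃ c, c = 3 * Real.log 7 + 14 * Real.log (itwC a.B0) + Real.log 10 + Real.log 4 + Real.log 2 := ⟨_, rfl⟩
  have hpre : (⟨2, z, z, 1, {p, p'}, ∅⟩ : ItPk).Pre := by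
    refine ⟨one_pos, fun q hq => ?_⟩
    simp only [Finset.mem_insert, Finset.mem_singleton] at hq
    rcases hq with rfl | rfl
    · exact hp
    · exact hp.trans hpp
  have hacc0 : 0 < min (ε / (4 * (6 + 4 * t))) (Real.exp (-(c / (ε / 4)))) :=
    lt_min (by positivity) (Real.exp_pos _)
  have A := it_wd_sepT (a := a) ha τ κ0 (ε / (4 * (t + 1))) (ε / 4) (by positivity) (by positivity)
  have B := it_wd_at_raw (av := false) (cr := false) (τ := τ) (κ0 := κ0) ha _ hpre _ hacc0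
  refine it_wd_at_mono (it_wd_at_and A B) ?_
  rintro T pk ⟨hT, acc, hW, hle, hacc⟩
  obtain ⟨-, hK, -, -, hG⟩ := hle
  have hK' : z ≤ pk.K := hK
  have hpG : p ∈ pk.G := hG (by simp)
  have hp'G : p' ∈ pk.G := hG (by simp)
  have hδ0 := hW.adm.t0.δ0
  have hδ1 := hW.adm.t0.δ1
  have hL : 0 < T.L := it_cb_L_pos T hδ0 hδ1
  have step := it_wd_step hW p p' z (ε / 4) hp hpp hp'z hz hK' hpG hp'G (by positivity)
  have hcL : c ≤ ε / 4 * T.L :=
    it_cb_const_le T acc c (ε / 4) (by positivity) hδ0 hW.adm.small (hacc.trans (min_le_right _ _))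
  have hacc1 : acc * (6 + 4 * t) ≤ ε / 4 := by
    have h1 := hacc.trans (min_le_left _ _)
    rw [le_div_iff₀ (by positivity)] at h1
    linarith
  obtain ⟨π, hπ⟩ : ∃ π, π = T.P.pr (fun ω => |(T.mrk 0 ω).th - (T.mrk 1 ω).th| < msh T.δ (ε / 4)) := ⟨_, rfl⟩
  rw [← hπ] at step hT
  have hπ0 : 0 ≤ π := hπ ▸ ent_pr_nonneg _ _
  have hπ1 : π ≤ 1 := hπ ▸ ent_pr_le_one _ _
  have hl4 : 0 ≤ Real.log 4 := Real.log_nonneg (by norm_num)
  have hπt : π * t ≤ ε / 4 := by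
    have h1 : π * t ≤ ε / (4 * (t + 1)) * t := mul_le_mul_of_nonneg_right hT ht0
    have h2 : ε / (4 * (t + 1)) * t ≤ ε / 4 := by
      rw [div_mul_eq_mul_div, div_le_div_iff₀ (by positivity) (by norm_num)]
      nlinarith
    linarith
  have e1 : π * ((p' - p) * T.L + Real.log 4) ≤ ε / 4 * T.L + Real.log 4 := by
    rw [← ht]
    have h1 : π * t * T.L ≤ ε / 4 * T.L := mul_le_mul_of_nonneg_right hπt hL.le
    have h2 : π * Real.log 4 ≤ Real.log 4 := by nlinarith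
    nlinarith
  have e2 : acc * (6 + 4 * t) * T.L ≤ ε / 4 * T.L := mul_le_mul_of_nonneg_right hacc1 hL.le
  rw [← ht] at step ⊢
  nlinarith

/-- the top of the wedge -/
theorem it_wd_top_at (ha : a.Ok) (τ κ0 ε z : ℝ) (hε : 0 < ε) (hz : 0 ≤ z) :
    ItAt true false false a τ κ0 (fun T pk => T.hW pk.M z z ≤ T.hA pk.M z + ε * T.L) := by
  have B := it_wd_at_raw (av := false) (cr := false) (τ := τ) (κ0 := κ0) ha (itPk0 0 1) (it_cb_pk0_pre 0 1 one_pos)
    (Real.exp (-(3 * Real.log (itwC a.B0) / ε))) (Real.exp_pos _)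
  refine it_wd_at_mono B ?_
  rintro T pk ⟨acc, hW, -, hacc⟩
  have h1 := it_wd_via T.P (T.Hn z z) (T.Fn z) (T.Dd pk.M)
  have h2 : T.P.entC (T.Hn z z) (pair (T.Fn z) (T.Dd pk.M)) ≤ 3 * Real.log (itwC a.B0) :=
    (ent_entC_pair_le T.P _ _ _).trans (it_wd_top hW z hz)
  have h3 := it_cb_const_le T acc _ ε hε hW.adm.t0.δ0 hW.adm.small hacc
  unfold Tan.hW Tan.hA
  linarith

/-- `it_e_weak`, verbatim -/
theorem it_wd_e_weak (a : ItPar) (ha : a.Ok) :
    ItDepth true false false a (fun T pk l η => (2 * a.m - η) * l * T.L ≤ T.hA pk.M (2 * l) - T.hW pk.M l (2 * l)) := by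
  rw [it_wd_depth_iff]
  intro η hη
  refine ⟨1, one_pos, fun κ0 _ l hl => ?_⟩
  have A := it_wd_weak_at ha 1 κ0 (η * l / 2) l (2 * l) (2 * l) (by positivity) hl.le (by linarith) le_rfl le_rfl
  have B := it_wd_top_at ha 1 κ0 (η * l / 2) (2 * l) (by positivity) (by positivity)
  refine it_wd_at_mono (it_wd_at_and A B) ?_
  rintro T pk ⟨h1, h2⟩
  have h3 := ent_entC_nonneg T.P (T.wcl (2 * l) T.wU) (pair (T.Hn l (2 * l)) (T.Dd pk.M))
  nlinarith

/-- a Whitney layer, tolerance `η ≤ 1` -/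
theorem it_wd_strong1 (ha : a.Ok) (hm : 0 < a.m) (η : ℝ) (hη : 0 < η) (hη1 : η ≤ 1) :
    ∃ τ : ℝ, 0 < τ ∧ ∀ κ0 : ℝ, 0 < κ0 → ∃ κ1 : ℝ, 0 < κ1 ∧ ∀ p p' z : ℝ, p < p' → p' ≤ z → z < 2 * p → p' - p ≤ κ1 * (2 * p - z) →
      ItAt true true false a τ κ0 (fun T pk => (2 * a.m + a.d - η) * (p' - p) * T.L ≤ T.hW pk.M p' z - T.hW pk.M p z) := by
  obtain ⟨τ, hτ, H⟩ := (it_wd_layer_iff _ _ _ _ _).1 (it_mark_proj true a ha) (η / 16) (by positivity)
  refine ⟨τ, hτ, fun κ0 hκ0 => ?_⟩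
  obtain ⟨κ1, hκ1, H⟩ := H κ0 hκ0
  refine ⟨min κ1 1, lt_min hκ1 one_pos, fun p p' z hpp hp'z hz hk => ?_⟩
  obtain ⟨t, ht⟩ : ∃ t, t = p' - p := ⟨_, rfl⟩
  have ht0 : 0 < t := by rw [ht]; linarith
  obtain ⟨u, hu⟩ : ∃ u, u = 2 * p - z := ⟨_, rfl⟩
  have hu0 : 0 < u := by rw [hu]; linarith
  obtain ⟨χ, hχ⟩ : ∃ χ, χ = η / 16 * t := ⟨_, rfl⟩
  have hχ0 : 0 < χ := by rw [hχ]; positivity
  have hχt : χ < t := by rw [hχ]; nlinarith
  rw [← ht, ← hu] at hk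
  have hk1 : t ≤ κ1 * u := hk.trans (mul_le_mul_of_nonneg_right (min_le_left _ _) hu0.le)
  have hk2 : t ≤ u := by
    have := hk.trans (mul_le_mul_of_nonneg_right (min_le_right _ _) hu0.le)
    linarith
  have hp0 : 0 ≤ p := by linarith
  obtain ⟨c, hc⟩ : ∃ c, c = 12 * Real.log (itwC a.B0) + Real.log 2 := ⟨_, rfl⟩
  have hs : p' - (z - p) - χ = u + t - χ := by rw [hu, ht]; ring
  have M1 := H u (p' - (z - p) - χ) hu0 (by rw [hs]; linarith) (by rw [hs]; nlinarith)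
  have W1 := it_wd_at_flags (av' := true) (cr' := false) (fun h => by simp at h) (fun h => h)
    (it_wd_weak_at ha τ κ0 (η / 4 * t) p p' z (by positivity) hp0 hpp.le hp'z hz.le)
  have A1 := it_wd_at_flags (av' := true) (cr' := false) (fun h => by simp at h) (fun h => h)
    (it_wd_sepA ha hm τ κ0 (η / 16) (z - p) χ (by positivity) (by linarith) hχ0)
  have hpre : (⟨2, z, z, 1, ∅, ∅⟩ : ItPk).Pre := ⟨one_pos, fun q hq => by simp at hq⟩
  have hacc0 : 0 < min (η / 32 * t) (Real.exp (-(c / (η / 16 * t)))) := lt_min (by positivity) (Real.exp_pos _)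
  have R1 := it_wd_at_raw (av := true) (cr := false) (τ := τ) (κ0 := κ0) ha _ hpre _ hacc0
  refine it_wd_at_mono (it_wd_at_and (it_wd_at_and M1 W1) (it_wd_at_and A1 R1)) ?_
  rintro T pk ⟨⟨hM, hWk⟩, hA, acc, hW, hle, hacc⟩
  obtain ⟨-, hK, -, -, -⟩ := hle
  have hK' : z ≤ pk.K := hK
  have hδ0 := hW.adm.t0.δ0
  have hδ1 := hW.adm.t0.δ1
  have hL : 0 < T.L := it_cb_L_pos T hδ0 hδ1
  have hM2 : 2 ≤ pk.M := hW.ok.1
  have hd1 : a.d ≤ 1 := ha.2.2.1
  have kf := it_wd_kauf hW p p' z χ (hpp.le.trans hp'z) hz.le hp'z hK' hχ0.le (by rw [hs, ← hu]; linarith) (by rw [← hu]; linarith)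
  have hMM := hM 1 (by omega) 0 (by omega) (by norm_num)
  -- the mark entropy
  obtain ⟨Hn, hHn⟩ : ∃ Hn, Hn = T.P.entC (T.wcl (p' - (z - p) - χ) (T.nInc 1 0 (2 * p - z)))
      (pair (T.xin 0 (2 * p - z)) (pair T.Zs (T.XiE pk.M 0))) := ⟨_, rfl⟩
  have hHn0 : 0 ≤ Hn := hHn ▸ ent_entC_nonneg _ _ _
  have hHn1 : (a.d - 2 * (η / 16)) * (t - χ) * T.L ≤ Hn := by
    by_cases hd : η / 16 ≤ a.d
    · have h1 := ltk_ent_ge T.P (T.wcl (p' - (z - p) - χ) (T.nInc 1 0 u)) (pair (T.xin 0 u) (pair T.Zs (T.XiE pk.M 0)))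
        (c := (a.d - η / 16) * (p' - (z - p) - χ - u) * T.L) (τ := η / 16)
        (mul_nonneg (mul_nonneg (by linarith) (by rw [hs]; linarith)) hL.le) hMM
      rw [hu, ← hHn, ← hu, hs] at h1
      have e : u + t - χ - u = t - χ := by ring
      rw [e] at h1
      have h2 : (a.d - 2 * (η / 16)) ≤ (a.d - η / 16) * (1 - η / 16) := by
        have : 0 ≤ (1 - a.d) * (η / 16) + η / 16 * (η / 16) := by
          have h8 : 0 ≤ 1 - a.d := by linarith
          positivity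
        linarith
      have h3 : 0 ≤ (t - χ) * T.L := mul_nonneg (by linarith) hL.le
      have h4 := mul_le_mul_of_nonneg_right h2 h3
      have h5 : (a.d - η / 16) * (t - χ) * T.L * (1 - η / 16) = (a.d - η / 16) * (1 - η / 16) * ((t - χ) * T.L) := by ring
      have h6 : (a.d - 2 * (η / 16)) * (t - χ) * T.L = (a.d - 2 * (η / 16)) * ((t - χ) * T.L) := by ring
      linarith
    · have h3 : 0 ≤ (t - χ) * T.L := mul_nonneg (by linarith) hL.le
      have h4 : a.d - 2 * (η / 16) ≤ 0 := by linarith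
      have h5 := mul_nonpos_of_nonpos_of_nonneg h4 h3
      have h6 : (a.d - 2 * (η / 16)) * (t - χ) * T.L = (a.d - 2 * (η / 16)) * ((t - χ) * T.L) := by ring
      linarith
  rw [← hHn] at kf
  obtain ⟨π, hπ⟩ : ∃ π, π = (rep_two T.P (T.wB pk (z - p))).pr
      (fun x => |(T.F x.1).X - (T.F x.2).X| < msh T.δ (z - p + χ)) := ⟨_, rfl⟩
  rw [← hπ] at kf hA
  have hπ0 : 0 ≤ π := hπ ▸ ent_pr_nonneg _ _
  have hπ1 : π ≤ 1 := hπ ▸ ent_pr_le_one _ _
  have hlC := it_wd_aux_logC ha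
  have hcL : c ≤ η / 16 * t * T.L :=
    it_cb_const_le T acc c (η / 16 * t) (by positivity) hδ0 hW.adm.small (hacc.trans (min_le_right _ _))
  have hacc1 : 2 * (acc * T.L) ≤ η / 16 * t * T.L := by
    have h1 := hacc.trans (min_le_left _ _)
    have h2 := mul_le_mul_of_nonneg_right h1 hL.le
    linarith
  have e1 : π * ((p' - p - χ) * T.L + Real.log (itwC a.B0)) ≤ η / 16 * t * T.L + Real.log (itwC a.B0) := by
    rw [← ht]
    have h1 : π * ((t - χ) * T.L) ≤ η / 16 * (t * T.L) := by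
      have h2 : (t - χ) * T.L ≤ t * T.L := mul_le_mul_of_nonneg_right (by linarith) hL.le
      have h3 : 0 ≤ (t - χ) * T.L := mul_nonneg (by linarith) hL.le
      exact mul_le_mul hA h2 h3 (by positivity)
    have h2 : π * Real.log (itwC a.B0) ≤ 1 * Real.log (itwC a.B0) := mul_le_mul_of_nonneg_right hπ1 hlC
    rw [mul_add]
    linarith
  have e2 : (a.d * t - 3 * (η / 16) * t) * T.L ≤ (a.d - 2 * (η / 16)) * (t - χ) * T.L := by
    refine mul_le_mul_of_nonneg_right ?_ hL.le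
    rw [hχ]
    have h1 : 0 ≤ (1 - a.d) * (η / 16 * t) + 2 * (η / 16) * (η / 16 * t) := by
      have h8 : 0 ≤ 1 - a.d := by linarith
      positivity
    linarith
  rw [← ht] at hWk ⊢
  rw [hc] at hcL
  have hpos : 0 ≤ η * t * T.L := by positivity
  linarith

/-- a Whitney layer -/
theorem it_wd_strong (ha : a.Ok) (hm : 0 < a.m) (η : ℝ) (hη : 0 < η) :
    ∃ τ : ℝ, 0 < τ ∧ ∀ κ0 : ℝ, 0 < κ0 → ∃ κ1 : ℝ, 0 < κ1 ∧ ∀ p p' z : ℝ, p < p' → p' ≤ z → z < 2 * p → p' - p ≤ κ1 * (2 * p - z) →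
      ItAt true true false a τ κ0 (fun T pk => (2 * a.m + a.d - η) * (p' - p) * T.L ≤ T.hW pk.M p' z - T.hW pk.M p z) := by
  obtain ⟨τ, hτ, H⟩ := it_wd_strong1 ha hm (min η 1) (lt_min hη one_pos) (min_le_right _ _)
  refine ⟨τ, hτ, fun κ0 hκ0 => ?_⟩
  obtain ⟨κ1, hκ1, H⟩ := H κ0 hκ0
  refine ⟨κ1, hκ1, fun p p' z h1 h2 h3 h4 => ?_⟩
  have R1 := it_wd_at_raw (av := true) (cr := false) (τ := τ) (κ0 := κ0) ha (itPk0 0 1) (it_cb_pk0_pre 0 1 one_pos) 1 one_pos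
  refine it_wd_at_mono (it_wd_at_and (H p p' z h1 h2 h3 h4) R1) ?_
  rintro T pk ⟨h5, acc, hW, -, -⟩
  have hL : 0 < T.L := it_cb_L_pos T hW.adm.t0.δ0 hW.adm.t0.δ1
  refine le_trans ?_ h5
  refine mul_le_mul_of_nonneg_right (mul_le_mul_of_nonneg_right ?_ (by linarith)) hL.le
  linarith [min_le_left η 1]

/-- the geometric (Whitney) partition of `[ε0, 1]` -/
theorem it_wd_aux_part (ε0 κ : ℝ) (h0 : 0 < ε0) (h1 : ε0 < 1) (hκ : 0 < κ) :
    ∃ (n : ℕ) (v : ℕ → ℝ), v 0 = ε0 ∧ v n = 1 ∧ (∀ k, 0 < v k) ∧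
      ∀ k < n, v k < v (k + 1) ∧ v (k + 1) ≤ 1 ∧ v (k + 1) - v k ≤ κ * v k := by
  have hex : ∃ n : ℕ, 1 ≤ ε0 * (1 + κ) ^ n := by
    obtain ⟨N, hN⟩ := pow_unbounded_of_one_lt (1 / ε0) (by linarith : 1 < 1 + κ)
    refine ⟨N, ?_⟩
    rw [div_lt_iff₀ h0] at hN
    linarith
  have hn := Nat.find_spec hex
  have hmin : ∀ k < Nat.find hex, ε0 * (1 + κ) ^ k < 1 := fun k hk => not_le.1 (Nat.find_min hex hk)
  have hpw : ∀ k : ℕ, 0 < ε0 * (1 + κ) ^ k := fun k => by positivity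
  refine ⟨Nat.find hex, fun k => min 1 (ε0 * (1 + κ) ^ k), ?_, ?_, fun k => lt_min one_pos (hpw k), fun k hk => ?_⟩
  · simp only [pow_zero, mul_one]
    exact min_eq_right h1.le
  · exact min_eq_left hn
  · have hk1 := hmin k hk
    have e : ε0 * (1 + κ) ^ (k + 1) = ε0 * (1 + κ) ^ k + κ * (ε0 * (1 + κ) ^ k) := by ring
    have hk2 : min 1 (ε0 * (1 + κ) ^ k) = ε0 * (1 + κ) ^ k := min_eq_right hk1.le
    simp only [hk2]
    refine ⟨lt_min hk1 ?_, min_le_left _ _, ?_⟩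
    · rw [e]
      have := mul_pos hκ (hpw k)
      linarith
    · have := min_le_right 1 (ε0 * (1 + κ) ^ (k + 1))
      linarith

/-- `it_e_q`, verbatim -/
theorem it_wd_e_q (a : ItPar) (ha : a.Ok) (hm : 0 < a.m) :
    ItDepth true true false a (fun T pk l η => (2 * a.m + a.d - η) * l * T.L ≤ T.hA pk.M (2 * l) - T.hW pk.M l (2 * l)) := by
  rw [it_wd_depth_iff]
  intro η hη
  obtain ⟨η', hη'⟩ : ∃ η', η' = min η 1 := ⟨_, rfl⟩
  have h'0 : 0 < η' := hη' ▸ lt_min hη one_pos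
  have h'1 : η' ≤ 1 := hη' ▸ min_le_right _ _
  have h'η : η' ≤ η := hη' ▸ min_le_left _ _
  obtain ⟨τ, hτ, H⟩ := it_wd_strong ha hm (η' / 2) (by positivity)
  refine ⟨τ, hτ, fun κ0 hκ0 l hl => ?_⟩
  obtain ⟨κ1, hκ1, H⟩ := H κ0 hκ0
  obtain ⟨n, v, hv0, hvn, hvpos, hv⟩ := it_wd_aux_part (η' / 8) (2 * κ1) (by positivity) (by linarith) (by positivity)
  have S := it_wd_at_all n (fun k T pk => (2 * a.m + a.d - η' / 2) * ((l + l * v (k + 1)) - (l + l * v k)) * T.L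
      ≤ T.hW pk.M (l + l * v (k + 1)) (2 * l) - T.hW pk.M (l + l * v k) (2 * l)) (fun k hk => by
    obtain ⟨g1, g2, g3⟩ := hv k hk
    have g0 := hvpos k
    refine H _ _ _ ?_ ?_ ?_ ?_
    · have := mul_lt_mul_of_pos_left g1 hl
      linarith
    · have := mul_le_mul_of_nonneg_left g2 hl.le
      linarith
    · have := mul_pos hl g0
      linarith
    · have := mul_le_mul_of_nonneg_left g3 hl.le
      have e1 : l + l * v (k + 1) - (l + l * v k) = l * (v (k + 1) - v k) := by ring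
      have e2 : κ1 * (2 * (l + l * v k) - 2 * l) = l * (2 * κ1 * v k) := by ring
      rw [e1, e2]
      exact this)
  have W := it_wd_at_flags (av' := true) (cr' := false) (fun h => by simp at h) (fun h => h)
    (it_wd_weak_at ha τ κ0 (η' / 8 * l) l (l + l * v 0) (2 * l) (by positivity) hl.le
      (by have := mul_pos hl (hvpos 0); linarith) (by rw [hv0]; nlinarith) le_rfl)
  have Tp := it_wd_at_flags (av' := true) (cr' := false) (fun h => by simp at h) (fun h => h)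
    (it_wd_top_at ha τ κ0 (η' / 8 * l) (2 * l) (by positivity) (by positivity))
  have R1 := it_wd_at_raw (av := true) (cr := false) (τ := τ) (κ0 := κ0) ha (itPk0 0 1) (it_cb_pk0_pre 0 1 one_pos) 1 one_pos
  refine it_wd_at_mono (it_wd_at_and (it_wd_at_and S W) (it_wd_at_and Tp R1)) ?_
  rintro T pk ⟨⟨hS, hWk⟩, hTp, acc, hW, -, -⟩
  have hL : 0 < T.L := it_cb_L_pos T hW.adm.t0.δ0 hW.adm.t0.δ1
  have hd1 : a.d ≤ 1 := ha.2.2.1
  have sum1 := Finset.sum_range_sub (fun k => T.hW pk.M (l + l * v k) (2 * l)) n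
  have sum2 := Finset.sum_range_sub (fun k => (2 * a.m + a.d - η' / 2) * (l + l * v k) * T.L) n
  have sum3 : ∑ k ∈ Finset.range n, ((2 * a.m + a.d - η' / 2) * (l + l * v (k + 1)) * T.L - (2 * a.m + a.d - η' / 2) * (l + l * v k) * T.L)
      ≤ ∑ k ∈ Finset.range n, (T.hW pk.M (l + l * v (k + 1)) (2 * l) - T.hW pk.M (l + l * v k) (2 * l)) := by
    refine Finset.sum_le_sum fun k hk => ?_
    have := hS k (Finset.mem_range.1 hk)
    linarith
  rw [sum1, sum2, hvn, hv0] at sum3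
  rw [hv0] at hWk
  have e1 : l + l * 1 = 2 * l := by ring
  rw [e1] at sum3
  have hU := ent_entC_nonneg T.P (T.wcl (l + l * (η' / 8)) T.wU) (pair (T.Hn l (2 * l)) (T.Dd pk.M))
  have p1 : 0 ≤ (1 - a.d) * η' * l * T.L := by
    have h8 : 0 ≤ 1 - a.d := by linarith
    positivity
  have p2 : 0 ≤ η' * η' * l * T.L := by positivity
  have p3 : 0 ≤ (η - η') * l * T.L := by
    have h8 : 0 ≤ η - η' := by linarith
    positivity
  have p4 : 0 ≤ η' * l * T.L := by positivity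
  linarith

end Claimed.Agent.R256
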