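import Claimed.Agent.R256.Int.Meta
import Claimed.Agent.R256.Int.Kit2
import Claimed.Agent.R256.Int.Hw
import Claimed.Agent.R256.Int.BinTop
import Claimed.Agent.R256.Int.Rl2
import Claimed.Agent.R256.Int.Cost.Top
import Claimed.Agent.R256.Int.Rl1
import Claimed.Agent.R256.Int.Rl1X
import Claimed.Agent.R256.Int.Rl3
import Claimed.Agent.R256.Int.Rq1
import Claimed.Agent.R256.Int.Rq2
import Claimed.Agent.R256.Int.WedgeMain

/-!
# Row 256, Sec. 5: THE INTERNAL CONTRACTS: STUBS      (chief helper196; prefix `it_`)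

Every rate inequality of Sec. 5 on EVERY short layer (`ItLayer`) or at every depth (`ItDepth`), in EXPECTED form, natural units.   Layout and protocol: header of `Int/Base.lean`.
 COST  `it_cost_time, it_cost_w, it_cost_pi, it_cost_G, it_cost_x, it_cost_bin`, WIDTH `it_width_q, it_width_l`            (int:differential-cost, int:binary)      blocks COST (267), BIN
 RATES quadratic `it_q_*` ((modes), (Gq), (cross-q), (mix-q)), linear `it_l_*` ((modes-lin), (miss), (H-walk), (mix-l), (double))                                  blocks RQ1 (149), RQ2, RL1, RL2, HWALK, RL3 (6)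
 WEDGE `it_e_*` ((e-q), b_miss)                                                                                                                                    blocks WEDGE, BIN
DERIVATIONS FROM `Int/Meta.lean` (checked by helper196; `t = q - p`; all symbols in `Int/Sym.lean`; "lin" = `it_k_lin`, `it_k_lin_ev`; every LS at `k = n` then `it_k_E_of_LS`):
 it_q_W     boost j=0: u1 = -dX, u2 = dB, be = θ_0, al = 1, w = W_0, V = [H,J,K]; residual m = it_mode_ang (ℓ_0; W_0,H,J,K kill it); slope = it_slope_time.           it_l_W: same with V = [H].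
 it_q_mix3  Cz ~ (x_0,H,J) (lin, bounded);  |H | x_0| ≥ a_* : it_mot_th j=0, u=H (e=2, g=1), V=[x_0];   |J | H,x_0| ≥ ν : it_mot_r j=0, u=J (e=2, g=1), V=[H,x_0].
 it_q_mix4  |π_0| = |x_0| + |H | x_0| + |W_0 | H,x_0| ≥ |x_0| + a_* + |W_0 | Cz| (anti + lin), it_q_W.
 it_q_mix1  ν = 0: it_q_cross.  ν > 0: boost j=0: u1 = -J, u2 = K, be = θ_0, w = K + θ_0 J, V = [H]; residual ν = it_mot_r (u = -J, V = [w,H]); |x_0| ≥ |x_0 | H| = |w | H| (x_0 = w - r_0 H).
 it_q_cross it_mot_gen j=1, u = x_0, V = [], e=2, c1 = r_1 - r_0, c2 = θ_0 - θ_1 (then `T.inn 1 p c1 c2 = T.nInc 0 1 p`), ρ = d, k = n = 1; hypothesis = it_mark_proj.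
 it_l_x     f = T.pin 0 1;  (dX, x_0) ~ (dX, x_0 - f dX);  |X | x_0| ≤ m (it_ang_up), |X | x_0 - f dX| ≥ m (ℓ_1), so |x_0| ≥ |x_0 - f dX| - 2η;  boost j=1: u1 = dX, u2 = x_0, be = f on the 2^k sublayers of
            length t/2^k, event E_k = SlopeAt (it_slope_pin); pointwise chain over the sublayers ((LP): adjoining F_{p_i} costs log(1/η')); union over k ≤ N.
 it_l_G1    boost j=1: u1 = -Ga_0, u2 = Gb_0, be = θ_1, w = Gb_0 + θ_1 Ga_0; residual m: ℓ_1 (coefficient r_0 - r_1: Cross);  |G_0| = |w| + |Ga_0 | w| ≥ l_* + m.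
 it_l_G2    (G_0, G_1, Y) lists F on the event Cross (lin_ev, A = δ^(-χ)), subadd, it_k_swap, it_k_cap.          it_q_G2 alike (line test from Avoid).
 it_l_miss  (π_0, X, N) lists F (bounded), |X | π_0| ≤ m (it_ang_up + it_k_E_of_US), cap.      it_l_inv  |X | π_0| ≥ m (ℓ_0).
 it_l_mix1  boost j=0: u1 = -dN, u2 = dD, be = θ_0, w = dD + θ_0 dN, V = [X,B,H]; residual ν = it_mot_r (e=1, g=-1);  x_0 = w - r_0 W_0.
 it_l_mix2  |π_0| = |H| + |W_0 | H| + |x_0 | W_0,H| ≥ it_l_H + it_l_W + (mix1 with V).        it_l_mix3  |X | π_0| ≥ m, |N | X,π_0| ≥ ν (it_mot_r).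
 it_e_weak  ONE binary layer p = l, q = z = 2l: it_w_top, it_w_chain, (X,B,P) lists (W_0, X); |W_0| ≥ m (ℓ_1), |X | W_0| ≥ m (ℓ_0): it_w_mode.   m = 0: trivial.
 it_e_q     Whitney layers in u = 2p - z (z = 2l): u_k = (1+κ)^k η l; it_w_chain on each; (X,B,P) lists (U, W_0, X): d (it_w_U) + m (ℓ_1, U held) + m (ℓ_0, U, W_0 held).
 it_e_bin   H(F_2l|𝒟) ≥ hW + hhW [L_0,L_1] + bm - C;  |L_1| ≥ m (ℓ_0), |L_0 | L_1| ≥ m (ℓ_1), coefficient 2(r_0 - r_1 + 𝔨_1(θ_1 - θ_0)): Avoid + independence;  bm ≤ 1: (F_{l,2l}, L_0, L_1, X or B) lists F_2l.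
-/

set_option autoImplicit false

namespace Claimed.Agent.R256

open Claimed.Agent.R255
open Claimed.Agent.R255.FLaw (pair)
open scoped BigOperators
open Classical

/-! ## COST (unit U10) -/

/-- time bits: `H(O_l | C_*) ≥ (d - η) l L + I(F_Q ; O_l | C_*)` for every depth `Q`   OWNER helper196, EST 400 lines (block BP-256-INT-COST) -/
theorem it_cost_time (quad : Bool) (a : ItPar) (ha : a.Ok) :
    ItDepth quad false false a (fun T pk l η => l ∈ pk.Lam → ∀ Q : ℝ,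
      (a.d - η) * l * T.L + T.P.miC (T.Fn Q) (T.O l) T.Cs ≤ T.P.entC (T.O l) T.Cs) :=
  it_c_time quad a ha

/-- first range `q ≤ min(1,c) l` : the layer pays `α - m`   OWNER helper196, EST 900 lines (block BP-256-INT-COST) -/
theorem it_cost_w (quad : Bool) (a : ItPar) (ha : a.Ok) :
    ItLayer quad false false a (fun T pk p q η => ∀ l ∈ pk.Lam, q ≤ min 1 a.c * l →
      T.hF pk.M p q - (a.m + η) * (q - p) * T.L ≤ T.inf l p q) :=
  it_c_w quad a ha

/-- middle range, `c < 1` : `c l ≤ p`, `q ≤ l` pays `|π_0|`   OWNER helper196, EST 700 lines (block BP-256-INT-COST) -/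
theorem it_cost_pi (quad : Bool) (a : ItPar) (ha : a.Ok) (hc : a.c < 1) :
    ItLayer quad false false a (fun T pk p q η => ∀ l ∈ pk.Lam, a.c * l ≤ p → q ≤ l →
      T.hh pk.M p q (T.rPi p 0) [] - η * (q - p) * T.L ≤ T.inf l p q) :=
  it_c_pi quad a ha hc

/-- middle range, `c > 1` : `l ≤ p`, `q ≤ c l` pays `|G_0|`   OWNER helper196, EST 900 lines (block BP-256-INT-COST) -/
theorem it_cost_G (quad : Bool) (a : ItPar) (ha : a.Ok) (hc : 1 < a.c) :
    ItLayer quad false false a (fun T pk p q η => ∀ l ∈ pk.Lam, l ≤ p → q ≤ a.c * l →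
      T.hh pk.M p q (T.rG p 0) [] - η * (q - p) * T.L ≤ T.inf l p q) :=
  it_c_G quad a ha hc

/-- last range `max(1,c) l ≤ p`, `q ≤ (1+c) l` pays `|x_0|`   OWNER helper196, EST 700 lines (block BP-256-INT-COST) -/
theorem it_cost_x (quad : Bool) (a : ItPar) (ha : a.Ok) :
    ItLayer quad false false a (fun T pk p q η => ∀ l ∈ pk.Lam, max 1 a.c * l ≤ p → q ≤ (1 + a.c) * l →
      T.hh pk.M p q [T.cx p 0] [] - η * (q - p) * T.L ≤ T.inf l p q) :=
  it_c_x quad a ha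

/-- binary layers (int:binary), quadratic, line avoidance: `l ≤ p ≤ (c-1) l`, `2p ≤ c l`   OWNER helper196, EST 1500 lines (block BP-256-INT-BIN) -/
theorem it_cost_bin (a : ItPar) (ha : a.Ok) (hm : 0 < a.m) (hc : 3 < a.c) :
    ItDepth true true false a (fun T pk p η => ∀ l ∈ pk.Lam, l ≤ p → p ≤ (a.c - 1) * l → 2 * p ≤ a.c * l →
      T.hF pk.M p (2 * p) - T.bm pk.M p - η * p * T.L ≤ 2 * T.inf l p (2 * p)) :=
  it_n_cost_bin a ha hm hc

/-- quadratic width: `H(Wd_l | C_*) ≤ H(F_{l,2l} | 𝒟) + η l L`   OWNER helper196, EST 150 lines (block BP-256-INT-COST) -/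
theorem it_width_q (a : ItPar) (ha : a.Ok) :
    ItDepth true false false a (fun T pk l η => l ∈ pk.Lam →
      T.P.entC (T.Wd l) T.Cs ≤ T.hW pk.M l (2 * l) + η * l * T.L) :=
  it_c_width_q a ha

/-- linear width: `H(Wd_l | C_*) ≤ H(F_l | 𝒟) + (1 + η) l L`   OWNER helper196, EST 150 lines (block BP-256-INT-COST) -/
theorem it_width_l (a : ItPar) (ha : a.Ok) :
    ItDepth false false false a (fun T pk l η => l ∈ pk.Lam →
      T.P.entC (T.Wd l) T.Cs ≤ T.hA pk.M l + (1 + η) * l * T.L) :=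
  it_c_width_l a ha

/-! ## RATES, quadratic (unit U8) -/

/-- (modes) 2 : `|C_z| - |x_0| ≥ m + l_*`   PROVED (helper172, Int/Rq1.lean) -/
theorem it_q_centre (a : ItPar) (ha : a.Ok) (hm : 0 < a.m) :
    ItLayer true true false a (fun T pk p q η =>
      (a.m + a.ls - η) * (q - p) * T.L ≤ T.hh pk.M p q (T.rCz p) [] - T.hh pk.M p q [T.cx p 0] []) := it_q1_centre a ha hm

/-- (modes) 3 : `α - |C_z| ≥ 2m + l_*`   PROVED (helper172, Int/Rq1.lean) -/
theorem it_q_hor (a : ItPar) (ha : a.Ok) (hm : 0 < a.m) :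
    ItLayer true true false a (fun T pk p q η =>
      (2 * a.m + a.ls - η) * (q - p) * T.L ≤ T.hF pk.M p q - T.hh pk.M p q (T.rCz p) []) := it_q1_hor a ha hm

/-- (Gq) 1 : `|G_0| ≥ 2m + |x_0|`   PROVED (helper172, Int/Rq1.lean) -/
theorem it_q_G1 (a : ItPar) (ha : a.Ok) (hm : 0 < a.m) (hc : 1 < a.c) :
    ItLayer true true false a (fun T pk p q η =>
      (2 * a.m - η) * (q - p) * T.L + T.hh pk.M p q [T.cx p 0] [] ≤ T.hh pk.M p q (T.rG p 0) []) := it_q1_G1 a ha hm hc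

/-- (Gq) 2 : `2 |G_0| ≥ α - 1`   PROVED (helper172, Int/Rq1.lean) -/
theorem it_q_G2 (a : ItPar) (ha : a.Ok) (hm : 0 < a.m) (hc : 1 < a.c) :
    ItLayer true true false a (fun T pk p q η =>
      T.hF pk.M p q - (1 + η) * (q - p) * T.L ≤ 2 * T.hh pk.M p q (T.rG p 0) []) := it_q1_G2 a ha hm hc

/-- (cross-q) : `|x_0| ≥ d`   PROVED (helper172, Int/Rq2.lean) -/
theorem it_q_cross (a : ItPar) (ha : a.Ok) (hm : 0 < a.m) :
    ItLayer true true false a (fun T pk p q η => (a.d - η) * (q - p) * T.L ≤ T.hh pk.M p q [T.cx p 0] []) := it_q2_cross a ha hm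

/-- (mix-q) 1 : `|x_0| ≥ n_*`   PROVED (helper172, Int/Rq2.lean) -/
theorem it_q_mix1 (a : ItPar) (ha : a.Ok) (hm : 0 < a.m) (hc : a.c < 1) :
    ItLayer true true false a (fun T pk p q η => (a.ns - η) * (q - p) * T.L ≤ T.hh pk.M p q [T.cx p 0] []) := it_q2_mix1 a ha hm hc

/-- (mix-q) 3 : `|C_z| - |x_0| ≥ a_* + ν`   PROVED (helper172, Int/Rq2.lean) -/
theorem it_q_mix3 (a : ItPar) (ha : a.Ok) (hm : 0 < a.m) (hc : a.c < 1) :
    ItLayer true true false a (fun T pk p q η =>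
      (a.as + a.ν - η) * (q - p) * T.L ≤ T.hh pk.M p q (T.rCz p) [] - T.hh pk.M p q [T.cx p 0] []) := it_q2_mix3 a ha hm hc

/-- (mix-q) 4 : `|π_0| ≥ l_* + a_* + |x_0|`   PROVED (helper172, Int/Rq2.lean) -/
theorem it_q_mix4 (a : ItPar) (ha : a.Ok) (hm : 0 < a.m) (hc : a.c < 1) :
    ItLayer true true false a (fun T pk p q η =>
      (a.ls + a.as - η) * (q - p) * T.L + T.hh pk.M p q [T.cx p 0] [] ≤ T.hh pk.M p q (T.rPi p 0) []) := it_q2_mix4 a ha hm hc

/-! ## WEDGE (unit U9) -/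

/-- `e(l) ≥ 2m`, no spreading, `m = 0` allowed   OWNER helper196, EST 900 lines (block BP-256-INT-WEDGE) -/
theorem it_e_weak (a : ItPar) (ha : a.Ok) :
    ItDepth true false false a (fun T pk l η => (2 * a.m - η) * l * T.L ≤ T.hA pk.M (2 * l) - T.hW pk.M l (2 * l)) :=
  it_wd_e_weak a ha

/-- (e-q) : `e(l) ≥ 2m + d`   OWNER helper196, EST 1500 lines (block BP-256-INT-WEDGE) -/
theorem it_e_q (a : ItPar) (ha : a.Ok) (hm : 0 < a.m) :
    ItDepth true true false a (fun T pk l η => (2 * a.m + a.d - η) * l * T.L ≤ T.hA pk.M (2 * l) - T.hW pk.M l (2 * l)) :=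
  it_wd_e_q a ha hm

/-- `e(p) ≥ b_miss(p) + 2m`, `b_miss ≤ 1`   OWNER helper196, EST 1500 lines (block BP-256-INT-BIN) -/
theorem it_e_bin (a : ItPar) (ha : a.Ok) (hm : 0 < a.m) (hc : 3 < a.c) :
    ItDepth true true false a (fun T pk l η =>
      T.bm pk.M l + (2 * a.m - η) * l * T.L ≤ T.hA pk.M (2 * l) - T.hW pk.M l (2 * l) ∧ T.bm pk.M l ≤ (1 + η) * l * T.L) :=
  it_n_e_bin a ha hm hc

/-! ## RATES, linear (unit U8) -/

/-- (modes-lin) 2 : `|x_0| ≥ l_*`   PROVED (helper68 + helper153, Int/Rl1X.lean, Rl1xA-C, Rl1xT) -/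
theorem it_l_x (a : ItPar) (ha : a.Ok) (hm : 0 < a.m) :
    ItLayer false false true a (fun T pk p q η => (a.ls - η) * (q - p) * T.L ≤ T.hh pk.M p q [T.cx p 0] []) :=
  it_l1_x a ha hm

/-- `|x_0| ≥ m` (crossing and `ℓ_1`) is contained in `it_l_x`;  (modes-lin) 3 : `|G_0| ≥ m + l_*`   PROVED (helper153, Int/Rl1.lean) -/
theorem it_l_G1 (a : ItPar) (ha : a.Ok) (hm : 0 < a.m) (hc : 1 < a.c) :
    ItLayer false false true a (fun T pk p q η => (a.m + a.ls - η) * (q - p) * T.L ≤ T.hh pk.M p q (T.rG p 0) []) :=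
  it_l1_G1 a ha hm hc

/-- (modes-lin) 4 : `2 |G_0| ≥ α - 1`   PROVED (helper153, Int/Rl1.lean) -/
theorem it_l_G2 (a : ItPar) (ha : a.Ok) (hm : 0 < a.m) (hc : 1 < a.c) :
    ItLayer false false true a (fun T pk p q η =>
      T.hF pk.M p q - (1 + η) * (q - p) * T.L ≤ 2 * T.hh pk.M p q (T.rG p 0) []) :=
  it_l1_G2 a ha hm hc

/-- (miss) : `α ≤ |π_0| + m + 1`, no hypothesis on `m`, no crossing   PROVED (helper153, Int/Rl1.lean) -/
theorem it_l_miss (a : ItPar) (ha : a.Ok) :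
    ItLayer false false false a (fun T pk p q η =>
      T.hF pk.M p q ≤ T.hh pk.M p q (T.rPi p 0) [] + (a.m + 1 + η) * (q - p) * T.L) :=
  it_l1_miss a ha

/-- angular invariance : `α ≥ |π_0| + m`   PROVED (helper153, Int/Rl1.lean) -/
theorem it_l_inv (a : ItPar) (ha : a.Ok) :
    ItLayer false false false a (fun T pk p q η =>
      T.hh pk.M p q (T.rPi p 0) [] + (a.m - η) * (q - p) * T.L ≤ T.hF pk.M p q) :=
  it_l1_inv a ha

/-- (mix-l) 1 : `|x_0| ≥ n_*`   OWNER helper196, EST 500 lines (block BP-256-INT-RL2) -/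
theorem it_l_mix1 (a : ItPar) (ha : a.Ok) (hm : 0 < a.m) (hc : a.c < 1) (hν : 0 < a.ν) :
    ItLayer false false true a (fun T pk p q η => (a.ns - η) * (q - p) * T.L ≤ T.hh pk.M p q [T.cx p 0] []) :=
  it_l2_mix1 a ha hm hc hν

/-- (mix-l) 2 : `|π_0| ≥ 2 l_* + n_*`  (contains (H-walk))   OWNER helper196, EST 700 lines (block BP-256-INT-RL2) -/
theorem it_l_mix2 (a : ItPar) (ha : a.Ok) (hm : 0 < a.m) (hc : a.c < 1) (hν : 0 < a.ν) :
    ItLayer false false true a (fun T pk p q η => (2 * a.ls + a.ns - η) * (q - p) * T.L ≤ T.hh pk.M p q (T.rPi p 0) []) :=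
  it_l2_mix2 a ha hm hc hν (it_hw_main a ha hm)

/-- (mix-l) 3 : `α ≥ |π_0| + m + ν`   OWNER helper196, EST 400 lines (block BP-256-INT-RL2) -/
theorem it_l_mix3 (a : ItPar) (ha : a.Ok) (hm : 0 < a.m) (hc : a.c < 1) (hν : 0 < a.ν) :
    ItLayer false false true a (fun T pk p q η =>
      T.hh pk.M p q (T.rPi p 0) [] + (a.m + a.ν - η) * (q - p) * T.L ≤ T.hF pk.M p q) :=
  it_l2_mix3 a ha hm hc hν

/-- (double) 1 : `|π_0| ≥ 2d + l_*`  (`c < 1`, `ν = 0`)   PROVED (helper6, Int/Rl3.lean) -/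
theorem it_l_dbl1 (a : ItPar) (ha : a.Ok) (hm : 0 < a.m) (hc : a.c < 1) (hν : a.ν = 0) :
    ItLayer false false true a (fun T pk p q η => (2 * a.d + a.ls - η) * (q - p) * T.L ≤ T.hh pk.M p q (T.rPi p 0) []) := it_l3_dbl1 a ha hm hc hν

/-- (double) 2 : `α - m - |x_0| ≥ 2d`  (`c = 1`)   PROVED (helper6, Int/Rl3.lean) -/
theorem it_l_dbl2 (a : ItPar) (ha : a.Ok) (hm : 0 < a.m) (hc : a.c = 1) :
    ItLayer false false true a (fun T pk p q η =>
      T.hh pk.M p q [T.cx p 0] [] + (a.m + 2 * a.d - η) * (q - p) * T.L ≤ T.hF pk.M p q) := it_l3_dbl2 a ha hm hc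

/-- (double) 3 : `α - m - |G_0| ≥ 2d`  (`c > 1`)   PROVED (helper6, Int/Rl3.lean) -/
theorem it_l_dbl3 (a : ItPar) (ha : a.Ok) (hm : 0 < a.m) (hc : 1 < a.c) :
    ItLayer false false true a (fun T pk p q η =>
      T.hh pk.M p q (T.rG p 0) [] + (a.m + 2 * a.d - η) * (q - p) * T.L ≤ T.hF pk.M p q) := it_l3_dbl3 a ha hm hc

/-! ## additions 21:15Z: three rates used by several blocks -/

/-- (modes) 1 : `|W_0 | C_z| ≥ l_*`   PROVED (helper172, Int/Rq2.lean) -/
theorem it_q_W (a : ItPar) (ha : a.Ok) (hm : 0 < a.m) :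
    ItLayer true false false a (fun T pk p q η => (a.ls - η) * (q - p) * T.L ≤ T.hh pk.M p q [T.cW 0] (T.rCz p)) := it_q2_W a ha hm

/-- (modes-lin) 1 : `|W_0 | H| ≥ l_*`   PROVED (helper172, Int/Rq2.lean) -/
theorem it_l_W (a : ItPar) (ha : a.Ok) (hm : 0 < a.m) :
    ItLayer false false false a (fun T pk p q η => (a.ls - η) * (q - p) * T.L ≤ T.hh pk.M p q [T.cW 0] [T.cH p]) := it_q2_lW a ha hm

/-- (H-walk) : `|H| ≥ l_*`  (int:many-leg; 2n-leg walk, iteration of the projection rule)   OWNER helper196, EST 2500 lines (block BP-256-INT-HWALK) -/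
theorem it_l_H (a : ItPar) (ha : a.Ok) (hm : 0 < a.m) :
    ItLayer false false false a (fun T pk p q η => (a.ls - η) * (q - p) * T.L ≤ T.hh pk.M p q [T.cH p] []) :=
  it_hw_main a ha hm

end Claimed.Agent.R256
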