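import Claimed.Agent.R256.Int.Rq2Kit

/-!
# Row 256, Sec. 5, block RQ2: (cross-q)  `|x_0| ≥ d`      (helper172; prefix `it_q2_`; no sorry)

Move the record `j = 1 ≠ 0`.  The gradient of `x_0` in the mark plane of `j` is `A^2 (r_j - r_0, θ_0 - θ_j)`, so `x_0` reads `A^2 · nInc 0 1 p` (normal increment),
whose lower score `d` is `it_mark_proj` (block RAD).  The transfer mark plane -> phase reading is `it_mot_gen` (block MOT), `n = k = 1`, no held reading.
-/

set_option autoImplicit false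

namespace Claimed.Agent.R256

open Claimed.Agent.R255
open Claimed.Agent.R255.FLaw (pair)
open scoped BigOperators
open Classical

/-- the innovation with the gradient `(r_1 - r_0, θ_0 - θ_1)` is the normal increment -/
theorem it_q2_inn_nInc (T : Tan) (p : ℝ) :
    T.inn 1 p (fun Ξ => (Ξ 1).r - (Ξ 0).r) (fun Ξ => (Ξ 0).th - (Ξ 1).th) = T.nInc 0 1 p := by
  funext ω
  simp [Tan.inn, Tan.nInc, Tan.mkP]

/-- (cross-q) in LS form -/
theorem it_q2_cross_LS (a : ItPar) (ha : a.Ok) (hm : 0 < a.m) :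
    ItLayer true true false a (fun T pk p q η => T.LS pk.M p q q [T.cx p 0] [] a.d η) := by
  intro η hη
  obtain ⟨A0, hA0, hreg⟩ := it_s_regU_xq 0 a.B0
  have t1 := it_mot_gen true a ha hm A0 a.d ha.2.1.le ha.2.2.1 1 one_pos η hη
  have t2 := it_mark_proj true a ha (η / 4) (by positivity)
  refine it_cb_imp (it_cb_and (it_cb_flags (av' := true) (cr' := false) (by simp) (by simp) t1) t2) 1 one_pos ?_
  intro p q hp hpq _
  refine ⟨itPk0 2 1, 1, it_cb_pk0_pre 2 1 one_pos, one_pos,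
    fun pk acc τ κ0 T hpk _ hacc hacc1 hquad hadm _ _ ⟨h1, h2⟩ => ?_⟩
  have hM0 : 0 < pk.M := by have := hpk.1; omega
  have hM1 : 1 < pk.M := by have := hpk.1; omega
  have s2 := h2 0 hM0 1 hM1 (by norm_num)
  have s1 := h1 1 hM1 (itsxq 0) [] 2 (fun Ξ => (Ξ 1).r - (Ξ 0).r) (fun Ξ => (Ξ 0).th - (Ξ 1).th) (hreg _ hM0) (by
      intro f Ξ Ξ' h _ _
      simp only [itsxq, h 0 (by norm_num)]) (by simp) (by simp) (Or.inr rfl) (by simp) (by
      intro f Ξ A
      constructor
      · simp only [itsxq, itcxq, itvTh, if_true, itDot]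
        ring
      · simp only [itsxq, itcxq, itvR, if_true, itDot]
        ring) 1 le_rfl le_rfl
  rw [it_q2_S11, it_q2_inn_nInc] at s1
  have s3 := s1 s2
  simpa only [List.map_nil, it_s_fld_xq T p 0 hquad] using s3

/-- (cross-q) : `|x_0| ≥ d`   (= `it_q_cross` of `Int/Rates.lean`, verbatim) -/
theorem it_q2_cross (a : ItPar) (ha : a.Ok) (hm : 0 < a.m) :
    ItLayer true true false a (fun T pk p q η => (a.d - η) * (q - p) * T.L ≤ T.hh pk.M p q [T.cx p 0] []) := by
  intro η hη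
  refine it_cb_imp (it_q2_cross_LS a ha hm (η / 2) (by positivity)) 1 one_pos ?_
  intro p q hp hpq _
  refine ⟨itPk0 0 1, 1, it_cb_pk0_pre 0 1 one_pos, one_pos,
    fun pk acc τ κ0 T hpk _ hacc hacc1 hquad hadm _ _ h1 => ?_⟩
  have h0 := hadm.t0.δ0
  have hδ1 := hadm.t0.δ1
  have e := it_q2_E T h0 hδ1 pk.M p q hpq.le _ _ a.d (η / 2) (by positivity) ha.2.1.le h1
  have hL := it_cb_L_pos T h0 hδ1
  have hw : 0 ≤ (q - p) * T.L := mul_nonneg (by linarith) hL.le
  have hd1 : a.d ≤ 1 := ha.2.2.1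
  have : (a.d - (1 + a.d) * (η / 2)) * (q - p) * T.L - (a.d - η) * (q - p) * T.L = (η - (1 + a.d) * (η / 2)) * ((q - p) * T.L) := by ring
  have h2 : 0 ≤ η - (1 + a.d) * (η / 2) := by nlinarith
  have := mul_nonneg h2 hw
  linarith

end Claimed.Agent.R256
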