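import Claimed.Agent.R256.Int.Meta

/-!
# Row 256, Sec. 5, block RQ2: small additions to the layer kit      (helper172; prefix `it_q2_`; no sorry)

* `it_q2_hh_sub`  a tuple contained in the held readings costs nothing
* `it_q2_lin`     LINEAR CHANGE with held readings: `U'` is a combination of `U ++ V`  =>  `hh U' V ≤ hh U V + const`
* `it_q2_held`    CHANGE OF THE HELD READINGS: `V` is a combination of `V'`  =>  `hh U V' - const ≤ hh U V`
* `it_q2_E`       expectation from a lower score, no side condition: `(ρ - (1 + ρ) η)(q - p) L ≤ hh U V`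
* `it_q2_mrk_base` the stored marks are functions of the conditioning `(F_p, 𝒟)`
* `it_q2_comb`    builder of the coefficient data of `it_k_lin` from a LIST of coefficient functions
* `it_q2_S11`, `it_q2_sep_one`  (prefix `k = n = 1`; a coefficient of modulus one is separated)
* `it_q2_tboost`  BOOST WITH TIME SLOPES, ready to use (`al = 1`, `be = θ_j`; the event is the box of the marks, because `it_boost` asks `|be| ≤ A0 |al|` on ALL of `E`, also off the support):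
                  `w = u2 - θ_j u1`, residual `Mr` of `u1` at the prefixes  =>  `LS [w] V (min 1 (d + Mr)) η`.     For RQ1, RL1, RL2 too.
-/

set_option autoImplicit false

namespace Claimed.Agent.R256

open Claimed.Agent.R255
open Claimed.Agent.R255.FLaw (pair)
open scoped BigOperators
open Classical

variable (T : Tan)

/-- a tuple contained in the held readings costs nothing -/
theorem it_q2_hh_sub (M : ℕ) (p q : ℝ) (U V : List (T.Ω → ItPh)) (h : ∀ u ∈ U, u ∈ V) : T.hh M p q U V = 0 := by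
  unfold Tan.hh
  refine ent_entC_eq_zero T.P _ _ fun ω ω' _ _ hh => ?_
  simp only [FLaw.pair, Prod.mk.injEq] at hh
  rw [it_k_aux_rd_iff] at hh ⊢
  exact fun u hu => hh.1 u (h u hu)

/-- LINEAR CHANGE with held readings -/
theorem it_q2_lin (h0 : 0 < T.δ) (h1 : T.δ < 1) (M : ℕ) (p q A : ℝ) (hA : 1 ≤ A) (U U' V : List (T.Ω → ItPh))
    (hc : ∀ u' ∈ U', ∃ c : T.Ω → ℕ → ℝ, (∀ ω ω', T.base M p ω = T.base M p ω' → c ω = c ω') ∧ (∀ ω, T.P.p ω ≠ 0 → ∀ k, |c ω k| ≤ A) ∧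
      ∀ ω, T.P.p ω ≠ 0 → ∀ x, itDot (u' ω) x
        = ∑ k ∈ Finset.range (U ++ V).length, c ω k * itDot (((U ++ V).getD k (fun _ => ⟨0, 0, 0, 0, 0, 0⟩)) ω) x) :
    T.hh M p q U' V ≤ T.hh M p q U V + U'.length * Real.log (A * (U ++ V).length + 2) := by
  have s1 := it_k_lin T h0 h1 M p q A hA (U ++ V) U' V hc
  have s2 := it_k_chain T M p q U V V
  have s3 := it_q2_hh_sub T M p q V V fun _ h => h
  have s4 := it_k_anti T M p q U V V
  linarith

/-- CHANGE OF THE HELD READINGS -/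
theorem it_q2_held (h0 : 0 < T.δ) (h1 : T.δ < 1) (M : ℕ) (p q A : ℝ) (hA : 1 ≤ A) (U V V' : List (T.Ω → ItPh))
    (hc : ∀ v ∈ V, ∃ c : T.Ω → ℕ → ℝ, (∀ ω ω', T.base M p ω = T.base M p ω' → c ω = c ω') ∧ (∀ ω, T.P.p ω ≠ 0 → ∀ k, |c ω k| ≤ A) ∧
      ∀ ω, T.P.p ω ≠ 0 → ∀ x, itDot (v ω) x
        = ∑ k ∈ Finset.range V'.length, c ω k * itDot ((V'.getD k (fun _ => ⟨0, 0, 0, 0, 0, 0⟩)) ω) x) :
    T.hh M p q U V' - V.length * Real.log (A * V'.length + 2) ≤ T.hh M p q U V := by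
  have s1 := it_k_anti T M p q U V V'
  have s2 := it_k_chain T M p q U V V'
  have s3 := it_k_mono T M p q U V V'
  have s4 := it_q2_lin T h0 h1 M p q A hA [] V V' (by simpa using hc)
  have s5 := it_q2_hh_sub T M p q [] V' (by simp)
  simp only [List.nil_append] at s4
  linarith

/-- expectation from a lower score, no side condition -/
theorem it_q2_E (h0 : 0 < T.δ) (h1 : T.δ < 1) (M : ℕ) (p q : ℝ) (hpq : p ≤ q) (U V : List (T.Ω → ItPh)) (ρ η : ℝ)
    (hη : 0 ≤ η) (hρ : 0 ≤ ρ) (h : T.LS M p q q U V ρ η) : (ρ - (1 + ρ) * η) * (q - p) * T.L ≤ T.hh M p q U V := by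
  have hL := it_k_aux_L_pos T h0 h1
  have hw : 0 ≤ (q - p) * T.L := mul_nonneg (sub_nonneg.2 hpq) hL.le
  by_cases hc : η ≤ ρ
  · have s := it_k_E_of_LS T h0 h1 M p q hpq U V ρ η hη hc h
    have e : (ρ - (1 + ρ) * η) ≤ (ρ - η) * (1 - η) := by nlinarith
    calc (ρ - (1 + ρ) * η) * (q - p) * T.L = (ρ - (1 + ρ) * η) * ((q - p) * T.L) := by ring
      _ ≤ (ρ - η) * (1 - η) * ((q - p) * T.L) := mul_le_mul_of_nonneg_right e hw
      _ = (ρ - η) * (1 - η) * (q - p) * T.L := by ring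
      _ ≤ _ := s
  · push Not at hc
    have e : (ρ - (1 + ρ) * η) ≤ 0 := by nlinarith
    calc (ρ - (1 + ρ) * η) * (q - p) * T.L = (ρ - (1 + ρ) * η) * ((q - p) * T.L) := by ring
      _ ≤ 0 := mul_nonpos_of_nonpos_of_nonneg e hw
      _ ≤ _ := it_k_nonneg T M p q U V

/-- the stored marks are functions of the conditioning -/
theorem it_q2_mrk_base (M : ℕ) (p : ℝ) (i : ℕ) (hi : i < M) (ω ω' : T.Ω) (h : T.base M p ω = T.base M p ω') :
    T.mrk i ω = T.mrk i ω' := by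
  simp only [Tan.base, Tan.Dd, Prod.mk.injEq] at h
  exact congrFun h.2.2 ⟨i, hi⟩

/-- builder of the coefficient data of `it_k_lin` from a list of coefficient functions -/
theorem it_q2_comb (M : ℕ) (p A : ℝ) (hA : 0 ≤ A) (U : List (T.Ω → ItPh)) (u' : T.Ω → ItPh) (cs : List (T.Ω → ℝ))
    (hb : ∀ c ∈ cs, ∀ ω ω', T.base M p ω = T.base M p ω' → (c : T.Ω → ℝ) ω = c ω')
    (hbd : ∀ c ∈ cs, ∀ ω, T.P.p ω ≠ 0 → |(c : T.Ω → ℝ) ω| ≤ A)
    (hid : ∀ ω, T.P.p ω ≠ 0 → ∀ x, itDot (u' ω) x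
      = ∑ k ∈ Finset.range U.length, (cs.getD k (fun _ => 0)) ω * itDot ((U.getD k (fun _ => ⟨0, 0, 0, 0, 0, 0⟩)) ω) x) :
    ∃ c : T.Ω → ℕ → ℝ, (∀ ω ω', T.base M p ω = T.base M p ω' → c ω = c ω') ∧ (∀ ω, T.P.p ω ≠ 0 → ∀ k, |c ω k| ≤ A) ∧
      ∀ ω, T.P.p ω ≠ 0 → ∀ x, itDot (u' ω) x
        = ∑ k ∈ Finset.range U.length, c ω k * itDot ((U.getD k (fun _ => ⟨0, 0, 0, 0, 0, 0⟩)) ω) x := by
  refine ⟨fun ω k => (cs.getD k (fun _ => 0)) ω, fun ω ω' h => ?_, fun ω hω k => ?_, hid⟩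
  · funext k
    show (cs.getD k (fun _ => 0)) ω = (cs.getD k (fun _ => 0)) ω'
    by_cases hk : k < cs.length
    · rw [List.getD_eq_getElem _ _ hk]
      exact hb _ (List.getElem_mem hk) ω ω' h
    · rw [List.getD_eq_default _ _ (not_lt.1 hk)]
  · by_cases hk : k < cs.length
    · show |(cs.getD k (fun _ => 0)) ω| ≤ A
      rw [List.getD_eq_getElem _ _ hk]
      exact hbd _ (List.getElem_mem hk) ω hω
    · show |(cs.getD k (fun _ => 0)) ω| ≤ A
      rw [List.getD_eq_default _ _ (not_lt.1 hk)]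
      simpa using hA

/-- the prefix `k = n = 1` is the child depth -/
theorem it_q2_S11 (p q : ℝ) : itS p q 1 1 = q := by
  unfold itS
  norm_num

/-- a coefficient of modulus one is separated -/
theorem it_q2_sep_one (h0 : 0 < T.δ) (h1 : T.δ < 1) (g : T.Ω → ℝ) (hg : ∀ ω, |g ω| = 1) (χ η : ℝ) (hχ : 0 ≤ χ) (hη : 0 ≤ η) :
    T.P.pr (fun ω => |g ω| < T.δ ^ χ) ≤ η := by
  rw [ent_pr_eq_zero T.P fun ω _ hlt => ?_]
  · exact hη
  · rw [hg ω] at hlt
    exact absurd hlt (not_lt.2 (Real.rpow_le_one h0.le h1.le hχ))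

/-- BOOST WITH TIME SLOPES (`al = 1`, `be = θ_j`, chart event = the box of the marks): `w = u2 - θ_j u1`, residual `Mr` of `u1` at the prefixes => `|w | V| ≥ min(1, d + Mr)` in LS form. -/
theorem it_q2_tboost (quad : Bool) (a : ItPar) (ha : a.Ok) (A0 Mr : ℝ) (hA0 : a.B0 ≤ A0) (hM : 0 < Mr) (hM1 : Mr ≤ 1)
    (η : ℝ) (hη : 0 < η) : ∃ (n : ℕ) (η1 : ℝ), 0 < n ∧ 0 < η1 ∧
    ItLayerAt quad false false a (fun T pk p q => ∀ j < pk.M, ∀ (u1 u2 w : ItSym) (V : List ItSym),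
      u1.Reg pk.M a.B0 A0 → u2.Reg pk.M a.B0 A0 → w.Reg pk.M a.B0 A0 → (∀ v ∈ V, ItSym.Reg v pk.M a.B0 A0 ∧ ItSym.Free v j) → V.length ≤ 6 →
      u1.Free j → u2.Free j →
      (∀ f Ξ x, itDot (w f Ξ) x = itDot (u2 f Ξ) x - (Ξ j).th * itDot (u1 f Ξ) x) →
      (∀ k, 1 ≤ k → k ≤ n → T.LS pk.M p (itS p q n k) q [T.fld p u1] (T.fld p w :: V.map (T.fld p)) Mr η1) →
      T.LS pk.M p q q [T.fld p w] (V.map (T.fld p)) (min 1 (a.d + Mr)) η) := by
  obtain ⟨n, η1, hn, hη1, hb⟩ := it_boost quad a ha A0 Mr a.d hM hM1 ha.2.1 ha.2.2.1 η hη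
  refine ⟨n, η1, hn, hη1, ?_⟩
  have t2 := it_slope_time quad a ha n hn η1 hη1
  refine it_cb_imp (it_cb_and hb t2) 1 one_pos ?_
  intro p q hp hpq _
  refine ⟨itPk0 0 1, 1, it_cb_pk0_pre 0 1 one_pos, one_pos,
    fun pk acc τ κ0 T hpk _ hacc hacc1 hquad hadm _ _ ⟨h1, h2⟩ => ?_⟩
  intro j hj u1 u2 w V r1 r2 r3 rV lV f1 f2 hw hres
  have h0 := hadm.t0.δ0
  have hδ1 := hadm.t0.δ1
  have key := h1 j hj u1 u2 w V (fun _ _ => 1) (fun _ Ξ => (Ξ j).th) (fun ω => |(T.mrk j ω).th| ≤ A0) r1 r2 r3 rV lV f1 f2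
    (by intro ω h; simpa using h) (fun f Ξ Ξ' e => ⟨rfl, by rw [e j hj]⟩) (by intro f Ξ x; rw [hw]; ring)
    (by
      rw [ent_pr_eq_zero T.P fun ω _ hlt => ?_]
      · exact hη1.le
      · have : T.δ ^ (η1 * (q - p)) ≤ 1 := Real.rpow_le_one h0.le hδ1.le (mul_nonneg hη1.le (by linarith))
        simp only [abs_one] at hlt
        linarith [hlt.2])
    hres
    (by
      intro k k' hk hk'
      refine le_trans (ent_pr_mono T.P fun ω _ hbad => ?_) (h2 j hj k k' hk hk')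
      simp only [div_one] at hbad
      exact ⟨trivial, hbad.2⟩)
  unfold Tan.LS
  refine le_trans (ent_pr_mono T.P fun ω hω hbad => ?_) key
  exact ⟨((hadm.t0.bdM ω hω j hj).1).trans hA0, hbad⟩


end Claimed.Agent.R256
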