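import Claimed.Agent.R256.Int.WedgeKit

/-!
# Row 256, Sec. 5, block WEDGE, file 2: OBSERVATIONS, LISTS, INFORMATION      (architect helper49; prefix `it_wd_`)

All leaves of the block.  Notation: `b = a.B0 ≥ 1`, `m_q = msh δ q ∈ (δ^q / 2, δ^q]` (`ig_msh_le`, `ig_le_msh`), cells exactly nested (`it_k_aux_cell_nest`), same cell => distance `≤ m_q` (`it_k_aux_cell_dist`),
`trep δ q x ≤ x < trep δ q x + m_q` (`ig_trep_le`, `ig_lt_trep`), `trep` is a function of the cell (`ig_trep_eq`).   On the support `(T.F ω).nrm ≤ b` and the marks `< M` are bounded by `b` (`Adm0.bdF`, `bdM`; `it_k_aux_nrm_le`).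
EVERY LIST LEAF has the same proof pattern:  split the tuple by `ent_entC_pair_le_add` / `ent_entC_chain` + `ent_entC_anti`;  a component that is a function of the conditioning costs `0` (`ent_entC_eq_zero`);
a real component costs `log (c + 2)` by `it_wd_ent_cell` (closeness `≤ c m_q` of its values at two support points with the same conditioning);  finally `c + 2 ≤ itwC b`.
The closeness is a polynomial identity (given in the docstring; `ring` / `linear_combination`) + triangle inequality.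
-/

set_option autoImplicit false

namespace Claimed.Agent.R256

open Claimed.Agent.R255
open Claimed.Agent.R255.FLaw (pair)
open scoped BigOperators
open Classical

/-- the horizontal scalar annihilating both angular modes (int:normal-horizontal), expanded form; `(t0, r0)` = first mark, possibly frozen -/
def itwU (f : ItPh) (t0 r0 : ℝ) (μ1 : ItMk) : ℝ :=
  (t0 - μ1.th) * f.P - 2 * (μ1.r - r0) * f.B - 2 * (t0 * μ1.r - μ1.th * r0) * f.X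

/-- the universal list constant -/
def itwC (b : ℝ) : ℝ := 200 * (b + 1) ^ 3

namespace Tan
variable (T : Tan)

/-- dyadic name of depth `s` of a real observation -/
noncomputable def wcl (s : ℝ) (v : T.Ω → ℝ) : T.Ω → ℤ := fun ω => tcell T.δ s (v ω)

/-- `W_0 = B + θ_0 X` -/
def wW : T.Ω → ℝ := fun ω => (T.F ω).B + (T.mrk 0 ω).th * (T.F ω).X

/-- `U` -/
def wU : T.Ω → ℝ := fun ω => itwU (T.F ω) (T.mrk 0 ω).th (T.mrk 0 ω).r (T.mrk 1 ω)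

/-- `U` with the coefficients of the record `0` frozen at the mark parent of depth `u` -/
noncomputable def wU0 (u : ℝ) : T.Ω → ℝ :=
  fun ω => itwU (T.F ω) (trep T.δ u (T.mrk 0 ω).th) (trep T.δ u (T.mrk 0 ω).r) (T.mrk 1 ω)

/-- the conditioning of an angular mode: `(X_p, Q_i, 𝒟)` -/
noncomputable def wG (pk : ItPk) (i : ℕ) (p : ℝ) : T.Ω → ℤ × ((ℤ × ℤ × ℤ) × (ℤ × ℤ)) × (T.γ × (Fin pk.M → ItMk)) :=
  pair (T.Xn p) (pair (T.Qn pk.RQ i) (T.Dd pk.M))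

/-- the part of the marks kept after the removal of the fine record `0` : `(ξ_{0,u}, Ξ_{-0})` -/
noncomputable def wg (M : ℕ) (u : ℝ) : T.Ω → (ℤ × ℤ) × (Fin M → ItMk) := pair (T.xin 0 u) (T.XiE M 0)

/-- `𝒟⁻ = (C_*, ξ_{0,u}, Ξ_{-0})` -/
noncomputable def wDm (M : ℕ) (u : ℝ) : T.Ω → T.γ × ((ℤ × ℤ) × (Fin M → ItMk)) := pair T.Cs (T.wg M u)

/-- the shared label of the prefix sharing resampling: `ℬ = (Q_0, 𝒟, X_{q0})` -/
noncomputable def wB (pk : ItPk) (q0 : ℝ) : T.Ω → ((ℤ × ℤ × ℤ) × (ℤ × ℤ)) × ((T.γ × (Fin pk.M → ItMk)) × ℤ) :=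
  pair (T.Qn pk.RQ 0) (pair (T.Dd pk.M) (T.Xn q0))

/-- the test data on the two-copy law: `𝒢 = (𝒟⁻(target), Z_R, X_F^*)` -/
noncomputable def wT (pk : ItPk) (u : ℝ) : T.Ω × T.Ω → (T.γ × ((ℤ × ℤ) × (Fin pk.M → ItMk))) × (T.ζ × ℤ) :=
  pair (fun x => T.wDm pk.M u x.1) (pair (fun x => T.Zs x.2) (fun x => T.Xn pk.K x.1))

end Tan

theorem it_wd_geo_eqns_cite : True := by
  have := @itwU.eq_1; have := @itwC.eq_1; have := @Tan.wcl.eq_1; have := @Tan.wW.eq_1; have := @Tan.wU.eq_1; have := @Tan.wU0.eq_1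
  have := @Tan.wG.eq_1; have := @Tan.wg.eq_1; have := @Tan.wDm.eq_1; have := @Tan.wB.eq_1; have := @Tan.wT.eq_1
  trivial

variable {T : Tan} {a : ItPar} {pk : ItPk} {τ κ0 acc : ℝ}

/-! ## LISTS on the law `T.P` -/

/-- `trep` is a function of the cell -/
theorem it_wd_aux_g1_trep_fun {δ q x y : ℝ} (h : tcell δ q x = tcell δ q y) : trep δ q x = trep δ q y := by
  rw [ig_trep_eq, ig_trep_eq, h]

theorem it_wd_aux_g1_trep_close (δ q x : ℝ) : |trep δ q x - x| ≤ msh δ q := by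
  have h1 := ig_trep_le δ q x
  have h2 := ig_lt_trep δ q x
  rw [abs_le]
  constructor <;> linarith

/-- representatives of two nested depths -/
theorem it_wd_aux_g1_trep_two {δ : ℝ} (h0 : 0 < δ) (h1 : δ < 1) {p p' : ℝ} (hpp : p ≤ p') (x : ℝ) :
    |trep δ p' x - trep δ p x| ≤ msh δ p := by
  have a1 := ig_trep_le δ p x
  have a2 := ig_lt_trep δ p x
  have b1 := ig_trep_le δ p' x
  have b2 := ig_lt_trep δ p' x
  have hm := ig_msh_anti δ p p' h0 h1 hpp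
  rw [abs_le]
  constructor <;> linarith

/-- product of two meshes -/
theorem it_wd_aux_g1_msh_mul {δ : ℝ} (h0 : 0 < δ) (h1 : δ < 1) {u p z : ℝ} (hz0 : 0 ≤ z) (hz : z ≤ u + p) :
    msh δ u * msh δ p ≤ 2 * msh δ z := by
  calc msh δ u * msh δ p ≤ δ ^ u * δ ^ p :=
        mul_le_mul (ig_msh_le δ u h0) (ig_msh_le δ p h0) (ig_msh_pos δ p).le (Real.rpow_nonneg h0.le _)
    _ = δ ^ (u + p) := (Real.rpow_add h0 _ _).symm
    _ ≤ δ ^ z := Real.rpow_le_rpow_of_exponent_ge h0 h1.le hz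
    _ ≤ 2 * msh δ z := ig_le_msh δ z h0 h1 hz0

/-- a product of two small factors -/
theorem it_wd_aux_g1_mul {x y a b : ℝ} (hx : |x| ≤ a) (hy : |y| ≤ b) : |x * y| ≤ a * b := by
  rw [abs_mul]
  exact mul_le_mul hx hy (abs_nonneg _) ((abs_nonneg _).trans hx)

/-- a name `(function of the conditioning, three dyadic cells)` costs three lists -/
theorem it_wd_aux_g1_three {Ω : Type} [Fintype Ω] {α β : Type} (P : FLaw Ω) (A : Ω → α) (f : Ω → β) (v1 v2 v3 : Ω → ℝ) (δ q c1 c2 c3 : ℝ)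
    (hc1 : 0 ≤ c1) (hc2 : 0 ≤ c2) (hc3 : 0 ≤ c3)
    (hf : ∀ ω ω', P.p ω ≠ 0 → P.p ω' ≠ 0 → A ω = A ω' → f ω = f ω')
    (h1 : ∀ ω ω', P.p ω ≠ 0 → P.p ω' ≠ 0 → A ω = A ω' → |v1 ω - v1 ω'| ≤ c1 * msh δ q)
    (h2 : ∀ ω ω', P.p ω ≠ 0 → P.p ω' ≠ 0 → A ω = A ω' → |v2 ω - v2 ω'| ≤ c2 * msh δ q)
    (h3 : ∀ ω ω', P.p ω ≠ 0 → P.p ω' ≠ 0 → A ω = A ω' → |v3 ω - v3 ω'| ≤ c3 * msh δ q) :
    P.entC (fun ω => (f ω, (tcell δ q (v1 ω), tcell δ q (v2 ω), tcell δ q (v3 ω)))) A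
      ≤ Real.log (c1 + 2) + Real.log (c2 + 2) + Real.log (c3 + 2) := by
  have e1 := it_wd_ent_cell P A v1 δ q c1 hc1 h1
  have e2 := it_wd_ent_cell P A v2 δ q c2 hc2 h2
  have e3 := it_wd_ent_cell P A v3 δ q c3 hc3 h3
  have m1 : P.entC (fun ω => (f ω, (tcell δ q (v1 ω), tcell δ q (v2 ω), tcell δ q (v3 ω)))) A
      ≤ P.entC (pair (fun ω => tcell δ q (v1 ω)) (pair (fun ω => tcell δ q (v2 ω)) (fun ω => tcell δ q (v3 ω)))) A := by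
    refine ent_entC_mono P _ _ A fun ω ω' a1 a2 hX hA => ?_
    simp only [FLaw.pair, Prod.mk.injEq] at hX
    simp only [Prod.mk.injEq]
    exact ⟨hf ω ω' a1 a2 hA, hX.1, hX.2.1, hX.2.2⟩
  have m2 := ent_entC_pair_le_add P (fun ω => tcell δ q (v1 ω)) (pair (fun ω => tcell δ q (v2 ω)) (fun ω => tcell δ q (v3 ω))) A
  have m3 := ent_entC_pair_le_add P (fun ω => tcell δ q (v2 ω)) (fun ω => tcell δ q (v3 ω)) A
  linarith

/-- variation of a recentred coordinate under a change of the centre -/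
theorem it_wd_aux_g1_rec {δ : ℝ} (h0 : 0 < δ) (h1 : δ < 1) {p p' z : ℝ} (hpp : p ≤ p') (hz0 : 0 ≤ z) (hz : z ≤ 2 * p)
    {k Y Y' B B' x x' : ℝ} (hk : |k| ≤ 2) (hx : tcell δ p' x = tcell δ p' x') (hB : tcell δ p' B = tcell δ p' B')
    (hY : tcell δ z (Y - k * trep δ p' x * B) = tcell δ z (Y' - k * trep δ p' x' * B')) :
    |(Y - k * trep δ p x * B) - (Y' - k * trep δ p x' * B')| ≤ 5 * msh δ z := by
  have hx0 : trep δ p x = trep δ p x' := it_wd_aux_g1_trep_fun (it_k_aux_cell_nest h0 h1 hpp hx)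
  have hx1 : trep δ p' x = trep δ p' x' := it_wd_aux_g1_trep_fun hx
  have d1 := it_k_aux_cell_dist hY
  have d2 : |B - B'| ≤ msh δ p := (it_k_aux_cell_dist hB).trans (ig_msh_anti δ p p' h0 h1 hpp)
  have d3 := it_wd_aux_g1_trep_two h0 h1 hpp x
  have d4 : msh δ p * msh δ p ≤ 2 * msh δ z := it_wd_aux_g1_msh_mul h0 h1 hz0 (by linarith)
  have d5 := it_wd_aux_g1_mul hk (it_wd_aux_g1_mul d3 d2)
  have e : (Y - k * trep δ p x * B) - (Y' - k * trep δ p x' * B')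
      = ((Y - k * trep δ p' x * B) - (Y' - k * trep δ p' x' * B')) + k * ((trep δ p' x - trep δ p x) * (B - B')) := by
    rw [← hx0, ← hx1]
    ring
  rw [e]
  refine (abs_add_le _ _).trans ?_
  linarith

/-- LEAF W-G1 (refinement).  `F_{p',z}` lists `F_{p,z}`.   The horizontal cells are nested.   With `x1 = [X]_{p'}`, `x0 = [X]_p` (common to both points), `|x1 - x0| ≤ m_p`, `|B - B'| ≤ m_{p'} ≤ m_p`:
`(Y - 2 x0 B) - (Y' - 2 x0 B') = [(Y - 2 x1 B) - (Y' - 2 x1 B')] + 2 (x1 - x0)(B - B')`, so `≤ m_z + 2 m_p² ≤ 5 m_z`   (`m_p² ≤ δ^{2p} ≤ δ^z ≤ 2 m_z`).  Same for `N - c X`, `D - c B` (`≤ 3 m_z`). -/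
theorem it_wd_ref (T : Tan) (h0 : 0 < T.δ) (h1 : T.δ < 1) (p p' z : ℝ) (hp : 0 ≤ p) (hpp : p ≤ p') (hz0 : 0 ≤ z) (hz : z ≤ 2 * p) :
    T.P.entC (T.Hn p z) (T.Hn p' z) ≤ 3 * Real.log 7 := by
  have key := it_wd_aux_g1_three T.P (T.Hn p' z) (fun ω => (tcell T.δ p (T.F ω).X, tcell T.δ p (T.F ω).B, tcell T.δ p (T.F ω).P))
    (fun ω => (T.F ω).Y - 2 * trep T.δ p (T.F ω).X * (T.F ω).B) (fun ω => (T.F ω).N - trep T.δ p (T.F ω).P * (T.F ω).X)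
    (fun ω => (T.F ω).D - trep T.δ p (T.F ω).P * (T.F ω).B) T.δ z 5 5 5 (by norm_num) (by norm_num) (by norm_num) ?_ ?_ ?_ ?_
  · have e : (5 : ℝ) + 2 = 7 := by norm_num
    rw [e] at key
    have : T.Hn p z = fun ω => ((tcell T.δ p (T.F ω).X, tcell T.δ p (T.F ω).B, tcell T.δ p (T.F ω).P),
        (tcell T.δ z ((T.F ω).Y - 2 * trep T.δ p (T.F ω).X * (T.F ω).B), tcell T.δ z ((T.F ω).N - trep T.δ p (T.F ω).P * (T.F ω).X),
          tcell T.δ z ((T.F ω).D - trep T.δ p (T.F ω).P * (T.F ω).B))) := rfl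
    rw [this]
    linarith
  · intro ω ω' _ _ hA
    simp only [Tan.Hn, itHs, Prod.mk.injEq] at hA
    obtain ⟨⟨a1, a2, a3⟩, -⟩ := hA
    simp only [Prod.mk.injEq]
    exact ⟨it_k_aux_cell_nest h0 h1 hpp a1, it_k_aux_cell_nest h0 h1 hpp a2, it_k_aux_cell_nest h0 h1 hpp a3⟩
  · intro ω ω' _ _ hA
    simp only [Tan.Hn, itHs, Prod.mk.injEq] at hA
    obtain ⟨⟨a1, a2, a3⟩, b1, b2, b3⟩ := hA
    exact it_wd_aux_g1_rec h0 h1 hpp hz0 hz (k := 2) (by norm_num) a1 a2 b1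
  · intro ω ω' _ _ hA
    simp only [Tan.Hn, itHs, Prod.mk.injEq] at hA
    obtain ⟨⟨a1, a2, a3⟩, b1, b2, b3⟩ := hA
    have := it_wd_aux_g1_rec h0 h1 hpp hz0 hz (k := 1) (by norm_num) a3 a1 (by simpa only [one_mul] using b2)
    simpa only [one_mul] using this
  · intro ω ω' _ _ hA
    simp only [Tan.Hn, itHs, Prod.mk.injEq] at hA
    obtain ⟨⟨a1, a2, a3⟩, b1, b2, b3⟩ := hA
    have := it_wd_aux_g1_rec h0 h1 hpp hz0 hz (k := 1) (by norm_num) a3 a2 (by simpa only [one_mul] using b3)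
    simpa only [one_mul] using this

theorem it_wd_aux_g2_b (h : T.WH a pk τ κ0 acc) : 1 ≤ a.B0 := h.ha.2.2.2.2.2.2.2.2

theorem it_wd_aux_g2_bd (h : T.WH a pk τ κ0 acc) {ω : T.Ω} (hω : T.P.p ω ≠ 0) :
    |(T.F ω).X| ≤ a.B0 ∧ |(T.F ω).B| ≤ a.B0 ∧ |(T.F ω).P| ≤ a.B0 ∧ |(T.F ω).Y| ≤ a.B0 ∧ |(T.F ω).N| ≤ a.B0 ∧ |(T.F ω).D| ≤ a.B0 := by
  have h1 := h.adm.t0.bdF ω hω
  obtain ⟨a1, a2, a3, a4, a5, a6⟩ := it_k_aux_nrm_le (T.F ω)
  exact ⟨a1.trans h1, a2.trans h1, a3.trans h1, a4.trans h1, a5.trans h1, a6.trans h1⟩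

theorem it_wd_aux_g2_mk (h : T.WH a pk τ κ0 acc) {ω : T.Ω} (hω : T.P.p ω ≠ 0) {i : ℕ} (hi : i < 2) :
    |(T.mrk i ω).th| ≤ a.B0 ∧ |(T.mrk i ω).r| ≤ a.B0 := by
  have h1 := h.adm.t0.bdM ω hω i (lt_of_lt_of_le hi h.ok.1)
  exact ⟨h1.1, h1.2.1⟩

/-- the same `𝒟` : the same marks -/
theorem it_wd_aux_g2_marks {M : ℕ} {ω ω' : T.Ω} (hD : T.Dd M ω = T.Dd M ω') {i : ℕ} (hi : i < M) : T.mrk i ω = T.mrk i ω' := by
  have h1 : T.Xi M ω = T.Xi M ω' := congrArg Prod.snd hD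
  exact congrFun h1 ⟨i, hi⟩

theorem it_wd_aux_g2_msh_le_one {δ : ℝ} (h0 : 0 < δ) (h1 : δ < 1) {z : ℝ} (hz : 0 ≤ z) : msh δ z ≤ 1 := by
  have := ig_msh_anti δ 0 z h0 h1 hz
  rwa [ig_msh_zero] at this

theorem it_wd_aux_g2_log {b c : ℝ} (hc : 0 ≤ c) (h : c + 2 ≤ itwC b) : Real.log (c + 2) ≤ Real.log (itwC b) :=
  Real.log_le_log (by linarith) h

theorem it_wd_aux_g2_lin {m c Y Y' B B' x0 : ℝ} (hY : |Y - Y'| ≤ m) (hB : |B - B'| ≤ m) (hx : |x0| ≤ c) :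
    |(Y - x0 * B) - (Y' - x0 * B')| ≤ (1 + c) * m := by
  have e : (Y - x0 * B) - (Y' - x0 * B') = (Y - Y') - x0 * (B - B') := by ring
  rw [e]
  have := it_wd_aux_g1_mul hx hB
  refine (abs_sub _ _).trans ?_
  linarith

theorem it_wd_aux_g2_trep_bd {δ : ℝ} (h0 : 0 < δ) (h1 : δ < 1) {z x b : ℝ} (hz : 0 ≤ z) (hx : |x| ≤ b) : |trep δ z x| ≤ b + 1 := by
  have h2 := it_wd_aux_g1_trep_close δ z x
  have h3 := it_wd_aux_g2_msh_le_one h0 h1 hz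
  have e : trep δ z x = (trep δ z x - x) + x := by ring
  rw [e]
  refine (abs_add_le _ _).trans ?_
  linarith

/-- polynomial bounds by the universal constant -/
theorem it_wd_aux_g2_C {b : ℝ} (hb : 1 ≤ b) : 50 * b ^ 2 + 50 * b + 50 ≤ itwC b := by
  unfold itwC
  nlinarith [mul_nonneg (by linarith : (0 : ℝ) ≤ b) (by linarith : (0 : ℝ) ≤ b), pow_pos (by linarith : (0 : ℝ) < b) 3]

/-- LEAF W-G2 (top).  `F_z` lists `F_{z,z}` : `|(Y - 2 x0 B) - (Y' - 2 x0 B')| ≤ m_z + 2 |x0| m_z`, `|x0| ≤ b + 1`. -/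
theorem it_wd_top (h : T.WH a pk τ κ0 acc) (z : ℝ) (hz : 0 ≤ z) :
    T.P.entC (T.Hn z z) (T.Fn z) ≤ 3 * Real.log (itwC a.B0) := by
  have h0 := h.adm.t0.δ0
  have h1 := h.adm.t0.δ1
  have hb := it_wd_aux_g2_b h
  have hC := it_wd_aux_g2_C hb
  have hb2 : 0 ≤ a.B0 ^ 2 := by positivity
  have key := it_wd_aux_g1_three T.P (T.Fn z) (fun ω => (tcell T.δ z (T.F ω).X, tcell T.δ z (T.F ω).B, tcell T.δ z (T.F ω).P))
    (fun ω => (T.F ω).Y - 2 * trep T.δ z (T.F ω).X * (T.F ω).B) (fun ω => (T.F ω).N - trep T.δ z (T.F ω).P * (T.F ω).X)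
    (fun ω => (T.F ω).D - trep T.δ z (T.F ω).P * (T.F ω).B) T.δ z (1 + 2 * (a.B0 + 1)) (1 + (a.B0 + 1)) (1 + (a.B0 + 1))
    (by positivity) (by positivity) (by positivity) ?_ ?_ ?_ ?_
  · have l1 := it_wd_aux_g2_log (b := a.B0) (c := 1 + 2 * (a.B0 + 1)) (by positivity) (by linarith)
    have l2 := it_wd_aux_g2_log (b := a.B0) (c := 1 + (a.B0 + 1)) (by positivity) (by linarith)
    have : T.Hn z z = fun ω => ((tcell T.δ z (T.F ω).X, tcell T.δ z (T.F ω).B, tcell T.δ z (T.F ω).P),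
        (tcell T.δ z ((T.F ω).Y - 2 * trep T.δ z (T.F ω).X * (T.F ω).B), tcell T.δ z ((T.F ω).N - trep T.δ z (T.F ω).P * (T.F ω).X),
          tcell T.δ z ((T.F ω).D - trep T.δ z (T.F ω).P * (T.F ω).B))) := rfl
    rw [this]
    linarith
  · intro ω ω' _ _ hA
    simp only [Tan.Fn, itF, Prod.mk.injEq] at hA
    simp only [Prod.mk.injEq]
    exact hA.1
  · intro ω ω' hω _ hA
    simp only [Tan.Fn, itF, Prod.mk.injEq] at hA
    obtain ⟨⟨a1, a2, a3⟩, b1, b2, b3⟩ := hA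
    rw [← it_wd_aux_g1_trep_fun a1]
    refine it_wd_aux_g2_lin (it_k_aux_cell_dist b1) (it_k_aux_cell_dist a2) ?_
    rw [abs_mul, abs_two]
    exact mul_le_mul_of_nonneg_left (it_wd_aux_g2_trep_bd h0 h1 hz (it_wd_aux_g2_bd h hω).1) (by norm_num)
  · intro ω ω' hω _ hA
    simp only [Tan.Fn, itF, Prod.mk.injEq] at hA
    obtain ⟨⟨a1, a2, a3⟩, b1, b2, b3⟩ := hA
    rw [← it_wd_aux_g1_trep_fun a3]
    exact it_wd_aux_g2_lin (it_k_aux_cell_dist b2) (it_k_aux_cell_dist a1) (it_wd_aux_g2_trep_bd h0 h1 hz (it_wd_aux_g2_bd h hω).2.2.1)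
  · intro ω ω' hω _ hA
    simp only [Tan.Fn, itF, Prod.mk.injEq] at hA
    obtain ⟨⟨a1, a2, a3⟩, b1, b2, b3⟩ := hA
    rw [← it_wd_aux_g1_trep_fun a3]
    exact it_wd_aux_g2_lin (it_k_aux_cell_dist b3) (it_k_aux_cell_dist a2) (it_wd_aux_g2_trep_bd h0 h1 hz (it_wd_aux_g2_bd h hω).2.2.1)

theorem it_wd_aux_g3_lin3 {m a1 a2 a3 c1 c2 c3 x1 x2 x3 : ℝ} (h1 : |a1| ≤ c1) (h2 : |a2| ≤ c2) (h3 : |a3| ≤ c3)
    (g1 : |x1| ≤ m) (g2 : |x2| ≤ m) (g3 : |x3| ≤ m) : |a1 * x1 + a2 * x2 + a3 * x3| ≤ (c1 + c2 + c3) * m := by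
  have e1 := it_wd_aux_g1_mul h1 g1
  have e2 := it_wd_aux_g1_mul h2 g2
  have e3 := it_wd_aux_g1_mul h3 g3
  refine (abs_add_le _ _).trans ?_
  have := abs_add_le (a1 * x1) (a2 * x2)
  linarith

/-- variation of `itwU` in the phase, fixed coefficients bounded by `c` -/
theorem it_wd_aux_g3_U {f f' : ItPh} {t0 r0 m c : ℝ} {μ1 : ItMk} (ht0 : |t0| ≤ c) (hr0 : |r0| ≤ c) (ht1 : |μ1.th| ≤ c) (hr1 : |μ1.r| ≤ c)
    (hX : |f.X - f'.X| ≤ m) (hB : |f.B - f'.B| ≤ m) (hP : |f.P - f'.P| ≤ m) :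
    |itwU f t0 r0 μ1 - itwU f' t0 r0 μ1| ≤ (6 * c + 4 * c ^ 2) * m := by
  have e : itwU f t0 r0 μ1 - itwU f' t0 r0 μ1
      = (t0 - μ1.th) * (f.P - f'.P) + (-2 * (μ1.r - r0)) * (f.B - f'.B) + (-2 * (t0 * μ1.r - μ1.th * r0)) * (f.X - f'.X) := by
    unfold itwU
    ring
  rw [e]
  have k1 : |t0 - μ1.th| ≤ 2 * c := (abs_sub _ _).trans (by linarith)
  have k2 : |-2 * (μ1.r - r0)| ≤ 4 * c := by
    rw [abs_mul]
    have : |μ1.r - r0| ≤ 2 * c := (abs_sub _ _).trans (by linarith)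
    have h2 : |(-2 : ℝ)| = 2 := by norm_num
    rw [h2]
    linarith
  have k3 : |-2 * (t0 * μ1.r - μ1.th * r0)| ≤ 4 * c ^ 2 := by
    rw [abs_mul]
    have a1 := it_wd_aux_g1_mul ht0 hr1
    have a2 := it_wd_aux_g1_mul ht1 hr0
    have : |t0 * μ1.r - μ1.th * r0| ≤ 2 * c ^ 2 := (abs_sub _ _).trans (by nlinarith)
    have h2 : |(-2 : ℝ)| = 2 := by norm_num
    rw [h2]
    linarith
  have := it_wd_aux_g3_lin3 k1 k2 k3 hP hB hX
  refine this.trans (le_of_eq ?_)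
  ring

/-- LEAF W-G3 (horizontal change of coordinates).  `(X, B, P)_{p'}` and the marks list `(U, W_0, X)_{p'}` : `|U - U'| ≤ (2b + 4b + 4b²) m_{p'}`, `|W_0 - W_0'| ≤ (1 + b) m_{p'}`. -/
theorem it_wd_hor (h : T.WH a pk τ κ0 acc) (p' z : ℝ) :
    T.P.entC (pair (T.wcl p' T.wU) (pair (T.wcl p' T.wW) (T.Xn p'))) (pair (T.Hn p' z) (T.Dd pk.M)) ≤ 2 * Real.log (itwC a.B0) := by
  have hb := it_wd_aux_g2_b h
  have hC := it_wd_aux_g2_C hb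
  have hb2 : 0 ≤ a.B0 ^ 2 := by positivity
  have hM0 : 0 < pk.M := lt_of_lt_of_le (by norm_num) h.ok.1
  have hM1 : 1 < pk.M := lt_of_lt_of_le (by norm_num) h.ok.1
  have m1 := ent_entC_pair_le_add T.P (T.wcl p' T.wU) (pair (T.wcl p' T.wW) (T.Xn p')) (pair (T.Hn p' z) (T.Dd pk.M))
  have m2 := ent_entC_pair_le_add T.P (T.wcl p' T.wW) (T.Xn p') (pair (T.Hn p' z) (T.Dd pk.M))
  have z3 : T.P.entC (T.Xn p') (pair (T.Hn p' z) (T.Dd pk.M)) = 0 := by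
    refine ent_entC_eq_zero T.P _ _ fun ω ω' _ _ hA => ?_
    simp only [FLaw.pair, Tan.Hn, itHs, Prod.mk.injEq] at hA
    exact hA.1.1.1
  have e1 : T.P.entC (T.wcl p' T.wU) (pair (T.Hn p' z) (T.Dd pk.M)) ≤ Real.log (6 * a.B0 + 4 * a.B0 ^ 2 + 2) := by
    refine it_wd_ent_cell T.P _ T.wU T.δ p' (6 * a.B0 + 4 * a.B0 ^ 2) (by positivity) fun ω ω' hω _ hA => ?_
    simp only [FLaw.pair, Tan.Hn, itHs, Prod.mk.injEq] at hA
    obtain ⟨⟨⟨a1, a2, a3⟩, -⟩, hD⟩ := hA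
    have k0 := it_wd_aux_g2_marks hD hM0
    have k1 := it_wd_aux_g2_marks hD hM1
    unfold Tan.wU
    rw [← k0, ← k1]
    exact it_wd_aux_g3_U (it_wd_aux_g2_mk h hω (by norm_num)).1 (it_wd_aux_g2_mk h hω (by norm_num)).2
      (it_wd_aux_g2_mk h hω (by norm_num)).1 (it_wd_aux_g2_mk h hω (by norm_num)).2
      (it_k_aux_cell_dist a1) (it_k_aux_cell_dist a2) (it_k_aux_cell_dist a3)
  have e2 : T.P.entC (T.wcl p' T.wW) (pair (T.Hn p' z) (T.Dd pk.M)) ≤ Real.log (1 + a.B0 + 2) := by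
    refine it_wd_ent_cell T.P _ T.wW T.δ p' (1 + a.B0) (by positivity) fun ω ω' hω _ hA => ?_
    simp only [FLaw.pair, Tan.Hn, itHs, Prod.mk.injEq] at hA
    obtain ⟨⟨⟨a1, a2, a3⟩, -⟩, hD⟩ := hA
    have k0 := it_wd_aux_g2_marks hD hM0
    unfold Tan.wW
    rw [← k0]
    have hth : |-(T.mrk 0 ω).th| ≤ a.B0 := by
      rw [abs_neg]
      exact (it_wd_aux_g2_mk h hω (by norm_num)).1
    have := it_wd_aux_g2_lin (x0 := -(T.mrk 0 ω).th) (c := a.B0) (it_k_aux_cell_dist a2) (it_k_aux_cell_dist a1) hth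
    simpa only [neg_mul, sub_neg_eq_add] using this
  have l1 := it_wd_aux_g2_log (b := a.B0) (c := 6 * a.B0 + 4 * a.B0 ^ 2) (by positivity) (by linarith)
  have l2 := it_wd_aux_g2_log (b := a.B0) (c := 1 + a.B0) (by positivity) (by linarith)
  linarith

/-- the Heisenberg name: the horizontal cells, then three recentred coordinates with the horizontal cells fixed -/
theorem it_wd_g_hn (T : Tan) {κ : Type} (C : T.Ω → κ) (p z c : ℝ) (hc : 0 ≤ c)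
    (h : ∀ ω ω', T.P.p ω ≠ 0 → T.P.p ω' ≠ 0 → C ω = C ω' → tcell T.δ p (T.F ω).X = tcell T.δ p (T.F ω').X →
      tcell T.δ p (T.F ω).B = tcell T.δ p (T.F ω').B → tcell T.δ p (T.F ω).P = tcell T.δ p (T.F ω').P →
      |((T.F ω).Y - 2 * trep T.δ p (T.F ω).X * (T.F ω).B) - ((T.F ω').Y - 2 * trep T.δ p (T.F ω').X * (T.F ω').B)| ≤ c * msh T.δ z ∧
      |((T.F ω).N - trep T.δ p (T.F ω).P * (T.F ω).X) - ((T.F ω').N - trep T.δ p (T.F ω').P * (T.F ω').X)| ≤ c * msh T.δ z ∧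
      |((T.F ω).D - trep T.δ p (T.F ω).P * (T.F ω).B) - ((T.F ω').D - trep T.δ p (T.F ω').P * (T.F ω').B)| ≤ c * msh T.δ z) :
    T.P.entC (T.Hn p z) C ≤ T.P.entC (fun ω => tcell T.δ p (T.F ω).X) C + T.P.entC (fun ω => tcell T.δ p (T.F ω).B) C
      + T.P.entC (fun ω => tcell T.δ p (T.F ω).P) C + 3 * Real.log (c + 2) := by
  obtain ⟨H1, hH1⟩ : ∃ H1 : T.Ω → ℤ × ℤ × ℤ, H1 = pair (fun ω => tcell T.δ p (T.F ω).X)
    (pair (fun ω => tcell T.δ p (T.F ω).B) (fun ω => tcell T.δ p (T.F ω).P)) := ⟨_, rfl⟩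
  have e0 : T.Hn p z = pair H1 (pair (fun ω => tcell T.δ z ((T.F ω).Y - 2 * trep T.δ p (T.F ω).X * (T.F ω).B))
      (pair (fun ω => tcell T.δ z ((T.F ω).N - trep T.δ p (T.F ω).P * (T.F ω).X))
        (fun ω => tcell T.δ z ((T.F ω).D - trep T.δ p (T.F ω).P * (T.F ω).B)))) := by
    rw [hH1]
    rfl
  have hcond : ∀ ω ω', pair H1 C ω = pair H1 C ω' → C ω = C ω' ∧ tcell T.δ p (T.F ω).X = tcell T.δ p (T.F ω').X ∧
      tcell T.δ p (T.F ω).B = tcell T.δ p (T.F ω').B ∧ tcell T.δ p (T.F ω).P = tcell T.δ p (T.F ω').P := by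
    intro ω ω' hh
    rw [hH1] at hh
    simp only [FLaw.pair, Prod.mk.injEq] at hh
    exact ⟨hh.2, hh.1.1, hh.1.2.1, hh.1.2.2⟩
  rw [e0, ent_entC_chain]
  have a1 : T.P.entC H1 C ≤ T.P.entC (fun ω => tcell T.δ p (T.F ω).X) C + T.P.entC (fun ω => tcell T.δ p (T.F ω).B) C
      + T.P.entC (fun ω => tcell T.δ p (T.F ω).P) C := by
    rw [hH1]
    have b1 := ent_entC_pair_le_add T.P (fun ω => tcell T.δ p (T.F ω).X)
      (pair (fun ω => tcell T.δ p (T.F ω).B) (fun ω => tcell T.δ p (T.F ω).P)) C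
    have b2 := ent_entC_pair_le_add T.P (fun ω => tcell T.δ p (T.F ω).B) (fun ω => tcell T.δ p (T.F ω).P) C
    linarith
  have a2 := ent_entC_pair_le_add T.P (fun ω => tcell T.δ z ((T.F ω).Y - 2 * trep T.δ p (T.F ω).X * (T.F ω).B))
      (pair (fun ω => tcell T.δ z ((T.F ω).N - trep T.δ p (T.F ω).P * (T.F ω).X))
        (fun ω => tcell T.δ z ((T.F ω).D - trep T.δ p (T.F ω).P * (T.F ω).B))) (pair H1 C)
  have a3 := ent_entC_pair_le_add T.P (fun ω => tcell T.δ z ((T.F ω).N - trep T.δ p (T.F ω).P * (T.F ω).X))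
        (fun ω => tcell T.δ z ((T.F ω).D - trep T.δ p (T.F ω).P * (T.F ω).B)) (pair H1 C)
  have c4 := it_wd_ent_cell T.P (pair H1 C) (fun ω => (T.F ω).Y - 2 * trep T.δ p (T.F ω).X * (T.F ω).B) T.δ z c hc
    (fun ω ω' g g' hh => by
      obtain ⟨k0, k1, k2, k3⟩ := hcond ω ω' hh
      exact (h ω ω' g g' k0 k1 k2 k3).1)
  have c5 := it_wd_ent_cell T.P (pair H1 C) (fun ω => (T.F ω).N - trep T.δ p (T.F ω).P * (T.F ω).X) T.δ z c hc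
    (fun ω ω' g g' hh => by
      obtain ⟨k0, k1, k2, k3⟩ := hcond ω ω' hh
      exact (h ω ω' g g' k0 k1 k2 k3).2.1)
  have c6 := it_wd_ent_cell T.P (pair H1 C) (fun ω => (T.F ω).D - trep T.δ p (T.F ω).P * (T.F ω).B) T.δ z c hc
    (fun ω ω' g g' hh => by
      obtain ⟨k0, k1, k2, k3⟩ := hcond ω ω' hh
      exact (h ω ω' g g' k0 k1 k2 k3).2.2)
  linarith

/-- bounds on the support -/
theorem it_wd_g_bd (h : T.WH a pk τ κ0 acc) {ω : T.Ω} (hω : T.P.p ω ≠ 0) :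
    (|(T.F ω).X| ≤ a.B0 ∧ |(T.F ω).B| ≤ a.B0 ∧ |(T.F ω).P| ≤ a.B0 ∧ |(T.F ω).Y| ≤ a.B0 ∧ |(T.F ω).N| ≤ a.B0 ∧ |(T.F ω).D| ≤ a.B0) ∧
      |(T.mrk 0 ω).th| ≤ a.B0 ∧ |(T.mrk 0 ω).r| ≤ a.B0 ∧ |(T.mrk 1 ω).th| ≤ a.B0 ∧ |(T.mrk 1 ω).r| ≤ a.B0 := by
  obtain ⟨n1, n2, n3, n4, n5, n6⟩ := it_k_aux_nrm_le (T.F ω)
  have hb := h.adm.t0.bdF ω hω
  have hM := h.ok.1
  have m0 := h.adm.t0.bdM ω hω 0 (by omega)
  have m1 := h.adm.t0.bdM ω hω 1 (by omega)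
  exact ⟨⟨n1.trans hb, n2.trans hb, n3.trans hb, n4.trans hb, n5.trans hb, n6.trans hb⟩, m0.1, m0.2.1, m1.1, m1.2.1⟩

/-- the representative of a bounded number -/
theorem it_wd_g_trep {δ : ℝ} (h0 : 0 < δ) (h1 : δ < 1) {p x b : ℝ} (hp : 0 ≤ p) (hx : |x| ≤ b) : |trep δ p x| ≤ b + 1 := by
  have a1 := ig_trep_le δ p x
  have a2 := ig_lt_trep δ p x
  have a3 : msh δ p ≤ 1 := by
    have := ig_msh_anti δ 0 p h0 h1 hp
    rwa [ig_msh_zero] at this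
  rw [abs_le] at hx ⊢
  constructor <;> linarith [hx.1, hx.2]

/-- `m_p² ≤ 2 m_z` for `0 ≤ z ≤ 2p` -/
theorem it_wd_g_sq {δ : ℝ} (h0 : 0 < δ) (h1 : δ < 1) {p z : ℝ} (hz0 : 0 ≤ z) (hz : z ≤ 2 * p) : msh δ p * msh δ p ≤ 2 * msh δ z := by
  have a1 := ig_msh_le δ p h0
  have a2 := ig_msh_pos δ p
  have a3 : msh δ p * msh δ p ≤ δ ^ p * δ ^ p := mul_le_mul a1 a1 a2.le (a2.le.trans a1)
  have a4 : δ ^ p * δ ^ p = δ ^ (2 * p) := by rw [← Real.rpow_add h0]; ring_nf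
  have a5 : δ ^ (2 * p) ≤ δ ^ z := Real.rpow_le_rpow_of_exponent_ge h0 h1.le hz
  have a6 := ig_le_msh δ z h0 h1 hz0
  linarith

/-- the same representative in the same cell -/
theorem it_wd_g_trep_eq {δ p x y : ℝ} (h : tcell δ p x = tcell δ p y) : trep δ p x = trep δ p y := by
  rw [ig_trep_eq, ig_trep_eq, h]

theorem it_wd_g_C {b c : ℝ} (hb : 1 ≤ b) (hc0 : 0 ≤ c) (hc : c ≤ 10 * (b + 1) ^ 2) : Real.log (c + 2) ≤ Real.log (itwC b) := by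
  refine Real.log_le_log (by linarith) ?_
  unfold itwC
  nlinarith [sq_nonneg (b + 1), pow_pos (by linarith : (0 : ℝ) < b + 1) 2, pow_pos (by linarith : (0 : ℝ) < b + 1) 3]

/-- scalar part of W-G4: the three recentred coordinates -/
theorem it_wd_g4_sc {X X' B B' P P' Y Y' N N' D D' θ r x0 c0 mp mz b : ℝ} (hb : 1 ≤ b) (hmp : 0 ≤ mp) (hmz : 0 ≤ mz) (hsq : mp * mp ≤ 2 * mz)
    (hθ : |θ| ≤ b) (hr : |r| ≤ b) (hX' : |X'| ≤ b) (hx0 : |x0| ≤ b + 1) (hc0 : |c0| ≤ b + 1)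
    (hA : |X - X'| ≤ mp) (hx : |X - x0| ≤ mp) (hx' : |X' - x0| ≤ mp) (hP : |P - c0| ≤ mp)
    (e1 : |(B + θ * X) - (B' + θ * X')| ≤ mz) (e3 : |(Y + θ * X ^ 2) - (Y' + θ * X' ^ 2)| ≤ mz) (e4 : |(D + θ * N) - (D' + θ * N')| ≤ mz)
    (e2 : |(P - 2 * r * X) - (P' - 2 * r * X')| ≤ mz) (e5 : |(N - P * X + r * X ^ 2) - (N' - P' * X' + r * X' ^ 2)| ≤ mz) :
    |(Y - 2 * x0 * B) - (Y' - 2 * x0 * B')| ≤ 3 * (b + 1) ^ 2 * mz ∧ |(N - c0 * X) - (N' - c0 * X')| ≤ 3 * (b + 1) ^ 2 * mz ∧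
      |(D - c0 * B) - (D' - c0 * B')| ≤ 3 * (b + 1) ^ 2 * mz := by
  have hb0 : 0 ≤ b := by linarith
  have hAA : |X - X'| * |X - X'| ≤ 2 * mz := (mul_le_mul hA hA (abs_nonneg _) hmp).trans hsq
  -- the second coordinate
  have hN : |(N - c0 * X) - (N' - c0 * X')| ≤ (3 + 3 * b) * mz := by
    have id : (N - c0 * X) - (N' - c0 * X') = ((N - P * X + r * X ^ 2) - (N' - P' * X' + r * X' ^ 2)) + ((P - 2 * r * X) - (P' - 2 * r * X')) * X'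
        + (P - c0) * (X - X') - r * ((X - X') * (X - X')) := by ring
    have t1 : |((P - 2 * r * X) - (P' - 2 * r * X')) * X'| ≤ mz * b := by
      rw [abs_mul]
      exact mul_le_mul e2 hX' (abs_nonneg _) hmz
    have t2 : |(P - c0) * (X - X')| ≤ 2 * mz := by
      rw [abs_mul]
      exact (mul_le_mul hP hA (abs_nonneg _) hmp).trans hsq
    have t3 : |r * ((X - X') * (X - X'))| ≤ b * (2 * mz) := by
      rw [abs_mul, abs_mul]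
      exact mul_le_mul hr hAA (mul_nonneg (abs_nonneg _) (abs_nonneg _)) hb0
    rw [id]
    rw [abs_le] at e5 t1 t2 t3 ⊢
    constructor <;> linarith [e5.1, e5.2, t1.1, t1.2, t2.1, t2.2, t3.1, t3.2]
  have hsq1 : 0 ≤ b * mz := mul_nonneg hb0 hmz
  have hsq2 : 0 ≤ b * b * mz := mul_nonneg (mul_nonneg hb0 hb0) hmz
  have ex : 3 * (b + 1) ^ 2 * mz = 3 * (b * b * mz) + 6 * (b * mz) + 3 * mz := by ring
  have ex1 : (b + 1) * mz = b * mz + mz := by ring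
  have ex2 : b * ((3 + 3 * b) * mz) = 3 * (b * mz) + 3 * (b * b * mz) := by ring
  have ex3 : (3 + 3 * b) * mz = 3 * mz + 3 * (b * mz) := by ring
  have ex4 : b * (4 * mz) = 4 * (b * mz) := by ring
  rw [ex]
  refine ⟨?_, hN.trans (by linarith), ?_⟩
  · have id : (Y - 2 * x0 * B) - (Y' - 2 * x0 * B') = -(θ * ((X - X') * ((X - x0) + (X' - x0)))) + ((Y + θ * X ^ 2) - (Y' + θ * X' ^ 2))
        - 2 * (x0 * ((B + θ * X) - (B' + θ * X'))) := by ring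
    have t1 : |θ * ((X - X') * ((X - x0) + (X' - x0)))| ≤ b * (4 * mz) := by
      rw [abs_mul, abs_mul]
      have s1 : |(X - x0) + (X' - x0)| ≤ 2 * mp := (abs_add_le _ _).trans (by linarith)
      have s2 : |X - X'| * |(X - x0) + (X' - x0)| ≤ mp * (2 * mp) := mul_le_mul hA s1 (abs_nonneg _) hmp
      exact mul_le_mul hθ (by nlinarith) (mul_nonneg (abs_nonneg _) (abs_nonneg _)) hb0
    have t2 : |x0 * ((B + θ * X) - (B' + θ * X'))| ≤ (b + 1) * mz := by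
      rw [abs_mul]
      exact mul_le_mul hx0 e1 (abs_nonneg _) (by linarith)
    rw [id]
    rw [ex4] at t1
    rw [ex1] at t2
    rw [abs_le] at e3 t1 t2 ⊢
    constructor <;> linarith [e3.1, e3.2, t1.1, t1.2, t2.1, t2.2]
  · have id : (D - c0 * B) - (D' - c0 * B') = ((D + θ * N) - (D' + θ * N')) - c0 * ((B + θ * X) - (B' + θ * X'))
        - θ * ((N - c0 * X) - (N' - c0 * X')) := by ring
    have t1 : |c0 * ((B + θ * X) - (B' + θ * X'))| ≤ (b + 1) * mz := by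
      rw [abs_mul]
      exact mul_le_mul hc0 e1 (abs_nonneg _) (by linarith)
    have t2 : |θ * ((N - c0 * X) - (N' - c0 * X'))| ≤ b * ((3 + 3 * b) * mz) := by
      rw [abs_mul]
      exact mul_le_mul hθ hN (abs_nonneg _) hb0
    rw [id]
    rw [ex1] at t1
    rw [ex2] at t2
    rw [abs_le] at e4 t1 t2 ⊢
    constructor <;> linarith [e4.1, e4.2, t1.1, t1.2, t2.1, t2.2]

/-- what the conditioning `(X_p, Q_i, 𝒟)` fixes -/
theorem it_wd_g4_facts (h : T.WH a pk τ κ0 acc) (i : ℕ) (hi : i < 2) (p : ℝ) {ω ω' : T.Ω} (hc : T.wG pk i p ω = T.wG pk i p ω') :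
    T.mrk 0 ω' = T.mrk 0 ω ∧ T.mrk 1 ω' = T.mrk 1 ω ∧ tcell T.δ p (T.F ω).X = tcell T.δ p (T.F ω').X ∧
      |((T.F ω).B + (T.mrk i ω).th * (T.F ω).X) - ((T.F ω').B + (T.mrk i ω).th * (T.F ω').X)| ≤ msh T.δ pk.RQ ∧
      |((T.F ω).Y + (T.mrk i ω).th * (T.F ω).X ^ 2) - ((T.F ω').Y + (T.mrk i ω).th * (T.F ω').X ^ 2)| ≤ msh T.δ pk.RQ ∧
      |((T.F ω).D + (T.mrk i ω).th * (T.F ω).N) - ((T.F ω').D + (T.mrk i ω).th * (T.F ω').N)| ≤ msh T.δ pk.RQ ∧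
      |((T.F ω).P - 2 * (T.mrk i ω).r * (T.F ω).X) - ((T.F ω').P - 2 * (T.mrk i ω).r * (T.F ω').X)| ≤ msh T.δ pk.RQ ∧
      |((T.F ω).N - (T.F ω).P * (T.F ω).X + (T.mrk i ω).r * (T.F ω).X ^ 2) - ((T.F ω').N - (T.F ω').P * (T.F ω').X + (T.mrk i ω).r * (T.F ω').X ^ 2)|
        ≤ msh T.δ pk.RQ := by
  have hM := h.ok.1
  simp only [Tan.wG, FLaw.pair, Prod.mk.injEq, Tan.Dd, Tan.Xn] at hc
  obtain ⟨hX, hQ, -, hXi⟩ := hc
  have hm : ∀ j, j < pk.M → T.mrk j ω' = T.mrk j ω := fun j hj => (congrFun hXi ⟨j, hj⟩).symm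
  have hmi := hm i (by omega)
  simp only [Tan.Qn, itQ, h.quad, if_true, Prod.mk.injEq] at hQ
  rw [hmi] at hQ
  obtain ⟨⟨q1, q3, q4⟩, q2, q5⟩ := hQ
  exact ⟨hm 0 (by omega), hm 1 (by omega), hX, it_k_aux_cell_dist q1, it_k_aux_cell_dist q3, it_k_aux_cell_dist q4, it_k_aux_cell_dist q2,
    it_k_aux_cell_dist q5⟩

/-- the scalar `U` through the entries of `Q_i` -/
theorem it_wd_g4_U (f : ItPh) (μ0 μ1 μ : ItMk) (hμ : μ = μ0 ∨ μ = μ1) :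
    itwU f μ0.th μ0.r μ1 = (μ0.th - μ1.th) * (f.P - 2 * μ.r * f.X) - 2 * (μ1.r - μ0.r) * (f.B + μ.th * f.X) := by
  unfold itwU
  rcases hμ with rfl | rfl <;> ring

/-- LEAF W-G4 (fibre prediction; 05 l.963-971).  `(X_p, Q_i, 𝒟)` lists `U_{p'}` and `F_{p,z}`, `i = 0, 1`.   Two support points with the same conditioning, `μ = mrk i` common, `A = X - X'`, `|A| ≤ m_p`, `R = pk.RQ ≥ z`;
errors of the five entries of `Q_i` : `e1 = Δ(B + θX)`, `e3 = Δ(Y + θX²)`, `e4 = Δ(D + θN)`, `e2 = Δ(P - 2rX)`, `e5 = Δ(N - PX + rX²)`, all `≤ m_R ≤ m_z`.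
 `U = (θ_0 - θ_1)(P - 2 r_i X) - 2 (r_1 - r_0)(B + θ_i X)` for BOTH `i` (ring), so `|ΔU| ≤ 6 b m_R`.
 `ΔB = -θ A + e1`, `ΔP = 2 r A + e2`  (2 lists of size `≤ 2b + 3`).   Then, the cells `(X, B, P)_p` being fixed, `x0 = [X]_p`, `c0 = [P]_p` common:
 `Δ(Y - 2 x0 B) = -θ A (X + X' - 2 x0) + e3 - 2 x0 e1`;   `Δ(N - c0 X) = e5 + e2 X' + (P - c0) A - r A²`;   `Δ(D - c0 B) = e4 - c0 e1 - θ Δ(N - c0 X)`;   all `≤ 9 b² m_z` (`m_p² ≤ 2 m_z`). -/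
theorem it_wd_fib (h : T.WH a pk τ κ0 acc) (i : ℕ) (hi : i < 2) (p p' z : ℝ) (hp : 0 ≤ p) (hpz : p ≤ z) (hz : z ≤ 2 * p)
    (hp' : p' ≤ z) (hzK : z ≤ pk.K) :
    T.P.entC (pair (T.wcl p' T.wU) (T.Hn p z)) (T.wG pk i p) ≤ 6 * Real.log (itwC a.B0) := by
  have h0 := h.adm.t0.δ0
  have h1 := h.adm.t0.δ1
  have hb : 1 ≤ a.B0 := h.ha.2.2.2.2.2.2.2.2
  have hb0 : 0 ≤ a.B0 := by linarith
  have hKR : pk.K < pk.RQ := h.ok.2.2.1
  have hRz : msh T.δ pk.RQ ≤ msh T.δ z := ig_msh_anti T.δ z pk.RQ h0 h1 (by linarith)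
  have hRp' : msh T.δ pk.RQ ≤ msh T.δ p' := ig_msh_anti T.δ p' pk.RQ h0 h1 (by linarith)
  have hRp : msh T.δ pk.RQ ≤ msh T.δ p := ig_msh_anti T.δ p pk.RQ h0 h1 (by linarith)
  have hmp := ig_msh_pos T.δ p
  have hmz := ig_msh_pos T.δ z
  have hmp' := ig_msh_pos T.δ p'
  have hmR := ig_msh_pos T.δ pk.RQ
  have hsq := it_wd_g_sq h0 h1 (hp.trans hpz) hz
  have hmi : ∀ ω, T.mrk i ω = T.mrk 0 ω ∨ T.mrk i ω = T.mrk 1 ω := by
    intro ω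
    rcases (by omega : i = 0 ∨ i = 1) with rfl | rfl
    · exact Or.inl rfl
    · exact Or.inr rfl
  have hbi : ∀ ω, T.P.p ω ≠ 0 → |(T.mrk i ω).th| ≤ a.B0 ∧ |(T.mrk i ω).r| ≤ a.B0 := by
    intro ω hω
    have := h.adm.t0.bdM ω hω i (by have := h.ok.1; omega)
    exact ⟨this.1, this.2.1⟩
  have s0 := ent_entC_pair_le_add T.P (T.wcl p' T.wU) (T.Hn p z) (T.wG pk i p)
  -- `U`
  have sU : T.P.entC (T.wcl p' T.wU) (T.wG pk i p) ≤ Real.log (6 * a.B0 + 2) := by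
    refine it_wd_ent_cell T.P (T.wG pk i p) T.wU T.δ p' (6 * a.B0) (by linarith) fun ω ω' g g' hc => ?_
    obtain ⟨k0, k1, -, q1, -, -, q2, -⟩ := it_wd_g4_facts h i hi p hc
    obtain ⟨-, b1, b2, b3, b4⟩ := it_wd_g_bd h g
    have id : T.wU ω - T.wU ω' = ((T.mrk 0 ω).th - (T.mrk 1 ω).th) * (((T.F ω).P - 2 * (T.mrk i ω).r * (T.F ω).X) - ((T.F ω').P - 2 * (T.mrk i ω).r * (T.F ω').X))
        - 2 * (((T.mrk 1 ω).r - (T.mrk 0 ω).r) * (((T.F ω).B + (T.mrk i ω).th * (T.F ω).X) - ((T.F ω').B + (T.mrk i ω).th * (T.F ω').X))) := by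
      unfold Tan.wU
      rw [k0, k1, it_wd_g4_U (T.F ω) _ _ _ (hmi ω), it_wd_g4_U (T.F ω') _ _ _ (hmi ω)]
      ring
    have t1 := it_k_aux_term (a := (T.mrk 0 ω).th - (T.mrk 1 ω).th) (A := 2 * a.B0) ((abs_sub _ _).trans (by linarith)) (by linarith) q2
    have t2 := it_k_aux_term (a := (T.mrk 1 ω).r - (T.mrk 0 ω).r) (A := 2 * a.B0) ((abs_sub _ _).trans (by linarith)) (by linarith) q1
    rw [id]
    have hh : 6 * a.B0 * msh T.δ pk.RQ ≤ 6 * a.B0 * msh T.δ p' := mul_le_mul_of_nonneg_left hRp' (by linarith)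
    rw [abs_le] at t1 t2 ⊢
    constructor <;> linarith [t1.1, t1.2, t2.1, t2.2]
  -- the horizontal cells
  have sX : T.P.entC (fun ω => tcell T.δ p (T.F ω).X) (T.wG pk i p) = 0 :=
    ent_entC_eq_zero T.P _ _ fun ω ω' _ _ hc => (it_wd_g4_facts h i hi p hc).2.2.1
  have sB : T.P.entC (fun ω => tcell T.δ p (T.F ω).B) (T.wG pk i p) ≤ Real.log ((a.B0 + 1) + 2) := by
    refine it_wd_ent_cell T.P (T.wG pk i p) (fun ω => (T.F ω).B) T.δ p (a.B0 + 1) (by linarith) fun ω ω' g g' hc => ?_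
    obtain ⟨-, -, kX, q1, -, -, -, -⟩ := it_wd_g4_facts h i hi p hc
    have hA := it_k_aux_cell_dist kX
    have t1 := it_k_aux_term (hbi ω g).1 hb0 hA
    have id : (T.F ω).B - (T.F ω').B = (((T.F ω).B + (T.mrk i ω).th * (T.F ω).X) - ((T.F ω').B + (T.mrk i ω).th * (T.F ω').X))
        - (T.mrk i ω).th * ((T.F ω).X - (T.F ω').X) := by ring
    show |(T.F ω).B - (T.F ω').B| ≤ _
    rw [id]
    rw [abs_le] at t1 q1 ⊢
    constructor <;> linarith [t1.1, t1.2, q1.1, q1.2]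
  have sP : T.P.entC (fun ω => tcell T.δ p (T.F ω).P) (T.wG pk i p) ≤ Real.log ((2 * a.B0 + 1) + 2) := by
    refine it_wd_ent_cell T.P (T.wG pk i p) (fun ω => (T.F ω).P) T.δ p (2 * a.B0 + 1) (by linarith) fun ω ω' g g' hc => ?_
    obtain ⟨-, -, kX, -, -, -, q2, -⟩ := it_wd_g4_facts h i hi p hc
    have hA := it_k_aux_cell_dist kX
    have t1 := it_k_aux_term (hbi ω g).2 hb0 hA
    have id : (T.F ω).P - (T.F ω').P = (((T.F ω).P - 2 * (T.mrk i ω).r * (T.F ω).X) - ((T.F ω').P - 2 * (T.mrk i ω).r * (T.F ω').X))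
        + 2 * ((T.mrk i ω).r * ((T.F ω).X - (T.F ω').X)) := by ring
    show |(T.F ω).P - (T.F ω').P| ≤ _
    rw [id]
    rw [abs_le] at t1 q2 ⊢
    constructor <;> linarith [t1.1, t1.2, q2.1, q2.2]
  -- the recentred coordinates
  have sH := it_wd_g_hn T (T.wG pk i p) p z (3 * (a.B0 + 1) ^ 2) (by positivity) (fun ω ω' g g' hc kX kB kP => by
    obtain ⟨-, -, -, q1, q3, q4, q2, q5⟩ := it_wd_g4_facts h i hi p hc
    obtain ⟨⟨bX, -, bP, -, -, -⟩, -⟩ := it_wd_g_bd h g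
    obtain ⟨⟨bX', -, -, -, -, -⟩, -⟩ := it_wd_g_bd h g'
    rw [← it_wd_g_trep_eq kX, ← it_wd_g_trep_eq kP]
    have hx' : |(T.F ω').X - trep T.δ p (T.F ω).X| ≤ msh T.δ p := by
      rw [it_wd_g_trep_eq kX]
      exact it_k_aux_rep_dist _ _ _
    exact it_wd_g4_sc hb hmp.le hmz.le hsq (hbi ω g).1 (hbi ω g).2 bX' (it_wd_g_trep h0 h1 hp bX) (it_wd_g_trep h0 h1 hp bP)
      (it_k_aux_cell_dist kX) (it_k_aux_rep_dist _ _ _) hx' (it_k_aux_rep_dist _ _ _) (q1.trans hRz) (q3.trans hRz) (q4.trans hRz) (q2.trans hRz)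
      (q5.trans hRz))
  have l1 := it_wd_g_C (c := 6 * a.B0) hb (by linarith) (by nlinarith)
  have l2 := it_wd_g_C (c := a.B0 + 1) hb (by linarith) (by nlinarith)
  have l3 := it_wd_g_C (c := 2 * a.B0 + 1) hb (by linarith) (by nlinarith)
  have l4 := it_wd_g_C (c := 3 * (a.B0 + 1) ^ 2) hb (by positivity) (by nlinarith [sq_nonneg (a.B0 + 1)])
  linarith

/-- LEAF W-G5.  `W_{0,p'}` is a function of `Q_0` (first entry of `itQ`, nested cells). -/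
theorem it_wd_fibW (h : T.WH a pk τ κ0 acc) (p p' : ℝ) (hp' : p' ≤ pk.RQ) :
    T.P.entC (T.wcl p' T.wW) (T.wG pk 0 p) = 0 := by
  refine ent_entC_eq_zero T.P _ _ fun ω ω' _ _ hA => ?_
  simp only [Tan.wG, FLaw.pair, Tan.Qn, itQ, Prod.mk.injEq] at hA
  exact it_k_aux_cell_nest h.adm.t0.δ0 h.adm.t0.δ1 hp' hA.2.1.1.1

theorem it_wd_g6_nval_mono {Ω : Type} [Fintype Ω] {α β : Type} {P : FLaw Ω} {E : Ω → Prop} {B : Ω → β} {A : Ω → α} {N N' : ℝ}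
    (h : P.NVal E B A N) (hN : N ≤ N') : P.NVal E B A N' := fun ω₀ => by
  obtain ⟨S, hS, hm⟩ := h ω₀
  exact ⟨S, hS.trans hN, hm⟩

theorem it_wd_g6_msh_pow (δ q : ℝ) : msh δ q * 2 ^ (tlev δ q) = 1 := by
  unfold msh
  field_simp

/-- LEAF W-G6 (inversion of the second mode).  Given `(Q_1, 𝒟)` : `(θ_0 - θ_1)(X - X') = (W_0 - W_0') - Δ(B + θ_1 X)`, so `|X - X'| ≤ 2 m_{p'} / |θ_0 - θ_1|`.
Good event `|θ_0 - θ_1| ≥ m_χ` : list `≤ 2 / m_χ + 2 ≤ 6 δ^{-χ}`.   Always (same `X_p`) : list `≤ m_p / m_{p'} + 2 ≤ 4 δ^{-(p'-p)}`.   `it_wd_ent_bad` with `ltk_nval_close`;  `log (δ^{-χ}) = χ L` (`Tan.L`, `lg`). -/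
theorem it_wd_inv (h : T.WH a pk τ κ0 acc) (p p' χ : ℝ) (hp : 0 ≤ p) (hpp : p ≤ p') (hp' : p' ≤ pk.K) (hχ : 0 ≤ χ) :
    T.P.entC (T.Xn p') (pair (T.wcl p' T.wW) (T.wG pk 1 p))
      ≤ χ * T.L + Real.log 10 + T.P.pr (fun ω => |(T.mrk 0 ω).th - (T.mrk 1 ω).th| < msh T.δ χ) * ((p' - p) * T.L + Real.log 4)
        + Real.log 2 := by
  have h0 := h.adm.t0.δ0
  have h1 := h.adm.t0.δ1
  have hKR : pk.K < pk.RQ := h.ok.2.2.1
  have hRp' : msh T.δ pk.RQ ≤ msh T.δ p' := ig_msh_anti T.δ p' pk.RQ h0 h1 (by linarith)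
  have hmp' := ig_msh_pos T.δ p'
  have hmp := ig_msh_pos T.δ p
  have hmχ := ig_msh_pos T.δ χ
  have hχ1 : 1 ≤ T.δ ^ (-χ) := Real.one_le_rpow_of_pos_of_le_one_of_nonpos h0 h1.le (by linarith)
  have hg1 : 1 ≤ T.δ ^ (-(p' - p)) := Real.one_le_rpow_of_pos_of_le_one_of_nonpos h0 h1.le (by linarith)
  have hgood : T.P.NVal (fun ω => ¬ |(T.mrk 0 ω).th - (T.mrk 1 ω).th| < msh T.δ χ) (T.Xn p') (pair (T.wcl p' T.wW) (T.wG pk 1 p)) (10 * T.δ ^ (-χ)) := by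
    have hnv := ltk_nval_close T.P (fun ω => ¬ |(T.mrk 0 ω).th - (T.mrk 1 ω).th| < msh T.δ χ) (pair (T.wcl p' T.wW) (T.wG pk 1 p))
      (fun ω => (T.F ω).X) (tlev T.δ p') (R := 2 * msh T.δ p' / msh T.δ χ) (by positivity) (fun ω ω' g g' hG _ hc => by
        simp only [FLaw.pair, Prod.mk.injEq, Tan.wcl] at hc
        obtain ⟨hW, hc⟩ := hc
        obtain ⟨k0, -, -, q1, -⟩ := it_wd_g4_facts h 1 (by norm_num) p hc
        have dW := it_k_aux_cell_dist hW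
        unfold Tan.wW at dW
        rw [k0] at dW
        have hsep := not_lt.1 hG
        have id : ((T.mrk 0 ω).th - (T.mrk 1 ω).th) * ((T.F ω).X - (T.F ω').X)
            = (((T.F ω).B + (T.mrk 0 ω).th * (T.F ω).X) - ((T.F ω').B + (T.mrk 0 ω).th * (T.F ω').X))
              - (((T.F ω).B + (T.mrk 1 ω).th * (T.F ω).X) - ((T.F ω').B + (T.mrk 1 ω).th * (T.F ω').X)) := by ring
        have hprod : |(T.mrk 0 ω).th - (T.mrk 1 ω).th| * |(T.F ω).X - (T.F ω').X| ≤ 2 * msh T.δ p' := by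
          rw [← abs_mul, id]
          refine (abs_sub _ _).trans ?_
          linarith
        rw [le_div_iff₀ hmχ]
        calc |(T.F ω).X - (T.F ω').X| * msh T.δ χ ≤ |(T.F ω).X - (T.F ω').X| * |(T.mrk 0 ω).th - (T.mrk 1 ω).th| :=
              mul_le_mul_of_nonneg_left hsep (abs_nonneg _)
          _ ≤ 2 * msh T.δ p' := by rw [mul_comm]; exact hprod)
    refine it_wd_g6_nval_mono hnv ?_
    have e1 : 2 * msh T.δ p' / msh T.δ χ * 2 ^ (tlev T.δ p') = 2 * 2 ^ (tlev T.δ χ) := by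
      have a1 := it_wd_g6_msh_pow T.δ p'
      have a2 := it_wd_g6_msh_pow T.δ χ
      rw [div_mul_eq_mul_div, div_eq_iff hmχ.ne']
      calc 2 * msh T.δ p' * 2 ^ (tlev T.δ p') = 2 * (msh T.δ p' * 2 ^ (tlev T.δ p')) := by ring
        _ = 2 * (msh T.δ χ * 2 ^ (tlev T.δ χ)) := by rw [a1, a2]
        _ = 2 * 2 ^ (tlev T.δ χ) * msh T.δ χ := by ring
    rw [e1]
    have := ig_pow_lev_le T.δ χ h0 h1 hχ
    linarith
  have hall : T.P.NVal (fun _ => True) (T.Xn p') (pair (T.wcl p' T.wW) (T.wG pk 1 p)) (4 * T.δ ^ (-(p' - p))) := by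
    have hnv := ltk_nval_close T.P (fun _ => True) (pair (T.wcl p' T.wW) (T.wG pk 1 p))
      (fun ω => (T.F ω).X) (tlev T.δ p') (R := msh T.δ p) hmp.le (fun ω ω' g g' _ _ hc => by
        simp only [FLaw.pair, Prod.mk.injEq] at hc
        exact it_k_aux_cell_dist (it_wd_g4_facts h 1 (by norm_num) p hc.2).2.2.1)
    refine it_wd_g6_nval_mono hnv ?_
    have e1 : msh T.δ p * 2 ^ (tlev T.δ p') = 2 ^ (tlev T.δ p' - tlev T.δ p) := by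
      rw [ig_msh_ratio T.δ p p' h0 h1 hpp, mul_assoc, it_wd_g6_msh_pow, mul_one]
    rw [e1]
    have := ig_ratio_le T.δ p (p' - p) h0 h1 (by linarith)
    rw [show p + (p' - p) = p' by ring] at this
    linarith
  have main := it_wd_ent_bad T.P (T.Xn p') (pair (T.wcl p' T.wW) (T.wG pk 1 p)) (fun ω => |(T.mrk 0 ω).th - (T.mrk 1 ω).th| < msh T.δ χ)
    (by linarith) (by linarith) hgood hall
  rw [it_k_aux_log_cap h0 χ 10 (by norm_num), it_k_aux_log_cap h0 (p' - p) 4 (by norm_num)] at main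
  exact main

/-- LEAF W-G7 (freezing; 05 l.1040-1052).  Same marks, same `(X, B, P)_p` :
`U0 - U = (θ_{0,u} - θ_0) P + 2 (r_{0,u} - r_0) B - 2 ((θ_{0,u} - θ_0) r_1 - θ_1 (r_{0,u} - r_0)) X`, whose variation is `≤ (3 + 4b) m_u m_p ≤ 2 (3 + 4b) m_{p'}` (`m_u m_p ≤ δ^{u+p} ≤ δ^{p'}`). -/
theorem it_wd_frz (h : T.WH a pk τ κ0 acc) (p p' z u : ℝ) (hp : 0 ≤ p) (hu : 0 ≤ u) (hp0 : 0 ≤ p') (hpu : p' ≤ p + u) :
    T.P.entC (T.wcl p' (T.wU0 u)) (pair (T.wcl p' T.wU) (pair (T.Hn p z) (T.Dd pk.M))) ≤ Real.log (itwC a.B0) := by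
  have h0 := h.adm.t0.δ0
  have h1 := h.adm.t0.δ1
  have hb := it_wd_aux_g2_b h
  have hC := it_wd_aux_g2_C hb
  have hb2 : 0 ≤ a.B0 ^ 2 := by positivity
  have hM0 : 0 < pk.M := lt_of_lt_of_le (by norm_num) h.ok.1
  have hM1 : 1 < pk.M := lt_of_lt_of_le (by norm_num) h.ok.1
  refine le_trans ?_ (it_wd_aux_g2_log (b := a.B0) (c := 7 + 8 * a.B0) (by positivity) (by linarith))
  refine it_wd_ent_cell T.P _ (T.wU0 u) T.δ p' (7 + 8 * a.B0) (by positivity) fun ω ω' hω _ hA => ?_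
  simp only [FLaw.pair, Tan.Hn, itHs, Tan.wcl, Prod.mk.injEq] at hA
  obtain ⟨hU, ⟨⟨a1, a2, a3⟩, -⟩, hD⟩ := hA
  have k0 := it_wd_aux_g2_marks hD hM0
  have k1 := it_wd_aux_g2_marks hD hM1
  have dU := it_k_aux_cell_dist hU
  have mm : msh T.δ u * msh T.δ p ≤ 2 * msh T.δ p' := it_wd_aux_g1_msh_mul h0 h1 hp0 (by linarith)
  have hmu := (ig_msh_pos T.δ u).le
  obtain ⟨t1, r1⟩ := it_wd_aux_g2_mk h hω (i := 1) (by norm_num)
  have c1 := it_wd_aux_g1_trep_close T.δ u (T.mrk 0 ω).th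
  have c2 := it_wd_aux_g1_trep_close T.δ u (T.mrk 0 ω).r
  unfold Tan.wU at dU
  unfold Tan.wU0
  rw [← k0, ← k1] at dU ⊢
  generalize (T.mrk 0 ω).th = θ0 at *
  generalize (T.mrk 0 ω).r = r0 at *
  generalize T.mrk 1 ω = μ1 at *
  have e : itwU (T.F ω) (trep T.δ u θ0) (trep T.δ u r0) μ1 - itwU (T.F ω') (trep T.δ u θ0) (trep T.δ u r0) μ1
      = (itwU (T.F ω) θ0 r0 μ1 - itwU (T.F ω') θ0 r0 μ1)
        + ((trep T.δ u θ0 - θ0) * ((T.F ω).P - (T.F ω').P) + (2 * (trep T.δ u r0 - r0)) * ((T.F ω).B - (T.F ω').B)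
          + (-2 * ((trep T.δ u θ0 - θ0) * μ1.r - μ1.th * (trep T.δ u r0 - r0))) * ((T.F ω).X - (T.F ω').X)) := by
    unfold itwU
    ring
  have q2 : |2 * (trep T.δ u r0 - r0)| ≤ 2 * msh T.δ u := by
    rw [abs_mul, abs_two]
    linarith
  have q3 : |-2 * ((trep T.δ u θ0 - θ0) * μ1.r - μ1.th * (trep T.δ u r0 - r0))| ≤ 4 * a.B0 * msh T.δ u := by
    rw [abs_mul]
    have b1 := it_wd_aux_g1_mul c1 r1
    have b2 := it_wd_aux_g1_mul t1 c2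
    have : |(trep T.δ u θ0 - θ0) * μ1.r - μ1.th * (trep T.δ u r0 - r0)| ≤ 2 * a.B0 * msh T.δ u := (abs_sub _ _).trans (by linarith)
    have h2 : |(-2 : ℝ)| = 2 := by norm_num
    rw [h2]
    linarith
  have q := it_wd_aux_g3_lin3 c1 q2 q3 (it_k_aux_cell_dist a3) (it_k_aux_cell_dist a2) (it_k_aux_cell_dist a1)
  rw [e]
  refine (abs_add_le _ _).trans ?_
  have : (msh T.δ u + 2 * msh T.δ u + 4 * a.B0 * msh T.δ u) * msh T.δ p = (3 + 4 * a.B0) * (msh T.δ u * msh T.δ p) := by ring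
  rw [this] at q
  have : (3 + 4 * a.B0) * (msh T.δ u * msh T.δ p) ≤ (3 + 4 * a.B0) * (2 * msh T.δ p') :=
    mul_le_mul_of_nonneg_left mm (by positivity)
  linarith

/-- `|(y - c x) - (y' - c x')| ≤ (1 + C) m` -/
theorem it_wd_g8_lin {y y' x x' c C m : ℝ} (hy : |y - y'| ≤ m) (hx : |x - x'| ≤ m) (hc : |c| ≤ C) (hC : 0 ≤ C) :
    |(y - c * x) - (y' - c * x')| ≤ (1 + C) * m := by
  have t := it_k_aux_term hc hC hx
  have id : (y - c * x) - (y' - c * x') = (y - y') - c * (x - x') := by ring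
  rw [id]
  rw [abs_le] at hy t ⊢
  constructor <;> linarith [hy.1, hy.2, t.1, t.2]

/-- LEAF W-G8.  `(F_K, 𝒟⁻)` lists `U0_{p'}` and `F_{p,z}` : the coefficients of `U0` are functions of `𝒟⁻` (`trep` of the cells `ξ_{0,u}`; the record `1` is in `XiE M 0`), bounded by `4 (b+1)²`;
the horizontal cells are nested; the recentred coordinates vary by `≤ (2b + 3) m_K`. -/
theorem it_wd_fine (h : T.WH a pk τ κ0 acc) (p p' z u : ℝ) (hp : 0 ≤ p) (hpz : p ≤ z) (hp' : p' ≤ pk.K) (hzK : z ≤ pk.K) (hu : 0 ≤ u) :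
    T.P.entC (pair (T.wcl p' (T.wU0 u)) (T.Hn p z)) (pair (T.Fn pk.K) (T.wDm pk.M u)) ≤ 4 * Real.log (itwC a.B0) := by
  have h0 := h.adm.t0.δ0
  have h1 := h.adm.t0.δ1
  have hb : 1 ≤ a.B0 := h.ha.2.2.2.2.2.2.2.2
  have hb0 : 0 ≤ a.B0 := by linarith
  have hM := h.ok.1
  have hKz : msh T.δ pk.K ≤ msh T.δ z := ig_msh_anti T.δ z pk.K h0 h1 hzK
  have hKp' : msh T.δ pk.K ≤ msh T.δ p' := ig_msh_anti T.δ p' pk.K h0 h1 hp'
  have hmK := ig_msh_pos T.δ pk.K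
  have hfacts : ∀ ω ω', pair (T.Fn pk.K) (T.wDm pk.M u) ω = pair (T.Fn pk.K) (T.wDm pk.M u) ω' →
      (tcell T.δ pk.K (T.F ω).X = tcell T.δ pk.K (T.F ω').X ∧ tcell T.δ pk.K (T.F ω).B = tcell T.δ pk.K (T.F ω').B ∧
        tcell T.δ pk.K (T.F ω).P = tcell T.δ pk.K (T.F ω').P ∧ tcell T.δ pk.K (T.F ω).Y = tcell T.δ pk.K (T.F ω').Y ∧
        tcell T.δ pk.K (T.F ω).N = tcell T.δ pk.K (T.F ω').N ∧ tcell T.δ pk.K (T.F ω).D = tcell T.δ pk.K (T.F ω').D) ∧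
      tcell T.δ u (T.mrk 0 ω).th = tcell T.δ u (T.mrk 0 ω').th ∧ tcell T.δ u (T.mrk 0 ω).r = tcell T.δ u (T.mrk 0 ω').r ∧ T.mrk 1 ω = T.mrk 1 ω' := by
    intro ω ω' hc
    simp only [FLaw.pair, Tan.Fn, itF, Tan.wDm, Tan.wg, Tan.xin, itXi, Prod.mk.injEq] at hc
    obtain ⟨⟨⟨a1, a2, a3⟩, a4, a5, a6⟩, -, ⟨x1, x2⟩, hE⟩ := hc
    refine ⟨⟨a1, a2, a3, a4, a5, a6⟩, x1, x2, ?_⟩
    have := congrFun hE ⟨1, by omega⟩
    simpa [Tan.XiE] using this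
  have s0 := ent_entC_pair_le_add T.P (T.wcl p' (T.wU0 u)) (T.Hn p z) (pair (T.Fn pk.K) (T.wDm pk.M u))
  have sU : T.P.entC (T.wcl p' (T.wU0 u)) (pair (T.Fn pk.K) (T.wDm pk.M u)) ≤ Real.log ((6 * (a.B0 + 1) + 4 * (a.B0 + 1) ^ 2) + 2) := by
    refine it_wd_ent_cell T.P _ (T.wU0 u) T.δ p' (6 * (a.B0 + 1) + 4 * (a.B0 + 1) ^ 2) (by positivity) fun ω ω' g g' hc => ?_
    obtain ⟨⟨a1, a2, a3, -, -, -⟩, x1, x2, k1⟩ := hfacts ω ω' hc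
    obtain ⟨-, b1, b2, b3, b4⟩ := it_wd_g_bd h g
    unfold Tan.wU0
    rw [← k1, ← it_wd_g_trep_eq x1, ← it_wd_g_trep_eq x2]
    have := it_wd_aux_g3_U (c := a.B0 + 1) (it_wd_g_trep h0 h1 hu b1) (it_wd_g_trep h0 h1 hu b2) (b3.trans (by linarith)) (b4.trans (by linarith))
      (it_k_aux_cell_dist a1) (it_k_aux_cell_dist a2) (it_k_aux_cell_dist a3)
    exact this.trans (mul_le_mul_of_nonneg_left hKp' (by positivity))
  have sX : T.P.entC (fun ω => tcell T.δ p (T.F ω).X) (pair (T.Fn pk.K) (T.wDm pk.M u)) = 0 :=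
    ent_entC_eq_zero T.P _ _ fun ω ω' _ _ hc => it_k_aux_cell_nest h0 h1 (hpz.trans hzK) (hfacts ω ω' hc).1.1
  have sB : T.P.entC (fun ω => tcell T.δ p (T.F ω).B) (pair (T.Fn pk.K) (T.wDm pk.M u)) = 0 :=
    ent_entC_eq_zero T.P _ _ fun ω ω' _ _ hc => it_k_aux_cell_nest h0 h1 (hpz.trans hzK) (hfacts ω ω' hc).1.2.1
  have sP : T.P.entC (fun ω => tcell T.δ p (T.F ω).P) (pair (T.Fn pk.K) (T.wDm pk.M u)) = 0 :=
    ent_entC_eq_zero T.P _ _ fun ω ω' _ _ hc => it_k_aux_cell_nest h0 h1 (hpz.trans hzK) (hfacts ω ω' hc).1.2.2.1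
  have sH := it_wd_g_hn T (pair (T.Fn pk.K) (T.wDm pk.M u)) p z (1 + 2 * (a.B0 + 1)) (by positivity) (fun ω ω' g g' hc kX kB kP => by
    obtain ⟨⟨a1, a2, a3, a4, a5, a6⟩, -⟩ := hfacts ω ω' hc
    obtain ⟨⟨bX, -, bP, -, -, -⟩, -⟩ := it_wd_g_bd h g
    rw [← it_wd_g_trep_eq kX, ← it_wd_g_trep_eq kP]
    have tX := it_wd_g_trep h0 h1 hp bX
    have tP := it_wd_g_trep h0 h1 hp bP
    have t2X : |2 * trep T.δ p (T.F ω).X| ≤ 2 * (a.B0 + 1) := by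
      rw [abs_mul, abs_two]
      linarith
    have hmono : (1 + 2 * (a.B0 + 1)) * msh T.δ pk.K ≤ (1 + 2 * (a.B0 + 1)) * msh T.δ z := mul_le_mul_of_nonneg_left hKz (by positivity)
    refine ⟨?_, ?_, ?_⟩
    · exact (it_wd_g8_lin (it_k_aux_cell_dist a4) (it_k_aux_cell_dist a2) t2X (by positivity)).trans hmono
    · exact (it_wd_g8_lin (it_k_aux_cell_dist a5) (it_k_aux_cell_dist a1) (tP.trans (by linarith)) (by positivity)).trans hmono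
    · exact (it_wd_g8_lin (it_k_aux_cell_dist a6) (it_k_aux_cell_dist a2) (tP.trans (by linarith)) (by positivity)).trans hmono)
  have l1 := it_wd_g_C (c := 6 * (a.B0 + 1) + 4 * (a.B0 + 1) ^ 2) hb (by positivity) (by nlinarith)
  have l4 := it_wd_g_C (c := 1 + 2 * (a.B0 + 1)) hb (by positivity) (by nlinarith)
  linarith

/-! ## LISTS on the two-copy law -/

theorem it_wd_aux_leg_hor {X B P X' B' P' Xr Br Pr θ r θ' r' b e mu mq mK : ℝ} (hb : 0 ≤ b) (hmu : 0 ≤ mu)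
    (e1 : |(B + θ * X) - (Br + θ * Xr)| ≤ e) (e1' : |(B' + θ' * X') - (Br + θ' * Xr)| ≤ e)
    (e2 : |(P - 2 * r * X) - (Pr - 2 * r * Xr)| ≤ e) (e2' : |(P' - 2 * r' * X') - (Pr - 2 * r' * Xr)| ≤ e)
    (hθ' : |θ'| ≤ b) (hr' : |r'| ≤ b) (hθθ : |θ - θ'| ≤ mu) (hrr : |r - r'| ≤ mu)
    (hA : |X - Xr| ≤ mq) (hXX : |X - X'| ≤ mK) :
    |B - B'| ≤ mu * mq + b * mK + 2 * e ∧ |P - P'| ≤ 2 * (mu * mq) + 2 * (b * mK) + 2 * e := by
  have t1 := abs_le.1 (it_k_aux_term hθθ hmu hA)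
  have t2 := abs_le.1 (it_k_aux_term hθ' hb hXX)
  have t3 := abs_le.1 (it_k_aux_term hrr hmu hA)
  have t4 := abs_le.1 (it_k_aux_term hr' hb hXX)
  have a1 := abs_le.1 e1
  have a1' := abs_le.1 e1'
  have a2 := abs_le.1 e2
  have a2' := abs_le.1 e2'
  constructor
  · have id : B - B' = -((θ - θ') * (X - Xr)) - θ' * (X - X') + ((B + θ * X) - (Br + θ * Xr)) - ((B' + θ' * X') - (Br + θ' * Xr)) := by
      ring
    rw [id]
    exact abs_le.2 ⟨by linarith [t1.1, t1.2, t2.1, t2.2], by linarith [t1.1, t1.2, t2.1, t2.2]⟩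
  · have id : P - P' = 2 * ((r - r') * (X - Xr)) + 2 * (r' * (X - X')) + ((P - 2 * r * X) - (Pr - 2 * r * Xr))
        - ((P' - 2 * r' * X') - (Pr - 2 * r' * Xr)) := by
      ring
    rw [id]
    exact abs_le.2 ⟨by linarith [t3.1, t3.2, t4.1, t4.2], by linarith [t3.1, t3.2, t4.1, t4.2]⟩

theorem it_wd_aux_leg_Y {X B Y X' B' Y' Xr Br Yr θ θ' x0 b b1 e mu mq mp mK : ℝ} (hb : 0 ≤ b) (hb1 : 0 ≤ b1) (hmu : 0 ≤ mu)
    (hmq : 0 ≤ mq) (hmK : 0 ≤ mK)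
    (e1 : |(B + θ * X) - (Br + θ * Xr)| ≤ e) (e1' : |(B' + θ' * X') - (Br + θ' * Xr)| ≤ e)
    (e3 : |(Y + θ * X ^ 2) - (Yr + θ * Xr ^ 2)| ≤ e) (e3' : |(Y' + θ' * X' ^ 2) - (Yr + θ' * Xr ^ 2)| ≤ e)
    (hθ' : |θ'| ≤ b) (hθθ : |θ - θ'| ≤ mu) (hA : |X - Xr| ≤ mq) (hXX : |X - X'| ≤ mK)
    (hx : |X - x0| ≤ mp) (hx' : |X' - x0| ≤ mp) (hx0 : |x0| ≤ b1) :
    |(Y - 2 * x0 * B) - (Y' - 2 * x0 * B')| ≤ mu * (mq * (2 * mp + mq)) + b * (mK * (2 * mp)) + 2 * e + 4 * (b1 * e) := by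
  have g1 : |2 * (X - x0) - (X - Xr)| ≤ 2 * mp + mq := by
    have a := abs_le.1 hx
    have c := abs_le.1 hA
    exact abs_le.2 ⟨by linarith [a.1, a.2, c.1, c.2], by linarith [a.1, a.2, c.1, c.2]⟩
  have g2 : |(X - x0) + (X' - x0)| ≤ 2 * mp := by
    have a := abs_le.1 hx
    have c := abs_le.1 hx'
    exact abs_le.2 ⟨by linarith [a.1, a.2, c.1, c.2], by linarith [a.1, a.2, c.1, c.2]⟩
  have t1 := abs_le.1 (it_k_aux_term hθθ hmu (it_k_aux_term hA hmq g1))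
  have t2 := abs_le.1 (it_k_aux_term hθ' hb (it_k_aux_term hXX hmK g2))
  have t3 := abs_le.1 (it_k_aux_term hx0 hb1 e1)
  have t4 := abs_le.1 (it_k_aux_term hx0 hb1 e1')
  have a3 := abs_le.1 e3
  have a3' := abs_le.1 e3'
  have id : (Y - 2 * x0 * B) - (Y' - 2 * x0 * B')
      = -((θ - θ') * ((X - Xr) * (2 * (X - x0) - (X - Xr)))) - θ' * ((X - X') * ((X - x0) + (X' - x0)))
        + ((Y + θ * X ^ 2) - (Yr + θ * Xr ^ 2)) - ((Y' + θ' * X' ^ 2) - (Yr + θ' * Xr ^ 2))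
        - 2 * (x0 * ((B + θ * X) - (Br + θ * Xr))) + 2 * (x0 * ((B' + θ' * X') - (Br + θ' * Xr))) := by
    ring
  rw [id]
  exact abs_le.2 ⟨by linarith [t1.1, t1.2, t2.1, t2.2, t3.1, t3.2, t4.1, t4.2],
    by linarith [t1.1, t1.2, t2.1, t2.2, t3.1, t3.2, t4.1, t4.2]⟩

theorem it_wd_aux_leg_N {X P N X' P' N' Xr Pr Nr r r' c0 b b2 e mu mq mK : ℝ} (hb : 0 ≤ b) (hb2 : 0 ≤ b2) (hmu : 0 ≤ mu)
    (hmq : 0 ≤ mq) (hmK : 0 ≤ mK) (he : 0 ≤ e)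
    (e2 : |(P - 2 * r * X) - (Pr - 2 * r * Xr)| ≤ e) (e2' : |(P' - 2 * r' * X') - (Pr - 2 * r' * Xr)| ≤ e)
    (e5 : |(N - P * X + r * X ^ 2) - (Nr - Pr * Xr + r * Xr ^ 2)| ≤ e)
    (e5' : |(N' - P' * X' + r' * X' ^ 2) - (Nr - Pr * Xr + r' * Xr ^ 2)| ≤ e)
    (hr' : |r'| ≤ b) (hrr : |r - r'| ≤ mu) (hA : |X - Xr| ≤ mq) (hA' : |X' - Xr| ≤ mq) (hXX : |X - X'| ≤ mK)
    (hX : |X| ≤ b) (hX' : |X'| ≤ b) (hc : |Pr - c0| ≤ b2) :
    |(N - c0 * X) - (N' - c0 * X')| ≤ b2 * mK + mu * (mq * mq) + b * (mK * (2 * mq)) + 2 * (e * b) + 2 * e := by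
  have g2 : |(X - Xr) + (X' - Xr)| ≤ 2 * mq := by
    have a := abs_le.1 hA
    have c := abs_le.1 hA'
    exact abs_le.2 ⟨by linarith [a.1, a.2, c.1, c.2], by linarith [a.1, a.2, c.1, c.2]⟩
  have t1 := abs_le.1 (it_k_aux_term hc hb2 hXX)
  have t2 := abs_le.1 (it_k_aux_term hrr hmu (it_k_aux_term hA hmq hA))
  have t3 := abs_le.1 (it_k_aux_term hr' hb (it_k_aux_term hXX hmK g2))
  have t4 := abs_le.1 (it_k_aux_term e2 he hX)
  have t5 := abs_le.1 (it_k_aux_term e2' he hX')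
  have a5 := abs_le.1 e5
  have a5' := abs_le.1 e5'
  have id : (N - c0 * X) - (N' - c0 * X')
      = (Pr - c0) * (X - X') + (r - r') * ((X - Xr) * (X - Xr)) + r' * ((X - X') * ((X - Xr) + (X' - Xr)))
        + ((P - 2 * r * X) - (Pr - 2 * r * Xr)) * X - ((P' - 2 * r' * X') - (Pr - 2 * r' * Xr)) * X'
        + ((N - P * X + r * X ^ 2) - (Nr - Pr * Xr + r * Xr ^ 2)) - ((N' - P' * X' + r' * X' ^ 2) - (Nr - Pr * Xr + r' * Xr ^ 2)) := by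
    ring
  rw [id]
  exact abs_le.2 ⟨by linarith [t1.1, t1.2, t2.1, t2.2, t3.1, t3.2, t4.1, t4.2, t5.1, t5.2],
    by linarith [t1.1, t1.2, t2.1, t2.2, t3.1, t3.2, t4.1, t4.2, t5.1, t5.2]⟩

theorem it_wd_aux_leg_D {X B P N D X' B' N' D' Xr Br Pr Nr Dr θ r θ' c0 b b1 e mu mq mp BN : ℝ} (hb : 0 ≤ b) (hb1 : 0 ≤ b1)
    (hmu : 0 ≤ mu) (hmq : 0 ≤ mq) (he : 0 ≤ e)
    (e1 : |(B + θ * X) - (Br + θ * Xr)| ≤ e) (e1' : |(B' + θ' * X') - (Br + θ' * Xr)| ≤ e)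
    (e2 : |(P - 2 * r * X) - (Pr - 2 * r * Xr)| ≤ e)
    (e4 : |(D + θ * N) - (Dr + θ * Nr)| ≤ e) (e4' : |(D' + θ' * N') - (Dr + θ' * Nr)| ≤ e)
    (e5 : |(N - P * X + r * X ^ 2) - (Nr - Pr * Xr + r * Xr ^ 2)| ≤ e)
    (hθ' : |θ'| ≤ b) (hr : |r| ≤ b) (hθθ : |θ - θ'| ≤ mu) (hA : |X - Xr| ≤ mq) (hX : |X| ≤ b)
    (hPc : |P - c0| ≤ mp) (hc0 : |c0| ≤ b1)
    (hN : |(N - c0 * X) - (N' - c0 * X')| ≤ BN) :
    |(D - c0 * B) - (D' - c0 * B')| ≤ mu * (mq * (mp + b * mq + e) + e * b + e) + b * BN + 2 * e + 2 * (b1 * e) := by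
  have g1 : |(P - c0) - r * (X - Xr) - ((P - 2 * r * X) - (Pr - 2 * r * Xr))| ≤ mp + b * mq + e := by
    have a := abs_le.1 hPc
    have c := abs_le.1 (it_k_aux_term hr hb hA)
    have d := abs_le.1 e2
    exact abs_le.2 ⟨by linarith [a.1, a.2, c.1, c.2, d.1, d.2], by linarith [a.1, a.2, c.1, c.2, d.1, d.2]⟩
  have g2 : |(X - Xr) * ((P - c0) - r * (X - Xr) - ((P - 2 * r * X) - (Pr - 2 * r * Xr)))
      + ((P - 2 * r * X) - (Pr - 2 * r * Xr)) * X + ((N - P * X + r * X ^ 2) - (Nr - Pr * Xr + r * Xr ^ 2))|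
      ≤ mq * (mp + b * mq + e) + e * b + e := by
    have a := abs_le.1 (it_k_aux_term hA hmq g1)
    have c := abs_le.1 (it_k_aux_term e2 he hX)
    have d := abs_le.1 e5
    exact abs_le.2 ⟨by linarith [a.1, a.2, c.1, c.2, d.1, d.2], by linarith [a.1, a.2, c.1, c.2, d.1, d.2]⟩
  have t1 := abs_le.1 (it_k_aux_term hθθ hmu g2)
  have t2 := abs_le.1 (it_k_aux_term hθ' hb hN)
  have t3 := abs_le.1 (it_k_aux_term hc0 hb1 e1)
  have t4 := abs_le.1 (it_k_aux_term hc0 hb1 e1')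
  have a4 := abs_le.1 e4
  have a4' := abs_le.1 e4'
  have id : (D - c0 * B) - (D' - c0 * B')
      = -((θ - θ') * ((X - Xr) * ((P - c0) - r * (X - Xr) - ((P - 2 * r * X) - (Pr - 2 * r * Xr)))
          + ((P - 2 * r * X) - (Pr - 2 * r * Xr)) * X + ((N - P * X + r * X ^ 2) - (Nr - Pr * Xr + r * Xr ^ 2))))
        - θ' * ((N - c0 * X) - (N' - c0 * X'))
        + ((D + θ * N) - (Dr + θ * Nr)) - ((D' + θ' * N') - (Dr + θ' * Nr))
        - c0 * ((B + θ * X) - (Br + θ * Xr)) + c0 * ((B' + θ' * X') - (Br + θ' * Xr)) := by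
    ring
  rw [id]
  exact abs_le.2 ⟨by linarith [t1.1, t1.2, t2.1, t2.2, t3.1, t3.2, t4.1, t4.2],
    by linarith [t1.1, t1.2, t2.1, t2.2, t3.1, t3.2, t4.1, t4.2]⟩

/-- the five closeness relations contained in the equality of two fibre reads -/
structure ItLegR (f g : ItPh) (θ r e : ℝ) : Prop where
  e1 : |(f.B + θ * f.X) - (g.B + θ * g.X)| ≤ e
  e2 : |(f.P - 2 * r * f.X) - (g.P - 2 * r * g.X)| ≤ e
  e3 : |(f.Y + θ * f.X ^ 2) - (g.Y + θ * g.X ^ 2)| ≤ e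
  e4 : |(f.D + θ * f.N) - (g.D + θ * g.N)| ≤ e
  e5 : |(f.N - f.P * f.X + r * f.X ^ 2) - (g.N - g.P * g.X + r * g.X ^ 2)| ≤ e

theorem it_wd_aux_legQ {δ R : ℝ} {f g : ItPh} {μ : ItMk} (h : itQ true δ R f μ = itQ true δ R g μ) :
    ItLegR f g μ.th μ.r (msh δ R) := by
  simp only [itQ, if_true, Prod.mk.injEq] at h
  obtain ⟨⟨h1, h3, h4⟩, h2, h5⟩ := h
  exact ⟨it_k_aux_cell_dist h1, it_k_aux_cell_dist h2, it_k_aux_cell_dist h3, it_k_aux_cell_dist h4, it_k_aux_cell_dist h5⟩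

theorem it_wd_aux_msh_mul {δ : ℝ} (h0 : 0 < δ) (h1 : δ < 1) (u v w : ℝ) (hw : 0 ≤ w) (h : w ≤ u + v) :
    msh δ u * msh δ v ≤ 2 * msh δ w := by
  have a1 := ig_msh_le δ u h0
  have a2 := ig_msh_le δ v h0
  have a3 := ig_le_msh δ w h0 h1 hw
  have a4 : δ ^ u * δ ^ v = δ ^ (u + v) := (Real.rpow_add h0 u v).symm
  have a5 : δ ^ (u + v) ≤ δ ^ w := Real.rpow_le_rpow_of_exponent_ge h0 h1.le h
  have a6 : msh δ u * msh δ v ≤ δ ^ u * δ ^ v :=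
    mul_le_mul a1 a2 (ig_msh_pos δ v).le (Real.rpow_nonneg h0.le u)
  linarith

theorem it_wd_aux_msh_mul3 {δ : ℝ} (h0 : 0 < δ) (h1 : δ < 1) (u v w : ℝ) (hw : 0 ≤ w) (h : w ≤ u + 2 * v) :
    msh δ u * (msh δ v * msh δ v) ≤ 2 * msh δ w := by
  have a1 := ig_msh_le δ u h0
  have a2 := ig_msh_le δ v h0
  have a3 := ig_le_msh δ w h0 h1 hw
  have a4 : δ ^ u * (δ ^ v * δ ^ v) = δ ^ (u + 2 * v) := by
    rw [← Real.rpow_add h0, ← Real.rpow_add h0]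
    congr 1
    ring
  have a5 : δ ^ (u + 2 * v) ≤ δ ^ w := Real.rpow_le_rpow_of_exponent_ge h0 h1.le h
  have hv := (ig_msh_pos δ v).le
  have a6 : msh δ u * (msh δ v * msh δ v) ≤ δ ^ u * (δ ^ v * δ ^ v) :=
    mul_le_mul a1 (mul_le_mul a2 a2 hv (Real.rpow_nonneg h0.le v)) (mul_nonneg hv hv) (Real.rpow_nonneg h0.le u)
  linarith

theorem it_wd_aux_msh_le_one {δ : ℝ} (h0 : 0 < δ) (h1 : δ < 1) (u : ℝ) (hu : 0 ≤ u) : msh δ u ≤ 1 := by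
  have := ig_msh_anti δ 0 u h0 h1 hu
  rwa [ig_msh_zero] at this

theorem it_wd_aux_trep_abs {δ : ℝ} (h0 : 0 < δ) (h1 : δ < 1) (u x b : ℝ) (hu : 0 ≤ u) (hx : |x| ≤ b) : |trep δ u x| ≤ b + 1 := by
  have a1 := abs_le.1 (it_k_aux_rep_dist δ u x)
  have a2 := it_wd_aux_msh_le_one h0 h1 u hu
  have a3 := abs_le.1 hx
  exact abs_le.2 ⟨by linarith [a1.1, a1.2, a3.1, a3.2], by linarith [a1.1, a1.2, a3.1, a3.2]⟩

theorem it_wd_aux_trep_congr {δ u x y : ℝ} (h : tcell δ u x = tcell δ u y) : trep δ u x = trep δ u y := by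
  rw [ig_trep_eq, ig_trep_eq, h]

/-- the configuration of two support points of the two-copy law with the same test data -/
structure ItCfg (δ b e mu mq mK : ℝ) (f f' g : ItPh) (μ μ' : ItMk) : Prop where
  Q : ItLegR f g μ.th μ.r e
  Q' : ItLegR f' g μ'.th μ'.r e
  bf : f.nrm ≤ b
  bf' : f'.nrm ≤ b
  bg : g.nrm ≤ b
  bθ : |μ.th| ≤ b
  br : |μ.r| ≤ b
  bθ' : |μ'.th| ≤ b
  br' : |μ'.r| ≤ b
  dθ : |μ.th - μ'.th| ≤ mu
  dr : |μ.r - μ'.r| ≤ mu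
  A : |f.X - g.X| ≤ mq
  A' : |f'.X - g.X| ≤ mq
  XX : |f.X - f'.X| ≤ mK


theorem it_wd_aux_cfg (h : T.WH a pk τ κ0 acc) (q0 u : ℝ) (x x' : T.Ω × T.Ω)
    (hx : (rep_two T.P (T.wB pk q0)).p x ≠ 0) (hx' : (rep_two T.P (T.wB pk q0)).p x' ≠ 0) (hG : T.wT pk u x = T.wT pk u x') :
    ItCfg T.δ a.B0 (msh T.δ pk.RQ) (msh T.δ u) (msh T.δ q0) (msh T.δ pk.K) (T.F x.1) (T.F x'.1) (T.F x.2) (T.mrk 0 x.1) (T.mrk 0 x'.1)
      ∧ T.mrk 1 x.1 = T.mrk 1 x'.1 ∧ |(T.mrk 1 x.1).th| ≤ a.B0 ∧ |(T.mrk 1 x.1).r| ≤ a.B0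
      ∧ trep T.δ u (T.mrk 0 x.1).th = trep T.δ u (T.mrk 0 x'.1).th ∧ trep T.δ u (T.mrk 0 x.1).r = trep T.δ u (T.mrk 0 x'.1).r
      ∧ tcell T.δ pk.K (T.F x.1).X = tcell T.δ pk.K (T.F x'.1).X := by
  have hM : 2 ≤ pk.M := h.ok.1
  obtain ⟨s1, s2, s3⟩ := (rep_two_supp T.P _ x).1 hx
  obtain ⟨s1', s2', s3'⟩ := (rep_two_supp T.P _ x').1 hx'
  simp only [Tan.wB, Tan.Dd, FLaw.pair, Prod.mk.injEq] at s3 s3'
  obtain ⟨q1, ⟨-, q2⟩, q3⟩ := s3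
  obtain ⟨q1', ⟨-, q2'⟩, q3'⟩ := s3'
  simp only [Tan.wT, Tan.wDm, Tan.wg, FLaw.pair, Prod.mk.injEq] at hG
  obtain ⟨⟨-, g1, g2⟩, g3, g4⟩ := hG
  have m0 : T.mrk 0 x.1 = T.mrk 0 x.2 := by
    have := congrFun q2 ⟨0, by omega⟩
    simpa [Tan.Xi] using this
  have m0' : T.mrk 0 x'.1 = T.mrk 0 x'.2 := by
    have := congrFun q2' ⟨0, by omega⟩
    simpa [Tan.Xi] using this
  have m1 : T.mrk 1 x.1 = T.mrk 1 x'.1 := by
    have := congrFun g2 ⟨1, by omega⟩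
    simpa [Tan.XiE] using this
  have hF : T.F x.2 = T.F x'.2 := h.adm.t0.side_F _ _ g3
  simp only [Tan.xin, itXi, Prod.mk.injEq] at g1
  simp only [Tan.Qn, h.quad] at q1 q1'
  rw [← m0] at q1
  rw [← m0', ← hF] at q1'
  simp only [Tan.Xn] at q3 q3' g4
  rw [← hF] at q3'
  have b0 := h.adm.t0.bdM x.1 s1 0 (by omega)
  have b0' := h.adm.t0.bdM x'.1 s1' 0 (by omega)
  have b1 := h.adm.t0.bdM x.1 s1 1 (by omega)
  refine ⟨⟨it_wd_aux_legQ q1, it_wd_aux_legQ q1', h.adm.t0.bdF _ s1, h.adm.t0.bdF _ s1', h.adm.t0.bdF _ s2, b0.1, b0.2.1, b0'.1, b0'.2.1,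
    it_k_aux_cell_dist g1.1, it_k_aux_cell_dist g1.2, it_k_aux_cell_dist q3, it_k_aux_cell_dist q3', it_k_aux_cell_dist g4⟩,
    m1, b1.1, b1.2.1, it_wd_aux_trep_congr g1.1, it_wd_aux_trep_congr g1.2, g4⟩

theorem it_wd_aux_six {Ω : Type} [Fintype Ω] (P : FLaw Ω) {γ : Type} (c1 c2 c3 c4 c5 c6 : Ω → ℤ) (G : Ω → γ) :
    P.entC (fun x => ((c1 x, c2 x, c3 x), (c4 x, c5 x, c6 x))) G
      ≤ P.entC c1 G + P.entC c2 G + P.entC c3 G
        + P.entC c4 (pair (fun x => (c1 x, c2 x, c3 x)) G) + P.entC c5 (pair (fun x => (c1 x, c2 x, c3 x)) G)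
        + P.entC c6 (pair (fun x => (c1 x, c2 x, c3 x)) G) := by
  have h1 := ent_entC_chain P (fun x => (c1 x, c2 x, c3 x)) (fun x => (c4 x, c5 x, c6 x)) G
  have h2 := ent_entC_pair_le_add P c1 (pair c2 c3) G
  have h3 := ent_entC_pair_le_add P c2 c3 G
  have h4 := ent_entC_pair_le_add P c4 (pair c5 c6) (pair (fun x => (c1 x, c2 x, c3 x)) G)
  have h5 := ent_entC_pair_le_add P c5 c6 (pair (fun x => (c1 x, c2 x, c3 x)) G)
  have e1 : P.entC (fun x => ((c1 x, c2 x, c3 x), (c4 x, c5 x, c6 x))) G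
      = P.entC (pair (fun x => (c1 x, c2 x, c3 x)) (fun x => (c4 x, c5 x, c6 x))) G := rfl
  have e2 : P.entC (fun x => (c1 x, c2 x, c3 x)) G = P.entC (pair c1 (pair c2 c3)) G := rfl
  have e3 : P.entC (fun x => (c4 x, c5 x, c6 x)) (pair (fun x => (c1 x, c2 x, c3 x)) G)
      = P.entC (pair c4 (pair c5 c6)) (pair (fun x => (c1 x, c2 x, c3 x)) G) := rfl
  rw [e1, h1, e2, e3]
  linarith

theorem it_wd_aux_C {b : ℝ} (hb : 1 ≤ b) : 6 * b ^ 2 + 10 * b + 12 ≤ itwC b - 2 := by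
  unfold itwC
  nlinarith [sq_nonneg b, sq_nonneg (b - 1), mul_nonneg (by linarith : (0:ℝ) ≤ b) (sq_nonneg b)]

/-- the meshes of a wedge layer -/
structure ItMsh (mp mz mq mu mK e : ℝ) : Prop where
  p1 : 0 < mp
  p2 : 0 < mz
  p3 : 0 < mq
  p4 : 0 < mu
  p5 : 0 < mK
  p6 : 0 < e
  f1 : mp ≤ mq
  f2 : mu * mq ≤ 2 * mp
  f3 : mu * (mq * mq) ≤ 2 * mz
  f4 : mK ≤ mz
  f5 : e ≤ mz
  f6 : mz ≤ mp
  f7 : mp ≤ 1
  f8 : mq ≤ 1
  f9 : mu ≤ 1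

theorem it_wd_aux_msh (h : T.WH a pk τ κ0 acc) (p z : ℝ) (hpz : p ≤ z) (hz : z ≤ 2 * p) (hzK : z ≤ pk.K) :
    ItMsh (msh T.δ p) (msh T.δ z) (msh T.δ (z - p)) (msh T.δ (2 * p - z)) (msh T.δ pk.K) (msh T.δ pk.RQ) := by
  have hp : 0 ≤ p := by linarith
  have hδ0 := h.adm.t0.δ0
  have hδ1 := h.adm.t0.δ1
  have hKR : pk.K < pk.RQ := h.ok.2.2.1
  exact ⟨ig_msh_pos _ _, ig_msh_pos _ _, ig_msh_pos _ _, ig_msh_pos _ _, ig_msh_pos _ _, ig_msh_pos _ _,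
    ig_msh_anti _ _ _ hδ0 hδ1 (by linarith), it_wd_aux_msh_mul hδ0 hδ1 _ _ _ hp (by linarith),
    it_wd_aux_msh_mul3 hδ0 hδ1 _ _ _ (by linarith) (by linarith), ig_msh_anti _ _ _ hδ0 hδ1 hzK,
    ig_msh_anti _ _ _ hδ0 hδ1 (by linarith), ig_msh_anti _ _ _ hδ0 hδ1 hpz, it_wd_aux_msh_le_one hδ0 hδ1 _ hp,
    it_wd_aux_msh_le_one hδ0 hδ1 _ (by linarith), it_wd_aux_msh_le_one hδ0 hδ1 _ (by linarith)⟩

theorem it_wd_aux_numY {b mp mz mq mu mK e : ℝ} (hb : 1 ≤ b) (m : ItMsh mp mz mq mu mK e) :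
    mu * (mq * (2 * mp + mq)) + b * (mK * (2 * mp)) + 2 * e + 4 * ((b + 1) * e) ≤ (6 * b ^ 2 + 10 * b + 12) * mz := by
  obtain ⟨p1, p2, p3, p4, p5, p6, f1, f2, f3, f4, f5, f6, f7, f8, f9⟩ := m
  have hb0 : 0 ≤ b := by linarith
  have n1 : mu * (mq * (2 * mp + mq)) ≤ 6 * mz := by
    have : mq * (2 * mp + mq) ≤ 3 * (mq * mq) := by nlinarith
    have := mul_le_mul_of_nonneg_left this p4.le
    linarith
  have n2 : mK * (2 * mp) ≤ 2 * mz := by nlinarith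
  have n6 : b * (mK * (2 * mp)) ≤ b * (2 * mz) := mul_le_mul_of_nonneg_left n2 hb0
  have n4 : (b + 1) * e ≤ (b + 1) * mz := mul_le_mul_of_nonneg_left f5 (by linarith)
  have n8 : 0 ≤ b ^ 2 * mz := by positivity
  have n9 : 0 ≤ b * mz := by positivity
  nlinarith

theorem it_wd_aux_numN {b mp mz mq mu mK e : ℝ} (hb : 1 ≤ b) (m : ItMsh mp mz mq mu mK e) :
    (2 * b + 1) * mK + mu * (mq * mq) + b * (mK * (2 * mq)) + 2 * (e * b) + 2 * e ≤ (6 * b + 5) * mz := by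
  obtain ⟨p1, p2, p3, p4, p5, p6, f1, f2, f3, f4, f5, f6, f7, f8, f9⟩ := m
  have hb0 : 0 ≤ b := by linarith
  have n3 : mK * (2 * mq) ≤ 2 * mz := by nlinarith
  have n7 : b * (mK * (2 * mq)) ≤ b * (2 * mz) := mul_le_mul_of_nonneg_left n3 hb0
  have n4 : e * b ≤ mz * b := mul_le_mul_of_nonneg_right f5 hb0
  have n5 : (2 * b + 1) * mK ≤ (2 * b + 1) * mz := mul_le_mul_of_nonneg_left f4 (by linarith)
  linarith

theorem it_wd_aux_numD {b mp mz mq mu mK e BN : ℝ} (hb : 1 ≤ b) (m : ItMsh mp mz mq mu mK e) (hBN : BN ≤ (6 * b + 5) * mz) :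
    mu * (mq * (mp + b * mq + e) + e * b + e) + b * BN + 2 * e + 2 * ((b + 1) * e) ≤ (6 * b ^ 2 + 10 * b + 12) * mz := by
  obtain ⟨p1, p2, p3, p4, p5, p6, f1, f2, f3, f4, f5, f6, f7, f8, f9⟩ := m
  have hb0 : 0 ≤ b := by linarith
  have a1 : mu * (mq * mp) ≤ 2 * mz := by
    have : mq * mp ≤ mq * mq := mul_le_mul_of_nonneg_left f1 p3.le
    have := mul_le_mul_of_nonneg_left this p4.le
    linarith
  have a2 : mu * (mq * (b * mq)) ≤ b * (2 * mz) := by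
    have h1 := mul_le_mul_of_nonneg_left f3 hb0
    have h2 : mu * (mq * (b * mq)) = b * (mu * (mq * mq)) := by ring
    linarith
  have a3 : mu * (mq * e) ≤ mz := by
    have h1 : mq * e ≤ 1 * mz := mul_le_mul f8 f5 p6.le (by norm_num)
    have h2 : mu * (mq * e) ≤ 1 * (1 * mz) := mul_le_mul f9 h1 (by positivity) (by norm_num)
    linarith
  have a4 : mu * (e * b) ≤ b * mz := by
    have h1 : mu * (e * b) ≤ 1 * (e * b) := mul_le_mul_of_nonneg_right f9 (by positivity)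
    have h2 : e * b ≤ mz * b := mul_le_mul_of_nonneg_right f5 hb0
    linarith
  have a5 : mu * e ≤ mz := by
    have : mu * e ≤ 1 * e := mul_le_mul_of_nonneg_right f9 p6.le
    linarith
  have m1 : mu * (mq * (mp + b * mq + e) + e * b + e) = mu * (mq * mp) + mu * (mq * (b * mq)) + mu * (mq * e) + mu * (e * b) + mu * e := by
    ring
  have m2 : b * BN ≤ b * ((6 * b + 5) * mz) := mul_le_mul_of_nonneg_left hBN hb0
  have n4 : (b + 1) * e ≤ (b + 1) * mz := mul_le_mul_of_nonneg_left f5 (by linarith)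
  rw [m1]
  nlinarith

theorem it_wd_aux_pred_hor (h : T.WH a pk τ κ0 acc) (p z : ℝ) (hpz : p ≤ z) (hz : z ≤ 2 * p) (hzK : z ≤ pk.K) (x x' : T.Ω × T.Ω)
    (hx : (rep_two T.P (T.wB pk (z - p))).p x ≠ 0) (hx' : (rep_two T.P (T.wB pk (z - p))).p x' ≠ 0)
    (hG : T.wT pk (2 * p - z) x = T.wT pk (2 * p - z) x') :
    |(T.F x.1).B - (T.F x'.1).B| ≤ (itwC a.B0 - 2) * msh T.δ p ∧ |(T.F x.1).P - (T.F x'.1).P| ≤ (itwC a.B0 - 2) * msh T.δ p := by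
  have hb : 1 ≤ a.B0 := h.ha.2.2.2.2.2.2.2.2
  have hb0 : 0 ≤ a.B0 := by linarith
  have hC := it_wd_aux_C hb
  obtain ⟨p1, p2, p3, p4, p5, p6, f1, f2, f3, f4, f5, f6, f7, f8, f9⟩ := it_wd_aux_msh h p z hpz hz hzK
  obtain ⟨c, -⟩ := it_wd_aux_cfg h _ _ x x' hx hx' hG
  have k := it_wd_aux_leg_hor hb0 p4.le c.Q.e1 c.Q'.e1 c.Q.e2 c.Q'.e2 c.bθ' c.br' c.dθ c.dr c.A c.XX
  have n1 : a.B0 * msh T.δ pk.K ≤ a.B0 * msh T.δ p := mul_le_mul_of_nonneg_left (f4.trans f6) hb0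
  have n2 : (2 * a.B0 + 6) * msh T.δ p ≤ (itwC a.B0 - 2) * msh T.δ p := mul_le_mul_of_nonneg_right (by nlinarith) p1.le
  have n3 : 0 ≤ a.B0 * msh T.δ p := by positivity
  constructor
  · refine k.1.trans ?_
    linarith
  · refine k.2.trans ?_
    linarith

theorem it_wd_aux_pred_cen (h : T.WH a pk τ κ0 acc) (p z : ℝ) (hpz : p ≤ z) (hz : z ≤ 2 * p) (hzK : z ≤ pk.K) (x x' : T.Ω × T.Ω)
    (hx : (rep_two T.P (T.wB pk (z - p))).p x ≠ 0) (hx' : (rep_two T.P (T.wB pk (z - p))).p x' ≠ 0)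
    (hG : T.wT pk (2 * p - z) x = T.wT pk (2 * p - z) x')
    (hcX : tcell T.δ p (T.F x.1).X = tcell T.δ p (T.F x'.1).X) (hcP : tcell T.δ p (T.F x.1).P = tcell T.δ p (T.F x'.1).P) :
    |((T.F x.1).Y - 2 * trep T.δ p (T.F x.1).X * (T.F x.1).B) - ((T.F x'.1).Y - 2 * trep T.δ p (T.F x'.1).X * (T.F x'.1).B)|
        ≤ (itwC a.B0 - 2) * msh T.δ z ∧
    |((T.F x.1).N - trep T.δ p (T.F x.1).P * (T.F x.1).X) - ((T.F x'.1).N - trep T.δ p (T.F x'.1).P * (T.F x'.1).X)|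
        ≤ (itwC a.B0 - 2) * msh T.δ z ∧
    |((T.F x.1).D - trep T.δ p (T.F x.1).P * (T.F x.1).B) - ((T.F x'.1).D - trep T.δ p (T.F x'.1).P * (T.F x'.1).B)|
        ≤ (itwC a.B0 - 2) * msh T.δ z := by
  have hp : 0 ≤ p := by linarith
  have hδ0 := h.adm.t0.δ0
  have hδ1 := h.adm.t0.δ1
  have hb : 1 ≤ a.B0 := h.ha.2.2.2.2.2.2.2.2
  have hb0 : 0 ≤ a.B0 := by linarith
  have hC := it_wd_aux_C hb
  have m := it_wd_aux_msh h p z hpz hz hzK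
  obtain ⟨c, -⟩ := it_wd_aux_cfg h _ _ x x' hx hx' hG
  rw [← it_wd_aux_trep_congr hcX, ← it_wd_aux_trep_congr hcP]
  have nf := it_k_aux_nrm_le (T.F x.1)
  have nf' := it_k_aux_nrm_le (T.F x'.1)
  have ng := it_k_aux_nrm_le (T.F x.2)
  have bX : |(T.F x.1).X| ≤ a.B0 := nf.1.trans c.bf
  have bX' : |(T.F x'.1).X| ≤ a.B0 := nf'.1.trans c.bf'
  have bP : |(T.F x.1).P| ≤ a.B0 := nf.2.2.1.trans c.bf
  have bPr : |(T.F x.2).P| ≤ a.B0 := ng.2.2.1.trans c.bg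
  have x0a : |(T.F x.1).X - trep T.δ p (T.F x.1).X| ≤ msh T.δ p := it_k_aux_rep_dist _ _ _
  have x0b : |(T.F x'.1).X - trep T.δ p (T.F x.1).X| ≤ msh T.δ p := by
    rw [it_wd_aux_trep_congr hcX]; exact it_k_aux_rep_dist _ _ _
  have x0c : |trep T.δ p (T.F x.1).X| ≤ a.B0 + 1 := it_wd_aux_trep_abs hδ0 hδ1 _ _ _ hp bX
  have c0a : |(T.F x.1).P - trep T.δ p (T.F x.1).P| ≤ msh T.δ p := it_k_aux_rep_dist _ _ _
  have c0c : |trep T.δ p (T.F x.1).P| ≤ a.B0 + 1 := it_wd_aux_trep_abs hδ0 hδ1 _ _ _ hp bP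
  have c0d : |(T.F x.2).P - trep T.δ p (T.F x.1).P| ≤ 2 * a.B0 + 1 := by
    have u1 := abs_le.1 bPr
    have u2 := abs_le.1 c0c
    exact abs_le.2 ⟨by linarith [u1.1, u1.2, u2.1, u2.2], by linarith [u1.1, u1.2, u2.1, u2.2]⟩
  have kY := it_wd_aux_leg_Y (x0 := trep T.δ p (T.F x.1).X) (b1 := a.B0 + 1) hb0 (by linarith) m.p4.le m.p3.le m.p5.le
    c.Q.e1 c.Q'.e1 c.Q.e3 c.Q'.e3 c.bθ' c.dθ c.A c.XX x0a x0b x0c
  have kN := it_wd_aux_leg_N (c0 := trep T.δ p (T.F x.1).P) (b2 := 2 * a.B0 + 1) hb0 (by linarith) m.p4.le m.p3.le m.p5.le m.p6.le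
    c.Q.e2 c.Q'.e2 c.Q.e5 c.Q'.e5 c.br' c.dr c.A c.A' c.XX bX bX' c0d
  have kD := it_wd_aux_leg_D (c0 := trep T.δ p (T.F x.1).P) (b1 := a.B0 + 1) hb0 (by linarith) m.p4.le m.p3.le m.p6.le
    c.Q.e1 c.Q'.e1 c.Q.e2 c.Q.e4 c.Q'.e4 c.Q.e5 c.bθ' c.br c.dθ c.A bX c0a c0c kN
  have n0 : (6 * a.B0 ^ 2 + 10 * a.B0 + 12) * msh T.δ z ≤ (itwC a.B0 - 2) * msh T.δ z := mul_le_mul_of_nonneg_right hC m.p2.le
  have nN := it_wd_aux_numN hb m
  have nN' : (6 * a.B0 + 5) * msh T.δ z ≤ (6 * a.B0 ^ 2 + 10 * a.B0 + 12) * msh T.δ z :=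
    mul_le_mul_of_nonneg_right (by nlinarith) m.p2.le
  exact ⟨kY.trans ((it_wd_aux_numY hb m).trans n0), kN.trans (nN.trans (nN'.trans n0)), kD.trans ((it_wd_aux_numD hb m nN).trans n0)⟩

/-- LEAF W-G9 (prediction of the wedge name by the motion data; 05 l.1024-1038).  `P2 = rep_two T.P (T.wB pk q0)`, `q0 = z - p`, `u = 2p - z`.   Support (`rep_two_supp`): `x.1`, `x.2` in the support of `T.P`, same `Q_0`, same `𝒟` (so the same marks), same `X_{q0}`.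
Two support points `x, x'` with the same `𝒢` : same `R = T.F x.2` (`Adm0.side_F`), same `X_K` of the targets `F, F'`, marks `0` : `(θ, r)`, `(θ', r')` in the same cell of depth `u`.   `A = X_F - X_R`, `|A|, |A'| ≤ m_{q0}`, `|A - A'| ≤ m_K`.
LEG (from the equality of `Q_0` at `x.1`, `x.2`; errors `e_k ≤ m_R`) : `B_F = B_R - θ A + e1`, `P_F = P_R + 2 r A + e2`, `Y_F = Y_R - θ (2 X_R A + A²) + e3`, `N_F = N_R + P_R A + r A² + e5 + e2 X_F`, `D_F = D_R - θ (N_F - N_R) + e4`.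
 `|ΔB| ≤ m_u m_{q0} + b m_K + 2 m_R ≤ (b + 4) m_p`,  `|ΔP| ≤ (2b + 6) m_p`   (`m_u m_{q0} ≤ δ^p ≤ 2 m_p`).    With the cells `(X, B, P)_p` fixed, `x0 = [X_F]_p`, `c0 = [P_F]_p` :
 `Y_F - 2 x0 B_F = Y_R - 2 x0 B_R - θ g + e3 - 2 x0 e1`, `g = A (2 (X_F - x0) - A)`, `|g| ≤ 3 m_{q0}²`, `|g - g'| ≤ (4b + 4) m_K`;
 `N_F - c0 X_F = N_R + P_R A + r A² - c0 X_F + e5 + e2 X_F`;
 `D_F - c0 B_F = D_R - c0 B_R - θ h + e4 - c0 e1 - θ (e5 + e2 X_F)`, `h = A (P_R + r A - c0)`, `|P_R + r A - c0| ≤ (b + 2) m_{q0}`.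
 All variations `≤ 26 b² m_z` since `m_u m_{q0}² ≤ δ^{u + 2 q0} = δ^z ≤ 2 m_z`, `m_K, m_R ≤ m_z`. -/
theorem it_wd_pred (h : T.WH a pk τ κ0 acc) (p z : ℝ) (hpz : p ≤ z) (hz : z ≤ 2 * p) (hzK : z ≤ pk.K) :
    (rep_two T.P (T.wB pk (z - p))).entC (fun x => T.Hn p z x.1) (T.wT pk (2 * p - z)) ≤ 5 * Real.log (itwC a.B0) := by
  have hδ0 := h.adm.t0.δ0
  have hδ1 := h.adm.t0.δ1
  have hb : 1 ≤ a.B0 := h.ha.2.2.2.2.2.2.2.2
  have hC := it_wd_aux_C hb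
  have hC0 : 0 ≤ itwC a.B0 - 2 := by nlinarith
  have six := it_wd_aux_six (rep_two T.P (T.wB pk (z - p))) (fun x => tcell T.δ p (T.F x.1).X) (fun x => tcell T.δ p (T.F x.1).B)
    (fun x => tcell T.δ p (T.F x.1).P) (fun x => tcell T.δ z ((T.F x.1).Y - 2 * trep T.δ p (T.F x.1).X * (T.F x.1).B))
    (fun x => tcell T.δ z ((T.F x.1).N - trep T.δ p (T.F x.1).P * (T.F x.1).X))
    (fun x => tcell T.δ z ((T.F x.1).D - trep T.δ p (T.F x.1).P * (T.F x.1).B)) (T.wT pk (2 * p - z))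
  have hX : (rep_two T.P (T.wB pk (z - p))).entC (fun x => tcell T.δ p (T.F x.1).X) (T.wT pk (2 * p - z)) = 0 :=
    ent_entC_eq_zero _ _ _ fun x x' hx hx' hG =>
      it_k_aux_cell_nest hδ0 hδ1 (hpz.trans hzK) (it_wd_aux_cfg h _ _ x x' hx hx' hG).2.2.2.2.2.2
  have hB := it_wd_ent_cell (rep_two T.P (T.wB pk (z - p))) (T.wT pk (2 * p - z)) (fun x => (T.F x.1).B) T.δ p _ hC0
    (fun x x' hx hx' hG => (it_wd_aux_pred_hor h p z hpz hz hzK x x' hx hx' hG).1)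
  have hP := it_wd_ent_cell (rep_two T.P (T.wB pk (z - p))) (T.wT pk (2 * p - z)) (fun x => (T.F x.1).P) T.δ p _ hC0
    (fun x x' hx hx' hG => (it_wd_aux_pred_hor h p z hpz hz hzK x x' hx hx' hG).2)
  have cen : ∀ x x', (rep_two T.P (T.wB pk (z - p))).p x ≠ 0 → (rep_two T.P (T.wB pk (z - p))).p x' ≠ 0 →
      pair (fun x : T.Ω × T.Ω => (tcell T.δ p (T.F x.1).X, tcell T.δ p (T.F x.1).B, tcell T.δ p (T.F x.1).P)) (T.wT pk (2 * p - z)) x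
        = pair (fun x : T.Ω × T.Ω => (tcell T.δ p (T.F x.1).X, tcell T.δ p (T.F x.1).B, tcell T.δ p (T.F x.1).P)) (T.wT pk (2 * p - z)) x' →
      _ := fun x x' hx hx' hG =>
    it_wd_aux_pred_cen h p z hpz hz hzK x x' hx hx' (Prod.ext_iff.1 hG).2 (Prod.ext_iff.1 (Prod.ext_iff.1 hG).1).1
      (Prod.ext_iff.1 (Prod.ext_iff.1 (Prod.ext_iff.1 hG).1).2).2
  have hY := it_wd_ent_cell (rep_two T.P (T.wB pk (z - p))) _
    (fun x => (T.F x.1).Y - 2 * trep T.δ p (T.F x.1).X * (T.F x.1).B) T.δ z _ hC0 (fun x x' hx hx' hG => (cen x x' hx hx' hG).1)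
  have hN := it_wd_ent_cell (rep_two T.P (T.wB pk (z - p))) _
    (fun x => (T.F x.1).N - trep T.δ p (T.F x.1).P * (T.F x.1).X) T.δ z _ hC0 (fun x x' hx hx' hG => (cen x x' hx hx' hG).2.1)
  have hD := it_wd_ent_cell (rep_two T.P (T.wB pk (z - p))) _
    (fun x => (T.F x.1).D - trep T.δ p (T.F x.1).P * (T.F x.1).B) T.δ z _ hC0 (fun x x' hx hx' hG => (cen x x' hx hx' hG).2.2)
  have e2 : itwC a.B0 - 2 + 2 = itwC a.B0 := by ring
  rw [e2] at hB hP hY hN hD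
  have e0 : (rep_two T.P (T.wB pk (z - p))).entC (fun x => T.Hn p z x.1) (T.wT pk (2 * p - z))
      = (rep_two T.P (T.wB pk (z - p))).entC (fun x => ((tcell T.δ p (T.F x.1).X, tcell T.δ p (T.F x.1).B, tcell T.δ p (T.F x.1).P),
          (tcell T.δ z ((T.F x.1).Y - 2 * trep T.δ p (T.F x.1).X * (T.F x.1).B),
            tcell T.δ z ((T.F x.1).N - trep T.δ p (T.F x.1).P * (T.F x.1).X),
            tcell T.δ z ((T.F x.1).D - trep T.δ p (T.F x.1).P * (T.F x.1).B)))) (T.wT pk (2 * p - z)) := rfl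
  rw [e0]
  linarith

theorem it_wd_aux_rec_id (f g : ItPh) (θ r t0 r0 : ℝ) (μ1 : ItMk) :
    itwU f t0 r0 μ1 - itwU g t0 r0 μ1 = -2 * (f.X - g.X) * ((r0 - μ1.r) * (θ - t0) + (μ1.th - t0) * (r - r0))
      + ((t0 - μ1.th) * ((f.P - 2 * r * f.X) - (g.P - 2 * r * g.X)) - 2 * ((μ1.r - r0) * ((f.B + θ * f.X) - (g.B + θ * g.X)))) := by
  unfold itwU
  ring

theorem it_wd_aux_rec_core {A A' n n' dU E E' mp cE cn mK mq1 : ℝ} (hmK : 0 ≤ mK)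
    (hid : dU = -2 * A * n + 2 * A' * n' + E - E') (hdU : |dU| ≤ mp) (hE : |E| ≤ cE) (hE' : |E'| ≤ cE) (hn' : |n'| ≤ cn)
    (hAA : |A - A'| ≤ mK) (hA : mq1 ≤ |A|) :
    2 * (mq1 * |n - n'|) ≤ mp + 2 * (mK * cn) + 2 * cE := by
  have t1 := abs_le.1 (it_k_aux_term hAA hmK hn')
  have a1 := abs_le.1 hdU
  have a2 := abs_le.1 hE
  have a3 := abs_le.1 hE'
  have id : 2 * (A * (n - n')) = -dU - 2 * ((A - A') * n') + E - E' := by rw [hid]; ring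
  have h1 : |2 * (A * (n - n'))| ≤ mp + 2 * (mK * cn) + 2 * cE := by
    rw [id]
    exact abs_le.2 ⟨by linarith [t1.1, t1.2], by linarith [t1.1, t1.2]⟩
  rw [abs_mul, abs_mul, abs_of_pos (by norm_num : (0:ℝ) < 2)] at h1
  have h2 : mq1 * |n - n'| ≤ |A| * |n - n'| := mul_le_mul_of_nonneg_right hA (abs_nonneg _)
  linarith

/-- bounds for the normal increment and the error `E` -/
theorem it_wd_aux_rec_bd {θ r t0 r0 θ1 r1 E1 E2 b mu e : ℝ} (hb : 0 ≤ b) (ht0 : |t0| ≤ b + 1) (hr0 : |r0| ≤ b + 1)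
    (hθ1 : |θ1| ≤ b) (hr1 : |r1| ≤ b) (hθ : |θ - t0| ≤ mu) (hr : |r - r0| ≤ mu) (hE1 : |E1| ≤ e) (hE2 : |E2| ≤ e) :
    |(r0 - r1) * (θ - t0) + (θ1 - t0) * (r - r0)| ≤ 2 * ((2 * b + 1) * mu)
      ∧ |(t0 - θ1) * E2 - 2 * ((r1 - r0) * E1)| ≤ 3 * ((2 * b + 1) * e) := by
  have a1 := abs_le.1 ht0
  have a2 := abs_le.1 hr0
  have a3 := abs_le.1 hθ1
  have a4 := abs_le.1 hr1
  have c1 : |r0 - r1| ≤ 2 * b + 1 := abs_le.2 ⟨by linarith [a2.1, a4.2], by linarith [a2.2, a4.1]⟩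
  have c2 : |θ1 - t0| ≤ 2 * b + 1 := abs_le.2 ⟨by linarith [a1.2, a3.1], by linarith [a1.1, a3.2]⟩
  have c3 : |t0 - θ1| ≤ 2 * b + 1 := abs_le.2 ⟨by linarith [a1.1, a3.2], by linarith [a1.2, a3.1]⟩
  have c4 : |r1 - r0| ≤ 2 * b + 1 := abs_le.2 ⟨by linarith [a2.2, a4.1], by linarith [a2.1, a4.2]⟩
  have hB : 0 ≤ 2 * b + 1 := by linarith
  have t1 := abs_le.1 (it_k_aux_term c1 hB hθ)
  have t2 := abs_le.1 (it_k_aux_term c2 hB hr)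
  have t3 := abs_le.1 (it_k_aux_term c3 hB hE2)
  have t4 := abs_le.1 (it_k_aux_term c4 hB hE1)
  exact ⟨abs_le.2 ⟨by linarith [t1.1, t2.1], by linarith [t1.2, t2.2]⟩,
    abs_le.2 ⟨by linarith [t3.1, t4.2], by linarith [t3.2, t4.1]⟩⟩

theorem it_wd_aux_rec_cap (h : T.WH a pk τ κ0 acc) (q0 u : ℝ) (hu : 0 ≤ u) (x x' : T.Ω × T.Ω)
    (hx : (rep_two T.P (T.wB pk q0)).p x ≠ 0) (hx' : (rep_two T.P (T.wB pk q0)).p x' ≠ 0) (hG : T.wT pk u x = T.wT pk u x') :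
    |T.nInc 1 0 u x.1 - T.nInc 1 0 u x'.1| ≤ 4 * ((2 * a.B0 + 1) * msh T.δ u) := by
  have hδ0 := h.adm.t0.δ0
  have hδ1 := h.adm.t0.δ1
  have hb : 1 ≤ a.B0 := h.ha.2.2.2.2.2.2.2.2
  obtain ⟨c, m1, b1θ, b1r, -, -, -⟩ := it_wd_aux_cfg h _ _ x x' hx hx' hG
  have k := (it_wd_aux_rec_bd (E1 := 0) (E2 := 0) (e := 0) (by linarith : (0:ℝ) ≤ a.B0)
    (it_wd_aux_trep_abs hδ0 hδ1 u _ _ hu c.bθ) (it_wd_aux_trep_abs hδ0 hδ1 u _ _ hu c.br) b1θ b1r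
    (it_k_aux_rep_dist T.δ u (T.mrk 0 x.1).th) (it_k_aux_rep_dist T.δ u (T.mrk 0 x.1).r) (by simp) (by simp)).1
  have k' := (it_wd_aux_rec_bd (E1 := 0) (E2 := 0) (e := 0) (by linarith : (0:ℝ) ≤ a.B0)
    (it_wd_aux_trep_abs hδ0 hδ1 u _ _ hu c.bθ') (it_wd_aux_trep_abs hδ0 hδ1 u _ _ hu c.br') (m1 ▸ b1θ) (m1 ▸ b1r)
    (it_k_aux_rep_dist T.δ u (T.mrk 0 x'.1).th) (it_k_aux_rep_dist T.δ u (T.mrk 0 x'.1).r) (by simp) (by simp)).1
  have a1 := abs_le.1 k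
  have a2 := abs_le.1 k'
  unfold Tan.nInc
  exact abs_le.2 ⟨by linarith [a1.1, a2.2], by linarith [a1.2, a2.1]⟩

theorem it_wd_aux_rec_good (h : T.WH a pk τ κ0 acc) (q0 u p' q1 s : ℝ) (hu : 0 ≤ u) (hp' : p' ≤ pk.K) (hq1 : 0 ≤ q1) (hs : 0 ≤ s)
    (hsum : q1 + s ≤ p') (x x' : T.Ω × T.Ω)
    (hx : (rep_two T.P (T.wB pk q0)).p x ≠ 0) (hx' : (rep_two T.P (T.wB pk q0)).p x' ≠ 0) (hG : T.wT pk u x = T.wT pk u x')
    (hU : tcell T.δ p' (T.wU0 u x.1) = tcell T.δ p' (T.wU0 u x'.1)) (hA : ¬ |(T.F x.1).X - (T.F x.2).X| < msh T.δ q1) :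
    |T.nInc 1 0 u x.1 - T.nInc 1 0 u x'.1| ≤ (itwC a.B0 - 2) * msh T.δ s := by
  have hδ0 := h.adm.t0.δ0
  have hδ1 := h.adm.t0.δ1
  have hb : 1 ≤ a.B0 := h.ha.2.2.2.2.2.2.2.2
  have hb0 : (0:ℝ) ≤ a.B0 := by linarith
  have hKR : pk.K < pk.RQ := h.ok.2.2.1
  obtain ⟨c, m1, b1θ, b1r, tθ, tr, -⟩ := it_wd_aux_cfg h _ _ x x' hx hx' hG
  have k := it_wd_aux_rec_bd hb0
    (it_wd_aux_trep_abs hδ0 hδ1 u _ _ hu c.bθ) (it_wd_aux_trep_abs hδ0 hδ1 u _ _ hu c.br) b1θ b1r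
    (it_k_aux_rep_dist T.δ u (T.mrk 0 x.1).th) (it_k_aux_rep_dist T.δ u (T.mrk 0 x.1).r) c.Q.e1 c.Q.e2
  have k' := it_wd_aux_rec_bd hb0
    (it_wd_aux_trep_abs hδ0 hδ1 u _ _ hu c.bθ') (it_wd_aux_trep_abs hδ0 hδ1 u _ _ hu c.br') (m1 ▸ b1θ) (m1 ▸ b1r)
    (it_k_aux_rep_dist T.δ u (T.mrk 0 x'.1).th) (it_k_aux_rep_dist T.δ u (T.mrk 0 x'.1).r) c.Q'.e1 c.Q'.e2
  have i1 := it_wd_aux_rec_id (T.F x.1) (T.F x.2) (T.mrk 0 x.1).th (T.mrk 0 x.1).r (trep T.δ u (T.mrk 0 x.1).th)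
    (trep T.δ u (T.mrk 0 x.1).r) (T.mrk 1 x.1)
  have i2 := it_wd_aux_rec_id (T.F x'.1) (T.F x.2) (T.mrk 0 x'.1).th (T.mrk 0 x'.1).r (trep T.δ u (T.mrk 0 x'.1).th)
    (trep T.δ u (T.mrk 0 x'.1).r) (T.mrk 1 x'.1)
  have hdU : |T.wU0 u x.1 - T.wU0 u x'.1| ≤ msh T.δ p' := it_k_aux_cell_dist hU
  have hAA : |((T.F x.1).X - (T.F x.2).X) - ((T.F x'.1).X - (T.F x.2).X)| ≤ msh T.δ pk.K := by
    have e : ((T.F x.1).X - (T.F x.2).X) - ((T.F x'.1).X - (T.F x.2).X) = (T.F x.1).X - (T.F x'.1).X := by ring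
    rw [e]; exact c.XX
  have core := it_wd_aux_rec_core (ig_msh_pos T.δ pk.K).le (dU := T.wU0 u x.1 - T.wU0 u x'.1)
    (A := (T.F x.1).X - (T.F x.2).X) (A' := (T.F x'.1).X - (T.F x.2).X) (n := T.nInc 1 0 u x.1) (n' := T.nInc 1 0 u x'.1)
    (by
      unfold Tan.wU0 Tan.nInc
      rw [← tθ, ← tr, ← m1] at i2 ⊢
      linear_combination i1 - i2) hdU k.2 k'.2 k'.1 hAA (not_lt.1 hA)
  have mu1 := it_wd_aux_msh_le_one hδ0 hδ1 u hu
  have f1 : msh T.δ pk.K ≤ msh T.δ p' := ig_msh_anti _ _ _ hδ0 hδ1 hp'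
  have f2 : msh T.δ pk.RQ ≤ msh T.δ p' := ig_msh_anti _ _ _ hδ0 hδ1 (by linarith)
  have f3 : msh T.δ p' ≤ 4 * (msh T.δ q1 * msh T.δ s) := by
    have a1 := ig_msh_le T.δ p' hδ0
    have a2 : T.δ ^ p' ≤ T.δ ^ (q1 + s) := Real.rpow_le_rpow_of_exponent_ge hδ0 hδ1.le hsum
    rw [Real.rpow_add hδ0] at a2
    have a3 := ig_le_msh T.δ q1 hδ0 hδ1 hq1
    have a4 := ig_le_msh T.δ s hδ0 hδ1 hs
    have a5 : T.δ ^ q1 * T.δ ^ s ≤ (2 * msh T.δ q1) * (2 * msh T.δ s) :=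
      mul_le_mul a3 a4 (Real.rpow_nonneg hδ0.le s) (by have := ig_msh_pos T.δ q1; linarith)
    linarith
  have pq := ig_msh_pos T.δ q1
  have ps := ig_msh_pos T.δ s
  have pp := ig_msh_pos T.δ p'
  have pK := ig_msh_pos T.δ pk.K
  have pu := ig_msh_pos T.δ u
  -- collect
  have g1 : msh T.δ pk.K * (2 * ((2 * a.B0 + 1) * msh T.δ u)) ≤ msh T.δ p' * (2 * (2 * a.B0 + 1)) := by
    have : 2 * ((2 * a.B0 + 1) * msh T.δ u) ≤ 2 * (2 * a.B0 + 1) := by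
      have := mul_le_mul_of_nonneg_left mu1 (by linarith : (0:ℝ) ≤ 2 * a.B0 + 1)
      linarith
    exact mul_le_mul f1 this (by positivity) pp.le
  have g2 : (2 * a.B0 + 1) * msh T.δ pk.RQ ≤ (2 * a.B0 + 1) * msh T.δ p' := mul_le_mul_of_nonneg_left f2 (by linarith)
  have g3 : 2 * (msh T.δ q1 * |T.nInc 1 0 u x.1 - T.nInc 1 0 u x'.1|) ≤ (20 * a.B0 + 11) * msh T.δ p' := by
    linarith
  have g4 : (20 * a.B0 + 11) * msh T.δ p' ≤ (20 * a.B0 + 11) * (4 * (msh T.δ q1 * msh T.δ s)) :=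
    mul_le_mul_of_nonneg_left f3 (by linarith)
  have g5 : msh T.δ q1 * |T.nInc 1 0 u x.1 - T.nInc 1 0 u x'.1| ≤ msh T.δ q1 * ((40 * a.B0 + 22) * msh T.δ s) := by
    linarith
  have g6 := le_of_mul_le_mul_left g5 pq
  refine g6.trans (mul_le_mul_of_nonneg_right ?_ ps.le)
  unfold itwC
  nlinarith [sq_nonneg a.B0, mul_nonneg hb0 (sq_nonneg a.B0)]

/-- LEAF W-G10 (the frozen scalar reads the normal mark increment; 05 l.1053-1062).  Same law, `s = p' - q0 - χ`.   With the LEG of W-G9 and `n = T.nInc 1 0 u` (a function of the marks):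
 `U0(F) = U0(R) - 2 A n + E`,  `E = (θ_{0,u} - θ_1) e2 - 2 (r_1 - r_{0,u}) e1`   (ring; `|E| ≤ 3 (2b + 1) m_R`).
Two support points with the same `𝒢` and the same `U0_{p'}` : `U0(R)` is common, so `|A n - A' n'| ≤ (6b + 4) m_{p'}`, `|A| |n - n'| ≤ (10 b + 6) m_{p'}` (`|n'| ≤ 2 (2b + 1)`, `|A - A'| ≤ m_K`).
Good event `|A| ≥ m_{q0 + χ}` : `|n - n'| ≤ 4 (10 b + 6) m_s`.    Always: `|n|, |n'| ≤ 2 (2b + 1) m_u`, list `≤ (16 b + 10) δ^{-(s - u)}`.   `it_wd_ent_bad`. -/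
theorem it_wd_rec (h : T.WH a pk τ κ0 acc) (p p' z χ : ℝ) (hpz : p ≤ z) (hz : z ≤ 2 * p) (hp' : p' ≤ pk.K) (hχ : 0 ≤ χ)
    (hs : 2 * p - z ≤ p' - (z - p) - χ) :
    (rep_two T.P (T.wB pk (z - p))).entC (fun x => T.wcl (p' - (z - p) - χ) (T.nInc 1 0 (2 * p - z)) x.1)
        (pair (fun x => T.wcl p' (T.wU0 (2 * p - z)) x.1) (T.wT pk (2 * p - z)))
      ≤ Real.log (itwC a.B0)
        + (rep_two T.P (T.wB pk (z - p))).pr (fun x => |(T.F x.1).X - (T.F x.2).X| < msh T.δ (z - p + χ))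
          * ((p' - p - χ) * T.L + Real.log (itwC a.B0)) + Real.log 2 := by
  have hδ0 := h.adm.t0.δ0
  have hδ1 := h.adm.t0.δ1
  have hb : 1 ≤ a.B0 := h.ha.2.2.2.2.2.2.2.2
  have hC := it_wd_aux_C hb
  have hC0 : 0 ≤ itwC a.B0 - 2 := by nlinarith
  have hu : 0 ≤ 2 * p - z := by linarith
  have hs0 : 0 ≤ p' - (z - p) - χ := by linarith
  have hmu := ig_msh_pos T.δ (2 * p - z)
  have hms := ig_msh_pos T.δ (p' - (z - p) - χ)
  have hg1 : 1 ≤ T.δ ^ (-(p' - p - χ)) := Real.one_le_rpow_of_pos_of_le_one_of_nonpos hδ0 hδ1.le (by linarith)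
  have hgood : (rep_two T.P (T.wB pk (z - p))).NVal (fun x => ¬ |(T.F x.1).X - (T.F x.2).X| < msh T.δ (z - p + χ))
      (fun x => T.wcl (p' - (z - p) - χ) (T.nInc 1 0 (2 * p - z)) x.1)
      (pair (fun x => T.wcl p' (T.wU0 (2 * p - z)) x.1) (T.wT pk (2 * p - z))) (itwC a.B0) := by
    have hnv := ltk_nval_close (rep_two T.P (T.wB pk (z - p))) (fun x => ¬ |(T.F x.1).X - (T.F x.2).X| < msh T.δ (z - p + χ))
      (pair (fun x => T.wcl p' (T.wU0 (2 * p - z)) x.1) (T.wT pk (2 * p - z)))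
      (fun x => T.nInc 1 0 (2 * p - z) x.1) (tlev T.δ (p' - (z - p) - χ)) (R := (itwC a.B0 - 2) * msh T.δ (p' - (z - p) - χ))
      (mul_nonneg hC0 hms.le) (fun x x' g g' hG _ hc => by
        simp only [FLaw.pair, Prod.mk.injEq, Tan.wcl] at hc
        exact it_wd_aux_rec_good h (z - p) (2 * p - z) p' (z - p + χ) (p' - (z - p) - χ) hu hp' (by linarith) hs0 (by linarith)
          x x' g g' hc.2 hc.1 hG)
    refine it_wd_g6_nval_mono hnv ?_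
    rw [mul_assoc, it_wd_g6_msh_pow]
    linarith
  have hall : (rep_two T.P (T.wB pk (z - p))).NVal (fun _ => True)
      (fun x => T.wcl (p' - (z - p) - χ) (T.nInc 1 0 (2 * p - z)) x.1)
      (pair (fun x => T.wcl p' (T.wU0 (2 * p - z)) x.1) (T.wT pk (2 * p - z))) (itwC a.B0 * T.δ ^ (-(p' - p - χ))) := by
    have hnv := ltk_nval_close (rep_two T.P (T.wB pk (z - p))) (fun _ => True)
      (pair (fun x => T.wcl p' (T.wU0 (2 * p - z)) x.1) (T.wT pk (2 * p - z)))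
      (fun x => T.nInc 1 0 (2 * p - z) x.1) (tlev T.δ (p' - (z - p) - χ)) (R := 4 * ((2 * a.B0 + 1) * msh T.δ (2 * p - z)))
      (by positivity) (fun x x' g g' _ _ hc => by
        simp only [FLaw.pair, Prod.mk.injEq] at hc
        exact it_wd_aux_rec_cap h (z - p) (2 * p - z) hu x x' g g' hc.2)
    refine it_wd_g6_nval_mono hnv ?_
    have e1 : msh T.δ (2 * p - z) * 2 ^ (tlev T.δ (p' - (z - p) - χ))
        = 2 ^ (tlev T.δ (p' - (z - p) - χ) - tlev T.δ (2 * p - z)) := by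
      rw [ig_msh_ratio T.δ (2 * p - z) (p' - (z - p) - χ) hδ0 hδ1 hs, mul_assoc, it_wd_g6_msh_pow, mul_one]
    have e2 := ig_ratio_le T.δ (2 * p - z) (p' - p - χ) hδ0 hδ1 (by linarith)
    rw [show 2 * p - z + (p' - p - χ) = p' - (z - p) - χ by ring] at e2
    have e3 : 4 * ((2 * a.B0 + 1) * msh T.δ (2 * p - z)) * 2 ^ (tlev T.δ (p' - (z - p) - χ))
        = 4 * (2 * a.B0 + 1) * (msh T.δ (2 * p - z) * 2 ^ (tlev T.δ (p' - (z - p) - χ))) := by ring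
    rw [e3, e1]
    have e4 : 4 * (2 * a.B0 + 1) * 2 ^ (tlev T.δ (p' - (z - p) - χ) - tlev T.δ (2 * p - z))
        ≤ 4 * (2 * a.B0 + 1) * (2 * T.δ ^ (-(p' - p - χ))) := mul_le_mul_of_nonneg_left e2 (by linarith)
    have e5 : (16 * a.B0 + 10) * T.δ ^ (-(p' - p - χ)) ≤ itwC a.B0 * T.δ ^ (-(p' - p - χ)) :=
      mul_le_mul_of_nonneg_right (by unfold itwC; nlinarith [sq_nonneg a.B0, mul_nonneg (by linarith : (0:ℝ) ≤ a.B0) (sq_nonneg a.B0)])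
        (by linarith)
    linarith
  have hC1 : 1 ≤ itwC a.B0 := by linarith
  have main := it_wd_ent_bad (rep_two T.P (T.wB pk (z - p))) (fun x => T.wcl (p' - (z - p) - χ) (T.nInc 1 0 (2 * p - z)) x.1)
    (pair (fun x => T.wcl p' (T.wU0 (2 * p - z)) x.1) (T.wT pk (2 * p - z)))
    (fun x => |(T.F x.1).X - (T.F x.2).X| < msh T.δ (z - p + χ)) hC1
    (by have := mul_le_mul hC1 hg1 zero_le_one (by linarith); linarith) hgood hall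
  rw [it_k_aux_log_cap hδ0 _ _ (by linarith)] at main
  exact main

/-! ## INFORMATION -/

theorem it_wd_aux_ci {Ω : Type} [Fintype Ω] (P : FLaw Ω) {ζ μ : Type} (Zs : Ω → ζ) (mrk : ℕ → Ω → μ) (M : ℕ) (hM : 2 ≤ M)
    (indep : ∀ (z : ζ) (x : Fin M → μ),
      P.pr (fun ω => Zs ω = z ∧ ∀ i : Fin M, mrk i ω = x i) * P.pr (fun ω => Zs ω = z) ^ M
        = P.pr (fun ω => Zs ω = z) * ∏ i : Fin M, P.pr (fun ω => Zs ω = z ∧ mrk i ω = x i)) :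
    P.CI (mrk 0) (mrk 1) Zs := by
  obtain ⟨m, rfl⟩ := Nat.exists_eq_add_of_le' hM
  intro u v z
  obtain ⟨π, hπ⟩ : ∃ π, π = P.pr (fun ω => Zs ω = z) := ⟨_, rfl⟩
  obtain ⟨S, hS⟩ : ∃ S : Finset μ, ∀ (i : Fin (m + 2)) ω, mrk i ω ∈ S :=
    ⟨(Finset.univ : Finset (Fin (m + 2) × Ω)).image (fun p => mrk p.1 p.2),
      fun i ω => Finset.mem_image.2 ⟨(i, ω), Finset.mem_univ _, rfl⟩⟩
  obtain ⟨t, ht⟩ : ∃ t : Fin (m + 2) → Finset μ, t = Fin.cons {u} (Fin.cons {v} (fun _ => S)) := ⟨_, rfl⟩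
  have ht0 : t 0 = {u} := by rw [ht]; rfl
  have ht1 : t 1 = {v} := by rw [ht]; rfl
  have ht2 : ∀ j : Fin m, t j.succ.succ = S := fun j => by rw [ht]; rfl
  have hsum := Finset.sum_congr (rfl : Fintype.piFinset t = _) (fun x _ => indep z x)
  have hps := Finset.prod_univ_sum t (fun (i : Fin (m + 2)) y => P.pr (fun ω => Zs ω = z ∧ mrk i ω = y))
  beta_reduce at hps
  rw [← Finset.sum_mul, ← Finset.mul_sum, ← hps, ← hπ] at hsum
  have hL : ∑ x ∈ Fintype.piFinset t, P.pr (fun ω => Zs ω = z ∧ ∀ i : Fin (m + 2), mrk i ω = x i)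
      = P.pr (fun ω => mrk 0 ω = u ∧ mrk 1 ω = v ∧ Zs ω = z) := by
    rw [ent_pr_sum_values P (fun ω => mrk 0 ω = u ∧ mrk 1 ω = v ∧ Zs ω = z) (fun ω (i : Fin (m + 2)) => mrk i ω)
      (Fintype.piFinset t) ?_]
    · refine Finset.sum_congr rfl fun x hx => ent_pr_congr P fun ω _ => ?_
      have hx0 : x 0 = u := by
        have := Fintype.mem_piFinset.1 hx 0
        rw [ht0] at this
        exact Finset.mem_singleton.1 this
      have hx1 : x 1 = v := by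
        have := Fintype.mem_piFinset.1 hx 1
        rw [ht1] at this
        exact Finset.mem_singleton.1 this
      constructor
      · rintro ⟨h1, h2⟩
        refine ⟨⟨?_, ?_, h1⟩, funext h2⟩
        · have := h2 0
          rw [hx0] at this
          exact this
        · have := h2 1
          rw [hx1] at this
          exact this
      · rintro ⟨⟨_, _, h1⟩, h2⟩
        exact ⟨h1, fun i => congrFun h2 i⟩
    · rintro ω _ ⟨h0, h1, _⟩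
      rw [Fintype.mem_piFinset]
      intro i
      refine Fin.cases ?_ (fun i => Fin.cases ?_ (fun j => ?_) i) i
      · rw [ht0]
        exact Finset.mem_singleton.2 h0
      · have e : (Fin.succ 0 : Fin (m + 2)) = 1 := rfl
        rw [e, ht1]
        exact Finset.mem_singleton.2 h1
      · rw [ht2]
        exact hS _ ω
  have hR : ∏ i : Fin (m + 2), ∑ y ∈ t i, P.pr (fun ω => Zs ω = z ∧ mrk i ω = y)
      = P.pr (fun ω => mrk 0 ω = u ∧ Zs ω = z) * (P.pr (fun ω => mrk 1 ω = v ∧ Zs ω = z) * π ^ m) := by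
    rw [Fin.prod_univ_succ, Fin.prod_univ_succ]
    have e : (Fin.succ 0 : Fin (m + 2)) = 1 := rfl
    rw [e, ht0, ht1, Finset.sum_singleton, Finset.sum_singleton]
    have e2 : ∀ j : Fin m, ∑ y ∈ t j.succ.succ, P.pr (fun ω => Zs ω = z ∧ mrk (j.succ.succ : Fin (m + 2)) ω = y) = π := by
      intro j
      rw [ht2, hπ]
      exact (ent_pr_sum_values P (fun ω => Zs ω = z) (mrk (j.succ.succ : Fin (m + 2))) S (fun ω _ _ => hS _ ω)).symm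
    rw [Finset.prod_congr rfl (fun j _ => e2 j), Finset.prod_const, Finset.card_univ, Fintype.card_fin]
    congr 1
    · exact ent_pr_congr P fun ω _ => and_comm
    · congr 1
      exact ent_pr_congr P fun ω _ => and_comm
  rw [hL, hR] at hsum
  rw [← hπ]
  by_cases h0 : π = 0
  · have h1 : P.pr (fun ω => mrk 0 ω = u ∧ Zs ω = z) ≤ π := by
      rw [hπ]
      exact ent_pr_mono P fun ω _ h => h.2
    have h2 : P.pr (fun ω => mrk 0 ω = u ∧ Zs ω = z) = 0 := le_antisymm (h0 ▸ h1) (ent_pr_nonneg _ _)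
    rw [h0, h2]
    ring
  · refine mul_right_cancel₀ (pow_ne_zero (m + 1) h0) ?_
    rw [pow_succ] at hsum ⊢
    rw [pow_succ] at hsum
    linarith

/-- LEAF W-I1.  Two records are conditionally independent given the side.   (`ent_ci_iff` : `P.CI U V Z ↔ P.miC U V Z = 0`.)   Sum `Adm0.indep` over the values of the records `2 ≤ i < M`
(finite: values taken on `Ω`); cells `Zs = z` of mass `0` are trivial; divide by `pr(Zs = z)^(M-2)`. -/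
theorem it_wd_ci01 (h : T.Adm0 a pk) (hM : 2 ≤ pk.M) : T.P.miC (T.mrk 0) (T.mrk 1) T.Zs = 0 := by
  rw [← ent_ci_iff]
  exact it_wd_aux_ci T.P T.Zs T.mrk pk.M hM h.indep

theorem it_wd_aux_num (e ε : ℝ) (he : 0 < e) (hε : 0 < ε) : ∃ acc0 : ℝ, 0 < acc0 ∧ 2 * acc0 ≤ e ∧
    ∀ (T : Tan) (acc : ℝ), 0 < T.δ → T.δ < acc → acc ≤ acc0 →
      Real.log 5 < e * T.L ∧ Real.exp (-(e * T.L)) + (acc * T.L + 1) / (e * T.L) + 2 * acc ≤ ε := by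
  obtain ⟨c, hc⟩ : ∃ c : ℝ, c = 4 / ε + 4 := ⟨_, rfl⟩
  refine ⟨min (min (e / 2) (ε * e / 4)) (min (ε / 8) (Real.exp (-(c / e)))),
    lt_min (lt_min (by positivity) (by positivity)) (lt_min (by positivity) (Real.exp_pos _)), ?_, ?_⟩
  · have := (min_le_left (min (e / 2) (ε * e / 4)) (min (ε / 8) (Real.exp (-(c / e))))).trans (min_le_left (e / 2) (ε * e / 4))
    linarith
  intro T acc h0 hδ hacc
  have a1 : acc ≤ ε * e / 4 := hacc.trans ((min_le_left _ _).trans (min_le_right _ _))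
  have a2 : acc ≤ ε / 8 := hacc.trans ((min_le_right _ _).trans (min_le_left _ _))
  have a3 : acc ≤ Real.exp (-(c / e)) := hacc.trans ((min_le_right _ _).trans (min_le_right _ _))
  have ht := it_cb_const_le T acc c e he h0 hδ a3
  obtain ⟨t, htd⟩ : ∃ t, t = e * T.L := ⟨_, rfl⟩
  rw [← htd] at ht ⊢
  have hε4 : 0 < 4 / ε := by positivity
  have ht0 : 0 < t := by linarith
  have hL : 0 < T.L := (mul_pos_iff_of_pos_left he).1 (htd ▸ ht0)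
  have l5 : Real.log 5 < 4 := by
    have := Real.log_lt_sub_one_of_pos (by norm_num : (0 : ℝ) < 5) (by norm_num)
    linarith
  refine ⟨by linarith, ?_⟩
  have b1 : 1 / t ≤ ε / 4 := by
    rw [div_le_iff₀ ht0]
    have h4 : 4 / ε ≤ t := by linarith
    rw [div_le_iff₀ hε] at h4
    linarith
  have b2 : Real.exp (-t) ≤ 1 / t := by
    rw [Real.exp_neg, ← one_div]
    exact one_div_le_one_div_of_le ht0 (by linarith [Real.add_one_le_exp t])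
  have b3 : (acc * T.L + 1) / t = acc / e + 1 / t := by
    rw [htd]
    field_simp
  have b4 : acc / e ≤ ε / 4 := by
    rw [div_le_iff₀ he]
    linarith
  rw [b3]
  linarith

theorem it_wd_aux_five (δ q : ℝ) : 3 * msh δ q * 2 ^ (tlev δ q) + 2 = 5 := by
  unfold msh
  field_simp
  norm_num

/-- LEAF W-I2 (time separation).   `ltk_sep` with `E` = the event, `U = T.thn 0 χ`, `V = T.mrk 1`, `Y = (Zs, θ_{0,0}, r_{0,rdep 0})` : on `E` the cell of `θ_0` is one of the 3 neighbours of the cell of `θ_1`;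
`I(U;V|Y) ≤ I(mrk 0; mrk 1 | Zs) = 0` (`it_wd_ci01`, `rep_miC_sub_of_ker`, `ent_miC_mono`);  `sur(U|Y) ≥ (d χ - acc) L` off `acc` = `AdmM.time` at `(0, χ)`.
Package `pk0 = ⟨2, χ, χ, 1, {0, χ}, ∅⟩`;  `t = t' = d χ L / 4`, `acc0` so small that `acc ≤ d χ / 4`, `log 3 < d χ L / 4`, `exp(-t) + 1/t' + acc ≤ ε`  (`L ≥ log (1/acc)` : `it_cb_L_ge`). -/
theorem it_wd_sepT (ha : a.Ok) (τ κ0 ε χ : ℝ) (hε : 0 < ε) (hχ : 0 < χ) :
    ItAt true false false a τ κ0 (fun T _ => T.P.pr (fun ω => |(T.mrk 0 ω).th - (T.mrk 1 ω).th| < msh T.δ χ) ≤ ε) := by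
  obtain ⟨-, hd0, -⟩ := ha
  obtain ⟨e, hed⟩ : ∃ e, e = a.d * χ / 4 := ⟨_, rfl⟩
  have he : 0 < e := by rw [hed]; positivity
  obtain ⟨acc0, hacc0, hacce, H⟩ := it_wd_aux_num e ε he hε
  refine ⟨⟨2, χ, χ, 1, {0, χ}, ∅⟩, acc0, ⟨one_pos, fun q hq => ?_⟩, hacc0,
    fun pk acc T hok hle hacc hacc' hquad hadm _ _ => ?_⟩
  · simp only [Finset.mem_insert, Finset.mem_singleton] at hq
    rcases hq with rfl | rfl
    · exact le_rfl
    · exact hχ.le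
  have h0 := hadm.t0.δ0
  have h1 := hadm.t0.δ1
  have hL := it_cb_L_pos T h0 h1
  obtain ⟨n1, n2⟩ := H T acc h0 hadm.small hacc'
  have g0 : (0 : ℝ) ∈ pk.G := hle.2.2.2.2 (by simp)
  have gχ : χ ∈ pk.G := hle.2.2.2.2 (by simp)
  have hM : 2 ≤ pk.M := hok.1
  have htime := hadm.tm.time 0 g0 χ gχ hχ
  obtain ⟨Y2, hY2⟩ : ∃ Y2, Y2 = pair (T.thn 0 0) (T.rn 0 (T.rdep a 0)) := ⟨_, rfl⟩
  rw [← hY2] at htime
  have hm := ig_msh_pos T.δ χ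
  have hE : T.P.NVal (fun ω => |(T.mrk 0 ω).th - (T.mrk 1 ω).th| < msh T.δ χ) (T.thn 0 χ)
      (pair (T.mrk 1) (pair T.Zs Y2)) 5 := by
    have h5 := ltk_nval_close T.P (fun ω => |(T.mrk 0 ω).th - (T.mrk 1 ω).th| < msh T.δ χ)
      (pair (T.mrk 1) (pair T.Zs Y2)) (fun ω => (T.mrk 0 ω).th) (tlev T.δ χ) (R := 3 * msh T.δ χ) (by positivity)
      (fun ω ω' _ _ e1 e2 hA => by
        have hA1 : T.mrk 1 ω = T.mrk 1 ω' := congrArg Prod.fst hA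
        rw [hA1] at e1
        have t1 := abs_sub_le (T.mrk 0 ω).th (T.mrk 1 ω').th (T.mrk 0 ω').th
        rw [abs_sub_comm (T.mrk 1 ω').th] at t1
        linarith)
    rw [it_wd_aux_five] at h5
    exact h5
  have hI : T.P.miC (T.thn 0 χ) (T.mrk 1) (pair T.Zs Y2) ≤ 0 := by
    have c0 := it_wd_ci01 hadm.t0 hM
    have c1 := rep_miC_sub_of_ker T.P (T.mrk 0) Y2 (T.mrk 1) T.Zs (fun ω ω' _ _ hx _ => by
      rw [hY2]
      simp only [FLaw.pair, Tan.thn, Tan.rn, hx])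
    have c2 := ent_miC_nonneg T.P Y2 (T.mrk 1) T.Zs
    have c3 : T.P.miC (T.thn 0 χ) (T.mrk 1) (pair Y2 T.Zs) ≤ T.P.miC (T.mrk 0) (T.mrk 1) (pair Y2 T.Zs) := by
      rw [ent_miC_comm T.P (T.thn 0 χ), ent_miC_comm T.P (T.mrk 0)]
      exact ent_miC_mono T.P _ _ _ _ fun ω ω' _ _ hx _ => by simp only [Tan.thn, hx]
    have c4 : T.P.miC (T.thn 0 χ) (T.mrk 1) (pair T.Zs Y2) = T.P.miC (T.thn 0 χ) (T.mrk 1) (pair Y2 T.Zs) :=
      it_k_aux_miC_congr T.P _ _ _ _ _ _ (fun _ _ => Iff.rfl) (fun _ _ => Iff.rfl) (fun ω ω' => by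
        simp only [FLaw.pair, Prod.mk.injEq]
        exact and_comm)
    linarith
  have heL : 0 < e * T.L := mul_pos he hL
  have hst : Real.log 5 + e * T.L + e * T.L < (a.d * (χ - 0) - acc) * T.L := by
    have k1 : acc * T.L ≤ e / 2 * T.L := mul_le_mul_of_nonneg_right (by linarith) hL.le
    have k2 : (a.d * (χ - 0) - acc) * T.L = 4 * (e * T.L) - acc * T.L := by rw [hed]; ring
    rw [k2]
    linarith
  have hsep := ltk_sep T.P _ (T.thn 0 χ) (T.mrk 1) (pair T.Zs Y2) (by norm_num) heL hE hI htime hst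
  have k3 : (0 + 1) / (e * T.L) ≤ (acc * T.L + 1) / (e * T.L) :=
    div_le_div_of_nonneg_right (by nlinarith) heL.le
  linarith

theorem it_wd_aux_Xn_nest (T : Tan) (h0 : 0 < T.δ) (h1 : T.δ < 1) {p q : ℝ} (hpq : p ≤ q) {ω ω' : T.Ω}
    (h : T.Xn q ω = T.Xn q ω') : T.Xn p ω = T.Xn p ω' :=
  it_k_aux_cell_nest h0 h1 hpq h

/-- LEAF W-I3 (angular budget of a fibre).  `H(X_{p'}|X_p,Q_i,C,Ξ) = H(X_{p'}|X_p,C) - I(X_{p'};(Q_i,Ξ)|X_p,C)`;   `I(X_{p'};D|X_p,C) ≤ I(X_{p'};D|C) ≤ I(X_K;D|C) ≤ acc L` (`rep_miC_sub_of_ker`, `ent_miC_mono`, `AdmI.fib`);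
`sur(X_{p'}|X_p,C) = sur(X_{p'}|C) - sur(X_p|C)` (nested; `ent_surC_chain`) `≥ (m (p'-p) - 2 acc) L` off `2 acc` (`AdmI.ang` at `p`, `p'`);  `ltk_ent_ge`  (if the constant is negative use `ent_entC_nonneg`). -/
theorem it_wd_ang (h : T.WH a pk τ κ0 acc) (i : ℕ) (hi : i < pk.M) (p p' : ℝ) (hp : p ∈ pk.G) (hp' : p' ∈ pk.G) (hpp : p ≤ p') :
    (a.m * (p' - p) - 3 * acc - 2 * acc * (p' - p)) * T.L ≤ T.P.entC (T.Xn p') (T.wG pk i p) := by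
  have h0 := h.adm.t0.δ0
  have h1 := h.adm.t0.δ1
  have hL : 0 < T.L := it_cb_L_pos T h0 h1
  have hacc := h.acc0
  obtain ⟨-, -, -, hm0, hm1, -⟩ := h.ha
  have hpK : p' ≤ pk.K := (h.ok.2.2.2.2.2.2 p' hp').2
  -- the information term
  have e1 := ent_miC_eq T.P (T.Xn p') (pair (T.Qn pk.RQ i) (T.Xi pk.M)) (pair (T.Xn p) T.Cs)
  have e2 : T.P.entC (T.Xn p') (pair (pair (T.Qn pk.RQ i) (T.Xi pk.M)) (pair (T.Xn p) T.Cs))
      = T.P.entC (T.Xn p') (T.wG pk i p) :=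
    ent_entC_congr T.P _ _ _ _ (fun ω ω' _ _ => by
      simp only [Tan.wG, Tan.Dd, FLaw.pair, Prod.mk.injEq]
      tauto) (fun _ _ _ _ _ => Iff.rfl)
  have e3 := rep_miC_sub_of_ker T.P (T.Xn p') (T.Xn p) (pair (T.Qn pk.RQ i) (T.Xi pk.M)) T.Cs
    (fun ω ω' _ _ hx _ => it_wd_aux_Xn_nest T h0 h1 hpp hx)
  have e4 := ent_miC_nonneg T.P (T.Xn p) (pair (T.Qn pk.RQ i) (T.Xi pk.M)) T.Cs
  have e5 : T.P.miC (T.Xn p') (pair (T.Qn pk.RQ i) (T.Xi pk.M)) T.Cs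
      ≤ T.P.miC (T.Xn pk.K) (pair (T.Qn pk.RQ i) (T.Xi pk.M)) T.Cs := by
    rw [ent_miC_comm T.P (T.Xn p'), ent_miC_comm T.P (T.Xn pk.K)]
    exact ent_miC_mono T.P _ _ _ _ fun ω ω' _ _ hx _ => it_wd_aux_Xn_nest T h0 h1 hpK hx
  have e6 := h.adm.ti.fib i hi
  have hI : T.P.entC (T.Xn p') (pair (T.Xn p) T.Cs) - acc * T.L ≤ T.P.entC (T.Xn p') (T.wG pk i p) := by
    rw [← e2]
    linarith
  by_cases hc : 0 ≤ (a.m * (p' - p) - 2 * acc) * T.L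
  · have hbad : T.P.pr (fun ω => T.P.surC (T.Xn p') (pair (T.Xn p) T.Cs) ω < (a.m * (p' - p) - 2 * acc) * T.L)
        ≤ 2 * acc := by
      have b1 := h.adm.ti.ang p hp
      have b2 := h.adm.ti.ang p' hp'
      have b3 := ent_pr_or_le T.P (fun ω => acc * T.L < |T.P.surC (T.Xn p) T.Cs ω - a.m * p * T.L|)
        (fun ω => acc * T.L < |T.P.surC (T.Xn p') T.Cs ω - a.m * p' * T.L|)
      refine le_trans (ent_pr_mono T.P fun ω hω hlt => ?_) (b3.trans (by linarith))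
      by_contra hcon
      rw [not_or, not_lt, not_lt] at hcon
      obtain ⟨c1, c2⟩ := hcon
      have d1 := (abs_le.1 c1).2
      have d2 := (abs_le.1 c2).1
      have d3 := ent_surC_swap T.P (T.Xn p') (T.Xn p) T.Cs hω
      have d4 := ent_surC_nonneg T.P (T.Xn p) (pair (T.Xn p') T.Cs) hω
      linarith
    have hge := ltk_ent_ge T.P (T.Xn p') (pair (T.Xn p) T.Cs) hc hbad
    have hΔ : 0 ≤ p' - p := by linarith
    have k1 : (a.m * (p' - p) - 2 * acc - 2 * acc * (p' - p)) * T.L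
        ≤ (a.m * (p' - p) - 2 * acc) * T.L * (1 - 2 * acc) := by
      have k2 : 0 ≤ acc * (p' - p) * (1 - a.m) := mul_nonneg (mul_nonneg hacc.le hΔ) (by linarith)
      have k3 : 0 ≤ (2 * (acc * (p' - p) * (1 - a.m)) + 4 * acc ^ 2) * T.L :=
        mul_nonneg (by positivity) hL.le
      linarith
    linarith
  · have hneg : (a.m * (p' - p) - 2 * acc) * T.L < 0 := not_le.1 hc
    have hΔ : 0 ≤ p' - p := by linarith
    have k1 : 0 ≤ (acc + 2 * acc * (p' - p)) * T.L := mul_nonneg (by positivity) hL.le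
    have k2 := ent_entC_nonneg T.P (T.Xn p') (T.wG pk i p)
    linarith

/-- LEAF W-I4 (05 l.1000-1012).  `I(X_K; ℬ | C, X_{q0}) = I(X_K;(Q_0,Ξ)|C,X_{q0}) = I(X_K;(Q_0,Ξ)|C) - I(X_{q0};(Q_0,Ξ)|C) ≤ acc L`  (`rep_miC_sub_of_ker`, `it_k_aux_miC_congr`-type congruences, `AdmI.fib`). -/
theorem it_wd_fibS (h : T.WH a pk τ κ0 acc) (q0 : ℝ) (hq0 : q0 ≤ pk.K) :
    T.P.miC (T.Xn pk.K) (T.wB pk q0) (pair T.Cs (T.Xn q0)) ≤ acc * T.L := by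
  have h0 := h.adm.t0.δ0
  have h1 := h.adm.t0.δ1
  have hM : 0 < pk.M := lt_of_lt_of_le (by norm_num) h.ok.1
  have e1 : T.P.miC (T.Xn pk.K) (T.wB pk q0) (pair T.Cs (T.Xn q0))
      ≤ T.P.miC (T.Xn pk.K) (pair (T.Qn pk.RQ 0) (T.Xi pk.M)) (pair T.Cs (T.Xn q0)) :=
    ent_miC_mono T.P _ _ _ _ fun ω ω' _ _ hy hz => by
      simp only [Tan.wB, Tan.Dd, FLaw.pair, Prod.mk.injEq] at hy hz ⊢
      tauto
  have e2 : T.P.miC (T.Xn pk.K) (pair (T.Qn pk.RQ 0) (T.Xi pk.M)) (pair T.Cs (T.Xn q0))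
      = T.P.miC (T.Xn pk.K) (pair (T.Qn pk.RQ 0) (T.Xi pk.M)) (pair (T.Xn q0) T.Cs) :=
    it_k_aux_miC_congr T.P _ _ _ _ _ _ (fun _ _ => Iff.rfl) (fun _ _ => Iff.rfl) (fun ω ω' => by
      simp only [FLaw.pair, Prod.mk.injEq]
      exact and_comm)
  have e3 := rep_miC_sub_of_ker T.P (T.Xn pk.K) (T.Xn q0) (pair (T.Qn pk.RQ 0) (T.Xi pk.M)) T.Cs
    (fun ω ω' _ _ hx _ => it_wd_aux_Xn_nest T h0 h1 hq0 hx)
  have e4 := ent_miC_nonneg T.P (T.Xn q0) (pair (T.Qn pk.RQ 0) (T.Xi pk.M)) T.Cs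
  have e6 := h.adm.ti.fib 0 hM
  linarith

theorem it_wd_aux_ang_sur (h : T.WH a pk τ κ0 acc) (p p' : ℝ) (hp : p ∈ pk.G) (hp' : p' ∈ pk.G) :
    T.P.pr (fun ω => T.P.surC (T.Xn p') (pair (T.Xn p) T.Cs) ω < (a.m * (p' - p) - 2 * acc) * T.L) ≤ 2 * acc := by
  have b1 := h.adm.ti.ang p hp
  have b2 := h.adm.ti.ang p' hp'
  have b3 := ent_pr_or_le T.P (fun ω => acc * T.L < |T.P.surC (T.Xn p) T.Cs ω - a.m * p * T.L|)
    (fun ω => acc * T.L < |T.P.surC (T.Xn p') T.Cs ω - a.m * p' * T.L|)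
  refine le_trans (ent_pr_mono T.P fun ω hω hlt => ?_) (b3.trans (by linarith))
  by_contra hcon
  rw [not_or, not_lt, not_lt] at hcon
  obtain ⟨c1, c2⟩ := hcon
  have d1 := (abs_le.1 c1).2
  have d2 := (abs_le.1 c2).1
  have d3 := ent_surC_swap T.P (T.Xn p') (T.Xn p) T.Cs hω
  have d4 := ent_surC_nonneg T.P (T.Xn p) (pair (T.Xn p') T.Cs) hω
  linarith

/-- LEAF W-I5 (separation of the resampled angle; needs `m > 0`).   `ltk_sep` on `P2 = rep_two T.P (T.wB pk q0)` with `E` = the event, `U = X_{q0+χ}(x.1)`, `V = X_{q0+χ}(x.2)`, `Y = (C, X_{q0})(x.1)` :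
3 neighbours;  `I_2(U;V|Y) ≤ I_P(X_{q0+χ}; ℬ | C, X_{q0}) ≤ acc L` (`it_wd_two_info`, `ent_miC_mono`, `it_wd_fibS`);   `sur_2(U|Y)(x) = sur_P(X_{q0+χ}|C,X_{q0})(x.1)` (`ent_map_surC`, `rep_two_map_fst`, `rep_two_pr_fst`)
`= sur(X_{q0+χ}|C) - sur(X_{q0}|C) ≥ (m χ - 2 acc) L` off `2 acc` (`AdmI.ang`).    Package `⟨2, q0+χ, q0+χ, 1, {q0, q0+χ}, ∅⟩`;  `t = t' = m χ L / 4`. -/
theorem it_wd_sepA (ha : a.Ok) (hm : 0 < a.m) (τ κ0 ε q0 χ : ℝ) (hε : 0 < ε) (hq0 : 0 ≤ q0) (hχ : 0 < χ) :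
    ItAt true false false a τ κ0 (fun T pk =>
      (rep_two T.P (T.wB pk q0)).pr (fun x => |(T.F x.1).X - (T.F x.2).X| < msh T.δ (q0 + χ)) ≤ ε) := by
  obtain ⟨e, hed⟩ : ∃ e, e = a.m * χ / 4 := ⟨_, rfl⟩
  have he : 0 < e := by rw [hed]; positivity
  obtain ⟨acc0, hacc0, hacce, H⟩ := it_wd_aux_num e ε he hε
  refine ⟨⟨2, q0 + χ, q0 + χ, 1, {q0, q0 + χ}, ∅⟩, acc0, ⟨one_pos, fun q hq => ?_⟩, hacc0,
    fun pk acc T hok hle hacc hacc' hquad hadm _ _ => ?_⟩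
  · simp only [Finset.mem_insert, Finset.mem_singleton] at hq
    rcases hq with rfl | rfl
    · exact hq0
    · linarith
  have hW : T.WH a pk τ κ0 acc := ⟨ha, hok, hquad, hadm, hacc⟩
  have h0 := hadm.t0.δ0
  have h1 := hadm.t0.δ1
  have hL := it_cb_L_pos T h0 h1
  obtain ⟨n1, n2⟩ := H T acc h0 hadm.small hacc'
  have g0 : q0 ∈ pk.G := hle.2.2.2.2 (by simp)
  have gχ : q0 + χ ∈ pk.G := hle.2.2.2.2 (by simp)
  have hK : q0 + χ ≤ pk.K := hle.2.1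
  have hmp := ig_msh_pos T.δ (q0 + χ)
  obtain ⟨P2, hP2⟩ : ∃ P2, P2 = rep_two T.P (T.wB pk q0) := ⟨_, rfl⟩
  beta_reduce
  rw [← hP2]
  have hE : P2.NVal (fun x => |(T.F x.1).X - (T.F x.2).X| < msh T.δ (q0 + χ)) (fun x => T.Xn (q0 + χ) x.1)
      (pair (fun x => T.Xn (q0 + χ) x.2) (fun x => pair (T.Xn q0) T.Cs x.1)) 5 := by
    have h5 := ltk_nval_close P2 (fun x => |(T.F x.1).X - (T.F x.2).X| < msh T.δ (q0 + χ))
      (pair (fun x => T.Xn (q0 + χ) x.2) (fun x => pair (T.Xn q0) T.Cs x.1)) (fun x => (T.F x.1).X) (tlev T.δ (q0 + χ))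
      (R := 3 * msh T.δ (q0 + χ)) (by positivity)
      (fun x x' _ _ e1 e2 hA => by
        have hA1 : T.Xn (q0 + χ) x.2 = T.Xn (q0 + χ) x'.2 := congrArg Prod.fst hA
        have hd : |(T.F x.2).X - (T.F x'.2).X| ≤ msh T.δ (q0 + χ) := it_k_aux_cell_dist hA1
        have t1 := abs_sub_le (T.F x.1).X (T.F x.2).X (T.F x'.1).X
        have t2 := abs_sub_le (T.F x.2).X (T.F x'.2).X (T.F x'.1).X
        rw [abs_sub_comm (T.F x'.2).X] at t2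
        linarith)
    rw [it_wd_aux_five] at h5
    exact h5
  have hI : P2.miC (fun x => T.Xn (q0 + χ) x.1) (fun x => T.Xn (q0 + χ) x.2) (fun x => pair (T.Xn q0) T.Cs x.1)
      ≤ acc * T.L := by
    have c0 := it_wd_two_info T.P (T.wB pk q0) (T.Xn (q0 + χ)) (T.Xn (q0 + χ)) (pair (T.Xn q0) T.Cs)
      (fun ω ω' hb => by
        simp only [Tan.wB, Tan.Dd, FLaw.pair, Prod.mk.injEq] at hb ⊢
        tauto)
    rw [← hP2] at c0
    have c1 : T.P.miC (T.Xn (q0 + χ)) (T.wB pk q0) (pair (T.Xn q0) T.Cs)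
        = T.P.miC (T.Xn (q0 + χ)) (T.wB pk q0) (pair T.Cs (T.Xn q0)) :=
      it_k_aux_miC_congr T.P _ _ _ _ _ _ (fun _ _ => Iff.rfl) (fun _ _ => Iff.rfl) (fun ω ω' => by
        simp only [FLaw.pair, Prod.mk.injEq]
        exact and_comm)
    have c2 : T.P.miC (T.Xn (q0 + χ)) (T.wB pk q0) (pair T.Cs (T.Xn q0))
        ≤ T.P.miC (T.Xn pk.K) (T.wB pk q0) (pair T.Cs (T.Xn q0)) := by
      rw [ent_miC_comm T.P (T.Xn (q0 + χ)), ent_miC_comm T.P (T.Xn pk.K)]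
      exact ent_miC_mono T.P _ _ _ _ fun ω ω' _ _ hx _ => it_wd_aux_Xn_nest T h0 h1 hK hx
    have c3 := it_wd_fibS hW q0 (by linarith)
    linarith
  have hs : P2.pr (fun x => P2.surC (fun x => T.Xn (q0 + χ) x.1) (fun x => pair (T.Xn q0) T.Cs x.1) x
      < (a.m * (q0 + χ - q0) - 2 * acc) * T.L) ≤ 2 * acc := by
    have s1 : ∀ x : T.Ω × T.Ω, P2.surC (fun x => T.Xn (q0 + χ) x.1) (fun x => pair (T.Xn q0) T.Cs x.1) x
        = T.P.surC (T.Xn (q0 + χ)) (pair (T.Xn q0) T.Cs) x.1 := by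
      intro x
      have s2 := ent_map_surC P2 Prod.fst (T.Xn (q0 + χ)) (pair (T.Xn q0) T.Cs) x
      rw [hP2, rep_two_map_fst] at s2
      rw [hP2]
      exact s2.symm
    simp only [s1]
    rw [hP2, rep_two_pr_fst T.P (T.wB pk q0)
      (fun ω => T.P.surC (T.Xn (q0 + χ)) (pair (T.Xn q0) T.Cs) ω < (a.m * (q0 + χ - q0) - 2 * acc) * T.L)]
    exact it_wd_aux_ang_sur hW q0 (q0 + χ) g0 gχ
  have heL : 0 < e * T.L := mul_pos he hL
  have hst : Real.log 5 + e * T.L + e * T.L < (a.m * (q0 + χ - q0) - 2 * acc) * T.L := by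
    have k1 : 2 * acc * T.L ≤ e * T.L := mul_le_mul_of_nonneg_right (by linarith) hL.le
    have k2 : (a.m * (q0 + χ - q0) - 2 * acc) * T.L = 4 * (e * T.L) - 2 * acc * T.L := by rw [hed]; ring
    rw [k2]
    linarith
  have hsep := ltk_sep P2 _ _ _ _ (by norm_num) heL hE hI hs hst
  linarith

end Claimed.Agent.R256
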