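import Claimed.Agent.R256.Int.Comb
import Claimed.Agent.R255.Rep.Kit

/-!
# Row 256, Sec. 5, block WEDGE (Prop. int:horizontal-width), file 1: KIT      (architect helper49; prefix `it_wd_`; NOT `it_w_` = Kit2/Meta of helper196)

DESIGN OF THE BLOCK.  Both exits (`it_e_weak`, `it_e_q`) are statements on ENTROPIES, so the whole block is done with Shannon inequalities (expected form):
no score tests, no lists of low score, no random rates.  The fibres of `Q_i` are exact polynomial curves and `W_0 = B + θ_0 X`, `U` (int:normal-horizontal) are exact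
functions of `(Q_i, 𝒟)`, so the two angular modes need NO microlayers: one step `p → p'` of any length with `z / 2 ≤ p < p' ≤ z`.   Only the Kaufman term needs Whitney layers.
 A. `ItAt` = innermost block of the patterns `ItLayer` / `ItDepth`, combinators.
 B. paper-free entropy tools on `FLaw` (R255/Ent, R255/Rep/Kit `rep_two`, R256/LT/Kit `ltk_*`).
-/

set_option autoImplicit false

namespace Claimed.Agent.R256

open Claimed.Agent.R255
open Claimed.Agent.R255.FLaw (pair)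
open scoped BigOperators
open Classical

/-! ## A. the innermost block of the patterns -/

/-- the innermost block of `ItLayer`, `ItDepth` : `Φ T pk` holds at sufficient accuracy for every sufficiently rich package -/
def ItAt (quad av cr : Bool) (a : ItPar) (τ κ0 : ℝ) (Φ : Tan → ItPk → Prop) : Prop :=
  ∃ (pk0 : ItPk) (acc0 : ℝ), pk0.Pre ∧ 0 < acc0 ∧ ∀ (pk : ItPk) (acc : ℝ) (T : Tan), pk.Ok → pk0.le pk → 0 < acc → acc ≤ acc0 →
    T.quad = quad → T.Adm a pk τ κ0 acc → (av = true → T.Avoid a pk acc) → (cr = true → T.Cross pk acc) → Φ T pk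

/-- the standing hypotheses of the block -/
structure Tan.WH (T : Tan) (a : ItPar) (pk : ItPk) (τ κ0 acc : ℝ) : Prop where
  ha : a.Ok
  ok : pk.Ok
  quad : T.quad = true
  adm : T.Adm a pk τ κ0 acc
  acc0 : 0 < acc

theorem it_wd_kit_eqns_cite : True := by
  have := @ItAt.eq_1
  trivial

theorem it_wd_depth_iff (quad av cr : Bool) (a : ItPar) (Φ : Tan → ItPk → ℝ → ℝ → Prop) :
    ItDepth quad av cr a Φ ↔ ∀ η : ℝ, 0 < η → ∃ τ : ℝ, 0 < τ ∧ ∀ κ0 : ℝ, 0 < κ0 → ∀ l : ℝ, 0 < l →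
      ItAt quad av cr a τ κ0 (fun T pk => Φ T pk l η) := Iff.rfl

theorem it_wd_layer_iff (quad av cr : Bool) (a : ItPar) (Φ : Tan → ItPk → ℝ → ℝ → ℝ → Prop) :
    ItLayer quad av cr a Φ ↔ ∀ η : ℝ, 0 < η → ∃ τ : ℝ, 0 < τ ∧ ∀ κ0 : ℝ, 0 < κ0 → ∃ κ1 : ℝ, 0 < κ1 ∧
      ∀ p q : ℝ, 0 < p → p < q → q ≤ (1 + κ1) * p → ItAt quad av cr a τ κ0 (fun T pk => Φ T pk p q η) := Iff.rfl

section At
variable {quad av cr : Bool} {a : ItPar} {τ κ0 : ℝ}

theorem it_wd_at_mono {Φ1 Φ2 : Tan → ItPk → Prop} (h : ItAt quad av cr a τ κ0 Φ1) (himp : ∀ T pk, Φ1 T pk → Φ2 T pk) :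
    ItAt quad av cr a τ κ0 Φ2 := by
  obtain ⟨pk0, acc0, h1, h2, H⟩ := h
  exact ⟨pk0, acc0, h1, h2, fun pk acc T g1 g2 g3 g4 g5 g6 g7 g8 => himp T pk (H pk acc T g1 g2 g3 g4 g5 g6 g7 g8)⟩

theorem it_wd_at_and {Φ1 Φ2 : Tan → ItPk → Prop} (h1 : ItAt quad av cr a τ κ0 Φ1) (h2 : ItAt quad av cr a τ κ0 Φ2) :
    ItAt quad av cr a τ κ0 (fun T pk => Φ1 T pk ∧ Φ2 T pk) := by
  obtain ⟨pk1, acc1, hpre1, hacc1, H1⟩ := h1
  obtain ⟨pk2, acc2, hpre2, hacc2, H2⟩ := h2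
  refine ⟨pk1.sup pk2, min acc1 acc2, it_cb_sup_pre hpre1 hpre2, lt_min hacc1 hacc2, fun pk acc T g1 g2 g3 g4 g5 g6 g7 g8 => ⟨?_, ?_⟩⟩
  · exact H1 pk acc T g1 (it_cb_sup_left g2) g3 (g4.trans (min_le_left _ _)) g5 g6 g7 g8
  · exact H2 pk acc T g1 (it_cb_sup_right g2) g3 (g4.trans (min_le_right _ _)) g5 g6 g7 g8

theorem it_wd_at_mp {Φ1 Φ2 : Tan → ItPk → Prop} (h1 : ItAt quad av cr a τ κ0 Φ1)
    (h2 : ItAt quad av cr a τ κ0 (fun T pk => Φ1 T pk → Φ2 T pk)) : ItAt quad av cr a τ κ0 Φ2 :=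
  it_wd_at_mono (it_wd_at_and h1 h2) fun _ _ h => h.2 h.1

theorem it_wd_at_true : ItAt quad av cr a τ κ0 (fun _ _ => True) :=
  ⟨itPk0 0 1, 1, it_cb_pk0_pre 0 1 one_pos, one_pos, fun _ _ _ _ _ _ _ _ _ _ _ => trivial⟩

/-- finitely many statements -/
theorem it_wd_at_all (n : ℕ) (Φ : ℕ → Tan → ItPk → Prop) (h : ∀ k < n, ItAt quad av cr a τ κ0 (Φ k)) :
    ItAt quad av cr a τ κ0 (fun T pk => ∀ k < n, Φ k T pk) := by
  induction n with
  | zero => exact it_wd_at_mono it_wd_at_true fun _ _ _ k hk => absurd hk (Nat.not_lt_zero k)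
  | succ n ih =>
    refine it_wd_at_mono (it_wd_at_and (ih fun k hk => h k (Nat.lt_succ_of_lt hk)) (h n (Nat.lt_succ_self n))) ?_
    intro T pk hh k hk
    rcases Nat.lt_succ_iff_lt_or_eq.1 hk with h1 | h1
    · exact hh.1 k h1
    · exact h1 ▸ hh.2

/-- more separation hypotheses may be granted -/
theorem it_wd_at_flags {av' cr' : Bool} {Φ : Tan → ItPk → Prop} (hav : av = true → av' = true) (hcr : cr = true → cr' = true)
    (h : ItAt quad av cr a τ κ0 Φ) : ItAt quad av' cr' a τ κ0 Φ := by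
  obtain ⟨pk0, acc0, hpre, hacc0, H⟩ := h
  exact ⟨pk0, acc0, hpre, hacc0, fun pk acc T h1 h2 h3 h4 h5 h6 h7 h8 =>
    H pk acc T h1 h2 h3 h4 h5 h6 (fun e => h7 (hav e)) (fun e => h8 (hcr e))⟩

/-- the raw hypotheses, with any requirement on the package and the accuracy -/
theorem it_wd_at_raw (ha : a.Ok) (pk0 : ItPk) (hpre : pk0.Pre) (acc0 : ℝ) (h0 : 0 < acc0) :
    ItAt true av cr a τ κ0 (fun T pk => ∃ acc, T.WH a pk τ κ0 acc ∧ pk0.le pk ∧ acc ≤ acc0) :=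
  ⟨pk0, acc0, hpre, h0, fun pk acc _ g1 g2 g3 g4 g5 g6 _ _ => ⟨acc, ⟨ha, g1, g5, g6, g3⟩, g2, g4⟩⟩

end At

/-! ## B. entropy tools (paper free) -/

section Ent
variable {Ω : Type} [Fintype Ω] {α β γ φ ξ ξ' ζ ν σ : Type}

/-- `H(A|D) - H(B|D) = H(A|B,D) - H(B|A,D)` -/
theorem it_wd_diff (P : FLaw Ω) (A : Ω → α) (B : Ω → β) (D : Ω → γ) :
    P.entC A D - P.entC B D = P.entC A (pair B D) - P.entC B (pair A D) := by
  have h1 := ent_entC_chain P A B D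
  have h2 := ent_entC_chain P B A D
  have h3 : P.entC (pair A B) D = P.entC (pair B A) D :=
    ent_entC_congr P _ _ _ _ (fun _ _ _ _ => Iff.rfl) (fun ω ω' _ _ _ => by
      simp only [FLaw.pair, Prod.mk.injEq]
      exact and_comm)
  linarith

/-- `H(V|A,D) ≥ H(V|E,D) - H(A|E,D)` -/
theorem it_wd_drop (P : FLaw Ω) (V : Ω → α) (A : Ω → β) (D : Ω → γ) (E : Ω → φ) :
    P.entC V (pair E D) - P.entC A (pair E D) ≤ P.entC V (pair A D) := by
  have h1 := rep_entC_change P V (pair A D) (pair E D)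
  have h2 : P.entC (pair A D) (pair E D) = P.entC A (pair E D) :=
    ent_entC_congr P _ _ _ _ (fun _ _ _ _ => Iff.rfl) (fun ω ω' _ _ h => by
      simp only [FLaw.pair, Prod.mk.injEq] at h ⊢
      exact ⟨fun h' => h'.1, fun h' => ⟨h', h.2⟩⟩)
  linarith

/-- `H(A|Y) ≤ H(B|Y) + H(A|B,Y)` -/
theorem it_wd_via (P : FLaw Ω) (A : Ω → α) (B : Ω → β) (Y : Ω → γ) :
    P.entC A Y ≤ P.entC B Y + P.entC A (pair B Y) := by
  have h1 := ent_entC_chain P B A Y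
  have h2 : P.entC A Y ≤ P.entC (pair B A) Y :=
    ent_entC_mono P (pair B A) A Y fun ω ω' _ _ h _ => (Prod.ext_iff.1 h).2
  linarith

/-- conditional information only depends on the partitions on the support -/
theorem it_wd_miC_congr (P : FLaw Ω) {α' β' γ' : Type} (X : Ω → α) (X' : Ω → α') (Y : Ω → β) (Y' : Ω → β') (Z : Ω → γ) (Z' : Ω → γ')
    (hX : ∀ ω ω', P.p ω ≠ 0 → P.p ω' ≠ 0 → (X ω = X ω' ↔ X' ω = X' ω'))
    (hY : ∀ ω ω', P.p ω ≠ 0 → P.p ω' ≠ 0 → (Y ω = Y ω' ↔ Y' ω = Y' ω'))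
    (hZ : ∀ ω ω', P.p ω ≠ 0 → P.p ω' ≠ 0 → (Z ω = Z ω' ↔ Z' ω = Z' ω')) :
    P.miC X Y Z = P.miC X' Y' Z' := by
  unfold FLaw.miC
  rw [ent_congr_ker P (pair X Z) (pair X' Z') fun ω ω' h h' => by simp only [FLaw.pair, Prod.mk.injEq, hX ω ω' h h', hZ ω ω' h h'],
    ent_congr_ker P (pair Y Z) (pair Y' Z') fun ω ω' h h' => by simp only [FLaw.pair, Prod.mk.injEq, hY ω ω' h h', hZ ω ω' h h'],
    ent_congr_ker P (pair (pair X Y) Z) (pair (pair X' Y') Z') fun ω ω' h h' => by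
      simp only [FLaw.pair, Prod.mk.injEq, hX ω ω' h h', hY ω ω' h h', hZ ω ω' h h'],
    ent_congr_ker P Z Z' hZ]

/-- LEAF W-K1.  List bound off a bad event, capacity on it.  (Adjoin the indicator of `Bad`: `H(B|A) ≤ H(1_Bad) + H(B | 1_Bad, A)`, average over the two cells:
copy the proof of `it_k_aux_ent_us` in Int/Kit.lean, with `ent_entC_pair_eq_avg`, `ent_ev_le_of_bad`, `ent_entC_le_log_nval` on `P.cfib Bad ω`.) -/
theorem it_wd_ent_bad (P : FLaw Ω) (B : Ω → β) (A : Ω → α) (Bad : Ω → Prop) {Ng Nb : ℝ} (hg1 : 1 ≤ Ng) (hb1 : 1 ≤ Nb)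
    (hg : P.NVal (fun ω => ¬ Bad ω) B A Ng) (hb : P.NVal (fun _ => True) B A Nb) :
    P.entC B A ≤ Real.log Ng + P.pr Bad * Real.log Nb + Real.log 2 := by
  have hlogN := Real.log_nonneg hb1
  have hlogG := Real.log_nonneg hg1
  have s1 : P.entC B A ≤ P.entC (pair Bad B) A :=
    ent_entC_mono P (pair Bad B) B A fun ω ω' _ _ h _ => (Prod.ext_iff.1 h).2
  have s2 := ent_entC_chain P Bad B A
  have s3 : P.entC Bad A ≤ Real.log 2 := (ent_entC_le P Bad A).trans (ent_prop_le P Bad)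
  have s4 : P.entC B (pair Bad A) = P.entC B (pair A Bad) := by
    refine ent_entC_congr P B B _ _ (fun ω ω' _ _ => ?_) fun _ _ _ _ _ => Iff.rfl
    simp only [FLaw.pair, Prod.mk.injEq]
    exact and_comm
  have s5 := ent_entC_pair_eq_avg P B A Bad
  have s6 : P.ev (fun ω => (P.cfib Bad ω).entC B A) ≤ Real.log Ng * (1 - P.pr Bad) + Real.log Nb * P.pr Bad := by
    refine ent_ev_le_of_bad P Bad (fun ω hω hex => ?_) (fun ω hω hex => ?_)
    · have hpos : 0 < P.pr (fun ω'' => Bad ω'' = Bad ω) := ent_fib_pos P Bad hω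
      exact ent_entC_le_log_nval (P.cfib Bad ω) B A (fun ω₀ => by
        obtain ⟨S', hS'c, hS'⟩ := hg ω₀
        refine ⟨S', hS'c, fun ω' hω' _ hA => ?_⟩
        have hsup := (ent_cnd_supp P (fun ω'' => Bad ω'' = Bad ω) hpos).1 hω'
        exact hS' ω' hsup.2 (by show ¬ Bad ω'; rw [hsup.1]; exact hex) hA)
    · have hpos : 0 < P.pr (fun ω'' => Bad ω'' = Bad ω) := ent_fib_pos P Bad hω
      exact ent_entC_le_log_nval (P.cfib Bad ω) B A (fun ω₀ => by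
        obtain ⟨S', hS'c, hS'⟩ := hb ω₀
        refine ⟨S', hS'c, fun ω' hω' _ hA => ?_⟩
        have hsup := (ent_cnd_supp P (fun ω'' => Bad ω'' = Bad ω) hpos).1 hω'
        exact hS' ω' hsup.2 trivial hA)
  have hpr0 := ent_pr_nonneg P Bad
  have s7 : Real.log Ng * (1 - P.pr Bad) ≤ Real.log Ng := by nlinarith
  linarith

/-- LEAF W-K2.  REMOVAL OF A FINE RECORD.  `g` is a function of `Xi`.
`H(V|B,C,Ξ) = H(V|B,C,g) - I(V;Ξ|B,C,g)`;  `I(V;Ξ|B,C,g) ≤ I((V,B);Ξ|C,g)` (`ent_miC_chain`)  `≤ I(Fk;Ξ|C,g) + H((V,B)|Fk,C,g)` (`rep_miC_determination`, `ent_miC_comm`);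
`I(Fk;Ξ|C,g) ≤ I(Fk;Ξ|C)` (`rep_miC_sub_of_ker`, `ent_miC_nonneg`). -/
theorem it_wd_remove (P : FLaw Ω) (V : Ω → α) (B : Ω → β) (Fk : Ω → φ) (C : Ω → γ) (Xi : Ω → ξ) (g : Ω → ξ')
    (hg : ∀ ω ω', Xi ω = Xi ω' → g ω = g ω') :
    P.entC V (pair B (pair C g)) - P.miC Fk Xi C - P.entC (pair V B) (pair Fk (pair C g)) ≤ P.entC V (pair B (pair C Xi)) := by
  have a1 := ent_miC_eq P V Xi (pair B (pair C g))
  have a2 : P.entC V (pair Xi (pair B (pair C g))) = P.entC V (pair B (pair C Xi)) := by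
    refine ent_entC_congr P V V _ _ (fun ω ω' _ _ => ?_) fun _ _ _ _ _ => Iff.rfl
    simp only [FLaw.pair, Prod.mk.injEq]
    exact ⟨fun h => ⟨h.2.1, h.2.2.1, h.1⟩, fun h => ⟨h.2.2, h.1, h.2.1, hg _ _ h.2.2⟩⟩
  have a3 := ent_miC_chain P Xi V B (pair C g)
  have a4 := ent_miC_nonneg P Xi B (pair C g)
  have a5 := ent_miC_comm P V Xi (pair B (pair C g))
  have a6 := rep_miC_determination P Xi Fk (pair V B) (pair C g)
  have a7 := rep_miC_sub_of_ker P Xi g Fk C (fun ω ω' _ _ h _ => hg ω ω' h)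
  have a8 := ent_miC_nonneg P g Fk C
  have a9 : P.miC Xi Fk (pair g C) = P.miC Xi Fk (pair C g) :=
    it_wd_miC_congr P _ _ _ _ _ _ (fun _ _ _ _ => Iff.rfl) (fun _ _ _ _ => Iff.rfl) (fun ω ω' _ _ => by
      simp only [FLaw.pair, Prod.mk.injEq]
      exact and_comm)
  have a10 := ent_miC_comm P Fk Xi C
  linarith

/-- LEAF W-K3.  Information between the two copies passes through the shared label.  `Y` is a function of `Bc`.
`I(U1;V2|Y1) ≤ I(U1;(V2,Bc1)|Y1) = I(U1;Bc1|Y1) + I(U1;V2|Bc1,Y1)`, the last term is `I(U1;V2|Bc1) = 0` (`rep_two_ci`), the first is `I_P(U;Bc|Y)` (`ent_map_miC`, `rep_two_map_fst`). -/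
theorem it_wd_two_info (P : FLaw Ω) (Bc : Ω → β) (U : Ω → α) (V : Ω → γ) (Y : Ω → σ)
    (hY : ∀ ω ω', Bc ω = Bc ω' → Y ω = Y ω') :
    (rep_two P Bc).miC (fun x => U x.1) (fun x => V x.2) (fun x => Y x.1) ≤ P.miC U Bc Y := by
  have a1 : (rep_two P Bc).miC (fun x => U x.1) (fun x => V x.2) (fun x => Y x.1)
      ≤ (rep_two P Bc).miC (fun x => U x.1) (pair (fun x => V x.2) (fun x => Bc x.1)) (fun x => Y x.1) :=
    ent_miC_mono _ _ _ _ _ fun ω ω' _ _ h _ => (Prod.ext_iff.1 h).1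
  have a2 := ent_miC_chain (rep_two P Bc) (fun x => U x.1) (fun x => V x.2) (fun x => Bc x.1) (fun x => Y x.1)
  have a3 : (rep_two P Bc).miC (fun x => U x.1) (fun x => V x.2) (pair (fun x => Bc x.1) (fun x => Y x.1))
      = (rep_two P Bc).miC (fun x => U x.1) (fun x => V x.2) (fun x => Bc x.1) :=
    it_wd_miC_congr _ _ _ _ _ _ _ (fun _ _ _ _ => Iff.rfl) (fun _ _ _ _ => Iff.rfl) (fun ω ω' _ _ => by
      simp only [FLaw.pair, Prod.mk.injEq]
      exact ⟨fun h => h.1, fun h => ⟨h, hY _ _ h⟩⟩)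
  have a4 := rep_two_ci P Bc U V
  have a5 := ent_map_miC (rep_two P Bc) Prod.fst U Bc Y
  rw [rep_two_map_fst] at a5
  linarith

/-- LEAF W-K4.  THE RESAMPLING INEQUALITY (05 l.1010-1100 in expected form).  `P2 = rep_two P Bc`, target `x.1`, resampled side `x.2`; `𝒢 = (Dm(x.1), Zr(x.2), Xf(x.1))`.
 `H_P(V|H,Dm) = H_2(V1|H1,Dm1) ≥ H_2(V1|H1,𝒢) ≥ H_2(V1|𝒢) - H_2(H1|𝒢)`  and  `H_2(N1|𝒢) ≤ H_2(V1|𝒢) + H_2(N1|V1,𝒢)`   (`it_wd_via`);
 on the support `N1 = N2`, `Dm1 = Dm2`, so `H_2(N1|𝒢) = H_2(N2|Dm2,Zr2,Xf1) = H_2(N2|Dm2,Zr2) - I_2(N2;Xf1|Dm2,Zr2)`, `H_2(N2|Dm2,Zr2) = H_P(N|Dm,Zr)` (`rep_two_map_snd`);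
 `I_2(N2;Xf1|Dm2,Zr2) ≤ I_2((N2,Dm2,Zr2);Xf1|S2)` (chain rule, `S` is a function of `Zr`)  `≤ I_P(Xf;Bc|S)` (`it_wd_two_info`, `ent_miC_comm`, `S1 = S2` on the support). -/
theorem it_wd_resample (P : FLaw Ω) {η' δ' : Type} (Bc : Ω → β) (V : Ω → α) (H : Ω → η') (Dm : Ω → δ') (Xf : Ω → ξ) (Zr : Ω → ζ)
    (N : Ω → ν) (S : Ω → σ)
    (hDm : ∀ ω ω', Bc ω = Bc ω' → Dm ω = Dm ω') (hN : ∀ ω ω', Bc ω = Bc ω' → N ω = N ω')
    (hS : ∀ ω ω', Bc ω = Bc ω' → S ω = S ω') (hSZ : ∀ ω ω', Zr ω = Zr ω' → S ω = S ω') :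
    P.entC N (pair Dm Zr) - P.miC Xf Bc S
      - (rep_two P Bc).entC (fun x => H x.1) (pair (fun x => Dm x.1) (pair (fun x => Zr x.2) (fun x => Xf x.1)))
      - (rep_two P Bc).entC (fun x => N x.1)
          (pair (fun x => V x.1) (pair (fun x => Dm x.1) (pair (fun x => Zr x.2) (fun x => Xf x.1))))
      ≤ P.entC V (pair H Dm) := by
  have hsup : ∀ x, (rep_two P Bc).p x ≠ 0 → Bc x.1 = Bc x.2 := fun x hx => ((rep_two_supp P Bc x).1 hx).2.2
  -- (a)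
  have a := ent_map_entC (rep_two P Bc) Prod.fst V (pair H Dm)
  rw [rep_two_map_fst] at a
  -- (b)
  have b : (rep_two P Bc).entC (fun x => V x.1) (pair (fun x => H x.1) (pair (fun x => Dm x.1) (pair (fun x => Zr x.2) (fun x => Xf x.1))))
      ≤ (rep_two P Bc).entC (fun x => V x.1) (fun x => pair H Dm x.1) :=
    ent_entC_anti _ _ _ _ fun ω ω' _ _ h => by
      simp only [FLaw.pair, Prod.mk.injEq] at h ⊢
      exact ⟨h.1, h.2.1⟩
  -- (c), (d)
  have c := it_wd_via (rep_two P Bc) (fun x => V x.1) (fun x => H x.1) (pair (fun x => Dm x.1) (pair (fun x => Zr x.2) (fun x => Xf x.1)))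
  have d := it_wd_via (rep_two P Bc) (fun x => N x.1) (fun x => V x.1) (pair (fun x => Dm x.1) (pair (fun x => Zr x.2) (fun x => Xf x.1)))
  -- (e)
  have e1 : (rep_two P Bc).entC (fun x => N x.1) (pair (fun x => Dm x.1) (pair (fun x => Zr x.2) (fun x => Xf x.1)))
      = (rep_two P Bc).entC (fun x => N x.2) (pair (fun x => Xf x.1) (fun x => pair Dm Zr x.2)) := by
    refine ent_entC_congr _ _ _ _ _ (fun ω ω' h h' => ?_) (fun ω ω' h h' _ => ?_)
    · simp only [FLaw.pair, Prod.mk.injEq]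
      rw [hDm _ _ (hsup ω h), hDm _ _ (hsup ω' h')]
      tauto
    · rw [hN _ _ (hsup ω h), hN _ _ (hsup ω' h')]
  have e2 := ent_miC_eq (rep_two P Bc) (fun x => N x.2) (fun x => Xf x.1) (fun x => pair Dm Zr x.2)
  -- (f)
  have f := ent_map_entC (rep_two P Bc) Prod.snd N (pair Dm Zr)
  rw [rep_two_map_snd] at f
  -- (g)
  have g1 := ent_miC_chain (rep_two P Bc) (fun x => Xf x.1) (fun x => N x.2) (fun x => pair Dm Zr x.2) (fun x => S x.1)
  have g2 := ent_miC_nonneg (rep_two P Bc) (fun x => Xf x.1) (fun x => pair Dm Zr x.2) (fun x => S x.1)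
  have g3 : (rep_two P Bc).miC (fun x => Xf x.1) (fun x => N x.2) (pair (fun x => pair Dm Zr x.2) (fun x => S x.1))
      = (rep_two P Bc).miC (fun x => N x.2) (fun x => Xf x.1) (fun x => pair Dm Zr x.2) := by
    rw [ent_miC_comm]
    refine it_wd_miC_congr _ _ _ _ _ _ _ (fun _ _ _ _ => Iff.rfl) (fun _ _ _ _ => Iff.rfl) (fun ω ω' h h' => ?_)
    simp only [FLaw.pair, Prod.mk.injEq]
    refine ⟨fun h1 => h1.1, fun h1 => ⟨h1, ?_⟩⟩
    rw [hS _ _ (hsup ω h), hS _ _ (hsup ω' h')]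
    exact hSZ _ _ h1.2
  -- (h)
  have h := it_wd_two_info P Bc Xf (pair N (pair Dm Zr)) S hS
  have h' : (rep_two P Bc).miC (fun x => Xf x.1) (fun x => pair N (pair Dm Zr) x.2) (fun x => S x.1)
      = (rep_two P Bc).miC (fun x => Xf x.1) (pair (fun x => N x.2) (fun x => pair Dm Zr x.2)) (fun x => S x.1) := rfl
  linarith

/-- entropy of one dyadic cell from closeness on the fibres of the conditioning -/
theorem it_wd_ent_cell (P : FLaw Ω) (A : Ω → α) (v : Ω → ℝ) (δ q c : ℝ) (hc : 0 ≤ c)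
    (h : ∀ ω ω', P.p ω ≠ 0 → P.p ω' ≠ 0 → A ω = A ω' → |v ω - v ω'| ≤ c * msh δ q) :
    P.entC (fun ω => tcell δ q (v ω)) A ≤ Real.log (c + 2) := by
  have hm := ig_msh_pos δ q
  have h1 := ltk_nval_close P (fun _ => True) A v (tlev δ q) (R := c * msh δ q) (mul_nonneg hc hm.le)
    (fun ω ω' a1 a2 _ _ a3 => h ω ω' a1 a2 a3)
  have e : c * msh δ q * 2 ^ (tlev δ q) + 2 = c + 2 := by
    unfold msh
    field_simp
  rw [e] at h1
  exact ent_entC_le_log_nval P _ A h1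

end Ent

end Claimed.Agent.R256
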