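import Claimed.Agent.R256.Int.WedgeGeo

/-!
# Row 256, Sec. 5, block WEDGE, file 3: THE TWO CHAINS (explicit errors)      (architect helper49; prefix `it_wd_`)

`it_wd_step` : one step `p → p'` of the horizontal depth, `z` fixed:  `H(F_{p',z}|𝒟) - H(F_{p,z}|𝒟) ≥ H(U_{p'}|F_{p,z},𝒟) + 2 m (p'-p) L - errors`   (two angular modes).
`it_wd_kauf` : `H(U_{p'}|F_{p,z},𝒟) ≥ H(n_s | ξ_{0,u}, Zs, Ξ_{-0}) - errors`, `n` = normal increment of the mark `0` seen from the pin `1`   (prefix sharing resampling).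
-/

set_option autoImplicit false

namespace Claimed.Agent.R256

open Claimed.Agent.R255
open Claimed.Agent.R255.FLaw (pair)
open scoped BigOperators
open Classical

/-- `H(V|Y) ≥ H(V|G) - H(A|G)` if `Y` is a function of `(A, G)` -/
theorem it_wd_dropK {Ω : Type} [Fintype Ω] {α β γ φ : Type} (P : FLaw Ω) (V : Ω → α) (Y : Ω → β) (G : Ω → γ) (A : Ω → φ)
    (hY : ∀ ω ω', A ω = A ω' → G ω = G ω' → Y ω = Y ω') :
    P.entC V G - P.entC A G ≤ P.entC V Y := by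
  have h1 : P.entC V (pair A G) ≤ P.entC V Y :=
    ent_entC_anti P V (pair A G) Y fun ω ω' _ _ h => hY ω ω' (Prod.ext_iff.1 h).1 (Prod.ext_iff.1 h).2
  have h2 := ent_entC_chain P A V G
  have h3 : P.entC V G ≤ P.entC (pair A V) G :=
    ent_entC_mono P (pair A V) V G fun ω ω' _ _ h _ => (Prod.ext_iff.1 h).2
  linarith

variable {T : Tan} {a : ItPar} {pk : ItPk} {τ κ0 acc : ℝ}

/-- ONE STEP OF THE HORIZONTAL DEPTH (two angular modes) -/
theorem it_wd_step (h : T.WH a pk τ κ0 acc) (p p' z χ : ℝ) (hp : 0 ≤ p) (hpp : p ≤ p') (hp'z : p' ≤ z) (hz : z ≤ 2 * p)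
    (hzK : z ≤ pk.K) (hpG : p ∈ pk.G) (hp'G : p' ∈ pk.G) (hχ : 0 ≤ χ) :
    T.P.entC (T.wcl p' T.wU) (pair (T.Hn p z) (T.Dd pk.M))
      + 2 * ((a.m * (p' - p) - 3 * acc - 2 * acc * (p' - p)) * T.L)
      - (3 * Real.log 7 + 14 * Real.log (itwC a.B0) + χ * T.L + Real.log 10
          + T.P.pr (fun ω => |(T.mrk 0 ω).th - (T.mrk 1 ω).th| < msh T.δ χ) * ((p' - p) * T.L + Real.log 4) + Real.log 2)
      ≤ T.hW pk.M p' z - T.hW pk.M p z := by
  have hδ0 := h.adm.t0.δ0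
  have hδ1 := h.adm.t0.δ1
  have hM : 2 ≤ pk.M := h.ok.1
  have hKR : pk.K < pk.RQ := h.ok.2.2.1
  have s1 : T.hW pk.M p' z - T.hW pk.M p z
      = T.P.entC (T.Hn p' z) (pair (T.Hn p z) (T.Dd pk.M)) - T.P.entC (T.Hn p z) (pair (T.Hn p' z) (T.Dd pk.M)) :=
    it_wd_diff T.P _ _ _
  have s2 : T.P.entC (T.Hn p z) (pair (T.Hn p' z) (T.Dd pk.M)) ≤ 3 * Real.log 7 :=
    (ent_entC_pair_le T.P _ _ _).trans (it_wd_ref T hδ0 hδ1 p p' z hp hpp (hp.trans (hpp.trans hp'z)) hz)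
  have s3 := it_wd_via T.P (pair (T.wcl p' T.wU) (pair (T.wcl p' T.wW) (T.Xn p'))) (T.Hn p' z) (pair (T.Hn p z) (T.Dd pk.M))
  have s3' : T.P.entC (pair (T.wcl p' T.wU) (pair (T.wcl p' T.wW) (T.Xn p'))) (pair (T.Hn p' z) (pair (T.Hn p z) (T.Dd pk.M)))
      ≤ 2 * Real.log (itwC a.B0) :=
    (ent_entC_anti T.P _ _ (pair (T.Hn p' z) (T.Dd pk.M)) fun ω ω' _ _ hh => by
      simp only [FLaw.pair, Prod.mk.injEq] at hh ⊢
      exact ⟨hh.1, hh.2.2⟩).trans (it_wd_hor h p' z)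
  have s4 := ent_entC_chain T.P (T.wcl p' T.wU) (pair (T.wcl p' T.wW) (T.Xn p')) (pair (T.Hn p z) (T.Dd pk.M))
  have s4' := ent_entC_chain T.P (T.wcl p' T.wW) (T.Xn p') (pair (T.wcl p' T.wU) (pair (T.Hn p z) (T.Dd pk.M)))
  -- mode 0
  have s5 := it_wd_dropK T.P (T.Xn p') (pair (T.wcl p' T.wW) (pair (T.wcl p' T.wU) (pair (T.Hn p z) (T.Dd pk.M)))) (T.wG pk 0 p)
    (pair (T.wcl p' T.wW) (pair (T.wcl p' T.wU) (T.Hn p z))) (fun ω ω' hA hG => by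
      simp only [Tan.wG, FLaw.pair, Prod.mk.injEq] at hA hG ⊢
      exact ⟨hA.1, hA.2.1, hA.2.2, hG.2.2⟩)
  have s5' := ent_entC_pair_le_add T.P (T.wcl p' T.wW) (pair (T.wcl p' T.wU) (T.Hn p z)) (T.wG pk 0 p)
  have s5a := it_wd_fibW h p p' (by linarith)
  have s5b := it_wd_fib h 0 (by norm_num) p p' z hp (hpp.trans hp'z) hz hp'z hzK
  have a0 := it_wd_ang h 0 (by omega) p p' hpG hp'G hpp
  -- mode 1
  have s6 := it_wd_dropK T.P (T.wcl p' T.wW) (pair (T.wcl p' T.wU) (pair (T.Hn p z) (T.Dd pk.M))) (T.wG pk 1 p)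
    (pair (T.wcl p' T.wU) (T.Hn p z)) (fun ω ω' hA hG => by
      simp only [Tan.wG, FLaw.pair, Prod.mk.injEq] at hA hG ⊢
      exact ⟨hA.1, hA.2, hG.2.2⟩)
  have s6b := it_wd_fib h 1 (by norm_num) p p' z hp (hpp.trans hp'z) hz hp'z hzK
  have s7 := it_wd_via T.P (T.Xn p') (T.wcl p' T.wW) (T.wG pk 1 p)
  have s7' := it_wd_inv h p p' χ hp hpp (hp'z.trans hzK) hχ
  have a1 := it_wd_ang h 1 (by omega) p p' hpG hp'G hpp
  linarith

/-- THE KAUFMAN TERM: reduction to the mark plane -/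
theorem it_wd_kauf (h : T.WH a pk τ κ0 acc) (p p' z χ : ℝ) (hpz : p ≤ z) (hz : z ≤ 2 * p) (hp'z : p' ≤ z) (hzK : z ≤ pk.K)
    (hχ : 0 ≤ χ) (hs : 2 * p - z ≤ p' - (z - p) - χ) (hpu : p' ≤ p + (2 * p - z)) :
    T.P.entC (T.wcl (p' - (z - p) - χ) (T.nInc 1 0 (2 * p - z))) (pair (T.xin 0 (2 * p - z)) (pair T.Zs (T.XiE pk.M 0)))
      - 2 * (acc * T.L) - 11 * Real.log (itwC a.B0)
      - (rep_two T.P (T.wB pk (z - p))).pr (fun x => |(T.F x.1).X - (T.F x.2).X| < msh T.δ (z - p + χ))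
          * ((p' - p - χ) * T.L + Real.log (itwC a.B0)) - Real.log 2
      ≤ T.P.entC (T.wcl p' T.wU) (pair (T.Hn p z) (T.Dd pk.M)) := by
  have hp : 0 ≤ p := by linarith
  have hu : 0 ≤ 2 * p - z := by linarith
  have hp0 : 0 ≤ p' := by linarith
  -- freezing
  have k1 := it_wd_via T.P (T.wcl p' (T.wU0 (2 * p - z))) (T.wcl p' T.wU) (pair (T.Hn p z) (T.Dd pk.M))
  have k1' := it_wd_frz h p p' z (2 * p - z) hp hu hp0 hpu
  -- removal of the fine record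
  have k2 := it_wd_remove T.P (T.wcl p' (T.wU0 (2 * p - z))) (T.Hn p z) (T.Fn pk.K) T.Cs (T.Xi pk.M) (T.wg pk.M (2 * p - z))
    (fun ω ω' hh => by
      have h0 : T.mrk 0 ω = T.mrk 0 ω' := by
        have := congrFun hh ⟨0, by have := h.ok.1; omega⟩
        simpa [Tan.Xi] using this
      simp only [Tan.wg, FLaw.pair, Prod.mk.injEq, Tan.xin, h0, true_and]
      funext i
      have := congrFun hh i
      simp only [Tan.Xi] at this
      simp only [Tan.XiE, this])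
  have k2a : T.P.miC (T.Fn pk.K) (T.Xi pk.M) T.Cs ≤ acc * T.L := h.adm.ti.vb
  have k2b := it_wd_fine h p p' z (2 * p - z) hp hpz (hp'z.trans hzK) hzK hu
  -- resampling
  have k3 := it_wd_resample T.P (T.wB pk (z - p)) (T.wcl p' (T.wU0 (2 * p - z))) (T.Hn p z) (T.wDm pk.M (2 * p - z)) (T.Xn pk.K) T.Zs
    (T.wcl (p' - (z - p) - χ) (T.nInc 1 0 (2 * p - z))) (pair T.Cs (T.Xn (z - p)))
    (fun ω ω' hh => by
      simp only [Tan.wB, Tan.Dd, FLaw.pair, Prod.mk.injEq] at hh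
      obtain ⟨-, ⟨hC, hX⟩, -⟩ := hh
      have h0 : T.mrk 0 ω = T.mrk 0 ω' := by
        have := congrFun hX ⟨0, by have := h.ok.1; omega⟩
        simpa [Tan.Xi] using this
      simp only [Tan.wDm, Tan.wg, FLaw.pair, Prod.mk.injEq, Tan.xin, h0, hC, true_and]
      funext i
      have := congrFun hX i
      simp only [Tan.Xi] at this
      simp only [Tan.XiE, this])
    (fun ω ω' hh => by
      simp only [Tan.wB, Tan.Dd, FLaw.pair, Prod.mk.injEq] at hh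
      obtain ⟨-, ⟨-, hX⟩, -⟩ := hh
      have h0 : T.mrk 0 ω = T.mrk 0 ω' := by
        have := congrFun hX ⟨0, by have := h.ok.1; omega⟩
        simpa [Tan.Xi] using this
      have h1 : T.mrk 1 ω = T.mrk 1 ω' := by
        have := congrFun hX ⟨1, by have := h.ok.1; omega⟩
        simpa [Tan.Xi] using this
      simp only [Tan.wcl, Tan.nInc, h0, h1])
    (fun ω ω' hh => by
      simp only [Tan.wB, Tan.Dd, FLaw.pair, Prod.mk.injEq] at hh ⊢
      exact ⟨hh.2.1.1, hh.2.2⟩)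
    (fun ω ω' hh => by
      simp only [FLaw.pair, Prod.mk.injEq, Tan.Xn]
      exact ⟨h.adm.t0.side_C ω ω' hh, by rw [h.adm.t0.side_F ω ω' hh]⟩)
  have k3a := it_wd_fibS h (z - p) (by linarith)
  have k3b := it_wd_pred h p z hpz hz hzK
  have k3c := it_wd_rec h p p' z χ hpz hz (hp'z.trans hzK) hχ hs
  have k4 : T.P.entC (T.wcl (p' - (z - p) - χ) (T.nInc 1 0 (2 * p - z))) (pair (T.wDm pk.M (2 * p - z)) T.Zs)
      = T.P.entC (T.wcl (p' - (z - p) - χ) (T.nInc 1 0 (2 * p - z))) (pair (T.xin 0 (2 * p - z)) (pair T.Zs (T.XiE pk.M 0))) :=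
    ent_entC_congr T.P _ _ _ _ (fun ω ω' _ _ => by
      simp only [Tan.wDm, Tan.wg, FLaw.pair, Prod.mk.injEq]
      constructor
      · rintro ⟨⟨-, h2, h3⟩, h4⟩
        exact ⟨h2, h4, h3⟩
      · rintro ⟨h2, h4, h3⟩
        exact ⟨⟨h.adm.t0.side_C ω ω' h4, h2, h3⟩, h4⟩) (fun _ _ _ _ _ => Iff.rfl)
  have e1 : T.P.entC (T.wcl p' (T.wU0 (2 * p - z))) (pair (T.Hn p z) (pair T.Cs (T.Xi pk.M)))
      = T.P.entC (T.wcl p' (T.wU0 (2 * p - z))) (pair (T.Hn p z) (T.Dd pk.M)) := rfl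
  have e2 : T.P.entC (T.wcl p' (T.wU0 (2 * p - z))) (pair (T.Hn p z) (pair T.Cs (T.wg pk.M (2 * p - z))))
      = T.P.entC (T.wcl p' (T.wU0 (2 * p - z))) (pair (T.Hn p z) (T.wDm pk.M (2 * p - z))) := rfl
  have e3 : T.P.entC (pair (T.wcl p' (T.wU0 (2 * p - z))) (T.Hn p z)) (pair (T.Fn pk.K) (pair T.Cs (T.wg pk.M (2 * p - z))))
      = T.P.entC (pair (T.wcl p' (T.wU0 (2 * p - z))) (T.Hn p z)) (pair (T.Fn pk.K) (T.wDm pk.M (2 * p - z))) := rfl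
  have e4 : (rep_two T.P (T.wB pk (z - p))).entC (fun x => T.Hn p z x.1)
        (pair (fun x => T.wDm pk.M (2 * p - z) x.1) (pair (fun x => T.Zs x.2) (fun x => T.Xn pk.K x.1)))
      = (rep_two T.P (T.wB pk (z - p))).entC (fun x => T.Hn p z x.1) (T.wT pk (2 * p - z)) := rfl
  have e5 : (rep_two T.P (T.wB pk (z - p))).entC (fun x => T.wcl (p' - (z - p) - χ) (T.nInc 1 0 (2 * p - z)) x.1)
        (pair (fun x => T.wcl p' (T.wU0 (2 * p - z)) x.1)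
          (pair (fun x => T.wDm pk.M (2 * p - z) x.1) (pair (fun x => T.Zs x.2) (fun x => T.Xn pk.K x.1))))
      = (rep_two T.P (T.wB pk (z - p))).entC (fun x => T.wcl (p' - (z - p) - χ) (T.nInc 1 0 (2 * p - z)) x.1)
        (pair (fun x => T.wcl p' (T.wU0 (2 * p - z)) x.1) (T.wT pk (2 * p - z))) := rfl
  rw [e1, e2, e3] at k2
  rw [e4, e5, k4] at k3
  linarith

end Claimed.Agent.R256
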